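import Mathlib
import Crest.Prelude.Def_WordRAM
import Crest.Agent.Lib.PT.Core

-- ▼ part R309/RAMLang
section

/-!
# A structured language compiled to the word RAM

* `Op`: straight-line instructions with registers named by natural numbers.
* `Prog`: blocks, sequencing, conditionals, `loop c p` (repeat `p` until `c` holds).
* `Ex w ρ p s s' t`: big-step semantics with the exact number of machine steps.
* `Prog.comp`: compilation; `Ex.run`: correctness.
-/

set_option autoImplicit false

namespace Crest.Agent.R309.RAM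

open Crest.WordRAM

/-- machine state without control -/
structure St where
  /-- registers -/
  regs : ℕ → ℕ
  /-- memory -/
  mem : ℕ → ℕ
  /-- number of random words drawn -/
  drawn : ℕ

/-- straight-line instructions -/
inductive Op
  | const (d v : ℕ)
  | copy (d s : ℕ)
  | add (d a b : ℕ)
  | sub (d a b : ℕ)
  | mul (d a b : ℕ)
  | quot (d a b : ℕ)
  | rem (d a b : ℕ)
  | load (d a : ℕ)
  | store (s a : ℕ)
  | rand (d : ℕ)

/-- conditions -/
inductive Cond
  | zero (a : ℕ)
  | eq (a b : ℕ)
  | lt (a b : ℕ)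

namespace Op

/-- effect of an instruction -/
def eff (w : ℕ) (ρ : ℕ → ℕ) (i : Op) (s : St) : St :=
  match i with
  | const d v => { s with regs := Function.update s.regs d (v % 2 ^ w) }
  | copy d a => { s with regs := Function.update s.regs d (s.regs a) }
  | add d a b => { s with regs := Function.update s.regs d ((s.regs a + s.regs b) % 2 ^ w) }
  | sub d a b => { s with regs := Function.update s.regs d (s.regs a - s.regs b) }
  | mul d a b => { s with regs := Function.update s.regs d ((s.regs a * s.regs b) % 2 ^ w) }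
  | quot d a b => { s with regs := Function.update s.regs d (s.regs a / s.regs b) }
  | rem d a b => { s with regs := Function.update s.regs d (s.regs a % s.regs b) }
  | load d a => { s with regs := Function.update s.regs d (s.mem (s.regs a)) }
  | store a b => { s with mem := Function.update s.mem (s.regs b) (s.regs a) }
  | rand d => { s with regs := Function.update s.regs d (ρ s.drawn % 2 ^ w), drawn := s.drawn + 1 }

/-- all registers used are below `r` -/
def ok (r : ℕ) : Op → Prop
  | const d _ => d < r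
  | copy d a => d < r ∧ a < r
  | add d a b => d < r ∧ a < r ∧ b < r
  | sub d a b => d < r ∧ a < r ∧ b < r
  | mul d a b => d < r ∧ a < r ∧ b < r
  | quot d a b => d < r ∧ a < r ∧ b < r
  | rem d a b => d < r ∧ a < r ∧ b < r
  | load d a => d < r ∧ a < r
  | store a b => a < r ∧ b < r
  | rand d => d < r

instance (r : ℕ) (i : Op) : Decidable (i.ok r) := by
  cases i <;> unfold ok <;> infer_instance

/-- the machine instruction -/
def toInstr (r : ℕ) [NeZero r] : Op → Instr r
  | const d v => .const (Fin.ofNat r d) v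
  | copy d a => .copy (Fin.ofNat r d) (Fin.ofNat r a)
  | add d a b => .add (Fin.ofNat r d) (Fin.ofNat r a) (Fin.ofNat r b)
  | sub d a b => .sub (Fin.ofNat r d) (Fin.ofNat r a) (Fin.ofNat r b)
  | mul d a b => .mul (Fin.ofNat r d) (Fin.ofNat r a) (Fin.ofNat r b)
  | quot d a b => .quot (Fin.ofNat r d) (Fin.ofNat r a) (Fin.ofNat r b)
  | rem d a b => .rem (Fin.ofNat r d) (Fin.ofNat r a) (Fin.ofNat r b)
  | load d a => .load (Fin.ofNat r d) (Fin.ofNat r a)
  | store a b => .store (Fin.ofNat r a) (Fin.ofNat r b)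
  | rand d => .rand (Fin.ofNat r d)

end Op

namespace Cond

/-- truth of a condition -/
def eval (c : Cond) (s : St) : Prop :=
  match c with
  | zero a => s.regs a = 0
  | eq a b => s.regs a = s.regs b
  | lt a b => s.regs a < s.regs b

instance (c : Cond) (s : St) : Decidable (c.eval s) := by
  cases c <;> unfold eval <;> infer_instance

/-- registers below `r` -/
def ok (r : ℕ) : Cond → Prop
  | zero a => a < r
  | eq a b => a < r ∧ b < r
  | lt a b => a < r ∧ b < r

instance (r : ℕ) (i : Cond) : Decidable (i.ok r) := by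
  cases i <;> unfold ok <;> infer_instance

/-- the conditional jump -/
def jmp (r : ℕ) [NeZero r] (c : Cond) (l : ℕ) : Instr r :=
  match c with
  | zero a => .jumpIfZero (Fin.ofNat r a) l
  | eq a b => .jumpIfEq (Fin.ofNat r a) (Fin.ofNat r b) l
  | lt a b => .jumpIfLt (Fin.ofNat r a) (Fin.ofNat r b) l

end Cond

/-- structured programs -/
inductive Prog
  | blk (l : List Op)
  | seq (p q : Prog)
  | ite (c : Cond) (p q : Prog)
  | loop (c : Cond) (p : Prog)

namespace Prog

/-- all registers below `r` -/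
def ok (r : ℕ) : Prog → Prop
  | blk l => ∀ i ∈ l, i.ok r
  | seq p q => p.ok r ∧ q.ok r
  | ite c p q => c.ok r ∧ p.ok r ∧ q.ok r
  | loop c p => c.ok r ∧ p.ok r

/-- code length -/
def len : Prog → ℕ
  | blk l => l.length
  | seq p q => p.len + q.len
  | ite _ p q => q.len + 2 + p.len
  | loop _ p => p.len + 2

/-- compilation at offset `o` -/
def comp (r : ℕ) [NeZero r] : Prog → ℕ → List (Instr r)
  | blk l, _ => l.map (Op.toInstr r)
  | seq p q, o => p.comp r o ++ q.comp r (o + p.len)
  | ite c p q, o =>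
      c.jmp r (o + 2 + q.len) :: (q.comp r (o + 1) ++ (.jump (o + 2 + q.len + p.len) ::
        p.comp r (o + 2 + q.len)))
  | loop c p, o => c.jmp r (o + p.len + 2) :: (p.comp r (o + 1) ++ [.jump o])

theorem length_comp (r : ℕ) [NeZero r] (p : Prog) : ∀ o, (p.comp r o).length = p.len := by
  induction p with
  | blk l => intro o; simp [comp, len]
  | seq p q ihp ihq => intro o; simp [comp, len, ihp, ihq]
  | ite c p q ihp ihq => intro o; simp [comp, len, ihp, ihq]; omega
  | loop c p ih => intro o; simp [comp, len, ih]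

end Prog

/-- effect of a block -/
def effs (w : ℕ) (ρ : ℕ → ℕ) (l : List Op) (s : St) : St :=
  l.foldl (fun s i => i.eff w ρ s) s

@[simp] theorem effs_nil (w : ℕ) (ρ : ℕ → ℕ) (s : St) : effs w ρ [] s = s := rfl
@[simp] theorem effs_cons (w : ℕ) (ρ : ℕ → ℕ) (i : Op) (l : List Op) (s : St) :
    effs w ρ (i :: l) s = effs w ρ l (i.eff w ρ s) := rfl

/-- big-step semantics with step counts -/
inductive Ex (w : ℕ) (ρ : ℕ → ℕ) : Prog → St → St → ℕ → Prop
  | blk (l : List Op) (s : St) : Ex w ρ (.blk l) s (effs w ρ l s) l.length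
  | seq {p q : Prog} {s s' s'' : St} {t t' : ℕ} :
      Ex w ρ p s s' t → Ex w ρ q s' s'' t' → Ex w ρ (.seq p q) s s'' (t + t')
  | ite_true {c : Cond} {p q : Prog} {s s' : St} {t : ℕ} :
      c.eval s → Ex w ρ p s s' t → Ex w ρ (.ite c p q) s s' (1 + t)
  | ite_false {c : Cond} {p q : Prog} {s s' : St} {t : ℕ} :
      ¬ c.eval s → Ex w ρ q s s' t → Ex w ρ (.ite c p q) s s' (1 + t + 1)
  | loop_done {c : Cond} {p : Prog} {s : St} : c.eval s → Ex w ρ (.loop c p) s s 1
  | loop_step {c : Cond} {p : Prog} {s s' s'' : St} {t t' : ℕ} :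
      ¬ c.eval s → Ex w ρ p s s' t → Ex w ρ (.loop c p) s' s'' t' →
        Ex w ρ (.loop c p) s s'' (1 + t + 1 + t')

/-- the machine configuration of a state -/
def cfg (r pc : ℕ) (s : St) : Cfg r where
  pc := pc
  halted := false
  regs := fun j => s.regs j
  mem := s.mem
  drawn := s.drawn

/-- the code `l` sits at position `o` of `P` -/
def At {r : ℕ} (code : List (Instr r)) (o : ℕ) (l : List (Instr r)) : Prop :=
  ∀ i, i < l.length → code[o + i]? = l[i]?

theorem At.app {r : ℕ} {code : List (Instr r)} {o : ℕ} {l l' : List (Instr r)}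
    (h : At code o (l ++ l')) : At code o l ∧ At code (o + l.length) l' := by
  constructor
  · intro i hi
    rw [h i (by simp; omega), List.getElem?_append_left hi]
  · intro i hi
    have := h (l.length + i) (by simp; omega)
    rw [List.getElem?_append_right (by omega)] at this
    rw [add_assoc, this]
    congr 1
    omega

theorem At.cons {r : ℕ} {code : List (Instr r)} {o : ℕ} {a : Instr r} {l : List (Instr r)}
    (h : At code o (a :: l)) : code[o]? = some a ∧ At code (o + 1) l := by
  constructor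
  · have := h 0 (by simp)
    simpa using this
  · intro i hi
    have := h (i + 1) (by simp; omega)
    rw [List.getElem?_cons_succ] at this
    rw [← this]
    congr 1
    omega

theorem At.self {r : ℕ} (code : List (Instr r)) : At code 0 code := by
  intro i _
  rw [Nat.zero_add]

theorem ofNat_val {r : ℕ} [NeZero r] {a : ℕ} (h : a < r) : ((Fin.ofNat r a : Fin r) : ℕ) = a := by
  simp [Fin.ofNat, Nat.mod_eq_of_lt h]

theorem writeReg_eq {r : ℕ} [NeZero r] {d : ℕ} (h : d < r) (R : ℕ → ℕ) (v : ℕ) :
    writeReg (fun j : Fin r => R j) (Fin.ofNat r d) v = fun j : Fin r => Function.update R d v j := by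
  funext j
  unfold writeReg
  by_cases hj : (j : ℕ) = d
  · rw [if_pos, hj, Function.update_self]
    apply Fin.ext
    rw [ofNat_val h, hj]
  · rw [if_neg, Function.update_of_ne hj]
    intro h'
    apply hj
    rw [h', ofNat_val h]

theorem writeMem_eq (M : ℕ → ℕ) (a v : ℕ) : writeMem M a v = Function.update M a v := by
  funext i
  unfold writeMem
  rw [Function.update_apply]

theorem step_op {P : Program} [NeZero P.numRegs] {w : ℕ} {ρ : ℕ → ℕ} {i : Op} {pc : ℕ} {s : St}
    (hok : i.ok P.numRegs) (h : P.code[pc]? = some (i.toInstr P.numRegs)) :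
    step P w ρ (cfg P.numRegs pc s) = cfg P.numRegs (pc + 1) (i.eff w ρ s) := by
  unfold step
  cases i with
  | const d v =>
    simp only [Op.toInstr] at h
    simp only [cfg, Bool.false_eq_true, if_false, h, Op.eff, writeReg_eq (show d < P.numRegs from hok)]
  | copy d a =>
    simp only [Op.toInstr] at h
    simp only [cfg, Bool.false_eq_true, if_false, h, Op.eff,
      writeReg_eq (show d < P.numRegs from hok.1), ofNat_val (show a < P.numRegs from hok.2)]
  | add d a b =>
    simp only [Op.toInstr] at h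
    simp only [cfg, Bool.false_eq_true, if_false, h, Op.eff,
      writeReg_eq (show d < P.numRegs from hok.1), ofNat_val (show a < P.numRegs from hok.2.1),
      ofNat_val (show b < P.numRegs from hok.2.2)]
  | sub d a b =>
    simp only [Op.toInstr] at h
    simp only [cfg, Bool.false_eq_true, if_false, h, Op.eff,
      writeReg_eq (show d < P.numRegs from hok.1), ofNat_val (show a < P.numRegs from hok.2.1),
      ofNat_val (show b < P.numRegs from hok.2.2)]
  | mul d a b =>
    simp only [Op.toInstr] at h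
    simp only [cfg, Bool.false_eq_true, if_false, h, Op.eff,
      writeReg_eq (show d < P.numRegs from hok.1), ofNat_val (show a < P.numRegs from hok.2.1),
      ofNat_val (show b < P.numRegs from hok.2.2)]
  | quot d a b =>
    simp only [Op.toInstr] at h
    simp only [cfg, Bool.false_eq_true, if_false, h, Op.eff,
      writeReg_eq (show d < P.numRegs from hok.1), ofNat_val (show a < P.numRegs from hok.2.1),
      ofNat_val (show b < P.numRegs from hok.2.2)]
  | rem d a b =>
    simp only [Op.toInstr] at h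
    simp only [cfg, Bool.false_eq_true, if_false, h, Op.eff,
      writeReg_eq (show d < P.numRegs from hok.1), ofNat_val (show a < P.numRegs from hok.2.1),
      ofNat_val (show b < P.numRegs from hok.2.2)]
  | load d a =>
    simp only [Op.toInstr] at h
    simp only [cfg, Bool.false_eq_true, if_false, h, Op.eff,
      writeReg_eq (show d < P.numRegs from hok.1), ofNat_val (show a < P.numRegs from hok.2)]
  | store a b =>
    simp only [Op.toInstr] at h
    simp only [cfg, Bool.false_eq_true, if_false, h, Op.eff, writeMem_eq,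
      ofNat_val (show a < P.numRegs from hok.1), ofNat_val (show b < P.numRegs from hok.2)]
  | rand d =>
    simp only [Op.toInstr] at h
    simp only [cfg, Bool.false_eq_true, if_false, h, Op.eff, writeReg_eq (show d < P.numRegs from hok)]

theorem step_jmp {P : Program} [NeZero P.numRegs] {w : ℕ} {ρ : ℕ → ℕ} {c : Cond} {pc l : ℕ} {s : St}
    (hok : c.ok P.numRegs) (h : P.code[pc]? = some (c.jmp P.numRegs l)) :
    step P w ρ (cfg P.numRegs pc s) = cfg P.numRegs (if c.eval s then l else pc + 1) s := by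
  unfold step
  cases c with
  | zero a =>
    simp only [Cond.jmp] at h
    simp only [cfg, Bool.false_eq_true, if_false, h, Cond.eval, ofNat_val (show a < P.numRegs from hok)]
  | eq a b =>
    simp only [Cond.jmp] at h
    simp only [cfg, Bool.false_eq_true, if_false, h, Cond.eval,
      ofNat_val (show a < P.numRegs from hok.1), ofNat_val (show b < P.numRegs from hok.2)]
  | lt a b =>
    simp only [Cond.jmp] at h
    simp only [cfg, Bool.false_eq_true, if_false, h, Cond.eval,
      ofNat_val (show a < P.numRegs from hok.1), ofNat_val (show b < P.numRegs from hok.2)]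

theorem step_jump {P : Program} {w : ℕ} {ρ : ℕ → ℕ} {pc l : ℕ} {s : St}
    (h : P.code[pc]? = some (.jump l)) :
    step P w ρ (cfg P.numRegs pc s) = cfg P.numRegs l s := by
  unfold step
  simp only [cfg, Bool.false_eq_true, if_false, h]

theorem run_ops {P : Program} [NeZero P.numRegs] {w : ℕ} {ρ : ℕ → ℕ} (l : List Op) :
    ∀ {pc : ℕ} {s : St}, (∀ i ∈ l, i.ok P.numRegs) → At P.code pc (l.map (Op.toInstr P.numRegs)) →
    (step P w ρ)^[l.length] (cfg P.numRegs pc s) = cfg P.numRegs (pc + l.length) (effs w ρ l s) := by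
  induction l with
  | nil => intro pc s _ _; rfl
  | cons i l ih =>
    intro pc s hok h
    rw [List.map_cons] at h
    obtain ⟨h1, h2⟩ := h.cons
    rw [List.length_cons, Function.iterate_succ_apply, step_op (hok i (by simp)) h1,
      ih (fun j hj => hok j (by simp [hj])) h2, effs_cons]
    congr 1
    omega

/-- correctness of the compilation -/
theorem Ex.run {P : Program} [NeZero P.numRegs] {w : ℕ} {ρ : ℕ → ℕ} {p : Prog} {s s' : St} {t : ℕ}
    (h : Ex w ρ p s s' t) : ∀ {o : ℕ}, p.ok P.numRegs → At P.code o (p.comp P.numRegs o) →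
    (step P w ρ)^[t] (cfg P.numRegs o s) = cfg P.numRegs (o + p.len) s' := by
  induction h with
  | blk l s => intro o hok h; exact run_ops l hok h
  | @seq p q s s' s'' t t' _ _ ih1 ih2 =>
    intro o hok h
    obtain ⟨h1, h2⟩ := h.app
    rw [Prog.length_comp] at h2
    rw [add_comm t t', Function.iterate_add_apply, ih1 hok.1 h1, ih2 hok.2 h2]
    simp only [Prog.len, add_assoc]
  | @ite_true c p q s s' t hc _ ih =>
    intro o hok h
    obtain ⟨h1, h2⟩ := h.cons
    obtain ⟨h3, h4⟩ := h2.app
    obtain ⟨h5, h6⟩ := h4.cons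
    rw [Prog.length_comp] at h5 h6
    rw [add_comm 1 t, Function.iterate_add_apply, Function.iterate_one, step_jmp hok.1 h1, if_pos hc]
    have e : o + 1 + q.len + 1 = o + 2 + q.len := by omega
    rw [e] at h6
    rw [ih hok.2.1 h6]
    simp only [Prog.len]
    congr 1
    omega
  | @ite_false c p q s s' t hc _ ih =>
    intro o hok h
    obtain ⟨h1, h2⟩ := h.cons
    obtain ⟨h3, h4⟩ := h2.app
    obtain ⟨h5, h6⟩ := h4.cons
    rw [Prog.length_comp] at h5
    rw [show 1 + t + 1 = 1 + (t + 1) by omega, Function.iterate_add_apply,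
      Function.iterate_add_apply, Function.iterate_one, step_jmp hok.1 h1, if_neg hc,
      ih hok.2.2 h3, step_jump h5]
    simp only [Prog.len]
    congr 1
    omega
  | @loop_done c p s hc =>
    intro o hok h
    obtain ⟨h1, h2⟩ := h.cons
    rw [Function.iterate_one, step_jmp hok.1 h1, if_pos hc]
    simp only [Prog.len]
    congr 1
  | @loop_step c p s s' s'' t t' hc _ _ ih1 ih2 =>
    intro o hok h
    obtain ⟨h1, h2⟩ := h.cons
    obtain ⟨h3, h4⟩ := h2.app
    obtain ⟨h5, _⟩ := h4.cons
    rw [Prog.length_comp] at h5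
    rw [show 1 + t + 1 + t' = t' + (1 + (t + 1)) by omega, Function.iterate_add_apply,
      Function.iterate_add_apply, Function.iterate_add_apply, Function.iterate_one,
      step_jmp hok.1 h1, if_neg hc, ih1 hok.2 h3, step_jump h5, ih2 hok h]

/-- one iteration of a loop, from loop head to loop head -/
theorem loop_iter {P : Program} [NeZero P.numRegs] {w : ℕ} {ρ : ℕ → ℕ} {c : Cond} {p : Prog}
    {s s' : St} {t o : ℕ} (hc : ¬ c.eval s) (hp : Ex w ρ p s s' t) (hok : (Prog.loop c p).ok P.numRegs)
    (h : At P.code o ((Prog.loop c p).comp P.numRegs o)) :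
    (step P w ρ)^[t + 2] (cfg P.numRegs o s) = cfg P.numRegs o s' := by
  obtain ⟨h1, h2⟩ := h.cons
  obtain ⟨h3, h4⟩ := h2.app
  obtain ⟨h5, _⟩ := h4.cons
  rw [Prog.length_comp] at h5
  rw [show t + 2 = 1 + (t + 1) by omega, Function.iterate_add_apply, Function.iterate_add_apply,
    Function.iterate_one, step_jmp hok.1 h1, if_neg hc, hp.run hok.2 h3, step_jump h5]

end Crest.Agent.R309.RAM
private theorem rz_0c05c31305 : type_of% @_root_.Crest.Agent.R309.RAM.Cond.eval.eq_1 := @_root_.Crest.Agent.R309.RAM.Cond.eval.eq_1 -- L97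
private theorem rz_cc2192a253 : type_of% @_root_.Crest.Agent.R309.RAM.Cond.jmp.eq_1 := @_root_.Crest.Agent.R309.RAM.Cond.jmp.eq_1 -- L116
private theorem rz_797a6d5b0f : type_of% @_root_.Crest.Agent.R309.RAM.Cond.ok.eq_1 := @_root_.Crest.Agent.R309.RAM.Cond.ok.eq_1 -- L107
private theorem rz_41a8a26b49 : type_of% @_root_.Crest.Agent.R309.RAM.Op.eff.eq_1 := @_root_.Crest.Agent.R309.RAM.Op.eff.eq_1 -- L50
private theorem rz_2973b60691 : type_of% @_root_.Crest.Agent.R309.RAM.Op.ok.eq_1 := @_root_.Crest.Agent.R309.RAM.Op.ok.eq_1 -- L64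
private theorem rz_2ac61c33e0 : type_of% @_root_.Crest.Agent.R309.RAM.Op.toInstr.eq_1 := @_root_.Crest.Agent.R309.RAM.Op.toInstr.eq_1 -- L80
private theorem rz_efb62d8ddb : type_of% @_root_.Crest.Agent.R309.RAM.Prog.comp.eq_def := @_root_.Crest.Agent.R309.RAM.Prog.comp.eq_def -- L148
private theorem rz_1824e5b756 : type_of% @_root_.Crest.Agent.R309.RAM.Prog.comp.eq_1 := @_root_.Crest.Agent.R309.RAM.Prog.comp.eq_1 -- L148
private theorem rz_fc476f9b91 : type_of% @_root_.Crest.Agent.R309.RAM.Prog.len.eq_def := @_root_.Crest.Agent.R309.RAM.Prog.len.eq_def -- L141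
private theorem rz_d519a8217c : type_of% @_root_.Crest.Agent.R309.RAM.Prog.len.eq_1 := @_root_.Crest.Agent.R309.RAM.Prog.len.eq_1 -- L141
private theorem rz_d980433c08 : type_of% @_root_.Crest.Agent.R309.RAM.Prog.ok.eq_def := @_root_.Crest.Agent.R309.RAM.Prog.ok.eq_def -- L134
private theorem rz_cc53aac1de : type_of% @_root_.Crest.Agent.R309.RAM.Prog.ok.eq_1 := @_root_.Crest.Agent.R309.RAM.Prog.ok.eq_1 -- L134
end

-- ▼ part R309/RAMCmd

/-!
# Stack programs (`Lib.PT.Cmd`) on the word RAM

* `Runs`: total-correctness triples with time bounds for `Prog`.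
* `Rep w K S σ`: the RAM state `σ` represents the stacks `S 0, ..., S (K-1)` (interleaved above
  address `2 ^ (w - 1)`).
* `tr : Cmd → Prog` and `Exec.tr`: the simulation.
-/

set_option autoImplicit false

namespace Crest.Agent.R309.RAM

open Crest.WordRAM Crest.Agent.Lib.PT

/-- total-correctness triple with a time bound -/
def Runs (w : ℕ) (ρ : ℕ → ℕ) (p : Prog) (σ : St) (n : ℕ) (Q : St → Prop) : Prop :=
  ∃ σ' t, Ex w ρ p σ σ' t ∧ t ≤ n ∧ Q σ'

section runs

variable {w : ℕ} {ρ : ℕ → ℕ} {p q : Prog} {σ : St} {n m : ℕ} {Q Q' R : St → Prop} {c : Cond}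

theorem Runs.mono (h : Runs w ρ p σ n Q) (hn : n ≤ m) (hQ : ∀ σ', Q σ' → Q' σ') :
    Runs w ρ p σ m Q' := by
  obtain ⟨σ', t, h1, h2, h3⟩ := h
  exact ⟨σ', t, h1, h2.trans hn, hQ _ h3⟩

theorem Runs.blk (l : List Op) (h : Q (effs w ρ l σ)) : Runs w ρ (.blk l) σ l.length Q :=
  ⟨_, _, Ex.blk l σ, le_rfl, h⟩

theorem Runs.seq (h : Runs w ρ p σ n R) (h' : ∀ σ', R σ' → Runs w ρ q σ' m Q) :
    Runs w ρ (.seq p q) σ (n + m) Q := by
  obtain ⟨σ', t, h1, h2, h3⟩ := h
  obtain ⟨σ'', t', h4, h5, h6⟩ := h' σ' h3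
  exact ⟨σ'', t + t', Ex.seq h1 h4, by omega, h6⟩

theorem Runs.ite (ht : c.eval σ → Runs w ρ p σ n Q) (hf : ¬ c.eval σ → Runs w ρ q σ n Q) :
    Runs w ρ (.ite c p q) σ (n + 2) Q := by
  by_cases hc : c.eval σ
  · obtain ⟨σ', t, h1, h2, h3⟩ := ht hc
    exact ⟨σ', 1 + t, Ex.ite_true hc h1, by omega, h3⟩
  · obtain ⟨σ', t, h1, h2, h3⟩ := hf hc
    exact ⟨σ', 1 + t + 1, Ex.ite_false hc h1, by omega, h3⟩

theorem Runs.loop {I : ℕ → St → Prop} (h0 : ∀ σ, I 0 σ → c.eval σ)
    (hs : ∀ i σ, I (i + 1) σ → ¬ c.eval σ ∧ Runs w ρ p σ m (I i)) :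
    ∀ k σ, I k σ → Runs w ρ (.loop c p) σ (1 + k * (m + 2)) (I 0) := by
  intro k
  induction k with
  | zero => intro σ h; exact ⟨σ, 1, Ex.loop_done (h0 σ h), by omega, h⟩
  | succ k ih =>
    intro σ h
    obtain ⟨h1, σ', t, h2, h3, h4⟩ := hs k σ h
    obtain ⟨σ'', t', h5, h6, h7⟩ := ih σ' h4
    refine ⟨σ'', _, Ex.loop_step h1 h2 h5, ?_, h7⟩
    rw [Nat.add_mul]
    omega

end runs

/-- address of element `i` of stack `k` -/
def adr (w K k i : ℕ) : ℕ := 2 ^ (w - 1) + k + K * i

theorem two_pow_half {w : ℕ} (hw : 1 ≤ w) : 2 ^ (w - 1) + 2 ^ (w - 1) = 2 ^ w := by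
  obtain ⟨v, rfl⟩ := Nat.exists_eq_add_of_le hw
  rw [Nat.add_sub_cancel_left, pow_add]
  omega

theorem adr_lt {w K H k i : ℕ} (hw : 1 ≤ w) (hH : K * (H + 1) ≤ 2 ^ (w - 1)) (hk : k < K)
    (hi : i ≤ H) : adr w K k i < 2 ^ w := by
  have h1 : K * i + K ≤ K * (H + 1) := by
    rw [← Nat.mul_succ]
    exact Nat.mul_le_mul_left K (by omega)
  have := two_pow_half hw
  unfold adr
  omega

theorem adr_inj {w K k k' i i' : ℕ} (hk : k < K) (hk' : k' < K) (h : adr w K k i = adr w K k' i') :
    k = k' ∧ i = i' := by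
  unfold adr at h
  have h1 : k + K * i = k' + K * i' := by omega
  have h2 := congrArg (· % K) h1
  simp only [Nat.add_mul_mod_self_left, Nat.mod_eq_of_lt hk, Nat.mod_eq_of_lt hk'] at h2
  subst h2
  have h3 : K * i = K * i' := by omega
  exact ⟨rfl, Nat.eq_of_mul_eq_mul_left (by omega) h3⟩

theorem le_adr (w K k i : ℕ) : 2 ^ (w - 1) ≤ adr w K k i := by
  unfold adr
  omega

theorem adr_succ (w K k i : ℕ) : adr w K k (i + 1) = adr w K k i + K := by
  unfold adr
  rw [Nat.mul_succ]
  omega

/-- value of the top cell -/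
def top : List Bool → ℕ
  | [] => 2
  | b :: _ => b.toNat

/-- the memory `M` holds the stack `k` with content `l` -/
def Stk (w K : ℕ) (M : ℕ → ℕ) (k : ℕ) : List Bool → Prop
  | [] => M (adr w K k 0) = 2
  | b :: l => M (adr w K k (l.length + 1)) = b.toNat ∧ Stk w K M k l

theorem Stk.top {w K : ℕ} {M : ℕ → ℕ} {k : ℕ} {l : List Bool} (h : Stk w K M k l) :
    M (adr w K k l.length) = top l := by
  cases l with
  | nil => exact h
  | cons b l => exact h.1

theorem Stk.frame {w K : ℕ} {M M' : ℕ → ℕ} {k : ℕ} {l : List Bool} (h : Stk w K M k l)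
    (hM : ∀ i ≤ l.length, M' (adr w K k i) = M (adr w K k i)) : Stk w K M' k l := by
  induction l with
  | nil => exact (hM 0 (Nat.zero_le _)).trans h
  | cons b l ih =>
    refine ⟨(hM _ le_rfl).trans h.1, ih h.2 fun i hi => hM i ?_⟩
    rw [List.length_cons]
    omega

/-- the state `σ` represents the stacks `S` -/
structure Rep (w K : ℕ) (S : Store) (σ : St) : Prop where
  zero : σ.regs 3 = 0
  one : σ.regs 4 = 1
  two : σ.regs 5 = 2
  str : σ.regs 6 = K
  base : σ.regs 7 = 2 ^ (w - 1)
  sp : ∀ k, k < K → σ.regs (12 + k) = adr w K k (S k).length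
  stk : ∀ k, k < K → Stk w K σ.mem k (S k)

/-- changing scratch registers and low memory -/
theorem Rep.congr {w K : ℕ} {S : Store} {σ σ' : St} (h : Rep w K S σ)
    (h3 : σ'.regs 3 = σ.regs 3) (h4 : σ'.regs 4 = σ.regs 4) (h5 : σ'.regs 5 = σ.regs 5)
    (h6 : σ'.regs 6 = σ.regs 6) (h7 : σ'.regs 7 = σ.regs 7)
    (hs : ∀ k, k < K → σ'.regs (12 + k) = σ.regs (12 + k))
    (hm : ∀ a, 2 ^ (w - 1) ≤ a → σ'.mem a = σ.mem a) : Rep w K S σ' where
  zero := h3.trans h.zero
  one := h4.trans h.one
  two := h5.trans h.two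
  str := h6.trans h.str
  base := h7.trans h.base
  sp := fun k hk => (hs k hk).trans (h.sp k hk)
  stk := fun k hk => (h.stk k hk).frame fun i _ => hm _ (le_adr w K k i)

/-- setting a scratch register -/
theorem Rep.scratch {w K : ℕ} {S : Store} {σ : St} (h : Rep w K S σ) {d : ℕ} (v : ℕ)
    (hd : d < 3 ∨ (7 < d ∧ d < 12)) :
    Rep w K S { σ with regs := Function.update σ.regs d v } := by
  refine h.congr ?_ ?_ ?_ ?_ ?_ ?_ (fun _ _ => rfl)
  all_goals
    first
      | (show Function.update σ.regs d v _ = _; rw [Function.update_of_ne]; omega)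
      | (intro k hk; show Function.update σ.regs d v _ = _; rw [Function.update_of_ne]; omega)

theorem Rep.drawn {w K : ℕ} {S : Store} {σ : St} (h : Rep w K S σ) (n : ℕ) :
    Rep w K S { σ with drawn := n } :=
  h.congr rfl rfl rfl rfl rfl (fun _ _ => rfl) (fun _ _ => rfl)

/-- pushing -/
theorem Rep.push {w K : ℕ} {S : Store} {σ : St} (h : Rep w K S σ) {k : ℕ} (hk : k < K) (b : Bool)
    {a v : ℕ} (ha : a = adr w K k ((S k).length + 1)) (hv : v = b.toNat) :
    Rep w K (Function.update S k (b :: S k))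
      { σ with regs := Function.update σ.regs (12 + k) a, mem := Function.update σ.mem a v } := by
  subst ha hv
  constructor
  · show Function.update σ.regs _ _ _ = _
    rw [Function.update_of_ne (by omega)]; exact h.zero
  · show Function.update σ.regs _ _ _ = _
    rw [Function.update_of_ne (by omega)]; exact h.one
  · show Function.update σ.regs _ _ _ = _
    rw [Function.update_of_ne (by omega)]; exact h.two
  · show Function.update σ.regs _ _ _ = _
    rw [Function.update_of_ne (by omega)]; exact h.str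
  · show Function.update σ.regs _ _ _ = _
    rw [Function.update_of_ne (by omega)]; exact h.base
  · intro j hj
    show Function.update σ.regs _ _ _ = _
    by_cases hjk : j = k
    · subst hjk
      rw [Function.update_self, Function.update_self, List.length_cons]
    · rw [Function.update_of_ne (by omega), Function.update_of_ne hjk]
      exact h.sp j hj
  · intro j hj
    show Stk w K (Function.update σ.mem _ _) j _
    by_cases hjk : j = k
    · subst hjk
      rw [Function.update_self]
      refine ⟨Function.update_self _ _ _, (h.stk j hj).frame fun i hi => ?_⟩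
      rw [Function.update_of_ne]
      intro h'
      have := (adr_inj hj hj h').2
      omega
    · rw [Function.update_of_ne hjk]
      refine (h.stk j hj).frame fun i hi => ?_
      rw [Function.update_of_ne]
      intro h'
      exact hjk (adr_inj hj hk h').1

/-- popping -/
theorem Rep.pop {w K : ℕ} {S : Store} {σ : St} (h : Rep w K S σ) {k : ℕ} (hk : k < K) {b : Bool}
    {l : List Bool} (hS : S k = b :: l) {a : ℕ} (ha : a = σ.regs (12 + k) - K) :
    Rep w K (Function.update S k l) { σ with regs := Function.update σ.regs (12 + k) a } := by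
  have ha' : a = adr w K k l.length := by
    rw [ha, h.sp k hk, hS, List.length_cons, adr_succ]
    omega
  clear ha
  subst ha'
  constructor
  · show Function.update σ.regs _ _ _ = _
    rw [Function.update_of_ne (by omega)]; exact h.zero
  · show Function.update σ.regs _ _ _ = _
    rw [Function.update_of_ne (by omega)]; exact h.one
  · show Function.update σ.regs _ _ _ = _
    rw [Function.update_of_ne (by omega)]; exact h.two
  · show Function.update σ.regs _ _ _ = _
    rw [Function.update_of_ne (by omega)]; exact h.str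
  · show Function.update σ.regs _ _ _ = _
    rw [Function.update_of_ne (by omega)]; exact h.base
  · intro j hj
    show Function.update σ.regs _ _ _ = _
    by_cases hjk : j = k
    · subst hjk
      rw [Function.update_self, Function.update_self]
    · rw [Function.update_of_ne (by omega), Function.update_of_ne hjk]
      exact h.sp j hj
  · intro j hj
    show Stk w K σ.mem j _
    by_cases hjk : j = k
    · subst hjk
      rw [Function.update_self]
      have := h.stk j hj
      rw [hS] at this
      exact this.2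
    · rw [Function.update_of_ne hjk]
      exact h.stk j hj

/-- Translation of stack programs. Register 2 is scratch. -/
def tr : Cmd → Prog
  | .skip => .blk []
  | .push k b => .blk [.add (12 + k) (12 + k) 6, .store (if b then 4 else 3) (12 + k)]
  | .pop k => .seq (.blk [.load 2 (12 + k)])
      (.ite (.eq 2 5) (.blk []) (.blk [.sub (12 + k) (12 + k) 6]))
  | .seq c d => .seq (tr c) (tr d)
  | .ite k e c d => .seq (.blk [.load 2 (12 + k)])
      (.ite (.eq 2 5) (tr e) (.ite (.eq 2 4) (tr c) (tr d)))
  | .loop k c => .seq (.blk [.load 2 (12 + k)])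
      (.loop (.eq 2 5) (.seq (tr c) (.blk [.load 2 (12 + k)])))

/-- the registers of the translation -/
theorem tr_ok {N : ℕ} {c : Cmd} (h : c.maxVar < N) : (tr c).ok (12 + N) := by
  induction c with
  | skip => intro i hi; simp at hi
  | push k b =>
    have hk : k < N := h
    intro i hi
    simp only [List.mem_cons, List.not_mem_nil, or_false] at hi
    rcases hi with rfl | rfl
    · exact ⟨by omega, by omega, by omega⟩
    · refine ⟨?_, by omega⟩
      split <;> omega
  | pop k =>
    have hk : k < N := h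
    refine ⟨?_, ⟨by omega, by omega⟩, ?_, ?_⟩
    · intro i hi
      simp only [List.mem_cons, List.not_mem_nil, or_false] at hi
      subst hi
      exact ⟨by omega, by omega⟩
    · intro i hi; simp at hi
    · intro i hi
      simp only [List.mem_cons, List.not_mem_nil, or_false] at hi
      subst hi
      exact ⟨by omega, by omega, by omega⟩
  | seq c d ihc ihd =>
    simp only [Cmd.maxVar, max_lt_iff] at h
    exact ⟨ihc h.1, ihd h.2⟩
  | ite k e c d ihe ihc ihd =>
    simp only [Cmd.maxVar, max_lt_iff] at h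
    refine ⟨?_, ⟨by omega, by omega⟩, ihe h.2.1, ⟨by omega, by omega⟩, ihc h.2.2.1, ihd h.2.2.2⟩
    intro i hi
    simp only [List.mem_cons, List.not_mem_nil, or_false] at hi
    subst hi
    exact ⟨by omega, by omega⟩
  | loop k c ih =>
    simp only [Cmd.maxVar, max_lt_iff] at h
    refine ⟨?_, ⟨by omega, by omega⟩, ih h.2, ?_⟩
    all_goals
      intro i hi
      simp only [List.mem_cons, List.not_mem_nil, or_false] at hi
      subst hi
      exact ⟨by omega, by omega⟩

/-- the state after `load 2 (12 + k)` -/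
def ld (k : ℕ) (σ : St) : St :=
  { σ with regs := Function.update σ.regs 2 (σ.mem (σ.regs (12 + k))) }

theorem effs_load (w : ℕ) (ρ : ℕ → ℕ) (k : ℕ) (σ : St) :
    effs w ρ [.load 2 (12 + k)] σ = ld k σ := rfl

theorem Rep.ld {w K : ℕ} {S : Store} {σ : St} (h : Rep w K S σ) (k : ℕ) :
    Rep w K S (RAM.ld k σ) := h.scratch _ (by omega)

theorem Rep.ld_reg {w K : ℕ} {S : Store} {σ : St} (h : Rep w K S σ) {k : ℕ} (hk : k < K) :
    (RAM.ld k σ).regs 2 = top (S k) := by
  have h1 : (RAM.ld k σ).regs 2 = σ.mem (σ.regs (12 + k)) := by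
    simp [RAM.ld]
  rw [h1, h.sp k hk]
  exact (h.stk k hk).top

theorem Rep.ld_eval5 {w K : ℕ} {S : Store} {σ : St} (h : Rep w K S σ) {k : ℕ} (hk : k < K) :
    (Cond.eq 2 5).eval (RAM.ld k σ) ↔ S k = [] := by
  show (RAM.ld k σ).regs 2 = (RAM.ld k σ).regs 5 ↔ _
  rw [h.ld_reg hk, (h.ld k).two]
  cases S k with
  | nil => simp [top]
  | cons b l => cases b <;> simp [top]

theorem Rep.ld_eval4 {w K : ℕ} {S : Store} {σ : St} (h : Rep w K S σ) {k : ℕ} (hk : k < K) :
    (Cond.eq 2 4).eval (RAM.ld k σ) ↔ (S k).head? = some true := by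
  show (RAM.ld k σ).regs 2 = (RAM.ld k σ).regs 4 ↔ _
  rw [h.ld_reg hk, (h.ld k).one]
  cases S k with
  | nil => simp [top]
  | cons b l => cases b <;> simp [top]

/-- The simulation. -/
theorem exec_tr {w K H : ℕ} (ρ : ℕ → ℕ) (hw : 1 ≤ w) (hH : K * (H + 1) ≤ 2 ^ (w - 1))
    {c : Cmd} {s s' : Store} {t : ℕ} (h : Exec c s s' t) :
    c.maxVar < K → (∀ k, (s k).length + t ≤ H) → ∀ σ, Rep w K s σ →
      ∃ σ' t', Ex w ρ (tr c) σ σ' t' ∧ t' ≤ 5 * t ∧ Rep w K s' σ' ∧ σ'.drawn = σ.drawn := by
  induction h with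
  | skip s =>
    intro _ _ σ hσ
    exact ⟨σ, 0, Ex.blk [] σ, by omega, hσ, rfl⟩
  | push k b s =>
    intro hk hl σ hσ
    have hk' : k < K := hk
    refine ⟨_, _, Ex.blk _ σ, by simp, ?_, rfl⟩
    have e1 : (σ.regs (12 + k) + σ.regs 6) % 2 ^ w = adr w K k ((s k).length + 1) := by
      rw [hσ.sp k hk', hσ.str, ← adr_succ]
      exact Nat.mod_eq_of_lt (adr_lt hw hH hk' (hl k))
    have := hσ.push hk' b (a := (σ.regs (12 + k) + σ.regs 6) % 2 ^ w)
      (v := Function.update σ.regs (12 + k) ((σ.regs (12 + k) + σ.regs 6) % 2 ^ w)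
        (if b = true then 4 else 3)) e1 (by
          rw [Function.update_of_ne (by split <;> omega)]
          cases b
          · simpa using hσ.zero
          · simpa using hσ.one)
    simp only [effs_cons, effs_nil, Op.eff]
    rw [Function.update_self]
    exact this
  | pop k s =>
    intro hk hl σ hσ
    have hk' : k < K := hk
    by_cases he : s k = []
    · refine ⟨ld k σ, _, Ex.seq (Ex.blk _ σ) (Ex.ite_true ?_ (Ex.blk _ _)), by simp, ?_, rfl⟩
      · exact (hσ.ld_eval5 hk').2 he
      · rw [he, List.tail_nil]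
        have : Function.update s k [] = s := by
          rw [← he, Function.update_eq_self]
        rw [this]
        exact hσ.ld k
    · obtain ⟨b, l, hbl⟩ := List.exists_cons_of_ne_nil he
      refine ⟨_, _, Ex.seq (Ex.blk _ σ) (Ex.ite_false ?_ (Ex.blk _ _)), by simp, ?_, rfl⟩
      · exact fun h' => he ((hσ.ld_eval5 hk').1 h')
      · rw [hbl, List.tail_cons]
        have h1 := hσ.ld k
        exact h1.pop hk' hbl (congrArg (fun x => (ld k σ).regs (12 + k) - x) h1.str)
  | @seq c d s s' s'' t t' h1 h2 ih1 ih2 =>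
    intro hk hl σ hσ
    simp only [Cmd.maxVar, max_lt_iff] at hk
    obtain ⟨σ1, t1, e1, b1, r1, d1⟩ := ih1 hk.1 (fun j => by have := hl j; omega) σ hσ
    obtain ⟨σ2, t2, e2, b2, r2, d2⟩ := ih2 hk.2 (fun j => by
      have := hl j
      have := h1.length_le j
      omega) σ1 r1
    exact ⟨σ2, t1 + t2, Ex.seq e1 e2, by omega, r2, d2.trans d1⟩
  | @ite_nil k e c d s s' t hnil _ ih =>
    intro hk hl σ hσ
    simp only [Cmd.maxVar, max_lt_iff] at hk
    obtain ⟨σ1, t1, e1, b1, r1, d1⟩ := ih hk.2.1 (fun j => by have := hl j; omega) (ld k σ) (hσ.ld k)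
    refine ⟨σ1, _, Ex.seq (Ex.blk _ σ) (Ex.ite_true ((hσ.ld_eval5 hk.1).2 hnil) e1), ?_, r1, d1⟩
    simp only [List.length_cons, List.length_nil]
    omega
  | @ite_true k e c d s s' t l hcons _ ih =>
    intro hk hl σ hσ
    simp only [Cmd.maxVar, max_lt_iff] at hk
    obtain ⟨σ1, t1, e1, b1, r1, d1⟩ := ih hk.2.2.1 (fun j => by have := hl j; omega) (ld k σ)
      (hσ.ld k)
    refine ⟨σ1, _, Ex.seq (Ex.blk _ σ) (Ex.ite_false ?_ (Ex.ite_true ?_ e1)), ?_, r1, d1⟩
    · exact fun h' => by
        have := (hσ.ld_eval5 hk.1).1 h'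
        rw [hcons] at this
        simp at this
    · exact (hσ.ld_eval4 hk.1).2 (by rw [hcons]; rfl)
    · simp only [List.length_cons, List.length_nil]
      omega
  | @ite_false k e c d s s' t l hcons _ ih =>
    intro hk hl σ hσ
    simp only [Cmd.maxVar, max_lt_iff] at hk
    obtain ⟨σ1, t1, e1, b1, r1, d1⟩ := ih hk.2.2.2 (fun j => by have := hl j; omega) (ld k σ)
      (hσ.ld k)
    refine ⟨σ1, _, Ex.seq (Ex.blk _ σ) (Ex.ite_false ?_ (Ex.ite_false ?_ e1)), ?_, r1, d1⟩
    · exact fun h' => by
        have := (hσ.ld_eval5 hk.1).1 h'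
        rw [hcons] at this
        simp at this
    · exact fun h' => by
        have := (hσ.ld_eval4 hk.1).1 h'
        rw [hcons] at this
        simp at this
    · simp only [List.length_cons, List.length_nil]
      omega
  | @loop_nil k c s hnil =>
    intro hk hl σ hσ
    simp only [Cmd.maxVar, max_lt_iff] at hk
    exact ⟨ld k σ, _, Ex.seq (Ex.blk _ σ) (Ex.loop_done ((hσ.ld_eval5 hk.1).2 hnil)), by simp,
      hσ.ld k, rfl⟩
  | @loop_cons k c s s' s'' t t' hne h1 _ ih1 ih2 =>
    intro hk hl σ hσ
    have hk' := hk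
    simp only [Cmd.maxVar, max_lt_iff] at hk
    obtain ⟨σ1, t1, e1, b1, r1, d1⟩ := ih1 hk.2 (fun j => by have := hl j; omega) (ld k σ) (hσ.ld k)
    obtain ⟨σ2, t2, e2, b2, r2, d2⟩ := ih2 hk' (fun j => by
      have := hl j
      have := h1.length_le j
      omega) σ1 r1
    have e2' : ∃ t3, Ex w ρ (.loop (.eq 2 5) (.seq (tr c) (.blk [.load 2 (12 + k)]))) (ld k σ1) σ2 t3
        ∧ t2 = 1 + t3 := by
      cases e2 with
      | seq a b =>
        cases a with
        | blk => exact ⟨_, b, rfl⟩
    obtain ⟨t3, e3, rfl⟩ := e2'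
    refine ⟨σ2, _, Ex.seq (Ex.blk _ σ) (Ex.loop_step ?_ (Ex.seq e1 (Ex.blk _ _)) e3), ?_, r2,
      d2.trans d1⟩
    · exact fun h' => hne ((hσ.ld_eval5 hk.1).1 h')
    · simp only [List.length_cons, List.length_nil]
      omega

end Crest.Agent.R309.RAM
private theorem rz_6679578bc5 : type_of% @_root_.Crest.Agent.R309.RAM.top.eq_1 := @_root_.Crest.Agent.R309.RAM.top.eq_1 -- L102
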