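import Crest.Agent.R309.PTExtra

/-!
# R309: `pt_solve`, a recursive tactic for poly-time goals

It closes goals `PTF _`, `PTF₂ _`, `PTU _`, `PTPred _`, `PB _` by `fun_prop` and by the
higher-order list lemmas of the library (`map`, `zipWith`, `filter`, `range`, `getD`, ...).
-/

set_option autoImplicit false
set_option linter.dupNamespace false

namespace Crest.Agent.R309.PTX

open Crest.Agent.Lib.PT Crest.Agent.R309.Tape

variable {α β γ δ σ : Type} [PTCode α] [PTCode β] [PTCode γ] [PTCode δ] [PTCode σ]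


theorem ptu_max {m n : γ → ℕ} (hm : PTU m) (hn : PTU n) : PTU (fun a => max (m a) (n a)) :=
  (PTU.ite (PTU.le hm hn) hn hm).of_eq (fun a => by
    split_ifs with h
    · exact (max_eq_right h).symm
    · exact (max_eq_left (not_le.1 h).le).symm)

theorem ptf_head?D {l : γ → List α} {d : γ → α} (hl : PTF l) (hd : PTF d) :
    PTF (fun c => (l c).head?.getD (d c)) := PTF.optionGetD (PTF.head? hl) hd

theorem ptf_optionMap {o : γ → Option α} {f : γ → α → β} (ho : PTF o) (hf : PTF₂ f) :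
    PTF (fun c => (o c).map (f c)) := by
  refine PTF.of_eq (PTF.optionCasesOn (s := o) (f := fun _ => none)
    (g := fun c a => some (f c a)) ho (PTF.const none)
    (PTF.comp (g := fun b : β => some b) (f := fun p : γ × α => f p.1 p.2) (by fun_prop) hf))
    (fun c => ?_)
  cases o c <;> rfl

theorem ptf_optionBind {o : γ → Option α} {f : γ → α → Option β} (ho : PTF o) (hf : PTF₂ f) :
    PTF (fun c => (o c).bind (f c)) := by
  refine PTF.of_eq (PTF.optionCasesOn (s := o) (f := fun _ => none)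
    (g := fun c a => f c a) ho (PTF.const none) hf) (fun c => ?_)
  cases o c <;> rfl


/-- one recursion level of `pt_solve` -/
syntax "pt_solve" : tactic

/-- apply a lemma up to reducible unfolding and solve the side goals -/
macro "pt_app " t:term : tactic => `(tactic| ((with_reducible refine $t) <;> pt_solve))

macro_rules
  | `(tactic| pt_solve) => `(tactic| first
    | assumption
    | fun_prop
    | (dsimp only [PTF₂]; pt_solve)
    | pt_app PTF.ite ?_ ?_ ?_
    | pt_app PTF.cond ?_ ?_ ?_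
    | pt_app PTF.prodMk ?_ ?_
    | pt_app PTF.map ?_ ?_
    | pt_app PTF.zipWith ?_ ?_ ?_
    | pt_app PTF.zip ?_ ?_
    | pt_app PTF.filterMap ?_ ?_
    | pt_app PTF.filter ?_ ?_
    | pt_app PTF.flatMap ?_ ?_
    | pt_app PTF.flatten ?_
    | pt_app PTF.any ?_ ?_
    | pt_app PTF.all ?_ ?_
    | pt_app PTF.find? ?_ ?_
    | pt_app PTF.append ?_ ?_
    | pt_app PTF.reverse ?_
    | pt_app PTF.listCons ?_ ?_
    | pt_app PTF.replicate ?_ ?_
    | pt_app PTF.range ?_
    | pt_app ptf_take' ?_ ?_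
    | pt_app ptf_drop' ?_ ?_
    | pt_app ptf_getD' ?_ ?_ ?_
    | pt_app ptf_getElem?' ?_ ?_
    | pt_app ptf_set' ?_ ?_ ?_
    | pt_app ptf_modify' ?_ ?_ ?_
    | pt_app ptf_blocks ?_ ?_ ?_
    | pt_app ptf_optionMap ?_ ?_
    | pt_app ptf_optionBind ?_ ?_
    | pt_app PTF.optionGetD ?_ ?_
    | pt_app PTF.head? ?_
    | pt_app PTF.tail ?_
    | pt_app PTF.natSum ?_
    | pt_app PTF.natProd ?_
    | pt_app PTF.intListSum ?_
    | pt_app PTF.natAdd ?_ ?_
    | pt_app PTF.natSub ?_ ?_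
    | pt_app PTF.natMul ?_ ?_
    | pt_app PTF.natDiv ?_ ?_
    | pt_app PTF.natMod ?_ ?_
    | pt_app PTF.natMax ?_ ?_
    | pt_app PTF.natMin ?_ ?_
    | pt_app PTF.natTwoPow ?_
    | pt_app PTF.natPow ?_ ?_
    | pt_app PTF.intAdd ?_ ?_
    | pt_app PTF.intSub ?_ ?_
    | pt_app PTF.intMul ?_ ?_
    | pt_app PTF.intNeg ?_
    | pt_app PTF.intEdiv ?_ ?_
    | pt_app PTF.intEmod ?_ ?_
    | pt_app PTF.intMax ?_ ?_
    | pt_app PTF.intMin ?_ ?_
    | pt_app PTF.intNatCast ?_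
    | pt_app PTF.intToNat ?_
    | pt_app PTF.intNatAbs ?_
    | pt_app PTF.ratAdd ?_ ?_
    | pt_app PTF.ratSub ?_ ?_
    | pt_app PTF.ratMul ?_ ?_
    | pt_app PTF.ratDiv ?_ ?_
    | pt_app PTPred.toPTF ?_
    | pt_app PTPred.and ?_ ?_
    | pt_app PTPred.or ?_ ?_
    | pt_app PTPred.not ?_
    | pt_app PTPred.natLt ?_ ?_
    | pt_app PTPred.natLe ?_ ?_
    | pt_app PTPred.natEq ?_ ?_
    | pt_app PTPred.intLt ?_ ?_
    | pt_app PTPred.intLe ?_ ?_
    | pt_app PTPred.intEq ?_ ?_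
    | pt_app PTPred.ratLt ?_ ?_
    | pt_app PTPred.ratLe ?_ ?_
    | pt_app PTPred.forall_mem ?_ ?_
    | pt_app PTPred.exists_mem ?_ ?_
    | pt_app PTPred.mem ?_ ?_
    | pt_app PTPred.eq ?_ ?_
    | pt_app PTU.length ?_
    | pt_app PTU.countP ?_ ?_
    | pt_app PTU.add ?_ ?_
    | pt_app PTU.sub ?_ ?_
    | pt_app PTU.mul ?_ ?_
    | pt_app PTU.pow ?_ _
    | pt_app ptu_max ?_ ?_
    | pt_app PTU.min ?_ ?_
    | pt_app PTF.natSizeUn ?_
    | pt_app PTF.natMinUn ?_ ?_
    | pt_app PTU.toPTF ?_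
    | pt_app PTF.comp (by assumption) ?_)

end Crest.Agent.R309.PTX

section test
open Crest.Agent.Lib.PT Crest.Agent.R309.PTX
end test
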