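import Mathlib

-- ▼ part R309/MCBasic
section

/-!
Row 309, abstract Markov chain layer (helper585): finite reversible chains.
Kernels are functions `K : α → α → ℝ` on a finite type, weights `w : α → ℝ` are unnormalised.
-/

set_option autoImplicit false
open Finset

namespace Crest.Agent.R309.MC

variable {α : Type*} [Fintype α]

/-- A stochastic kernel. -/
structure IsKer (K : α → α → ℝ) : Prop where
  nonneg : ∀ x y, 0 ≤ K x y
  sum_one : ∀ x, ∑ y, K x y = 1

/-- Reversibility with respect to the weight `w`. -/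
def Rev (w : α → ℝ) (K : α → α → ℝ) : Prop := ∀ x y, w x * K x y = w y * K y x

/-- Action of a kernel on functions. -/
def app (K : α → α → ℝ) (f : α → ℝ) (x : α) : ℝ := ∑ y, K x y * f y

/-- The (unnormalised) inner product. -/
def inn (w f g : α → ℝ) : ℝ := ∑ x, w x * f x * g x

/-- Total mass. -/
def mass (w : α → ℝ) : ℝ := ∑ x, w x

/-- Mean of `f` under the normalised weight. -/
noncomputable def mean (w f : α → ℝ) : ℝ := (∑ x, w x * f x) / mass w

/-- Unnormalised variance. -/
noncomputable def varU (w f : α → ℝ) : ℝ := ∑ x, w x * (f x - mean w f) ^ 2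

/-- Unnormalised Dirichlet form, `1/2 ∑ w x K x y (f x - f y)^2`. -/
noncomputable def dir (w : α → ℝ) (K : α → α → ℝ) (f : α → ℝ) : ℝ :=
  (∑ x, ∑ y, w x * K x y * (f x - f y) ^ 2) / 2

/-- Positive semidefiniteness of the kernel in `ℓ²(w)`. -/
def PSD (w : α → ℝ) (K : α → α → ℝ) : Prop := ∀ f : α → ℝ, 0 ≤ inn w f (app K f)

/-- Poincaré inequality with constant `c` (spectral gap at least `c`). -/
def Poinc (w : α → ℝ) (K : α → α → ℝ) (c : ℝ) : Prop :=
  ∀ f : α → ℝ, c * varU w f ≤ dir w K f

theorem inn_comm (w f g : α → ℝ) : inn w f g = inn w g f := by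
  unfold inn; exact sum_congr rfl fun x _ => by ring

theorem inn_add_left (w f g h : α → ℝ) : inn w (f + g) h = inn w f h + inn w g h := by
  unfold inn; rw [← sum_add_distrib]; exact sum_congr rfl fun x _ => by simp; ring

theorem inn_smul_left (w f h : α → ℝ) (a : ℝ) : inn w (a • f) h = a * inn w f h := by
  unfold inn; rw [mul_sum]; exact sum_congr rfl fun x _ => by simp; ring

theorem inn_add_right (w f g h : α → ℝ) : inn w h (f + g) = inn w h f + inn w h g := by
  rw [inn_comm, inn_add_left, inn_comm w f, inn_comm w g]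

theorem inn_smul_right (w f h : α → ℝ) (a : ℝ) : inn w h (a • f) = a * inn w h f := by
  rw [inn_comm, inn_smul_left, inn_comm]

theorem inn_self_nonneg {w : α → ℝ} (hw : ∀ x, 0 ≤ w x) (f : α → ℝ) : 0 ≤ inn w f f := by
  unfold inn
  exact sum_nonneg fun x _ => by have := hw x; nlinarith [mul_nonneg this (mul_self_nonneg (f x))]

theorem app_add (K : α → α → ℝ) (f g : α → ℝ) : app K (f + g) = app K f + app K g := by
  funext x; unfold app; simp only [Pi.add_apply, mul_add, sum_add_distrib]

theorem app_smul (K : α → α → ℝ) (a : ℝ) (f : α → ℝ) : app K (a • f) = a • app K f := by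
  funext x; unfold app; simp only [Pi.smul_apply, smul_eq_mul, mul_sum]
  exact sum_congr rfl fun y _ => by ring

theorem app_const {K : α → α → ℝ} (hK : IsKer K) (a : ℝ) :
    app K (fun _ => a) = fun _ => a := by
  funext x; unfold app; rw [← sum_mul, hK.sum_one, one_mul]

/-- Self-adjointness of a reversible kernel. -/
theorem inn_app {w : α → ℝ} {K : α → α → ℝ} (hr : Rev w K) (f g : α → ℝ) :
    inn w f (app K g) = inn w (app K f) g := by
  unfold inn app
  simp only [mul_sum, sum_mul]
  rw [sum_comm]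
  refine sum_congr rfl fun x _ => sum_congr rfl fun y _ => ?_
  have := hr y x
  calc w y * f y * (K y x * g x) = (w y * K y x) * f y * g x := by ring
    _ = (w x * K x y) * f y * g x := by rw [this]
    _ = w x * (K x y * f y) * g x := by ring

/-- The Dirichlet form as `⟨f, f⟩ - ⟨f, K f⟩`. -/
theorem dir_eq {w : α → ℝ} {K : α → α → ℝ} (hK : IsKer K) (hr : Rev w K) (f : α → ℝ) :
    dir w K f = inn w f f - inn w f (app K f) := by
  unfold dir
  have e : ∀ x y, w x * K x y * (f x - f y) ^ 2
      = w x * K x y * f x ^ 2 + w x * K x y * f y ^ 2 - 2 * (w x * f x * (K x y * f y)) := by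
    intro x y; ring
  simp only [e, sum_add_distrib, sum_sub_distrib, ← mul_sum]
  have h1 : ∑ x, ∑ y, w x * K x y * f x ^ 2 = inn w f f := by
    unfold inn
    refine sum_congr rfl fun x _ => ?_
    calc ∑ y, w x * K x y * f x ^ 2 = (∑ y, K x y) * (w x * f x ^ 2) := by
          rw [sum_mul]; exact sum_congr rfl fun y _ => by ring
      _ = w x * f x * f x := by rw [hK.sum_one]; ring
  have h2 : ∑ x, ∑ y, w x * K x y * f y ^ 2 = inn w f f := by
    rw [← h1, sum_comm]
    exact sum_congr rfl fun x _ => sum_congr rfl fun y _ => by rw [hr y x]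
  have h3 : ∑ x, ∑ y, w x * f x * (K x y * f y) = inn w f (app K f) := by
    unfold inn app
    exact sum_congr rfl fun x _ => by rw [mul_sum]
  have h3' : ∑ x, w x * f x * ∑ y, K x y * f y = inn w f (app K f) := rfl
  rw [h1, h2, h3']
  ring

theorem dir_nonneg {w : α → ℝ} (hw : ∀ x, 0 ≤ w x) {K : α → α → ℝ} (hK : IsKer K)
    (f : α → ℝ) : 0 ≤ dir w K f := by
  unfold dir
  refine div_nonneg (sum_nonneg fun x _ => sum_nonneg fun y _ => ?_) (by norm_num)
  exact mul_nonneg (mul_nonneg (hw x) (hK.nonneg x y)) (sq_nonneg _)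

theorem sum_mul_sub_mean {w : α → ℝ} (hm : mass w ≠ 0) (f : α → ℝ) :
    ∑ x, w x * (f x - mean w f) = 0 := by
  simp only [mul_sub, sum_sub_distrib, ← sum_mul]
  unfold mean
  change _ - mass w * _ = 0
  field_simp
  ring

theorem varU_eq {w : α → ℝ} (hm : mass w ≠ 0) (f : α → ℝ) :
    varU w f = ∑ x, w x * f x ^ 2 - mass w * mean w f ^ 2 := by
  have h := sum_mul_sub_mean hm f
  have e : varU w f = ∑ x, (w x * f x ^ 2 - 2 * mean w f * (w x * (f x - mean w f))
      - mean w f ^ 2 * w x) := by
    unfold varU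
    exact sum_congr rfl fun x _ => by ring
  rw [e, sum_sub_distrib, sum_sub_distrib, ← mul_sum, ← mul_sum, h]
  change _ - _ - _ * mass w = _
  ring




/-- Cauchy–Schwarz for a positive semidefinite reversible kernel. -/
theorem psd_cauchy {w : α → ℝ} {K : α → α → ℝ} (hr : Rev w K) (hp : PSD w K)
    (f g : α → ℝ) :
    (inn w f (app K g)) ^ 2 ≤ inn w f (app K f) * inn w g (app K g) := by
  have h : ∀ t : ℝ, 0 ≤ inn w g (app K g) * (t * t) + (2 * inn w f (app K g)) * t
      + inn w f (app K f) := by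
    intro t
    have := hp (f + t • g)
    rw [app_add, app_smul, inn_add_right, inn_add_left, inn_add_left, inn_smul_left,
      inn_smul_right, inn_smul_right, inn_smul_left] at this
    have hsym : inn w g (app K f) = inn w f (app K g) := by
      rw [inn_app hr, inn_comm]
    rw [hsym] at this
    linarith
  have := discrim_le_zero h
  unfold discrim at this
  nlinarith

/-- Contraction of mean zero functions. -/
theorem contract {w : α → ℝ} (hw : ∀ x, 0 ≤ w x) {K : α → α → ℝ} (hK : IsKer K)
    (hr : Rev w K) (hp : PSD w K) {c : ℝ} (hc : Poinc w K c)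
    (f : α → ℝ) (hf : ∑ x, w x * f x = 0) :
    (∑ x, w x * app K f x = 0) ∧
      inn w (app K f) (app K f) ≤ (1 - c) ^ 2 * inn w f f := by
  have key : ∀ g : α → ℝ, ∑ x, w x * g x = 0 →
      inn w g (app K g) ≤ (1 - c) * inn w g g := by
    intro g hg
    have h1 := hc g
    rw [dir_eq hK hr] at h1
    have hmean : mean w g = 0 := by unfold mean; rw [hg, zero_div]
    have h2 : varU w g = inn w g g := by
      unfold varU inn
      rw [hmean]
      exact sum_congr rfl fun x _ => by ring
    rw [h2] at h1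
    linarith
  have h0 : ∑ x, w x * app K f x = 0 := by
    have h1 : inn w (fun _ => 1) (app K f) = ∑ x, w x * app K f x := by
      unfold inn; exact sum_congr rfl fun x _ => by ring
    rw [← h1, inn_app hr, app_const hK]
    unfold inn
    rw [← hf]
    exact sum_congr rfl fun x _ => by ring
  refine ⟨h0, ?_⟩
  set A := inn w (app K f) (app K f) with hA
  have hA0 : 0 ≤ A := inn_self_nonneg hw _
  have h1 : A ^ 2 ≤ inn w f (app K f) * inn w (app K f) (app K (app K f)) := by
    have := psd_cauchy hr hp f (app K f)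
    rw [inn_app hr f (app K f)] at this
    exact this
  have h2 := key f hf
  have h3 := key (app K f) h0
  have h4 := hp f
  have h5 := hp (app K f)
  have hF : 0 ≤ inn w f f := inn_self_nonneg hw _
  by_cases hAz : A = 0
  · rw [hAz]; positivity
  have hApos : 0 < A := lt_of_le_of_ne hA0 (Ne.symm hAz)
  have h6 : A ^ 2 ≤ ((1 - c) * inn w f f) * ((1 - c) * A) :=
    h1.trans (mul_le_mul h2 h3 h5 (h4.trans h2))
  have h7 : A * A ≤ ((1 - c) ^ 2 * inn w f f) * A := by nlinarith
  exact le_of_mul_le_mul_right h7 hApos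

/-- Iterates. -/
def iter (K : α → α → ℝ) : ℕ → (α → ℝ) → (α → ℝ)
  | 0, f => f
  | t + 1, f => app K (iter K t f)

theorem contract_iter {w : α → ℝ} (hw : ∀ x, 0 ≤ w x) {K : α → α → ℝ} (hK : IsKer K)
    (hr : Rev w K) (hp : PSD w K) {c : ℝ} (hc : Poinc w K c)
    (f : α → ℝ) (hf : ∑ x, w x * f x = 0) (t : ℕ) :
    (∑ x, w x * iter K t f x = 0) ∧
      inn w (iter K t f) (iter K t f) ≤ ((1 - c) ^ 2) ^ t * inn w f f := by
  induction t with
  | zero => simp [iter, hf]
  | succ t ih =>
    obtain ⟨h1, h2⟩ := contract hw hK hr hp hc (iter K t f) ih.1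
    refine ⟨h1, h2.trans ?_⟩
    calc (1 - c) ^ 2 * inn w (iter K t f) (iter K t f)
        ≤ (1 - c) ^ 2 * (((1 - c) ^ 2) ^ t * inn w f f) :=
          mul_le_mul_of_nonneg_left ih.2 (sq_nonneg _)
      _ = ((1 - c) ^ 2) ^ (t + 1) * inn w f f := by ring

/-! ### Distributions -/

/-- Push a (sub)distribution one step forward. -/
def push (K : α → α → ℝ) (p : α → ℝ) (y : α) : ℝ := ∑ x, p x * K x y

/-- Law after `t` steps started from the distribution `p`. -/
def law (K : α → α → ℝ) (p : α → ℝ) : ℕ → α → ℝ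
  | 0 => p
  | t + 1 => push K (law K p t)

/-- Total variation distance. -/
noncomputable def tv (p q : α → ℝ) : ℝ := (∑ x, |p x - q x|) / 2





/-- Probabilities of events differ by at most the total variation distance. -/
theorem abs_sum_sub_le_tv {p q : α → ℝ} (h : ∑ x, p x = ∑ x, q x) (s : Finset α) :
    |∑ x ∈ s, p x - ∑ x ∈ s, q x| ≤ tv p q := by
  classical
  rw [← sum_sub_distrib]
  have h1 : ∑ x ∈ s, (p x - q x) + ∑ x ∈ sᶜ, (p x - q x) = 0 := by
    rw [sum_add_sum_compl, sum_sub_distrib, h, sub_self]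
  have h2 : |∑ x ∈ s, (p x - q x)| ≤ ∑ x ∈ s, |p x - q x| := abs_sum_le_sum_abs _ _
  have h3 : |∑ x ∈ sᶜ, (p x - q x)| ≤ ∑ x ∈ sᶜ, |p x - q x| := abs_sum_le_sum_abs _ _
  have h4 : ∑ x ∈ s, |p x - q x| + ∑ x ∈ sᶜ, |p x - q x| = ∑ x, |p x - q x| :=
    sum_add_sum_compl _ _
  have h5 : |∑ x ∈ sᶜ, (p x - q x)| = |∑ x ∈ s, (p x - q x)| := by
    have : ∑ x ∈ sᶜ, (p x - q x) = - ∑ x ∈ s, (p x - q x) := by linarith
    rw [this, abs_neg]
  unfold tv
  linarith



theorem push_nonneg {K : α → α → ℝ} (hK : IsKer K) {p : α → ℝ} (hp : ∀ x, 0 ≤ p x) :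
    ∀ x, 0 ≤ push K p x := fun y => sum_nonneg fun x _ => mul_nonneg (hp x) (hK.nonneg x y)

theorem push_sum {K : α → α → ℝ} (hK : IsKer K) (p : α → ℝ) :
    ∑ y, push K p y = ∑ x, p x := by
  unfold push
  rw [sum_comm]
  exact sum_congr rfl fun x _ => by rw [← mul_sum, hK.sum_one, mul_one]

theorem law_nonneg {K : α → α → ℝ} (hK : IsKer K) {p : α → ℝ} (hp : ∀ x, 0 ≤ p x) (t : ℕ) :
    ∀ x, 0 ≤ law K p t x := by
  induction t with
  | zero => exact hp
  | succ t ih => exact push_nonneg hK ih

theorem law_sum {K : α → α → ℝ} (hK : IsKer K) (p : α → ℝ) (t : ℕ) :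
    ∑ x, law K p t x = ∑ x, p x := by
  induction t with
  | zero => rfl
  | succ t ih => rw [← ih]; exact push_sum hK _


/-- The density of the law after `t` steps evolves by the kernel itself (reversibility). -/
theorem law_eq_iter {w : α → ℝ} {K : α → α → ℝ} (hr : Rev w K) (h : α → ℝ) (t : ℕ) :
    law K (fun x => w x * h x) t = fun x => w x * iter K t h x := by
  induction t with
  | zero => rfl
  | succ t ih =>
    funext y
    change push K (law K (fun x => w x * h x) t) y = w y * app K (iter K t h) y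
    rw [ih]
    unfold push app
    rw [mul_sum]
    refine sum_congr rfl fun x _ => ?_
    have := hr x y
    calc w x * iter K t h x * K x y = (w x * K x y) * iter K t h x := by ring
      _ = (w y * K y x) * iter K t h x := by rw [this]
      _ = w y * (K y x * iter K t h x) := by ring

theorem iter_add (K : α → α → ℝ) (f g : α → ℝ) (t : ℕ) :
    iter K t (f + g) = iter K t f + iter K t g := by
  induction t with
  | zero => rfl
  | succ t ih => simp only [iter, ih, app_add]

theorem iter_const {K : α → α → ℝ} (hK : IsKer K) (a : ℝ) (t : ℕ) :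
    iter K t (fun _ => a) = fun _ => a := by
  induction t with
  | zero => rfl
  | succ t ih => simp only [iter, ih, app_const hK]

/-- **Convergence from a start with `ℓ²` bounded density**: if `p = w h / mass w`-type density. -/
theorem tv_law_le_of_density {w : α → ℝ} (hw : ∀ x, 0 < w x) {K : α → α → ℝ} (hK : IsKer K)
    (hr : Rev w K) (hp : PSD w K) {c : ℝ} (hc : Poinc w K c) (hc1 : c ≤ 1) (hm : 0 < mass w)
    (p : α → ℝ) (hp1 : ∑ x, p x = 1) (t : ℕ) :
    tv (law K p t) (fun x => w x / mass w) ≤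
      (1 - c) ^ t * Real.sqrt ((∑ x, p x ^ 2 / w x) * mass w) / 2 := by
  set h : α → ℝ := fun x => p x / w x - 1 / mass w with hh
  have hpw : (fun x => w x * (h + (fun _ => 1 / mass w) : α → ℝ) x) = p := by
    funext x
    simp only [hh, Pi.add_apply]
    have := (hw x).ne'
    field_simp
    ring
  have hlaw : law K p t = fun x => w x * (iter K t h x + 1 / mass w) := by
    rw [← hpw, law_eq_iter hr, iter_add, iter_const hK]
    rfl
  have hh0 : ∑ x, w x * h x = 0 := by
    simp only [hh, mul_sub, sum_sub_distrib]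
    have e1 : ∑ x, w x * (p x / w x) = 1 := by
      rw [← hp1]
      exact sum_congr rfl fun x _ => by have := (hw x).ne'; field_simp
    have e2 : ∑ x, w x * (1 / mass w) = 1 := by
      rw [← sum_mul]
      change mass w * (1 / mass w) = 1
      field_simp
    rw [e1, e2, sub_self]
  obtain ⟨_, h2⟩ := contract_iter (fun x => (hw x).le) hK hr hp hc h hh0 t
  have hinn : inn w h h ≤ ∑ x, p x ^ 2 / w x := by
    have : inn w h h = (∑ x, p x ^ 2 / w x) - 1 / mass w := by
      have e : ∀ x, w x * h x * h x = p x ^ 2 / w x - (2 / mass w) * p x + (1 / mass w) ^ 2 * w x := by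
        intro x
        simp only [hh]
        have := (hw x).ne'
        field_simp
        ring
      unfold inn
      rw [sum_congr rfl fun x _ => e x, sum_add_distrib, sum_sub_distrib, ← mul_sum, ← mul_sum,
        hp1]
      change _ - _ + _ * mass w = _
      field_simp
      ring
    rw [this]
    have : 0 < 1 / mass w := by positivity
    linarith
  have h3 : tv (law K p t) (fun x => w x / mass w) = (∑ x, w x * |iter K t h x|) / 2 := by
    unfold tv
    congr 1
    refine sum_congr rfl fun x _ => ?_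
    rw [hlaw]
    have : w x * (iter K t h x + 1 / mass w) - w x / mass w = w x * iter K t h x := by
      field_simp
      ring
    simp only [this, abs_mul, abs_of_pos (hw x)]
  rw [h3]
  have h4 : (∑ x, w x * |iter K t h x|) ^ 2 ≤ mass w * inn w (iter K t h) (iter K t h) := by
    have := Finset.sum_mul_sq_le_sq_mul_sq univ (fun x => Real.sqrt (w x))
      (fun x => Real.sqrt (w x) * |iter K t h x|)
    have e1 : ∀ x, Real.sqrt (w x) * (Real.sqrt (w x) * |iter K t h x|) = w x * |iter K t h x| := by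
      intro x; rw [← mul_assoc, Real.mul_self_sqrt (hw x).le]
    have e2 : ∀ x, Real.sqrt (w x) ^ 2 = w x := fun x => Real.sq_sqrt (hw x).le
    have e3 : ∀ x, (Real.sqrt (w x) * |iter K t h x|) ^ 2 = w x * iter K t h x * iter K t h x := by
      intro x
      rw [mul_pow, Real.sq_sqrt (hw x).le, sq_abs]; ring
    simp only [e1, e2, e3] at this
    exact this
  have h5 : (∑ x, w x * |iter K t h x|) ^ 2 ≤
      ((1 - c) ^ t * Real.sqrt ((∑ x, p x ^ 2 / w x) * mass w)) ^ 2 := by
    rw [mul_pow, Real.sq_sqrt]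
    · calc (∑ x, w x * |iter K t h x|) ^ 2 ≤ mass w * inn w (iter K t h) (iter K t h) := h4
        _ ≤ mass w * (((1 - c) ^ 2) ^ t * inn w h h) := mul_le_mul_of_nonneg_left h2 hm.le
        _ ≤ mass w * (((1 - c) ^ 2) ^ t * ∑ x, p x ^ 2 / w x) := by gcongr
        _ = ((1 - c) ^ t) ^ 2 * ((∑ x, p x ^ 2 / w x) * mass w) := by
            rw [← pow_mul, ← pow_mul, mul_comm 2 t]; ring
    · exact mul_nonneg (sum_nonneg fun x _ => div_nonneg (sq_nonneg _) (hw x).le) hm.le
  have hR : 0 ≤ (1 - c) ^ t * Real.sqrt ((∑ x, p x ^ 2 / w x) * mass w) :=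
    mul_nonneg (pow_nonneg (by linarith) _) (Real.sqrt_nonneg _)
  have := abs_le_of_sq_le_sq h5 hR
  have h7 := (abs_le.mp this).2
  linarith

end Crest.Agent.R309.MC
private theorem rz_733e3efdac : type_of% @_root_.Crest.Agent.R309.MC.iter.eq_def := @_root_.Crest.Agent.R309.MC.iter.eq_def -- L241
private theorem rz_8f5f3ac4b6 : type_of% @_root_.Crest.Agent.R309.MC.iter.eq_1 := @_root_.Crest.Agent.R309.MC.iter.eq_1 -- L241
private theorem rz_262d532fcf : type_of% @_root_.Crest.Agent.R309.MC.law.eq_def := @_root_.Crest.Agent.R309.MC.law.eq_def -- L266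
private theorem rz_6976c59513 : type_of% @_root_.Crest.Agent.R309.MC.law.eq_1 := @_root_.Crest.Agent.R309.MC.law.eq_1 -- L266
end

-- ▼ part R309/MCMore
section

/-!
Row 309, abstract Markov chain layer (helper585), part 2: lazy kernels, point starts,
inexact time-inhomogeneous chains, Metropolis kernels.
-/

set_option autoImplicit false
open Finset

namespace Crest.Agent.R309.MC

variable {α : Type*} [Fintype α]

/-! ### lazy kernels are positive semidefinite -/

theorem inn_app_le {w : α → ℝ} (hw : ∀ x, 0 ≤ w x) {K : α → α → ℝ} (hK : IsKer K)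
    (hr : Rev w K) (f : α → ℝ) : |inn w f (app K f)| ≤ inn w f f := by
  have h1 : ∀ s : ℝ, s = 1 ∨ s = -1 →
      0 ≤ inn w f f + s * inn w f (app K f) := by
    intro s hs
    have e : 0 ≤ (∑ x, ∑ y, w x * K x y * (f x + s * f y) ^ 2) / 2 :=
      div_nonneg (sum_nonneg fun x _ => sum_nonneg fun y _ =>
        mul_nonneg (mul_nonneg (hw x) (hK.nonneg x y)) (sq_nonneg _)) (by norm_num)
    have hs2 : s ^ 2 = 1 := by rcases hs with h | h <;> rw [h] <;> norm_num
    have e2 : ∀ x y, w x * K x y * (f x + s * f y) ^ 2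
        = w x * K x y * f x ^ 2 + w x * K x y * f y ^ 2 + 2 * s * (w x * f x * (K x y * f y)) := by
      intro x y
      calc w x * K x y * (f x + s * f y) ^ 2
          = w x * K x y * f x ^ 2 + s ^ 2 * (w x * K x y * f y ^ 2)
            + 2 * s * (w x * f x * (K x y * f y)) := by ring
        _ = _ := by rw [hs2]; ring
    simp only [e2, sum_add_distrib, ← mul_sum] at e
    have h1 : ∑ x, ∑ y, w x * K x y * f x ^ 2 = inn w f f := by
      unfold inn
      refine sum_congr rfl fun x _ => ?_
      calc ∑ y, w x * K x y * f x ^ 2 = (∑ y, K x y) * (w x * f x ^ 2) := by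
            rw [sum_mul]; exact sum_congr rfl fun y _ => by ring
        _ = w x * f x * f x := by rw [hK.sum_one]; ring
    have h2 : ∑ x, ∑ y, w x * K x y * f y ^ 2 = inn w f f := by
      rw [← h1, sum_comm]
      exact sum_congr rfl fun x _ => sum_congr rfl fun y _ => by rw [hr y x]
    have h3' : ∑ x, w x * f x * ∑ y, K x y * f y = inn w f (app K f) := rfl
    rw [h1, h2, h3'] at e
    linarith
  have a := h1 1 (Or.inl rfl)
  have b := h1 (-1) (Or.inr rfl)
  rw [abs_le]
  constructor <;> linarith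

/-- Lazy reversible kernels are positive semidefinite. -/
theorem psd_of_lazy [DecidableEq α] {w : α → ℝ} (hw : ∀ x, 0 ≤ w x) {K : α → α → ℝ}
    (hK : IsKer K) (hr : Rev w K) (hl : ∀ x, 1 / 2 ≤ K x x) : PSD w K := by
  intro f
  set Q : α → α → ℝ := fun x y => 2 * K x y - if x = y then 1 else 0 with hQ
  have hQk : IsKer Q := by
    constructor
    · intro x y
      simp only [hQ]
      split_ifs with h
      · subst h; linarith [hl x]
      · have := hK.nonneg x y; linarith
    · intro x
      simp only [hQ, sum_sub_distrib, ← mul_sum, hK.sum_one, sum_ite_eq, mem_univ, if_true]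
      norm_num
  have hQr : Rev w Q := by
    intro x y
    simp only [hQ, mul_sub]
    by_cases h : x = y
    · subst h; rfl
    · rw [if_neg h, if_neg (Ne.symm h)]
      have := hr x y
      linarith
  have hQa : app Q f = (2 : ℝ) • app K f + (-1 : ℝ) • f := by
    funext x
    simp only [app, hQ, sub_mul, sum_sub_distrib, ite_mul, one_mul, zero_mul, sum_ite_eq,
      mem_univ, if_true, Pi.add_apply, Pi.smul_apply, smul_eq_mul, mul_sum]
    rw [sum_congr rfl fun y _ => mul_assoc 2 (K x y) (f y)]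
    ring
  have h := (abs_le.mp (inn_app_le hw hQk hQr f)).1
  rw [hQa, inn_add_right, inn_smul_right, inn_smul_right] at h
  linarith

/-! ### point starts -/

/-- The point mass. -/
def pt [DecidableEq α] (x : α) (y : α) : ℝ := if y = x then 1 else 0

theorem pt_sum [DecidableEq α] (x : α) : ∑ y, pt x y = 1 := by simp [pt]


theorem tv_law_pt [DecidableEq α] {w : α → ℝ} (hw : ∀ x, 0 < w x) {K : α → α → ℝ}
    (hK : IsKer K) (hr : Rev w K) (hp : PSD w K) {c : ℝ} (hc : Poinc w K c) (hc1 : c ≤ 1)
    (x : α) (t : ℕ) :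
    tv (law K (pt x) t) (fun y => w y / mass w) ≤
      (1 - c) ^ t * Real.sqrt (mass w / w x) / 2 := by
  have hm : 0 < mass w := sum_pos (fun y _ => hw y) ⟨x, mem_univ x⟩
  have h := tv_law_le_of_density hw hK hr hp hc hc1 hm (pt x) (pt_sum x) t
  have e : ∑ y, pt x y ^ 2 / w y = 1 / w x := by
    rw [sum_eq_single x]
    · simp [pt]
    · intro y _ hy
      simp [pt, hy]
    · intro h; exact absurd (mem_univ x) h
  rw [e] at h
  have e2 : 1 / w x * mass w = mass w / w x := by ring
  rwa [e2] at h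

/-- Quantitative form: after `t ≥ (1/c) * (L + log (1/ε))` steps with `mass w / w x ≤ exp (2 L)`,
the total variation distance is at most `ε`. -/
theorem tv_law_pt_le [DecidableEq α] {w : α → ℝ} (hw : ∀ x, 0 < w x) {K : α → α → ℝ}
    (hK : IsKer K) (hr : Rev w K) (hp : PSD w K) {c : ℝ} (hc : Poinc w K c) (hc0 : 0 < c)
    (hc1 : c ≤ 1) (x : α) (t : ℕ) {L ε : ℝ} (hε : 0 < ε)
    (hL : mass w / w x ≤ Real.exp (2 * L)) (ht : (L + Real.log (1 / ε)) / c ≤ t) :
    tv (law K (pt x) t) (fun y => w y / mass w) ≤ ε := by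
  refine (tv_law_pt hw hK hr hp hc hc1 x t).trans ?_
  have h1 : (1 - c) ^ t ≤ Real.exp (-(c * t)) := by
    have := Real.one_sub_le_exp_neg c
    calc (1 - c) ^ t ≤ (Real.exp (-c)) ^ t := pow_le_pow_left₀ (by linarith) this t
      _ = Real.exp (-(c * t)) := by rw [← Real.exp_nat_mul]; ring_nf
  have h2 : Real.sqrt (mass w / w x) ≤ Real.exp L := by
    rw [show Real.exp L = Real.sqrt (Real.exp (2 * L)) by
      rw [show (2 * L) = L + L by ring, Real.exp_add, Real.sqrt_mul_self (Real.exp_nonneg L)]]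
    exact Real.sqrt_le_sqrt hL
  have h3 : L + Real.log (1 / ε) ≤ c * t := by
    rw [div_le_iff₀ hc0] at ht
    linarith
  have h4 : Real.exp (-(c * t)) * Real.exp L ≤ ε := by
    rw [← Real.exp_add]
    calc Real.exp (-(c * t) + L) ≤ Real.exp (-Real.log (1 / ε)) :=
          Real.exp_le_exp.mpr (by linarith)
      _ = ε := by rw [one_div, Real.log_inv, neg_neg, Real.exp_log hε]
  have h5 : 0 ≤ (1 - c) ^ t := pow_nonneg (by linarith) t
  calc (1 - c) ^ t * Real.sqrt (mass w / w x) / 2
      ≤ Real.exp (-(c * t)) * Real.exp L / 2 := by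
        gcongr
    _ ≤ ε / 2 := by gcongr
    _ ≤ ε := by linarith

/-! ### inexact chains -/






/-! ### Metropolis kernels -/

section Metropolis

variable [DecidableEq α]

/-- The (lazy) Metropolis kernel with symmetric sub-stochastic proposal `S` and acceptance
probabilities `a`. -/
noncomputable def metro (S a : α → α → ℝ) (x y : α) : ℝ :=
  if y = x then 1 - ∑ z ∈ univ.erase x, S x z * a x z else S x y * a x y

/-- Proposals: symmetric, nonnegative, off-diagonal mass at most `1/2`. -/
structure IsProp (S : α → α → ℝ) : Prop where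
  nonneg : ∀ x y, 0 ≤ S x y
  symm : ∀ x y, S x y = S y x
  half : ∀ x, ∑ z ∈ univ.erase x, S x z ≤ 1 / 2

theorem metro_sum (S a : α → α → ℝ) (x : α) : ∑ y, metro S a x y = 1 := by
  rw [← add_sum_erase univ _ (mem_univ x)]
  have : ∑ y ∈ univ.erase x, metro S a x y = ∑ z ∈ univ.erase x, S x z * a x z := by
    refine sum_congr rfl fun y hy => ?_
    rw [metro, if_neg (ne_of_mem_erase hy)]
  rw [this, metro, if_pos rfl]
  ring

theorem metro_offdiag_le {S : α → α → ℝ} (hS : IsProp S) {a : α → α → ℝ}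
    (ha0 : ∀ x y, 0 ≤ a x y) (ha1 : ∀ x y, a x y ≤ 1) (x : α) :
    ∑ z ∈ univ.erase x, S x z * a x z ≤ 1 / 2 := by
  refine le_trans (sum_le_sum fun z _ => ?_) (hS.half x)
  exact mul_le_of_le_one_right (hS.nonneg x z) (ha1 x z)

theorem metro_isKer {S : α → α → ℝ} (hS : IsProp S) {a : α → α → ℝ}
    (ha0 : ∀ x y, 0 ≤ a x y) (ha1 : ∀ x y, a x y ≤ 1) : IsKer (metro S a) := by
  constructor
  · intro x y
    unfold metro
    split_ifs with h
    · have := metro_offdiag_le hS ha0 ha1 x
      linarith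
    · exact mul_nonneg (hS.nonneg x y) (ha0 x y)
  · exact metro_sum S a

theorem metro_lazy {S : α → α → ℝ} (hS : IsProp S) {a : α → α → ℝ}
    (ha0 : ∀ x y, 0 ≤ a x y) (ha1 : ∀ x y, a x y ≤ 1) (x : α) : 1 / 2 ≤ metro S a x x := by
  unfold metro
  rw [if_pos rfl]
  have := metro_offdiag_le hS ha0 ha1 x
  linarith

/-- The exact Metropolis acceptance. -/
noncomputable def acc (w : α → ℝ) (x y : α) : ℝ := min 1 (w y / w x)

theorem acc_nonneg {w : α → ℝ} (hw : ∀ x, 0 < w x) (x y : α) : 0 ≤ acc w x y :=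
  le_min zero_le_one (div_nonneg (hw y).le (hw x).le)

theorem acc_le_one (w : α → ℝ) (x y : α) : acc w x y ≤ 1 := min_le_left _ _






end Metropolis

end Crest.Agent.R309.MC
end

-- ▼ part R309/MCMetro

/-!
Row 309, abstract Markov chain layer (helper585), part 3: Metropolis chains with a general
(reversible, exactly computable) acceptance function `a`.
-/

set_option autoImplicit false
open Finset

namespace Crest.Agent.R309.MC

variable {α : Type*} [Fintype α] [DecidableEq α]

/-- A general acceptance function for the weight `w` and the proposal `S`: detailed balance on the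
support of the proposal. -/
structure IsAcc (w : α → ℝ) (S a : α → α → ℝ) : Prop where
  nonneg : ∀ x y, 0 ≤ a x y
  le_one : ∀ x y, a x y ≤ 1
  bal : ∀ x y, S x y ≠ 0 → w x * a x y = w y * a y x

theorem metro_rev_gen {w : α → ℝ} {S : α → α → ℝ} (hS : IsProp S) {a : α → α → ℝ}
    (ha : IsAcc w S a) : Rev w (metro S a) := by
  intro x y
  by_cases h : y = x
  · subst h; rfl
  · unfold metro
    rw [if_neg h, if_neg (Ne.symm h)]
    by_cases hs : S x y = 0
    · rw [← hS.symm x y, hs]; simp
    · calc w x * (S x y * a x y) = S x y * (w x * a x y) := by ring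
        _ = S y x * (w y * a y x) := by rw [ha.bal x y hs, hS.symm x y]
        _ = w y * (S y x * a y x) := by ring

/-- Dirichlet form of a Metropolis chain with general acceptance. -/
theorem dir_metro_gen (w : α → ℝ) (S a : α → α → ℝ) (f : α → ℝ) :
    dir w (metro S a) f =
      (∑ x, ∑ y, S x y * (w x * a x y) * (f x - f y) ^ 2) / 2 := by
  unfold dir
  congr 1
  refine sum_congr rfl fun x _ => sum_congr rfl fun y _ => ?_
  by_cases h : y = x
  · subst h; simp
  · rw [metro, if_neg h]; ring

/-- If the acceptance is at least `c₀` times the Metropolis acceptance, so is the Dirichlet form. -/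
theorem dir_metro_ge {w : α → ℝ} {S : α → α → ℝ} (hS : IsProp S) {a : α → α → ℝ} {c₀ : ℝ}
    (hc : ∀ x y, S x y ≠ 0 → c₀ * min (w x) (w y) ≤ w x * a x y) (f : α → ℝ) :
    c₀ * ((∑ x, ∑ y, S x y * min (w x) (w y) * (f x - f y) ^ 2) / 2) ≤ dir w (metro S a) f := by
  rw [dir_metro_gen, ← mul_div_assoc, mul_sum]
  refine div_le_div_of_nonneg_right (sum_le_sum fun x _ => ?_) (by norm_num)
  rw [mul_sum]
  refine sum_le_sum fun y _ => ?_
  by_cases hs : S x y = 0
  · simp [hs]
  · have h1 := hc x y hs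
    have h2 : 0 ≤ S x y * (f x - f y) ^ 2 := mul_nonneg (hS.nonneg x y) (sq_nonneg _)
    nlinarith

/-- **Exact Metropolis chain, general acceptance**: mixing from every starting point, from a
Poincaré inequality in the form
`varU w f ≤ C * (∑ x y, S x y * min (w x) (w y) * (f x - f y)^2) / 2`. -/
theorem tv_metro_exact {w : α → ℝ} (hw : ∀ x, 0 < w x) {S : α → α → ℝ} (hS : IsProp S)
    {a : α → α → ℝ} (ha : IsAcc w S a) {c₀ : ℝ} (hc0 : 0 < c₀) (hc1 : c₀ ≤ 1)
    (hc : ∀ x y, S x y ≠ 0 → c₀ * min (w x) (w y) ≤ w x * a x y)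
    {C : ℝ} (hC : 1 ≤ C)
    (hP : ∀ f : α → ℝ, varU w f ≤ C *
      ((∑ x, ∑ y, S x y * min (w x) (w y) * (f x - f y) ^ 2) / 2))
    (x : α) (T : ℕ) {L ε : ℝ} (hε : 0 < ε) (hL : mass w / w x ≤ Real.exp (2 * L))
    (hT : C / c₀ * (L + Real.log (1 / ε)) ≤ T) :
    tv (law (metro S a) (pt x) T) (fun y => w y / mass w) ≤ ε := by
  have hK := metro_isKer hS ha.nonneg ha.le_one
  have hr := metro_rev_gen hS ha
  have hp := psd_of_lazy (fun x => (hw x).le) hK hr (metro_lazy hS ha.nonneg ha.le_one)
  have hC0 : 0 < C := by linarith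
  have hc' : Poinc w (metro S a) (c₀ / C) := by
    intro f
    have h1 := dir_metro_ge (w := w) hS hc f
    have h2 := hP f
    calc c₀ / C * varU w f ≤ c₀ / C * (C *
          ((∑ x, ∑ y, S x y * min (w x) (w y) * (f x - f y) ^ 2) / 2)) := by
          gcongr
      _ = c₀ * ((∑ x, ∑ y, S x y * min (w x) (w y) * (f x - f y) ^ 2) / 2) := by
          field_simp
      _ ≤ _ := h1
  exact tv_law_pt_le hw hK hr hp hc' (by positivity)
    (by rw [div_le_one hC0]; linarith) x T hε hL
    (by rw [div_div_eq_mul_div]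
        calc (L + Real.log (1 / ε)) * C / c₀ = C / c₀ * (L + Real.log (1 / ε)) := by ring
          _ ≤ T := hT)

/-- The events form. -/
theorem abs_law_sub_le_of_tv {w : α → ℝ} (hm : mass w ≠ 0) {K : α → α → ℝ}
    (hK : IsKer K) (x : α) (T : ℕ) {ε : ℝ}
    (h : tv (law K (pt x) T) (fun y => w y / mass w) ≤ ε) (s : Finset α) :
    |∑ y ∈ s, law K (pt x) T y - (∑ y ∈ s, w y) / mass w| ≤ ε := by
  have h1 : ∑ y, law K (pt x) T y = ∑ y, w y / mass w := by
    rw [law_sum hK, pt_sum, ← sum_div]
    exact (div_self hm).symm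
  have := abs_sum_sub_le_tv h1 s
  rw [sum_div]
  exact this.trans h

omit [Fintype α] [DecidableEq α] in
/-- Product of reversible acceptance functions: if `a₁` balances `w₁` and `a₂` balances `w₂` then
`a₁ * a₂` balances `w₁ * w₂`. -/
theorem IsAcc.mul {w₁ w₂ : α → ℝ} {S a₁ a₂ : α → α → ℝ} (h₁ : IsAcc w₁ S a₁)
    (h₂ : IsAcc w₂ S a₂) :
    IsAcc (fun x => w₁ x * w₂ x) S (fun x y => a₁ x y * a₂ x y) := by
  refine ⟨fun x y => mul_nonneg (h₁.nonneg x y) (h₂.nonneg x y),
    fun x y => mul_le_one₀ (h₁.le_one x y) (h₂.nonneg x y) (h₂.le_one x y), fun x y hs => ?_⟩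
  have e1 := h₁.bal x y hs
  have e2 := h₂.bal x y hs
  calc w₁ x * w₂ x * (a₁ x y * a₂ x y) = (w₁ x * a₁ x y) * (w₂ x * a₂ x y) := by ring
    _ = (w₁ y * a₁ y x) * (w₂ y * a₂ y x) := by rw [e1, e2]
    _ = w₁ y * w₂ y * (a₁ y x * a₂ y x) := by ring



end Crest.Agent.R309.MC
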