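import Mathlib
import Crest.Agent.R309.MCMetro
import Crest.Agent.R309.Tape
import Crest.Agent.Lib.PT.ArithPure

/-!
Row 309 (helper585): glue between the tape calculus (`Tape.avg`, `Tape.runSteps`) and the finite
Markov chain layer (`MC.law`), and a generic Metropolis step reading fresh bits.
-/

set_option autoImplicit false
open Finset

namespace Crest.Agent.R309.MC

open Crest.Agent.R309.Tape Crest.Agent.Lib.PT.Arith

/-! ### uniform numbers from fresh bits -/

/-- reading `q` fresh bits as a number gives a uniform number below `2 ^ q` -/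
theorem avg_msb (q : ℕ) (g : ℕ → ℝ) :
    avg q (fun l => g (msb l)) = (∑ i ∈ range (2 ^ q), g i) / 2 ^ q := by
  induction q generalizing g with
  | zero => simp
  | succ q ih =>
    rw [avg_succ]
    have e1 : avg q (fun l => g (msb (false :: l))) = avg q (fun l => g (msb l)) := by
      refine avg_congr fun l _ => ?_
      rw [msb_cons]; simp
    have e2 : avg q (fun l => g (msb (true :: l))) = avg q (fun l => g (2 ^ q + msb l)) := by
      refine avg_congr fun l hl => ?_
      rw [msb_cons, hl]; simp
    rw [e1, e2, ih g, ih (fun i => g (2 ^ q + i)), show (2 : ℕ) ^ (q + 1) = 2 ^ q + 2 ^ q by ring,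
      sum_range_add]
    field_simp
    ring

/-- the probability that a uniform `m`-bit number is below `n` -/
theorem pr_msb_lt (m n : ℕ) (h : n ≤ 2 ^ m) : pr m (fun l => msb l < n) = n / 2 ^ m := by
  unfold pr
  rw [avg_msb m (fun i => ind (i < n))]
  congr 1
  have : ∀ i ∈ range (2 ^ m), ind (i < n) = if i < n then (1 : ℝ) else 0 := by
    intro i _
    by_cases hi : i < n
    · rw [ind_of hi, if_pos hi]
    · rw [ind_of_not hi, if_neg hi]
  rw [sum_congr rfl this, ← sum_filter, sum_const, nsmul_eq_mul, mul_one]
  congr 1
  have : (range (2 ^ m)).filter (fun i => i < n) = range n := by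
    ext i
    simp only [mem_filter, mem_range]
    omega
  rw [this, card_range]

theorem avg_ite_msb_lt (m n : ℕ) (h : n ≤ 2 ^ m) (u v : ℝ) :
    avg m (fun l => if msb l < n then u else v) = v + n / 2 ^ m * (u - v) := by
  have : ∀ l : List Bool, (if msb l < n then u else v) = v + ind (msb l < n) * (u - v) := by
    intro l
    by_cases hl : msb l < n
    · rw [ind_of hl, if_pos hl]; ring
    · rw [ind_of_not hl, if_neg hl]; ring
  simp only [this]
  rw [avg_add, avg_const, avg_mul_right]
  congr 2
  exact pr_msb_lt m n h

/-! ### programs implementing kernels -/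

section Impl

variable {α : Type*} [Fintype α] {S : Type*}

/-- The randomised step `f` (using `r` fresh bits) implements the kernel `K` on the finite state
space `α`, encoded in `S` by `enc`. -/
def Impl (f : S → List Bool → S) (r : ℕ) (enc : α → S) (K : α → α → ℝ) : Prop :=
  ∀ (φ : S → ℝ) (x : α), markov f r φ (enc x) = ∑ y, K x y * φ (enc y)

theorem law_pt_succ' [DecidableEq α] (K : α → α → ℝ) (p : α → ℝ) (T : ℕ) (ψ : α → ℝ) :
    ∑ y, law K p (T + 1) y * ψ y = ∑ y, law K p T y * app K ψ y := by
  simp only [law, push, app, sum_mul, mul_sum]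
  rw [sum_comm]
  exact sum_congr rfl fun x _ => sum_congr rfl fun y _ => by ring

/-- **Glue**: the law of the program after `T` steps is the law of the chain. -/
theorem Impl.avg_runSteps [DecidableEq α] {f : S → List Bool → S} {r : ℕ} {enc : α → S}
    {K : α → α → ℝ} (h : Impl f r enc K) (x : α) (T : ℕ) (φ : S → ℝ) :
    avg (T * r) (fun l => φ (runSteps f r T (enc x) l)) =
      ∑ y, law K (pt x) T y * φ (enc y) := by
  rw [Tape.avg_runSteps]
  have key : ∀ (T : ℕ) (p : α → ℝ) (φ : S → ℝ),
      ∑ y, p y * (markov f r)^[T] φ (enc y) = ∑ y, law K p T y * φ (enc y) := by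
    intro T
    induction T with
    | zero => intro p φ; rfl
    | succ T ih =>
      intro p φ
      rw [Function.iterate_succ_apply, ih p (markov f r φ),
        law_pt_succ' K p T (fun y => φ (enc y))]
      refine sum_congr rfl fun y _ => ?_
      rw [h φ y]; rfl
  have h1 := key T (pt x) φ
  rw [← h1]
  simp [pt]

/-- Probability form of the glue. -/
theorem Impl.pr_runSteps [DecidableEq α] {f : S → List Bool → S} {r : ℕ} {enc : α → S}
    {K : α → α → ℝ} (h : Impl f r enc K) (x : α) (T : ℕ) (P : S → Prop) [DecidablePred P] :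
    pr (T * r) (fun l => P (runSteps f r T (enc x) l)) =
      ∑ y ∈ univ.filter (fun y => P (enc y)), law K (pt x) T y := by
  unfold pr
  rw [h.avg_runSteps x T (fun s => ind (P s)), sum_filter]
  refine sum_congr rfl fun y _ => ?_
  by_cases hy : P (enc y)
  · rw [ind_of hy, if_pos hy, mul_one]
  · rw [ind_of_not hy, if_neg hy, mul_zero]


end Impl

/-! ### the generic Metropolis step -/

section Step

variable {α : Type*} [Fintype α] [DecidableEq α] {S : Type*}

/-- One Metropolis step on the tape: `q` bits choose a move index `i`, the proposal is `mv s i`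
(if any), the next bits `U` decide: accept iff `U < num s s'`. -/
def mstep (q : ℕ) (mv : S → ℕ → Option S) (num : S → S → ℕ) (s : S) (l : List Bool) : S :=
  match mv s (msb (l.take q)) with
  | none => s
  | some s' => if msb (l.drop q) < num s s' then s' else s

/-- The proposal matrix of a family of moves. -/
noncomputable def prop (q : ℕ) (M : α → ℕ → Option α) (x y : α) : ℝ :=
  ((range (2 ^ q)).filter (fun i => M x i = some y)).card / 2 ^ q

theorem sum_prop_mul (q : ℕ) (M : α → ℕ → Option α) (x : α) (ψ : α → ℝ) :
    ∑ y, prop q M x y * ψ y =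
      (∑ i ∈ range (2 ^ q), (M x i).elim 0 ψ) / 2 ^ q := by
  simp only [prop, div_mul_eq_mul_div, ← sum_div]
  congr 1
  have : ∀ y, (((range (2 ^ q)).filter (fun i => M x i = some y)).card : ℝ) * ψ y =
      ∑ i ∈ range (2 ^ q), if M x i = some y then ψ y else 0 := by
    intro y
    rw [← sum_filter, sum_const, nsmul_eq_mul]
  simp only [this]
  rw [sum_comm]
  refine sum_congr rfl fun i _ => ?_
  cases h : M x i with
  | none => simp
  | some z => simp [Option.some.injEq]

theorem metro_apply_sum (P a : α → α → ℝ) (x : α) (ψ : α → ℝ) :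
    ∑ y, metro P a x y * ψ y = ψ x + ∑ y, P x y * (a x y * (ψ y - ψ x)) := by
  have h1 : ∀ y, metro P a x y * ψ y =
      (if y = x then ψ x else 0) + (P x y * (a x y * (ψ y - ψ x)) +
        ((if y = x then - ∑ z ∈ univ.erase x, P x z * a x z * ψ x else 0) +
          (if y = x then 0 else P x y * a x y * ψ x))) := by
    intro y
    unfold metro
    split_ifs with h
    · subst h
      rw [← sum_mul]; ring
    · ring
  simp only [h1, sum_add_distrib, sum_ite_eq', mem_univ, if_true]
  have h2 : ∑ y, (if y = x then 0 else P x y * a x y * ψ x) =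
      ∑ z ∈ univ.erase x, P x z * a x z * ψ x := by
    rw [← add_sum_erase univ _ (mem_univ x), if_pos rfl, zero_add]
    exact sum_congr rfl fun z hz => by rw [if_neg (ne_of_mem_erase hz)]
  rw [h2]
  ring

/-- **The tape step implements the Metropolis kernel**, exactly. -/
theorem impl_mstep {q m : ℕ} {mv : S → ℕ → Option S} {num : S → S → ℕ} {enc : α → S}
    {M : α → ℕ → Option α} {a : α → α → ℝ}
    (hmv : ∀ x, ∀ i < 2 ^ q, mv (enc x) i = (M x i).map enc)
    (hnum : ∀ x y, ∀ i < 2 ^ q, M x i = some y → num (enc x) (enc y) ≤ 2 ^ m)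
    (ha : ∀ x y, ∀ i < 2 ^ q, M x i = some y → (num (enc x) (enc y) : ℝ) = 2 ^ m * a x y) :
    Impl (mstep q mv num) (q + m) enc (metro (prop q M) a) := by
  intro φ x
  rw [metro_apply_sum _ _ x (fun y => φ (enc y))]
  unfold markov
  have h1 : avg (q + m) (fun l => φ (mstep q mv num (enc x) l)) =
      avg q (fun l => avg m (fun l' => φ (match mv (enc x) (msb l) with
        | none => enc x
        | some s' => if msb l' < num (enc x) s' then s' else enc x))) :=
    avg_take_drop q m (fun l l' => φ (match mv (enc x) (msb l) with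
        | none => enc x
        | some s' => if msb l' < num (enc x) s' then s' else enc x))
  rw [h1, avg_msb q (fun i => avg m (fun l' => φ (match mv (enc x) i with
        | none => enc x
        | some s' => if msb l' < num (enc x) s' then s' else enc x)))]
  rw [sum_prop_mul q M x (fun y => a x y * (φ (enc y) - φ (enc x)))]
  have h2 : φ (enc x) = (∑ i ∈ range (2 ^ q), φ (enc x)) / 2 ^ q := by
    rw [sum_const, card_range, nsmul_eq_mul]
    push_cast
    field_simp
  conv_rhs => rw [h2]
  rw [← add_div, ← sum_add_distrib]
  congr 1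
  refine sum_congr rfl fun i hi => ?_
  have hi' := mem_range.mp hi
  rw [hmv x i hi']
  cases h : M x i with
  | none => simp
  | some y =>
    simp only [Option.map_some]
    have h3 : ∀ l' : List Bool, φ (if msb l' < num (enc x) (enc y) then enc y else enc x) =
        if msb l' < num (enc x) (enc y) then φ (enc y) else φ (enc x) := by
      intro l'; split_ifs <;> rfl
    simp only [h3]
    rw [avg_ite_msb_lt m _ (hnum x y i hi' h), ha x y i hi' h]
    rw [mul_div_cancel_left₀ _ (by positivity)]
    rw [← h2]
    rfl

end Step

end Crest.Agent.R309.MC
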