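import Mathlib
import Crest.Agent.R309.MCTape

/-!
Row 309 (helper585): the single-cell `±1` Metropolis chain on a box `∏ [0, b e]`, as a program on
lists of naturals reading a bit tape, and its mixing from a Poincaré inequality.
-/

set_option autoImplicit false
open Finset

namespace Crest.Agent.R309.MC

open Crest.Agent.R309.Tape Crest.Agent.Lib.PT.Arith

/-! ### proposals from families of moves -/

section

variable {α : Type*} [Fintype α] [DecidableEq α]

theorem isProp_prop {q : ℕ} {M : α → ℕ → Option α} (fl : ℕ → ℕ)
    (hfl : ∀ i < 2 ^ q, fl i < 2 ^ q) (hfl2 : ∀ i, fl (fl i) = i)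
    (hM : ∀ x y, ∀ i < 2 ^ q, M x i = some y → M y (fl i) = some x)
    (hc : ∀ x, 2 * ((range (2 ^ q)).filter (fun i => M x i ≠ none)).card ≤ 2 ^ q) :
    IsProp (prop q M) := by
  refine ⟨fun x y => by unfold prop; positivity, fun x y => ?_, fun x => ?_⟩
  · unfold prop
    congr 2
    refine card_bij' (fun i _ => fl i) (fun i _ => fl i) ?_ ?_ ?_ ?_
    · intro i hi
      rw [mem_filter, mem_range] at hi ⊢
      exact ⟨hfl i hi.1, hM x y i hi.1 hi.2⟩
    · intro i hi
      rw [mem_filter, mem_range] at hi ⊢
      exact ⟨hfl i hi.1, hM y x i hi.1 hi.2⟩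
    · intro i _; exact hfl2 i
    · intro i _; exact hfl2 i
  · have h1 : ∑ z ∈ univ.erase x, prop q M x z ≤ ∑ z, prop q M x z * 1 := by
      simp only [mul_one]
      exact sum_le_sum_of_subset_of_nonneg (erase_subset _ _)
        (fun z _ _ => by unfold prop; positivity)
    rw [sum_prop_mul q M x (fun _ => (1 : ℝ))] at h1
    have h2 : ∑ i ∈ range (2 ^ q), (M x i).elim 0 (fun _ => (1 : ℝ)) =
        ((range (2 ^ q)).filter (fun i => M x i ≠ none)).card := by
      rw [card_eq_sum_ones, sum_filter]
      push_cast
      refine sum_congr rfl fun i _ => ?_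
      cases M x i <;> simp
    rw [h2] at h1
    refine h1.trans ?_
    rw [div_le_div_iff₀ (by positivity) (by norm_num)]
    have := hc x
    have : ((2 * ((range (2 ^ q)).filter (fun i => M x i ≠ none)).card : ℕ) : ℝ) ≤
        ((2 ^ q : ℕ) : ℝ) := Nat.cast_le.mpr this
    push_cast at this
    linarith

end

/-! ### the box -/

/-- configurations of `M` cells with `x e ≤ b e` -/
abbrev Box {M : ℕ} (b : Fin M → ℕ) : Type := (e : Fin M) → Fin (b e + 1)

variable {M : ℕ} {b : Fin M → ℕ}

/-- encoding of a configuration as a list of naturals -/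
def enc (x : Box b) : List ℕ := List.ofFn (fun e => (x e : ℕ))

theorem enc_injective : Function.Injective (enc (b := b)) := by
  intro x y h
  have := List.ofFn_injective h
  funext e
  exact Fin.ext (congrFun this e)

@[simp] theorem length_enc (x : Box b) : (enc x).length = M := by simp [enc]

/-- increase coordinate `e` by one (no change at the upper end) -/
def inc (x : Box b) (e : Fin M) : Box b :=
  if h : (x e : ℕ) < b e then Function.update x e ⟨x e + 1, by omega⟩ else x

/-- decrease coordinate `e` by one (no change at the lower end) -/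
def dec (x : Box b) (e : Fin M) : Box b :=
  Function.update x e ⟨x e - 1, by have := (x e).isLt; omega⟩















/-- flip the last bit of the index -/
def flipIdx (i : ℕ) : ℕ := if i % 2 = 0 then i + 1 else i - 1

theorem flipIdx_flipIdx (i : ℕ) : flipIdx (flipIdx i) = i := by
  have e : ∀ j, flipIdx j = if j % 2 = 0 then j + 1 else j - 1 := fun _ => rfl
  rcases Nat.mod_two_eq_zero_or_one i with h | h
  · rw [e i, if_pos h, e (i + 1), if_neg (by omega)]; omega
  · rw [e i, if_neg (by omega), e (i - 1), if_pos (by omega)]; omega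







end Crest.Agent.R309.MC
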