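import Crest.Agent.R309.Conv2
import Crest.Agent.R309.Count632A
import Crest.Agent.R309.PTSolve

-- ▼ part R309/Count632B
section

/-!
# Bisection of table instances
-/

set_option autoImplicit false

namespace Crest.Agent.R309.Count632

open Finset
open Crest.Agent.Lib.PT Crest.Agent.R309.Iface Crest.Agent.R309.Conv Crest.Tables

/-! ### functions -/

section fn

variable {m n : ℕ}

/-- change one entry of a matrix -/
def setM (b : Fin m → Fin n → ℕ) (i : Fin m) (j : Fin n) (v : ℕ) : Fin m → Fin n → ℕ :=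
  Function.update b i (Function.update (b i) j v)

theorem setM_same (b : Fin m → Fin n → ℕ) (i : Fin m) (j : Fin n) (v : ℕ) : setM b i j v i j = v := by
  simp [setM]

theorem setM_apply (b : Fin m → Fin n → ℕ) (i : Fin m) (j : Fin n) (v : ℕ) (i' : Fin m) (j' : Fin n) :
    setM b i j v i' j' = if i' = i ∧ j' = j then v else b i' j' := by
  unfold setM
  by_cases hi : i' = i
  · subst hi
    by_cases hj : j' = j
    · subst hj; simp
    · simp [hj]
  · simp [hi]

theorem filter_lo (r : Fin m → ℕ) (c : Fin n → ℕ) (b : Fin m → Fin n → ℕ) (i : Fin m) (j : Fin n)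
    (v : ℕ) (hv : v ≤ b i j) :
    (ftabs r c b).filter (fun X => X i j ≤ v) = ftabs r c (setM b i j v) := by
  ext X
  rw [mem_filter, mem_ftabs, mem_ftabs]
  constructor
  · rintro ⟨⟨h1, h2⟩, h3⟩
    refine ⟨fun i' j' => ?_, h2⟩
    rw [setM_apply]
    split_ifs with h
    · rw [h.1, h.2]; exact h3
    · exact h1 i' j'
  · rintro ⟨h1, h2⟩
    have h3 : X i j ≤ v := by simpa [setM_same] using h1 i j
    refine ⟨⟨fun i' j' => ?_, h2⟩, h3⟩
    have := h1 i' j'
    rw [setM_apply] at this
    split_ifs at this with h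
    · rw [h.1, h.2]; exact h3.trans hv
    · exact this

theorem sum_setM_row (X : Fin m → Fin n → ℕ) (i : Fin m) (j : Fin n) (v : ℕ) (i' : Fin m) :
    (∑ j', setM X i j v i' j') + (if i' = i then X i j else 0) =
      (∑ j', X i' j') + (if i' = i then v else 0) := by
  by_cases h : i' = i
  · subst h
    simp only [if_true]
    have e1 := Finset.add_sum_erase (univ : Finset (Fin n)) (fun j' => setM X i' j v i' j') (mem_univ j)
    have e2 := Finset.add_sum_erase (univ : Finset (Fin n)) (fun j' => X i' j') (mem_univ j)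
    have e3 : ∑ j' ∈ (univ : Finset (Fin n)).erase j, setM X i' j v i' j' =
        ∑ j' ∈ (univ : Finset (Fin n)).erase j, X i' j' := by
      refine Finset.sum_congr rfl fun j' hj' => ?_
      rw [setM_apply, if_neg]
      rintro ⟨_, h⟩
      exact (Finset.ne_of_mem_erase hj') h
    rw [← e1, ← e2, e3]
    simp only [setM_same]
    ring
  · simp only [h, if_false, add_zero]
    refine Finset.sum_congr rfl fun j' _ => ?_
    rw [setM_apply, if_neg]
    rintro ⟨h', _⟩
    exact h h'

theorem sum_setM_col (X : Fin m → Fin n → ℕ) (i : Fin m) (j : Fin n) (v : ℕ) (j' : Fin n) :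
    (∑ i', setM X i j v i' j') + (if j' = j then X i j else 0) =
      (∑ i', X i' j') + (if j' = j then v else 0) := by
  by_cases h : j' = j
  · subst h
    simp only [if_true]
    have e1 := Finset.add_sum_erase (univ : Finset (Fin m)) (fun i' => setM X i j' v i' j') (mem_univ i)
    have e2 := Finset.add_sum_erase (univ : Finset (Fin m)) (fun i' => X i' j') (mem_univ i)
    have e3 : ∑ i' ∈ (univ : Finset (Fin m)).erase i, setM X i j' v i' j' =
        ∑ i' ∈ (univ : Finset (Fin m)).erase i, X i' j' := by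
      refine Finset.sum_congr rfl fun i' hi' => ?_
      rw [setM_apply, if_neg]
      rintro ⟨h, _⟩
      exact (Finset.ne_of_mem_erase hi') h
    rw [← e1, ← e2, e3]
    simp only [setM_same]
    ring
  · simp only [h, if_false, add_zero]
    refine Finset.sum_congr rfl fun i' _ => ?_
    rw [setM_apply, if_neg]
    rintro ⟨_, h'⟩
    exact h h'

theorem setM_setM (b : Fin m → Fin n → ℕ) (i : Fin m) (j : Fin n) (v w : ℕ) :
    setM (setM b i j v) i j w = setM b i j w := by
  funext i' j'
  rw [setM_apply, setM_apply, setM_apply]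
  split_ifs <;> rfl

theorem setM_self (b : Fin m → Fin n → ℕ) (i : Fin m) (j : Fin n) :
    setM b i j (b i j) = b := by
  funext i' j'
  rw [setM_apply]
  split_ifs with h
  · rw [h.1, h.2]
  · rfl

theorem card_hi (r : Fin m → ℕ) (c : Fin n → ℕ) (b : Fin m → Fin n → ℕ) (i : Fin m) (j : Fin n)
    (t : ℕ) (hb : t ≤ b i j) (hr : t ≤ r i) (hc : t ≤ c j) :
    ((ftabs r c b).filter (fun X => t ≤ X i j)).card =
      (ftabs (Function.update r i (r i - t)) (Function.update c j (c j - t))
        (setM b i j (b i j - t))).card := by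
  refine Finset.card_nbij' (fun X => setM X i j (X i j - t)) (fun X => setM X i j (X i j + t)) ?_ ?_ ?_ ?_
  · intro X hX
    rw [mem_coe, mem_filter, mem_ftabs] at hX
    obtain ⟨⟨h1, h2, h3⟩, h4⟩ := hX
    rw [mem_coe, mem_ftabs]
    refine ⟨fun i' j' => ?_, fun i' => ?_, fun j' => ?_⟩
    · beta_reduce
      rw [setM_apply, setM_apply]
      split_ifs with h
      · exact Nat.sub_le_sub_right (h1 i j) t
      · exact h1 i' j'
    · have := sum_setM_row X i j (X i j - t) i'
      rw [h2] at this
      by_cases h : i' = i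
      · subst h
        simp only [if_true, Function.update_self] at this ⊢
        omega
      · simp only [h, if_false, add_zero] at this
        rw [this, Function.update_of_ne h]
    · have := sum_setM_col X i j (X i j - t) j'
      rw [h3] at this
      by_cases h : j' = j
      · subst h
        simp only [if_true, Function.update_self] at this ⊢
        omega
      · simp only [h, if_false, add_zero] at this
        rw [this, Function.update_of_ne h]
  · intro X hX
    rw [mem_coe, mem_ftabs] at hX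
    obtain ⟨h1, h2, h3⟩ := hX
    rw [mem_coe, mem_filter, mem_ftabs]
    refine ⟨⟨fun i' j' => ?_, fun i' => ?_, fun j' => ?_⟩, ?_⟩
    · have := h1 i' j'
      rw [setM_apply] at this
      beta_reduce
      rw [setM_apply]
      split_ifs with h
      · rw [if_pos h, h.1, h.2] at this
        rw [h.1, h.2]
        omega
      · rwa [if_neg h] at this
    · have := sum_setM_row X i j (X i j + t) i'
      rw [h2] at this
      by_cases h : i' = i
      · subst h
        simp only [if_true, Function.update_self] at this ⊢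
        omega
      · simp only [h, if_false, add_zero] at this
        rw [this, Function.update_of_ne h]
    · have := sum_setM_col X i j (X i j + t) j'
      rw [h3] at this
      by_cases h : j' = j
      · subst h
        simp only [if_true, Function.update_self] at this ⊢
        omega
      · simp only [h, if_false, add_zero] at this
        rw [this, Function.update_of_ne h]
    · beta_reduce
      rw [setM_same]; omega
  · intro X hX
    rw [mem_coe, mem_filter] at hX
    simp only [setM_same, setM_setM]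
    rw [Nat.sub_add_cancel hX.2, setM_self]
  · intro X _
    simp only [setM_same, setM_setM]
    rw [Nat.add_sub_cancel, setM_self]

theorem entry_le_row {r : Fin m → ℕ} {c : Fin n → ℕ} {b : Fin m → Fin n → ℕ} {X : Fin m → Fin n → ℕ}
    (h : X ∈ ftabs r c b) (i : Fin m) (j : Fin n) : X i j ≤ r i := by
  rw [mem_ftabs] at h
  rw [← h.2.1 i]
  exact Finset.single_le_sum (f := fun j => X i j) (fun _ _ => Nat.zero_le _) (mem_univ j)

theorem entry_le_col {r : Fin m → ℕ} {c : Fin n → ℕ} {b : Fin m → Fin n → ℕ} {X : Fin m → Fin n → ℕ}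
    (h : X ∈ ftabs r c b) (i : Fin m) (j : Fin n) : X i j ≤ c j := by
  rw [mem_ftabs] at h
  rw [← h.2.2 j]
  exact Finset.single_le_sum (f := fun i => X i j) (fun _ _ => Nat.zero_le _) (mem_univ i)

end fn

/-! ### lists -/

/-- entry of a list matrix -/
def bnd (B : Tab) (i j : ℕ) : ℕ := (B.getD i []).getD j 0

/-- change one entry of a list matrix -/
def setL (B : Tab) (i j v : ℕ) : Tab := B.modify i (fun row => row.set j v)

theorem bnd_toL {m n : ℕ} (b : Fin m → Fin n → ℕ) (i : Fin m) (j : Fin n) :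
    bnd (toL b) i j = b i j := by
  have := congrFun (congrFun (ofL_toL b) i) j
  exact this

theorem ofFn_update {n : ℕ} (f : Fin n → ℕ) (i : Fin n) (v : ℕ) :
    List.ofFn (Function.update f i v) = (List.ofFn f).set i v := by
  apply List.ext_getElem (by simp)
  intro k h1 h2
  rw [List.getElem_set]
  simp only [List.getElem_ofFn]
  by_cases h : (i : ℕ) = k
  · subst h
    simp
  · rw [if_neg h, Function.update_of_ne]
    intro h'
    exact h (by rw [← h'])

theorem toL_setM {m n : ℕ} (b : Fin m → Fin n → ℕ) (i : Fin m) (j : Fin n) (v : ℕ) :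
    toL (setM b i j v) = setL (toL b) i j v := by
  unfold setL
  apply List.ext_getElem (by simp [toL])
  intro k h1 h2
  rw [List.getElem_modify]
  simp only [toL, List.getElem_ofFn]
  by_cases h : (i : ℕ) = k
  · subst h
    simp only [if_true, Fin.eta]
    rw [← ofFn_update]
    simp [setM]
  · rw [if_neg h]
    congr 1
    unfold setM
    rw [Function.update_of_ne]
    intro h'
    exact h (by rw [← h'])

/-- the cells of an instance -/
def cells (I : Inst) : List (ℕ × ℕ) :=
  (List.range I.1.length).flatMap fun i => (List.range I.2.1.length).map fun j => (i, j)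

/-- the first cell with positive bound -/
def pos? (I : Inst) : Option (ℕ × ℕ) := (cells I).find? fun p => decide (0 < bnd I.2.2 p.1 p.2)

/-- all bounds are `0` -/
def fin (I : Inst) : Bool := !(pos? I).isSome

/-- the row of the cell to bisect -/
def pi (I : Inst) : ℕ := ((pos? I).getD (0, 0)).1

/-- the column of the cell to bisect -/
def pj (I : Inst) : ℕ := ((pos? I).getD (0, 0)).2

/-- the bound of the cell to bisect -/
def pb (I : Inst) : ℕ := bnd I.2.2 (pi I) (pj I)

/-- lower half -/
def lo (I : Inst) : Inst := (I.1, I.2.1, setL I.2.2 (pi I) (pj I) (pb I / 2))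

/-- an instance without tables -/
def dead : Inst := ([1], [], [[]])

/-- upper half -/
def hi (I : Inst) : Inst :=
  if pb I / 2 + 1 ≤ I.1.getD (pi I) 0 ∧ pb I / 2 + 1 ≤ I.2.1.getD (pj I) 0 then
    (I.1.set (pi I) (I.1.getD (pi I) 0 - (pb I / 2 + 1)),
     I.2.1.set (pj I) (I.2.1.getD (pj I) 0 - (pb I / 2 + 1)),
     setL I.2.2 (pi I) (pj I) (pb I - (pb I / 2 + 1)))
  else dead

/-- number of tables -/
noncomputable def cnt (I : Inst) : ℕ := (tabs I).card

/-- total size of the bounds -/
def mu (I : Inst) : ℕ := (I.2.2.map fun row => (row.map Nat.size).sum).sum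

theorem mu_inst {m n : ℕ} (r : Fin m → ℕ) (c : Fin n → ℕ) (b : Fin m → Fin n → ℕ) :
    mu (inst r c b) = ∑ i, ∑ j, (b i j).size := by
  simp [mu, inst, toL, List.map_ofFn, Function.comp_def, List.sum_ofFn]

theorem pos?_some {m n : ℕ} {r : Fin m → ℕ} {c : Fin n → ℕ} {b : Fin m → Fin n → ℕ}
    (h : fin (inst r c b) = false) : ∃ (i : Fin m) (j : Fin n), pi (inst r c b) = i ∧
      pj (inst r c b) = j ∧ pb (inst r c b) = b i j ∧ 0 < b i j := by
  unfold fin at h
  simp only [Bool.not_eq_false'] at h
  obtain ⟨⟨i, j⟩, hp⟩ := Option.isSome_iff_exists.1 h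
  have h1 := List.find?_some hp
  have h2 := List.mem_of_find?_eq_some hp
  simp only [cells, List.mem_flatMap, List.mem_map, List.mem_range, Prod.mk.injEq, inst_fst,
    inst_snd_fst, List.length_ofFn] at h2
  obtain ⟨i', hi', j', hj', rfl, rfl⟩ := h2
  have e1 : pi (inst r c b) = i' := by unfold pi; rw [hp]; rfl
  have e2 : pj (inst r c b) = j' := by unfold pj; rw [hp]; rfl
  refine ⟨⟨i', hi'⟩, ⟨j', hj'⟩, e1, e2, ?_, ?_⟩
  · unfold pb; rw [e1, e2]
    exact bnd_toL b ⟨i', hi'⟩ ⟨j', hj'⟩
  · have := bnd_toL b ⟨i', hi'⟩ ⟨j', hj'⟩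
    simp only at this
    rw [← this]
    simpa using h1

theorem bnd_zero_of_fin {m n : ℕ} {r : Fin m → ℕ} {c : Fin n → ℕ} {b : Fin m → Fin n → ℕ}
    (h : fin (inst r c b) = true) (i : Fin m) (j : Fin n) : b i j = 0 := by
  unfold fin at h
  simp only [Bool.not_eq_true', Option.isSome_eq_false_iff, Option.isNone_iff_eq_none] at h
  unfold pos? at h
  rw [List.find?_eq_none] at h
  have := h ((i : ℕ), (j : ℕ)) (by
    simp [cells, List.mem_flatMap, List.mem_map, List.mem_range])
  simp only [inst_snd_snd, bnd_toL, decide_eq_true_eq, not_lt, Nat.le_zero] at this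
  exact this

theorem lo_inst {m n : ℕ} {r : Fin m → ℕ} {c : Fin n → ℕ} {b : Fin m → Fin n → ℕ} {i : Fin m}
    {j : Fin n} (h1 : pi (inst r c b) = i) (h2 : pj (inst r c b) = j)
    (h3 : pb (inst r c b) = b i j) :
    lo (inst r c b) = inst r c (setM b i j (b i j / 2)) := by
  unfold lo
  rw [h1, h2, h3]
  simp only [inst, toL_setM]

theorem hi_inst {m n : ℕ} {r : Fin m → ℕ} {c : Fin n → ℕ} {b : Fin m → Fin n → ℕ} {i : Fin m}
    {j : Fin n} (h1 : pi (inst r c b) = i) (h2 : pj (inst r c b) = j)
    (h3 : pb (inst r c b) = b i j) :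
    hi (inst r c b) = if b i j / 2 + 1 ≤ r i ∧ b i j / 2 + 1 ≤ c j then
      inst (Function.update r i (r i - (b i j / 2 + 1))) (Function.update c j (c j - (b i j / 2 + 1)))
        (setM b i j (b i j - (b i j / 2 + 1))) else dead := by
  unfold hi
  rw [h1, h2, h3]
  have e1 : (inst r c b).1.getD i 0 = r i := by simp [List.getD_eq_getElem?_getD]
  have e2 : (inst r c b).2.1.getD j 0 = c j := by simp [List.getD_eq_getElem?_getD]
  rw [e1, e2]
  split_ifs with h
  · simp only [inst, toL_setM, ofFn_update]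
  · rfl

theorem shaped_dead : Shaped dead := by
  unfold Shaped dead; simp

theorem cnt_dead : cnt dead = 0 := by
  unfold cnt
  rw [Finset.card_eq_zero, Finset.eq_empty_iff_forall_notMem]
  intro X hX
  rw [mem_tabs] at hX
  have h1 := hX.rows
  have h2 := hX.len
  simp only [dead, List.map_eq_cons_iff, List.map_eq_nil_iff] at h1
  obtain ⟨row, t, rfl, h3, rfl⟩ := h1
  have := h2 row (by simp)
  simp only [dead, List.length_nil, List.length_eq_zero_iff] at this
  rw [this] at h3
  simp at h3

theorem mu_dead : mu dead = 0 := by simp [mu, dead]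

theorem shaped_lo {I : Inst} (h : Shaped I) (hf : fin I = false) : Shaped (lo I) := by
  obtain ⟨r, c, b, rfl'⟩ := exists_inst h
  rw [rfl'] at hf
  obtain ⟨i, j, h1, h2, h3, _⟩ := pos?_some hf
  rw [rfl', lo_inst h1 h2 h3]
  exact shaped_inst _ _ _

theorem shaped_hi {I : Inst} (h : Shaped I) (hf : fin I = false) : Shaped (hi I) := by
  obtain ⟨r, c, b, rfl'⟩ := exists_inst h
  rw [rfl'] at hf
  obtain ⟨i, j, h1, h2, h3, _⟩ := pos?_some hf
  rw [rfl', hi_inst h1 h2 h3]
  split_ifs
  · exact shaped_inst _ _ _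
  · exact shaped_dead

theorem cnt_split {I : Inst} (h : Shaped I) (hf : fin I = false) : cnt I = cnt (lo I) + cnt (hi I) := by
  obtain ⟨r, c, b, e⟩ := exists_inst h
  rw [e] at hf
  obtain ⟨i, j, h1, h2, h3, h4⟩ := pos?_some hf
  rw [e, lo_inst h1 h2 h3, hi_inst h1 h2 h3]
  unfold cnt
  rw [card_tabs_inst, card_tabs_inst, ← card_ftabs, ← card_ftabs]
  rw [← filter_lo r c b i j (b i j / 2) (Nat.div_le_self _ _)]
  rw [← Finset.card_filter_add_card_filter_not (s := ftabs r c b) (fun X => X i j ≤ b i j / 2)]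
  congr 1
  have e2 : (ftabs r c b).filter (fun X => ¬ X i j ≤ b i j / 2) =
      (ftabs r c b).filter (fun X => b i j / 2 + 1 ≤ X i j) := by
    refine Finset.filter_congr fun X _ => ?_
    omega
  rw [e2]
  split_ifs with hc
  · rw [card_tabs_inst, ← card_ftabs, card_hi r c b i j _ (by omega) hc.1 hc.2]
  · have := cnt_dead
    unfold cnt at this
    rw [this, Finset.card_eq_zero, Finset.filter_eq_empty_iff]
    intro X hX hle
    exact hc ⟨hle.trans (entry_le_row hX i j), hle.trans (entry_le_col hX i j)⟩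

theorem size_div_two_lt {x : ℕ} (h : 0 < x) : (x / 2).size < x.size := by
  have h1 : x.size ≠ 0 := by
    intro h'
    rw [Nat.size_eq_zero] at h'
    omega
  obtain ⟨k, hk⟩ := Nat.exists_eq_succ_of_ne_zero h1
  rw [hk, Nat.succ_eq_add_one, Nat.lt_add_one_iff]
  rw [Nat.size_le]
  have h2 : x < 2 ^ (k + 1) := by
    rw [← Nat.size_le, hk]
  omega

theorem mu_lt {m n : ℕ} (r r' : Fin m → ℕ) (c c' : Fin n → ℕ) (b : Fin m → Fin n → ℕ) (i : Fin m)
    (j : Fin n) (v : ℕ) (hv : v.size < (b i j).size) :
    mu (inst r' c' (setM b i j v)) < mu (inst r c b) := by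
  rw [mu_inst, mu_inst]
  refine Finset.sum_lt_sum (fun i' _ => Finset.sum_le_sum fun j' _ => ?_)
    ⟨i, mem_univ _, Finset.sum_lt_sum (fun j' _ => ?_) ⟨j, mem_univ _, ?_⟩⟩
  · rw [setM_apply]
    split_ifs with h
    · rw [h.1, h.2]; exact hv.le
    · exact le_rfl
  · rw [setM_apply]
    split_ifs with h
    · rw [h.2]; exact hv.le
    · exact le_rfl
  · rw [setM_same]; exact hv

theorem mu_lo {I : Inst} (h : Shaped I) (hf : fin I = false) : mu (lo I) < mu I := by
  obtain ⟨r, c, b, e⟩ := exists_inst h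
  rw [e] at hf
  obtain ⟨i, j, h1, h2, h3, h4⟩ := pos?_some hf
  rw [e, lo_inst h1 h2 h3]
  exact mu_lt _ _ _ _ _ _ _ _ (size_div_two_lt h4)

theorem mu_hi {I : Inst} (h : Shaped I) (hf : fin I = false) : mu (hi I) < mu I := by
  obtain ⟨r, c, b, e⟩ := exists_inst h
  rw [e] at hf
  obtain ⟨i, j, h1, h2, h3, h4⟩ := pos?_some hf
  rw [e, hi_inst h1 h2 h3]
  split_ifs
  · refine mu_lt _ _ _ _ _ _ _ _ (lt_of_le_of_lt (Nat.size_le_size ?_) (size_div_two_lt h4))
    omega
  · rw [mu_dead, mu_inst]
    refine Finset.sum_pos' (fun _ _ => Nat.zero_le _) ⟨i, mem_univ _, ?_⟩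
    refine Finset.sum_pos' (fun _ _ => Nat.zero_le _) ⟨j, mem_univ _, ?_⟩
    exact Nat.size_pos.2 h4

theorem mu_of_fin {I : Inst} (h : Shaped I) (hf : fin I = true) : mu I = 0 := by
  obtain ⟨r, c, b, e⟩ := exists_inst h
  rw [e] at hf ⊢
  rw [mu_inst]
  simp [bnd_zero_of_fin hf]

theorem fin_of_mu {I : Inst} (h : Shaped I) (hm : mu I = 0) : fin I = true := by
  by_contra hf
  have hf' : fin I = false := by simpa using hf
  have := mu_lo h hf'
  omega

theorem cnt_le_of_fin {I : Inst} (h : Shaped I) (hf : fin I = true) : cnt I ≤ 1 := by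
  obtain ⟨r, c, b, e⟩ := exists_inst h
  rw [e] at hf ⊢
  unfold cnt
  rw [card_tabs_inst, ← card_ftabs, Finset.card_le_one]
  intro X hX Y hY
  rw [mem_ftabs] at hX hY
  funext i j
  have h1 := hX.1 i j
  have h2 := hY.1 i j
  rw [bnd_zero_of_fin hf i j] at h1 h2
  omega

/-- the fraction of tables in the lower half -/
theorem unif_lo {I : Inst} (h : Shaped I) (hf : fin I = false) :
    unif I (fun X => Tape.ind (bnd X (pi I) (pj I) ≤ pb I / 2)) = (cnt (lo I) : ℝ) / cnt I := by
  obtain ⟨r, c, b, e⟩ := exists_inst h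
  rw [e] at hf ⊢
  obtain ⟨i, j, h1, h2, h3, h4⟩ := pos?_some hf
  rw [lo_inst h1 h2 h3]
  unfold cnt
  rw [unif, sum_tabs_inst, card_tabs_inst, card_tabs_inst, ← card_ftabs, ← card_ftabs]
  congr 1
  rw [← filter_lo r c b i j (b i j / 2) (Nat.div_le_self _ _), Finset.card_filter]
  push_cast
  refine Finset.sum_congr rfl fun X _ => ?_
  rw [h1, h2, h3, bnd_toL]
  by_cases hx : X i j ≤ b i j / 2
  · rw [Tape.ind_of hx, if_pos hx]
  · rw [Tape.ind_of_not hx, if_neg hx]

/-! ### sizes -/

theorem sz_nat_mono {a b : ℕ} (h : a ≤ b) : sz a ≤ sz b := by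
  rw [sz_nat, sz_nat]; exact Nat.size_le_size h

theorem sz_set_le {l : List ℕ} {j v : ℕ} (h : v ≤ l.getD j 0) : sz (l.set j v) ≤ sz l := by
  induction l generalizing j with
  | nil => simp
  | cons a l ih =>
    cases j with
    | zero =>
      simp only [List.getD_cons_zero] at h
      have := sz_nat_mono h
      simp only [List.set_cons_zero, sz_cons]
      omega
    | succ j =>
      simp only [List.getD_cons_succ] at h
      have := ih h
      simp only [List.set_cons_succ, sz_cons]
      omega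

theorem sz_setL_le {B : Tab} {i j v : ℕ} (h : v ≤ bnd B i j) : sz (setL B i j v) ≤ sz B := by
  unfold setL
  unfold bnd at h
  induction B generalizing i with
  | nil => simp
  | cons a B ih =>
    cases i with
    | zero =>
      simp only [List.getD_cons_zero] at h
      have := sz_set_le h
      simp only [List.modify_zero_cons, sz_cons]
      omega
    | succ i =>
      simp only [List.getD_cons_succ] at h
      have := ih h
      simp only [List.modify_succ_cons, sz_cons]
      omega

theorem sz_lo (I : Inst) : sz (lo I) ≤ sz I := by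
  have h := sz_setL_le (B := I.2.2) (i := pi I) (j := pj I) (v := pb I / 2) (Nat.div_le_self _ _)
  obtain ⟨a, b, d⟩ := I
  simp only [lo, sz_prod] at h ⊢
  omega

theorem sz_dead : sz dead = 9 := by
  have e1 : sz ([1] : List ℕ) = 3 := by
    rw [sz_cons, sz_nil, sz_nat]; rfl
  have e2 : sz ([[]] : List (List ℕ)) = 1 := by simp
  unfold dead
  rw [sz_prod, sz_prod, e1, e2]
  simp

theorem sz_hi (I : Inst) : sz (hi I) ≤ sz I + 9 := by
  unfold hi
  split_ifs with hc
  · have h := sz_setL_le (B := I.2.2) (i := pi I) (j := pj I) (v := pb I - (pb I / 2 + 1)) (Nat.sub_le _ _)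
    have h1 := sz_set_le (l := I.1) (j := pi I) (v := I.1.getD (pi I) 0 - (pb I / 2 + 1)) (Nat.sub_le _ _)
    have h2 := sz_set_le (l := I.2.1) (j := pj I) (v := I.2.1.getD (pj I) 0 - (pb I / 2 + 1)) (Nat.sub_le _ _)
    have e : sz I = 2 * sz I.1 + 1 + (2 * sz I.2.1 + 1 + sz I.2.2) := by
      rw [sz_prod, sz_prod]
    rw [e, sz_prod, sz_prod]
    simp only
    omega
  · rw [sz_dead]; omega

theorem sz_hi' (I : Inst) (S : ℕ) (h : sz I ≤ S) (h9 : 9 ≤ S) : sz (hi I) ≤ S := by
  unfold hi
  split_ifs with hc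
  · have h := sz_setL_le (B := I.2.2) (i := pi I) (j := pj I) (v := pb I - (pb I / 2 + 1)) (Nat.sub_le _ _)
    have h1 := sz_set_le (l := I.1) (j := pi I) (v := I.1.getD (pi I) 0 - (pb I / 2 + 1)) (Nat.sub_le _ _)
    have h2 := sz_set_le (l := I.2.1) (j := pj I) (v := I.2.1.getD (pj I) 0 - (pb I / 2 + 1)) (Nat.sub_le _ _)
    have e : sz I = 2 * sz I.1 + 1 + (2 * sz I.2.1 + 1 + sz I.2.2) := by
      rw [sz_prod, sz_prod]
    rw [sz_prod, sz_prod]
    simp only
    omega
  · rw [sz_dead]; exact h9

theorem mu_le_sz (I : Inst) : mu I ≤ sz I := by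
  have e : sz I = 2 * sz I.1 + 1 + (2 * sz I.2.1 + 1 + sz I.2.2) := by
    rw [sz_prod, sz_prod]
  have h1 : ∀ row : List ℕ, (row.map Nat.size).sum ≤ sz row := by
    intro row
    induction row with
    | nil => simp
    | cons a row ih =>
      simp only [List.map_cons, List.sum_cons, sz_cons, sz_nat]
      omega
  have h2 : ∀ B : Tab, (B.map fun row => (row.map Nat.size).sum).sum ≤ sz B := by
    intro B
    induction B with
    | nil => simp
    | cons a B ih =>
      have := h1 a
      simp only [List.map_cons, List.sum_cons, sz_cons]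
      omega
  have := h2 I.2.2
  unfold mu
  omega

/-- the bisection scheme of table instances -/
theorem split_inst (leaf : Inst → Bool) (hleaf : ∀ I, leaf I = true ↔ 0 < cnt I) (S : ℕ) (hS : 9 ≤ S) :
    Split cnt mu lo hi fin leaf (fun I => Shaped I ∧ sz I ≤ S) where
  fin_of := fun _ h hm => fin_of_mu h.1 hm
  mu_of := fun _ h hf => mu_of_fin h.1 hf
  V_lo := fun I h hf => ⟨shaped_lo h.1 hf, (sz_lo I).trans h.2⟩
  V_hi := fun I h hf => ⟨shaped_hi h.1 hf, sz_hi' I S h.2 hS⟩
  mu_lo := fun _ h hf => mu_lo h.1 hf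
  mu_hi := fun _ h hf => mu_hi h.1 hf
  split := fun _ h hf => cnt_split h.1 hf
  fin_le := fun _ h hf => cnt_le_of_fin h.1 hf
  leaf_iff := fun I _ => hleaf I

end Crest.Agent.R309.Count632
end

-- ▼ part R309/Count632C
section

/-!
# The sampler made from a chain and a feasibility oracle, and its coin
-/

set_option autoImplicit false

namespace Crest.Agent.R309.Count632

open Crest.Agent.Lib.PT Crest.Agent.R309.Iface Crest.Agent.R309.Conv Crest.Tables
open Crest.Agent.R309.Tape Crest.Agent.R309.PTX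

theorem runSteps_take {S : Type*} (f : S → List Bool → S) (r k : ℕ) (s : S) (l : List Bool) :
    runSteps f r k s (l.take (k * r)) = runSteps f r k s l := by
  induction k generalizing s l with
  | zero => rfl
  | succ k ih =>
    rw [runSteps, runSteps, List.take_take, List.drop_take]
    have e1 : min r ((k + 1) * r) = r := min_eq_left (Nat.le_mul_of_pos_left r (by omega))
    have e2 : (k + 1) * r - r = k * r := by rw [Nat.succ_mul]; omega
    rw [e1, e2, ih]

theorem sz_list_nat_mono {x y : List ℕ} (h : List.Forall₂ (· ≤ ·) x y) : sz x ≤ sz y := by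
  induction h with
  | nil => simp
  | cons h _ ih =>
    have := sz_nat_mono h
    simp only [sz_cons]; omega

theorem sz_tab_mono {X Y : Tab} (h : List.Forall₂ (List.Forall₂ (· ≤ ·)) X Y) : sz X ≤ sz Y := by
  induction h with
  | nil => simp
  | cons h _ ih =>
    have := sz_list_nat_mono h
    simp only [sz_cons]; omega

theorem IsTab_sz {I : Inst} {X : Tab} (h : IsTab I X) : sz X ≤ sz I := by
  have h1 := sz_tab_mono h.bds
  have e : sz I = 2 * sz I.1 + 1 + (2 * sz I.2.1 + 1 + sz I.2.2) := by
    rw [sz_prod, sz_prod]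
  omega

/-- the sampler: `m * tau I` steps of the chain from a feasible table -/
def sample (feas : Inst → Option Tab) (step : Inst × Tab → List Bool → Tab) (len tau : Inst → ℕ)
    (m : ℕ) (I : Inst) (l : List Bool) : Tab :=
  match feas I with
  | none => []
  | some X => runSteps (guard (sz I) (fun Y t => step (I, Y) t)) (len I) (m * tau I) X l

/-- the coin: is the bisected entry of a sample in the lower half -/
def coin (feas : Inst → Option Tab) (step : Inst × Tab → List Bool → Tab) (len tau : Inst → ℕ)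
    (m : ℕ) (I : Inst) (l : List Bool) : Bool :=
  decide (bnd (sample feas step len tau m I l) (pi I) (pj I) ≤ pb I / 2)

section law

variable {step : Inst × Tab → List Bool → Tab} {len : Inst → ℕ}

theorem runSteps_guard_eq {I : Inst}
    (hst : ∀ X, IsTab I X → ∀ t : List Bool, t.length = len I → IsTab I (step (I, X) t))
    (k : ℕ) (X : Tab) (hX : IsTab I X) (l : List Bool) (hl : k * len I ≤ l.length) :
    runSteps (guard (sz I) (fun Y t => step (I, Y) t)) (len I) k X l =
      runSteps (fun Y t => step (I, Y) t) (len I) k X l := by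
  induction k generalizing X l with
  | zero => rfl
  | succ k ih =>
    rw [Nat.succ_mul] at hl
    have h1 : (l.take (len I)).length = len I := by rw [List.length_take]; omega
    have h2 := hst X hX _ h1
    have h3 := IsTab_sz h2
    rw [runSteps, runSteps]
    have e : guard (sz I) (fun Y t => step (I, Y) t) X (l.take (len I)) =
        step (I, X) (l.take (len I)) := by
      unfold PTX.guard
      rw [if_pos h3]
    rw [e]
    refine ih _ h2 _ ?_
    rw [List.length_drop]; omega

theorem sample_law {feas : Inst → Option Tab} {tau : Inst → ℕ}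
    (hf1 : ∀ I X, feas I = some X → IsTab I X) (hf2 : ∀ I, feas I = none → ∀ X, ¬ IsTab I X)
    (hC : ∀ I X, IsTab I X →
      (∀ t : List Bool, t.length = len I → IsTab I (step (I, X) t)) ∧
      ∀ (m : ℕ) (φ : Tab → ℝ), (∀ Y, 0 ≤ φ Y ∧ φ Y ≤ 1) →
        |(markov (fun Y t => step (I, Y) t) (len I))^[m * tau I] φ X - unif I φ| ≤ (1 / 2 : ℝ) ^ m)
    (m : ℕ) (I : Inst) (hI : 0 < cnt I) (r : ℕ) (hr : m * tau I * len I ≤ r)
    (φ : Tab → ℝ) (hφ : ∀ Y, 0 ≤ φ Y ∧ φ Y ≤ 1) :
    |avg r (fun l => φ (sample feas step len tau m I l)) - unif I φ| ≤ (1 / 2 : ℝ) ^ m := by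
  rcases hfe : feas I with _ | X
  · exfalso
    obtain ⟨X, hX⟩ := Finset.card_pos.1 hI
    exact hf2 I hfe X (mem_tabs.1 hX)
  · have hX := hf1 I X hfe
    have hst : ∀ X, IsTab I X → ∀ t : List Bool, t.length = len I → IsTab I (step (I, X) t) :=
      fun X hX => (hC I X hX).1
    have e1 : avg r (fun l => φ (sample feas step len tau m I l)) =
        avg (m * tau I * len I) (fun l => φ (runSteps (fun Y t => step (I, Y) t) (len I) (m * tau I) X l)) := by
      rw [← avg_take hr (fun l => φ (runSteps (fun Y t => step (I, Y) t) (len I) (m * tau I) X l))]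
      refine avg_congr fun l hl => ?_
      have : sample feas step len tau m I l =
          runSteps (guard (sz I) (fun Y t => step (I, Y) t)) (len I) (m * tau I) X l := by
        unfold sample; rw [hfe]
      rw [this, runSteps_guard_eq hst _ X hX l (by omega), runSteps_take]
    rw [e1, avg_runSteps]
    exact (hC I X hX).2 m φ hφ

theorem coin_law {feas : Inst → Option Tab} {tau : Inst → ℕ}
    (hf1 : ∀ I X, feas I = some X → IsTab I X) (hf2 : ∀ I, feas I = none → ∀ X, ¬ IsTab I X)
    (hC : ∀ I X, IsTab I X →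
      (∀ t : List Bool, t.length = len I → IsTab I (step (I, X) t)) ∧
      ∀ (m : ℕ) (φ : Tab → ℝ), (∀ Y, 0 ≤ φ Y ∧ φ Y ≤ 1) →
        |(markov (fun Y t => step (I, Y) t) (len I))^[m * tau I] φ X - unif I φ| ≤ (1 / 2 : ℝ) ^ m)
    (m : ℕ) (I : Inst) (hs : Shaped I) (hf : fin I = false) (hI : 0 < cnt I) (r : ℕ)
    (hr : m * tau I * len I ≤ r) :
    |pr r (fun l => coin feas step len tau m I l = true) - (cnt (lo I) : ℝ) / cnt I| ≤
      (1 / 2 : ℝ) ^ m := by
  rw [← unif_lo hs hf]
  have := sample_law hf1 hf2 hC m I hI r hr (fun X => ind (bnd X (pi I) (pj I) ≤ pb I / 2))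
    (fun Y => ⟨ind_nonneg _, ind_le_one _⟩)
  have e : pr r (fun l => coin feas step len tau m I l = true) =
      avg r (fun l => ind (bnd (sample feas step len tau m I l) (pi I) (pj I) ≤ pb I / 2)) := by
    unfold pr coin
    simp only [decide_eq_true_eq]
  rw [e]
  exact this

end law

/-! ### polynomial time -/

section pt

variable {γ : Type} [PTCode γ]

theorem ptf_sample {feas : Inst → Option Tab} {step : Inst × Tab → List Bool → Tab}
    {len tau : Inst → ℕ} (hfeas : PTF feas)
    (hstep : PTF (fun p : (Inst × Tab) × List Bool => step p.1 p.2)) (hlen : PTU len) (htau : PTU tau)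
    {m : γ → ℕ} {I : γ → Inst} {l : γ → List Bool} (hm : PTU m) (hI : PTF I) (hl : PTF l) :
    PTF (fun c => sample feas step len tau (m c) (I c) (l c)) := by
  have h1 : PTF (fun c => feas (I c)) := PTF.comp (g := feas) hfeas hI
  refine PTF.of_eq (PTF.optionCasesOn (s := fun c => feas (I c)) (f := fun _ => ([] : Tab))
    (g := fun c X => runSteps (guard (sz (I c)) (fun Y t => step (I c, Y) t)) (len (I c))
      (m c * tau (I c)) X (l c)) h1 (PTF.const _) ?_) (fun c => ?_)
  · refine ptf_runSteps_guard (γ := γ × Tab)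
      (f := fun p Y t => step (I p.1, Y) t) (r := fun p => len (I p.1))
      (k := fun p => m p.1 * tau (I p.1)) (s := fun p => p.2) (t := fun p => l p.1)
      (B := fun p => sz (I p.1)) ?_ ?_ ?_ ?_ ?_ ?_
    · exact PTF.comp (g := fun p : (Inst × Tab) × List Bool => step p.1 p.2)
        (f := fun p : (γ × Tab) × Tab × List Bool => ((I p.1.1, p.2.1), p.2.2)) hstep
        (by fun_prop)
    · exact PTU.toPTF (PTU.comp hlen (by fun_prop))
    · exact PTU.mul (PTU.comp hm (by fun_prop)) (PTU.comp htau (by fun_prop))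
    · fun_prop
    · fun_prop
    · exact PTF.szU (by fun_prop)
  · unfold sample
    cases feas (I c) <;> rfl

theorem ptf_cells : PTF (fun I : Inst => cells I) := by
  unfold cells
  pt_solve

theorem ptf_bnd {B : γ → Tab} {i j : γ → ℕ} (hB : PTF B) (hi : PTF i) (hj : PTF j) :
    PTF (fun c => bnd (B c) (i c) (j c)) := by
  unfold bnd
  pt_solve

theorem ptf_pos? : PTF (fun I : Inst => pos? I) := by
  unfold pos?
  refine PTF.find? ptf_cells ?_
  refine PTPred.toPTF (PTPred.natLt (PTF.const 0) (ptf_bnd ?_ ?_ ?_)) <;> fun_prop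

theorem ptf_fin : PTF (fun I : Inst => fin I) := by
  unfold fin
  exact PTF.not (PTF.isSome ptf_pos?)

theorem ptf_pi : PTF (fun I : Inst => pi I) := by
  unfold pi
  exact PTF.comp (g := fun p : ℕ × ℕ => p.1) PTF.fst (PTF.optionGetD ptf_pos? (PTF.const _))

theorem ptf_pj : PTF (fun I : Inst => pj I) := by
  unfold pj
  exact PTF.comp (g := fun p : ℕ × ℕ => p.2) PTF.snd (PTF.optionGetD ptf_pos? (PTF.const _))

theorem ptf_pb : PTF (fun I : Inst => pb I) := by
  unfold pb
  exact ptf_bnd (by fun_prop) ptf_pi ptf_pj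

theorem ptf_setL {B : γ → Tab} {i j v : γ → ℕ} (hB : PTF B) (hi : PTF i) (hj : PTF j) (hv : PTF v) :
    PTF (fun c => setL (B c) (i c) (j c) (v c)) := by
  unfold setL
  refine ptf_modify' hB hi ?_
  exact ptf_set' (by fun_prop) (by fun_prop) (by fun_prop)

theorem ptf_lo : PTF (fun I : Inst => lo I) := by
  unfold lo
  have h1 := ptf_pi
  have h2 := ptf_pj
  have h3 := ptf_pb
  exact PTF.prodMk (by fun_prop) (PTF.prodMk (by fun_prop) (ptf_setL (by fun_prop) h1 h2
    (by fun_prop)))

theorem ptf_hi : PTF (fun I : Inst => hi I) := by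
  unfold hi
  have h1 := ptf_pi
  have h2 := ptf_pj
  have h3 := ptf_pb
  have h4 : PTF (fun I : Inst => I.1.getD (pi I) 0) := ptf_getD' h1 (by fun_prop) (by fun_prop)
  have h5 : PTF (fun I : Inst => I.2.1.getD (pj I) 0) := ptf_getD' h2 (by fun_prop) (by fun_prop)
  refine PTF.ite ?_ (PTF.prodMk ?_ (PTF.prodMk ?_ ?_)) (PTF.const _)
  · exact PTPred.and (PTPred.natLe (by fun_prop) h4) (PTPred.natLe (by fun_prop) h5)
  · exact ptf_set' (by fun_prop) h1 (by fun_prop)
  · exact ptf_set' (by fun_prop) h2 (by fun_prop)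
  · exact ptf_setL (by fun_prop) h1 h2 (by fun_prop)

theorem ptf_coin {feas : Inst → Option Tab} {step : Inst × Tab → List Bool → Tab}
    {len tau : Inst → ℕ} (hfeas : PTF feas)
    (hstep : PTF (fun p : (Inst × Tab) × List Bool => step p.1 p.2)) (hlen : PTU len) (htau : PTU tau)
    {m : γ → ℕ} {I : γ → Inst} {l : γ → List Bool} (hm : PTU m) (hI : PTF I) (hl : PTF l) :
    PTF (fun c => coin feas step len tau (m c) (I c) (l c)) := by
  unfold coin
  have h1 := ptf_pi
  have h2 := ptf_pj
  have h3 := ptf_pb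
  have h4 := ptf_sample hfeas hstep hlen htau hm hI hl
  refine PTPred.toPTF (PTPred.natLe (ptf_bnd h4 ?_ ?_) ?_)
  · exact PTF.comp (g := fun I => pi I) h1 hI
  · exact PTF.comp (g := fun I => pj I) h2 hI
  · exact PTF.natDiv (PTF.comp (g := fun I => pb I) h3 hI) (PTF.const 2)

theorem ptf_med {l : γ → List ℚ} (hl : PTF l) : PTF (fun c => med (l c)) := by
  unfold med
  have hlen : ∀ {δ : Type} [PTCode δ] {l : δ → List ℚ} (hl : PTF l), PTF (fun c => (l c).length) :=
    fun hl => PTU.toPTF (PTU.length hl)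
  refine PTF.optionGetD (PTF.find? hl ?_) (PTF.const 0)
  refine PTF.and (PTPred.toPTF (PTPred.natLe ?_ ?_)) (PTPred.toPTF (PTPred.natLe ?_ ?_))
  · refine PTF.natMul (PTF.const 2) (PTU.toPTF (PTU.countP (l := fun p : γ × ℚ => l p.1)
      (p := fun p x => decide (x < p.2)) (by fun_prop) ?_))
    exact PTPred.toPTF (PTPred.ratLt (by fun_prop) (by fun_prop))
  · exact hlen (by fun_prop)
  · refine PTF.natMul (PTF.const 2) (PTU.toPTF (PTU.countP (l := fun p : γ × ℚ => l p.1)
      (p := fun p x => decide (p.2 < x)) (by fun_prop) ?_))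
    exact PTPred.toPTF (PTPred.ratLt (by fun_prop) (by fun_prop))
  · exact hlen (by fun_prop)

end pt

end Crest.Agent.R309.Count632
end

-- ▼ part R309/Count632D

/-!
# The counting algorithm and its polynomial running time
-/

set_option autoImplicit false

namespace Crest.Agent.R309.Count632

open Crest.Agent.Lib.PT Crest.Agent.R309.Iface Crest.Agent.R309.Conv Crest.Tables
open Crest.Agent.R309.Tape Crest.Agent.R309.PTX

/-- instance, accuracy `E` (relative error `1/E`), amplification `t` (failure probability `2^(-t)`) -/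
abbrev Ctx := Inst × Un × Un

/-- number of rounds -/
def cJ (c : Ctx) : ℕ := sz c.1 + 1
/-- accuracy -/
def cE (c : Ctx) : ℕ := c.2.1.val
/-- samples per round -/
def cK (c : Ctx) : ℕ := 64 * cJ c ^ 3 * cE c ^ 2
/-- accuracy of a sample -/
def cm (c : Ctx) : ℕ := 8 * cJ c * cE c
/-- half the number of runs -/
def cM (c : Ctx) : ℕ := 3 * c.2.2.val
/-- bits per sample; `q` bounds `tau * len` -/
def cr (q : Polynomial ℕ) (c : Ctx) : ℕ := cm c * q.eval (sz c.1 + 9)

theorem ptu_cJ : PTU cJ := by
  unfold cJ; fun_prop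

theorem ptu_cE : PTU cE := by
  unfold cE; fun_prop

theorem ptu_cK : PTU cK := by
  have h1 := ptu_cJ
  have h2 := ptu_cE
  unfold cK; fun_prop

theorem ptu_cm : PTU cm := by
  have h1 := ptu_cJ
  have h2 := ptu_cE
  unfold cm; fun_prop

theorem ptu_cM : PTU cM := by
  unfold cM; fun_prop

theorem ptu_cr (q : Polynomial ℕ) : PTU (cr q) := by
  have h1 := ptu_cm
  have h2 : PTU (fun c : Ctx => q.eval (sz c.1 + 9)) := PTU.eval q (by fun_prop)
  unfold cr
  exact PTU.mul h1 h2

section alg

variable (feas : Inst → Option Tab) (step : Inst × Tab → List Bool → Tab) (len tau : Inst → ℕ)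
  (q : Polynomial ℕ)

/-- one run -/
def run (c : Ctx) (l : List Bool) : ℚ :=
  base (coin feas step len tau (cm c)) lo hi fin (fun I => (feas I).isSome) (cr q c) (cK c) (cJ c) c.1 l

/-- the counting algorithm -/
def alg (c : Ctx) (l : List Bool) : ℚ :=
  est (coin feas step len tau (cm c)) lo hi fin (fun I => (feas I).isSome) (cr q c) (cK c) (cJ c)
    (cM c) c.1 l

/-- the number of random bits of the counting algorithm -/
def algLen (c : Ctx) : ℕ := 2 * cM c * (cJ c * (cK c * cr q c))

theorem ptu_algLen : PTU (algLen q) := by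
  have h1 := ptu_cM
  have h2 := ptu_cJ
  have h3 := ptu_cK
  have h4 := ptu_cr q
  unfold algLen; fun_prop

variable {feas step len tau q}

theorem leaf_iff (hf1 : ∀ I X, feas I = some X → IsTab I X)
    (hf2 : ∀ I, feas I = none → ∀ X, ¬ IsTab I X) (I : Inst) :
    (feas I).isSome = true ↔ 0 < cnt I := by
  unfold cnt
  rw [Finset.card_pos]
  constructor
  · intro h
    obtain ⟨X, hX⟩ := Option.isSome_iff_exists.1 h
    exact ⟨X, mem_tabs.2 (hf1 I X hX)⟩
  · rintro ⟨X, hX⟩
    by_contra h
    have : feas I = none := by simpa using h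
    exact hf2 I this X (mem_tabs.1 hX)

theorem alg_nonneg (c : Ctx) (l : List Bool) : 0 ≤ alg feas step len tau q c l :=
  est_nonneg _ _ _ _ _ _ _ _ _ _ _

theorem alg_zero (hf1 : ∀ I X, feas I = some X → IsTab I X)
    (hf2 : ∀ I, feas I = none → ∀ X, ¬ IsTab I X) (c : Ctx) (hs : Shaped c.1) (h0 : cnt c.1 = 0)
    (l : List Bool) : alg feas step len tau q c l = 0 :=
  est_eq_zero (split_inst _ (leaf_iff hf1 hf2) (sz c.1 + 9) (by omega)) _ _ _ _ _ _
    ⟨hs, by omega⟩ h0 l

theorem alg_pr (hf1 : ∀ I X, feas I = some X → IsTab I X)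
    (hf2 : ∀ I, feas I = none → ∀ X, ¬ IsTab I X)
    (hC : ∀ I X, IsTab I X →
      (∀ t : List Bool, t.length = len I → IsTab I (step (I, X) t)) ∧
      ∀ (m : ℕ) (φ : Tab → ℝ), (∀ Y, 0 ≤ φ Y ∧ φ Y ≤ 1) →
        |(markov (fun Y t => step (I, Y) t) (len I))^[m * tau I] φ X - unif I φ| ≤ (1 / 2 : ℝ) ^ m)
    (hq : ∀ I, tau I * len I ≤ q.eval (sz I)) (c : Ctx) (hs : Shaped c.1) (hE : 1 ≤ cE c) :
    1 - (1 / 2) ^ c.2.2.val ≤ pr (algLen q c) (fun l =>
      (1 - 1 / (cE c : ℚ)) * cnt c.1 ≤ alg feas step len tau q c l ∧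
      alg feas step len tau q c l ≤ (1 + 1 / (cE c : ℚ)) * cnt c.1) := by
  have hJ : 1 ≤ cJ c := by unfold cJ; omega
  have h := est_pr (split_inst _ (leaf_iff hf1 hf2) (sz c.1 + 9) (by omega))
    (coin feas step len tau (cm c)) (cr q c) (cK c) (cJ c) (cE c) (cM c) hJ hE le_rfl
    (fun s hV hf hN => by
      have hr : cm c * tau s * len s ≤ cr q c := by
        unfold cr
        rw [mul_assoc]
        exact Nat.mul_le_mul_left _ ((hq s).trans (eval_mono q hV.2))
      refine (coin_law hf1 hf2 hC (cm c) s hV.1 hf hN (cr q c) hr).trans ?_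
      have h1 : (cm c : ℝ) < 2 ^ cm c := by exact_mod_cast Nat.lt_two_pow_self
      have h2 : (0 : ℝ) < cm c := by
        have : 0 < cm c := by unfold cm; positivity
        exact_mod_cast this
      have h3 : ((cm c : ℕ) : ℝ) = 8 * cJ c * cE c := by unfold cm; push_cast; ring
      rw [← h3, one_div_pow]
      exact one_div_le_one_div_of_le h2 h1.le)
    c.1 ⟨hs, by omega⟩ ((mu_le_sz c.1).trans (by unfold cJ; omega))
  refine le_trans ?_ h
  have : ((3 : ℝ) / 4) ^ cM c ≤ (1 / 2) ^ c.2.2.val := by
    unfold cM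
    rw [pow_mul]
    exact pow_le_pow_left₀ (by norm_num) (by norm_num) _
  linarith

end alg

/-! ### polynomial time -/

section pt

variable {feas : Inst → Option Tab} {step : Inst × Tab → List Bool → Tab} {len tau : Inst → ℕ}
  {q : Polynomial ℕ}

theorem ptf_round (hfeas : PTF feas)
    (hstep : PTF (fun p : (Inst × Tab) × List Bool => step p.1 p.2)) (hlen : PTU len) (htau : PTU tau) :
    PTF (fun p : Ctx × (Inst × ℕ × ℕ) × List Bool =>
      round (coin feas step len tau (cm p.1)) lo hi fin (cr q p.1) (cK p.1) p.2.1 p.2.2) := by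
  unfold round
  have hJ := ptu_cJ
  have hE := ptu_cE
  have hK := ptu_cK
  have hm := ptu_cm
  have hr := ptu_cr q
  have hK' : PTU (fun p : Ctx × (Inst × ℕ × ℕ) × List Bool => cK p.1) := PTU.comp hK (by fun_prop)
  have hr' : PTU (fun p : Ctx × (Inst × ℕ × ℕ) × List Bool => cr q p.1) := PTU.comp hr (by fun_prop)
  have hb : PTF (fun p : Ctx × (Inst × ℕ × ℕ) × List Bool => blocks (cr q p.1) (cK p.1) p.2.2) :=
    ptf_blocks (PTU.toPTF hr') hK' (by fun_prop)
  have hc : PTU (fun p : Ctx × (Inst × ℕ × ℕ) × List Bool =>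
      (blocks (cr q p.1) (cK p.1) p.2.2).countP (coin feas step len tau (cm p.1) p.2.1.1)) := by
    refine PTU.countP (p := fun (p : Ctx × (Inst × ℕ × ℕ) × List Bool) (l : List Bool) =>
      coin feas step len tau (cm p.1) p.2.1.1 l) hb ?_
    exact ptf_coin (γ := (Ctx × (Inst × ℕ × ℕ) × List Bool) × List Bool) hfeas hstep hlen htau
      (PTU.comp hm (by fun_prop)) (by fun_prop) (by fun_prop)
  have hc' := PTU.toPTF hc
  have hK'' := PTU.toPTF hK'
  have hfin : PTF (fun p : Ctx × (Inst × ℕ × ℕ) × List Bool => fin p.2.1.1) :=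
    PTF.comp (g := fun I => fin I) ptf_fin (by fun_prop)
  have hlo : PTF (fun p : Ctx × (Inst × ℕ × ℕ) × List Bool => lo p.2.1.1) :=
    PTF.comp (g := fun I => lo I) ptf_lo (by fun_prop)
  have hhi : PTF (fun p : Ctx × (Inst × ℕ × ℕ) × List Bool => hi p.2.1.1) :=
    PTF.comp (g := fun I => hi I) ptf_hi (by fun_prop)
  refine PTF.cond hfin (by fun_prop) (PTF.cond ?_ ?_ ?_)
  · exact PTPred.toPTF (PTPred.natLe hK'' (PTF.natMul (PTF.const 2) hc'))
  · exact PTF.prodMk hlo (PTF.prodMk (PTF.natMul (by fun_prop) hK'') (PTF.natMul (by fun_prop) hc'))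
  · exact PTF.prodMk hhi (PTF.prodMk (PTF.natMul (by fun_prop) hK'') (PTF.natMul (by fun_prop)
      (PTF.natSub hK'' hc')))

theorem size_mul_le (a b : ℕ) : (a * b).size ≤ a.size + b.size := by
  rw [Nat.size_le, pow_add]
  exact Nat.mul_lt_mul'' (Nat.lt_size_self a) (Nat.lt_size_self b)

theorem sz_round (coin : Inst → List Bool → Bool) (r K : ℕ) (x : Inst × ℕ × ℕ) (l : List Bool) :
    sz (round coin lo hi fin r K x l) ≤ sz x + (18 + 3 * sz K) := by
  obtain ⟨I, a, d⟩ := x
  have h1 := sz_lo I
  have h2 := sz_hi I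
  have h3 : sz (a * K) ≤ sz a + sz K := by
    rw [sz_nat, sz_nat, sz_nat]; exact size_mul_le a K
  have hcK := blocks_countP_le r K l (coin I)
  have h4 : sz (d * (blocks r K l).countP (coin I)) ≤ sz d + sz K := by
    refine le_trans ?_ (Nat.add_le_add_left (sz_nat_mono hcK) _)
    rw [sz_nat, sz_nat, sz_nat]; exact size_mul_le _ _
  have h5 : sz (d * (K - (blocks r K l).countP (coin I))) ≤ sz d + sz K := by
    refine le_trans ?_ (Nat.add_le_add_left (sz_nat_mono (Nat.sub_le K ((blocks r K l).countP (coin I)))) _)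
    rw [sz_nat, sz_nat, sz_nat]; exact size_mul_le _ _
  have e : ∀ (I : Inst) (a d : ℕ), sz (I, a, d) = 2 * sz I + 1 + (2 * sz a + 1 + sz d) := by
    intro I a d
    rw [sz_prod (I, a, d), sz_prod (a, d)]
  rw [e]
  unfold round
  cases fin I
  · simp only [cond_false]
    by_cases h : K ≤ 2 * (blocks r K l).countP (coin I)
    · simp only [h, decide_true, cond_true]
      rw [e]; omega
    · simp only [h, decide_false, cond_false]
      rw [e]; omega
  · simp only [cond_true]
    rw [e]; omega

theorem ptf_run (hfeas : PTF feas)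
    (hstep : PTF (fun p : (Inst × Tab) × List Bool => step p.1 p.2)) (hlen : PTU len) (htau : PTU tau) :
    PTF (fun p : Ctx × List Bool => run feas step len tau q p.1 p.2) := by
  unfold run base
  have hJ := ptu_cJ
  have hK := ptu_cK
  have hr := ptu_cr q
  have hK' := PTU.toPTF hK
  have hr' := PTU.toPTF hr
  have hround := ptf_round (q := q) hfeas hstep hlen htau
  have hrun : PTF (fun p : Ctx × List Bool =>
      runSteps (round (coin feas step len tau (cm p.1)) lo hi fin (cr q p.1) (cK p.1))
        (cK p.1 * cr q p.1) (cJ p.1) (p.1.1, 1, 1) p.2) := by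
    refine ptf_runSteps_add (γ := Ctx × List Bool)
      (f := fun p => round (coin feas step len tau (cm p.1)) lo hi fin (cr q p.1) (cK p.1))
      (r := fun p => cK p.1 * cr q p.1) (k := fun p => cJ p.1) (s := fun p => (p.1.1, 1, 1))
      (t := fun p => p.2) ?_ ?_ ?_ ?_ ?_ (G := fun p => 18 + 3 * sz (cK p.1)) ?_ ?_
    · exact PTF.comp (g := fun p : Ctx × (Inst × ℕ × ℕ) × List Bool =>
        round (coin feas step len tau (cm p.1)) lo hi fin (cr q p.1) (cK p.1) p.2.1 p.2.2)
        (f := fun p : (Ctx × List Bool) × (Inst × ℕ × ℕ) × List Bool => (p.1.1, p.2.1, p.2.2))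
        hround (by fun_prop)
    · exact PTF.natMul (PTF.comp (g := cK) hK' (by fun_prop)) (PTF.comp (g := cr q) hr' (by fun_prop))
    · exact PTU.comp hJ (by fun_prop)
    · fun_prop
    · fun_prop
    · have : PTF (fun p : Ctx × List Bool => cK p.1) := PTF.comp (g := cK) hK' (by fun_prop)
      fun_prop
    · intro c x l
      exact sz_round _ _ _ x l
  refine PTF.cond ?_ (PTF.ratDiv ?_ ?_) (PTF.const 0)
  · exact PTF.isSome (PTF.comp (g := feas) hfeas (PTF.comp (g := fun p : Inst × ℕ × ℕ => p.1)
      (by fun_prop) hrun))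
  · exact PTF.ratNatCast (PTF.comp (g := fun p : Inst × ℕ × ℕ => p.2.1) (by fun_prop) hrun)
  · exact PTF.ratNatCast (PTF.comp (g := fun p : Inst × ℕ × ℕ => p.2.2) (by fun_prop) hrun)

theorem ptf_alg (hfeas : PTF feas)
    (hstep : PTF (fun p : (Inst × Tab) × List Bool => step p.1 p.2)) (hlen : PTU len) (htau : PTU tau) :
    PTF (fun p : Ctx × List Bool => alg feas step len tau q p.1 p.2) := by
  unfold alg est
  have hrun := ptf_run (q := q) hfeas hstep hlen htau
  have hJ := ptu_cJ
  have hK := ptu_cK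
  have hM := ptu_cM
  have hr := ptu_cr q
  refine ptf_med (PTF.map (f := fun (p : Ctx × List Bool) (l : List Bool) =>
    run feas step len tau q p.1 l) (ptf_blocks ?_ ?_ ?_) ?_)
  · refine PTU.toPTF ?_
    exact PTU.mul (PTU.comp hJ (by fun_prop)) (PTU.mul (PTU.comp hK (by fun_prop))
      (PTU.comp hr (by fun_prop)))
  · exact PTU.mul (PTU.const 2) (PTU.comp hM (by fun_prop))
  · fun_prop
  · exact PTF.comp (g := fun p : Ctx × List Bool => run feas step len tau q p.1 p.2)
      (f := fun p : (Ctx × List Bool) × List Bool => (p.1.1, p.2)) hrun (by fun_prop)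

end pt

end Crest.Agent.R309.Count632
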