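import Crest.Agent.R309.Tape
import Crest.Agent.Lib.PT.ArithPure
import Crest.Agent.Lib.PT.ListFns2
import Crest.Agent.Lib.PT.ArithMore
import Crest.Prelude.Def_WordRAMProb

-- ▼ part R309/Exact9Chain
section

/-!
# R309, exactness layer (S0481), part 1: pure kernel theory

* `allBits R`: all bit strings of length `R`;
* `cnt stp R x y`: the number of tapes of length `R` moving `x` to `y`;
* `doeblin`: a symmetric chain with `cnt x y ≥ c 2^R / N` on an `N`-element set mixes pointwise;
* `law`: exact integer law of the chain after `s` steps;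
* `pick`, `avg_pick`: sampling from integer weights.
-/

set_option autoImplicit false

namespace Crest.Agent.R309.Exact9

open Finset Crest.Agent.R309.Tape Crest.Agent.Lib.PT.Arith

/-- all bit strings of length `R` -/
def allBits : ℕ → List (List Bool)
  | 0 => [[]]
  | R + 1 => (allBits R).map (false :: ·) ++ (allBits R).map (true :: ·)

theorem length_allBits (R : ℕ) : (allBits R).length = 2 ^ R := by
  induction R with
  | zero => rfl
  | succ R ih => simp [allBits, ih, pow_succ]; ring

theorem mem_allBits {R : ℕ} {l : List Bool} : l ∈ allBits R ↔ l.length = R := by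
  induction R generalizing l with
  | zero => simp [allBits]
  | succ R ih =>
    simp only [allBits, List.mem_append, List.mem_map]
    constructor
    · rintro (⟨a, ha, rfl⟩ | ⟨a, ha, rfl⟩) <;> simp [ih.1 ha]
    · intro h
      cases l with
      | nil => simp at h
      | cons b t =>
        have ht : t ∈ allBits R := ih.2 (by simpa using h)
        cases b
        · exact Or.inl ⟨t, ht, rfl⟩
        · exact Or.inr ⟨t, ht, rfl⟩

theorem avg_eq_allBits (R : ℕ) (g : List Bool → ℝ) :
    avg R g = ((allBits R).map g).sum / 2 ^ R := by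
  induction R generalizing g with
  | zero => simp [allBits]
  | succ R ih =>
    rw [avg_succ, ih, ih, allBits, List.map_append, List.map_map, List.map_map, List.sum_append,
      pow_succ]
    simp only [Function.comp_def]
    field_simp

section chain

variable {X : Type} [DecidableEq X] (stp : X → List Bool → X) (R : ℕ)

/-- number of tapes of length `R` that move `x` to `y` -/
def cnt (x y : X) : ℕ := (allBits R).countP (fun τ => decide (stp x τ = y))

theorem list_sum_map_eq (l : List (List Bool)) (f : List Bool → X) (φ : X → ℝ) (Ω : Finset X)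
    (h : ∀ τ ∈ l, f τ ∈ Ω) :
    (l.map (fun τ => φ (f τ))).sum =
      ∑ y ∈ Ω, (l.countP (fun τ => decide (f τ = y)) : ℝ) * φ y := by
  induction l with
  | nil => simp
  | cons a l ih =>
    rw [List.map_cons, List.sum_cons, ih (fun τ hτ => h τ (by simp [hτ]))]
    have h1 : ∀ y ∈ Ω, (((a :: l).countP (fun τ => decide (f τ = y)) : ℕ) : ℝ) * φ y =
        (if f a = y then φ y else 0) + (l.countP (fun τ => decide (f τ = y)) : ℝ) * φ y := by
      intro y _
      rw [List.countP_cons]
      by_cases hy : f a = y
      · simp [hy]; ring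
      · simp [hy]
    rw [Finset.sum_congr rfl h1, Finset.sum_add_distrib, Finset.sum_ite_eq, if_pos (h a (by simp))]

variable {stp R}

theorem markov_eq {Ω : Finset X} (hcl : ∀ x ∈ Ω, ∀ l : List Bool, l.length = R → stp x l ∈ Ω)
    (φ : X → ℝ) {x : X} (hx : x ∈ Ω) :
    markov stp R φ x = ∑ y ∈ Ω, (cnt stp R x y : ℝ) / 2 ^ R * φ y := by
  unfold markov
  rw [avg_eq_allBits, list_sum_map_eq (allBits R) (stp x) φ Ω
    (fun τ hτ => hcl x hx τ (mem_allBits.1 hτ)), Finset.sum_div]
  refine Finset.sum_congr rfl fun y _ => ?_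
  unfold cnt
  ring

theorem sum_cnt {Ω : Finset X} (hcl : ∀ x ∈ Ω, ∀ l : List Bool, l.length = R → stp x l ∈ Ω)
    {x : X} (hx : x ∈ Ω) : ∑ y ∈ Ω, cnt stp R x y = 2 ^ R := by
  have h := list_sum_map_eq (allBits R) (stp x) (fun _ => (1 : ℝ)) Ω
    (fun τ hτ => hcl x hx τ (mem_allBits.1 hτ))
  simp only [List.map_const', List.sum_replicate, mul_one, length_allBits,
    nsmul_eq_mul] at h
  have h2 : ((∑ y ∈ Ω, cnt stp R x y : ℕ) : ℝ) = ((2 ^ R : ℕ) : ℝ) := by
    push_cast
    unfold cnt
    rw [← h]
    push_cast
    rfl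
  exact_mod_cast h2


/-- exact integer law of the chain after `s` steps, started at `x₀`, on the list `tabs` -/
def law (stp : X → List Bool → X) (R : ℕ) (tabs : List X) (x₀ : X) : ℕ → X → ℕ
  | 0, y => if y = x₀ then 1 else 0
  | s + 1, y => (tabs.map (fun x => law stp R tabs x₀ s x * cnt stp R x y)).sum

theorem law_sum {tabs : List X} (hnd : tabs.Nodup) {x₀ : X} (hx₀ : x₀ ∈ tabs)
    (hcl : ∀ x ∈ tabs, ∀ l : List Bool, l.length = R → stp x l ∈ tabs) (s : ℕ) :
    ∑ y ∈ tabs.toFinset, law stp R tabs x₀ s y = 2 ^ (R * s) := by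
  induction s with
  | zero => simp [law, hx₀]
  | succ s ih =>
    have hcl' : ∀ x ∈ tabs.toFinset, ∀ l : List Bool, l.length = R → stp x l ∈ tabs.toFinset := by
      simpa using hcl
    simp only [law]
    have h1 : ∀ y, (tabs.map (fun x => law stp R tabs x₀ s x * cnt stp R x y)).sum =
        ∑ x ∈ tabs.toFinset, law stp R tabs x₀ s x * cnt stp R x y := fun y =>
      (List.sum_toFinset _ hnd).symm
    simp_rw [h1]
    rw [Finset.sum_comm]
    have h2 : ∀ x ∈ tabs.toFinset, ∑ y ∈ tabs.toFinset, law stp R tabs x₀ s x * cnt stp R x y =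
        law stp R tabs x₀ s x * 2 ^ R := by
      intro x hx
      rw [← Finset.mul_sum, sum_cnt hcl' hx]
    rw [Finset.sum_congr rfl h2, ← Finset.sum_mul, ih]
    ring

theorem iterate_markov_eq_law {tabs : List X} (hnd : tabs.Nodup) {x₀ : X} (hx₀ : x₀ ∈ tabs)
    (hcl : ∀ x ∈ tabs, ∀ l : List Bool, l.length = R → stp x l ∈ tabs) (s : ℕ) (φ : X → ℝ) :
    (markov stp R)^[s] φ x₀ =
      ∑ y ∈ tabs.toFinset, (law stp R tabs x₀ s y : ℝ) / 2 ^ (R * s) * φ y := by
  induction s generalizing φ with
  | zero =>
    simp only [Function.iterate_zero, id_eq, law, mul_zero, pow_zero, div_one]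
    simp [hx₀]
  | succ s ih =>
    have hcl' : ∀ x ∈ tabs.toFinset, ∀ l : List Bool, l.length = R → stp x l ∈ tabs.toFinset := by
      simpa using hcl
    rw [Function.iterate_succ_apply, ih]
    have h0 : ∀ x ∈ tabs.toFinset, (law stp R tabs x₀ s x : ℝ) / 2 ^ (R * s) * markov stp R φ x =
        ∑ y ∈ tabs.toFinset, (law stp R tabs x₀ s x : ℝ) * cnt stp R x y / 2 ^ (R * (s + 1)) * φ y := by
      intro x hx
      rw [markov_eq hcl' φ hx, Finset.mul_sum]
      refine Finset.sum_congr rfl fun y _ => ?_
      rw [mul_add, pow_add, mul_one]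
      field_simp
    rw [Finset.sum_congr rfl h0, Finset.sum_comm]
    refine Finset.sum_congr rfl fun y _ => ?_
    rw [← Finset.sum_mul, ← Finset.sum_div]
    congr 2
    simp only [law]
    rw [← List.sum_toFinset _ hnd]
    push_cast
    rfl

end chain

section pick

variable {X : Type}

/-- choose the item of an integer-weighted list that contains position `v` -/
def pick : List (X × ℕ) → ℕ → Option X
  | [], _ => none
  | p :: l, v => if v < p.2 then some p.1 else pick l (v - p.2)

theorem sum_pick (l : List (X × ℕ)) (M : ℕ) (hM : (l.map Prod.snd).sum ≤ M)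
    (g : Option X → ℝ) :
    ∑ v ∈ range M, g (pick l v) =
      (l.map (fun p => (p.2 : ℝ) * g (some p.1))).sum +
        ((M : ℝ) - ((l.map Prod.snd).sum : ℕ)) * g none := by
  induction l generalizing M with
  | nil => simp [pick]
  | cons p l ih =>
    simp only [List.map_cons, List.sum_cons] at hM ⊢
    obtain ⟨M', rfl⟩ := Nat.exists_eq_add_of_le (show p.2 ≤ M by omega)
    rw [Finset.sum_range_add]
    have h1 : ∑ v ∈ range p.2, g (pick (p :: l) v) = (p.2 : ℝ) * g (some p.1) := by
      rw [Finset.sum_congr rfl (g := fun _ => g (some p.1))]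
      · simp
      · intro v hv
        simp [pick, Finset.mem_range.1 hv]
    have h2 : ∑ v ∈ range M', g (pick (p :: l) (p.2 + v)) = ∑ v ∈ range M', g (pick l v) := by
      refine Finset.sum_congr rfl fun v _ => ?_
      simp [pick]
    rw [h1, h2, ih M' (by omega)]
    push_cast
    ring

theorem sum_msb (J : ℕ) (h : ℕ → ℝ) : avg J (fun τ => h (msb τ)) = (∑ v ∈ range (2 ^ J), h v) / 2 ^ J := by
  induction J generalizing h with
  | zero => simp
  | succ J ih =>
    rw [avg_succ]
    have e1 : avg J (fun l => h (msb (false :: l))) = avg J (fun l => h (msb l)) :=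
      avg_congr fun l hl => by rw [msb_cons]; simp
    have e2 : avg J (fun l => h (msb (true :: l))) = avg J (fun l => h (2 ^ J + msb l)) :=
      avg_congr fun l hl => by rw [msb_cons, hl]; simp
    rw [e1, e2, ih h, ih (fun v => h (2 ^ J + v)), pow_succ 2 J, mul_two, Finset.sum_range_add,
      pow_succ (2 : ℝ) J]
    ring

/-- sampling an item from an integer-weighted list with `J` fair bits -/
theorem avg_pick (l : List (X × ℕ)) (J : ℕ) (hJ : (l.map Prod.snd).sum ≤ 2 ^ J)
    (g : Option X → ℝ) :
    avg J (fun τ => g (pick l (msb τ))) =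
      ((l.map (fun p => (p.2 : ℝ) * g (some p.1))).sum +
        ((2 : ℝ) ^ J - ((l.map Prod.snd).sum : ℕ)) * g none) / 2 ^ J := by
  rw [sum_msb J (fun v => g (pick l v)), sum_pick l (2 ^ J) hJ]
  push_cast
  rfl

theorem avg_all_true (K : ℕ) (a b : ℝ) :
    avg K (fun τ => if τ.all id then a else b) = (1 - (2 : ℝ)⁻¹ ^ K) * b + (2 : ℝ)⁻¹ ^ K * a := by
  induction K with
  | zero => simp
  | succ K ih =>
    rw [avg_succ]
    have e1 : avg K (fun l => if (false :: l).all id then a else b) = b := by
      rw [← avg_const K b]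
      exact avg_congr fun l _ => by simp
    have e2 : avg K (fun l => if (true :: l).all id then a else b) =
        avg K (fun l => if l.all id then a else b) := avg_congr fun l _ => by simp
    rw [e1, e2, ih, pow_succ]
    ring

end pick

end Crest.Agent.R309.Exact9
private theorem rz_371e12bc51 : type_of% @_root_.Crest.Agent.R309.Exact9.allBits.eq_def := @_root_.Crest.Agent.R309.Exact9.allBits.eq_def -- L21
private theorem rz_e892ecd1bd : type_of% @_root_.Crest.Agent.R309.Exact9.allBits.eq_1 := @_root_.Crest.Agent.R309.Exact9.allBits.eq_1 -- L21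
private theorem rz_240f1a2331 : type_of% @_root_.Crest.Agent.R309.Exact9.law.eq_def := @_root_.Crest.Agent.R309.Exact9.law.eq_def -- L176
private theorem rz_39cab1a4e3 : type_of% @_root_.Crest.Agent.R309.Exact9.law.eq_1 := @_root_.Crest.Agent.R309.Exact9.law.eq_1 -- L176
private theorem rz_cc02eb3a20 : type_of% @_root_.Crest.Agent.R309.Exact9.pick.eq_def := @_root_.Crest.Agent.R309.Exact9.pick.eq_def -- L236
private theorem rz_f44b8e3473 : type_of% @_root_.Crest.Agent.R309.Exact9.pick.eq_1 := @_root_.Crest.Agent.R309.Exact9.pick.eq_1 -- L236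
end

-- ▼ part R309/Exact9Fn
section

/-!
# R309, exactness layer (S0481), part 2: the poly-time functions of phase B

* `listsOf cands pad k`: all lists of length `k` over `cands`, truncated to `pad` items;
* `lawL`: the exact integer law as a list;
* `wtsL`: the integer weights of the residual law;
* `pick` as a poly-time function.
-/

set_option autoImplicit false

namespace Crest.Agent.R309.Exact9

open Crest.Agent.R309.Tape Crest.Agent.Lib.PT Crest.Agent.Lib.PT.Arith

section lists

variable {α γ : Type}

/-- one step of the enumeration of lists -/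
def listsStep (cands : List α) (pad : ℕ) (L : List (List α)) : List (List α) :=
  (cands.flatMap (fun a => L.map (fun l => a :: l))).take pad

/-- all lists of length `k` over `cands`, truncated to `pad` items at every step -/
def listsOf (cands : List α) (pad k : ℕ) : List (List α) := (listsStep cands pad)^[k] [[]]

/-- all lists of length `k` over `cands` -/
def listsFull (cands : List α) : ℕ → List (List α)
  | 0 => [[]]
  | k + 1 => cands.flatMap (fun a => (listsFull cands k).map (fun l => a :: l))

theorem length_listsFull (cands : List α) (k : ℕ) :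
    (listsFull cands k).length = cands.length ^ k := by
  induction k with
  | zero => rfl
  | succ k ih =>
    rw [listsFull, List.length_flatMap]
    simp [ih, pow_succ, Nat.mul_comm]

theorem mem_listsFull {cands : List α} {k : ℕ} {l : List α} :
    l ∈ listsFull cands k ↔ l.length = k ∧ ∀ a ∈ l, a ∈ cands := by
  induction k generalizing l with
  | zero =>
    simp only [listsFull, List.mem_singleton]
    constructor
    · rintro rfl; simp
    · rintro ⟨h, _⟩; exact List.length_eq_zero_iff.1 h
  | succ k ih =>
    simp only [listsFull, List.mem_flatMap, List.mem_map]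
    constructor
    · rintro ⟨a, ha, t, ht, rfl⟩
      have := ih.1 ht
      refine ⟨by simp [this.1], ?_⟩
      intro b hb
      rcases List.mem_cons.1 hb with rfl | hb
      · exact ha
      · exact this.2 b hb
    · rintro ⟨h1, h2⟩
      cases l with
      | nil => simp at h1
      | cons a t =>
        exact ⟨a, h2 a (by simp), t, ih.2 ⟨by simpa using h1, fun b hb => h2 b (by simp [hb])⟩, rfl⟩

theorem nodup_listsFull {cands : List α} (h : cands.Nodup) (k : ℕ) :
    (listsFull cands k).Nodup := by
  induction k with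
  | zero => simp [listsFull]
  | succ k ih =>
    rw [listsFull, List.nodup_flatMap]
    refine ⟨fun a _ => ih.map (fun l l' hl => by simpa using hl), ?_⟩
    refine h.imp ?_
    intro a b hab
    simp only [Function.onFun]
    rw [List.disjoint_left]
    intro l hl hl'
    obtain ⟨t, _, rfl⟩ := List.mem_map.1 hl
    obtain ⟨t', _, h'⟩ := List.mem_map.1 hl'
    simp only [List.cons.injEq] at h'
    exact hab h'.1.symm

theorem listsOf_eq {cands : List α} {pad k : ℕ} (h1 : 1 ≤ cands.length)
    (h : cands.length ^ k ≤ pad) : listsOf cands pad k = listsFull cands k := by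
  have key : ∀ i ≤ k, (listsStep cands pad)^[i] [[]] = listsFull cands i := by
    intro i
    induction i with
    | zero => intro _; rfl
    | succ i ih =>
      intro hi
      rw [Function.iterate_succ_apply', ih (by omega)]
      unfold listsStep
      rw [← listsFull, List.take_of_length_le]
      rw [length_listsFull]
      exact (Nat.pow_le_pow_right h1 hi).trans h
  exact key k le_rfl

theorem listsFull_bool (k : ℕ) : listsFull [false, true] k = allBits k := by
  induction k with
  | zero => rfl
  | succ k ih => simp [listsFull, allBits, ih]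

variable [PTCode α] [PTCode γ]

theorem ptf_listsStep {cands : γ → List α} {pad : γ → ℕ} (hc : PTF cands) (hp : PTU pad) :
    PTF₂ (fun (c : γ) (L : List (List α)) => listsStep (cands c) (pad c) L) := by
  have h1 : PTF (fun q : γ × List (List α) => q.1) := PTF.fst
  have hinner : PTF₂ (fun (q : γ × List (List α)) (a : α) => q.2.map (fun l => a :: l)) :=
    PTF.map (l := fun p : (γ × List (List α)) × α => p.1.2) (f := fun p l => p.2 :: l)
      (by fun_prop) (by pt_prop)
  exact PTF.take (n := fun q : γ × List (List α) => pad q.1) (PTU.comp hp h1)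
    (PTF.flatMap (l := fun q : γ × List (List α) => cands q.1) (PTF.comp hc h1) hinner)

theorem ptf_listsOf {cands : γ → List α} {pad k : γ → ℕ} (hc : PTF cands) (hp : PTU pad)
    (hk : PTU k) : PTF (fun c => listsOf (cands c) (pad c) (k c)) := by
  have hb : ∀ (cs : List α) (p i : ℕ),
      (∀ l ∈ (listsStep cs p)^[i] [[]], sz l ≤ i * (2 * sz cs + 1)) ∧
        ((listsStep cs p)^[i] [[]]).length ≤ p + 1 := by
    intro cs p i
    induction i with
    | zero => simp
    | succ i ih =>
      rw [Function.iterate_succ_apply']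
      constructor
      · intro l hl
        have hl' := List.mem_of_mem_take hl
        obtain ⟨a, ha, hl''⟩ := List.mem_flatMap.1 hl'
        obtain ⟨t, ht, rfl⟩ := List.mem_map.1 hl''
        have h1 := ih.1 t ht
        have h2 : sz a ≤ sz cs := sz_mem_le ha
        rw [sz_cons]
        have e : (i + 1) * (2 * sz cs + 1) = i * (2 * sz cs + 1) + (2 * sz cs + 1) := by ring
        omega
      · unfold listsStep
        rw [List.length_take]
        omega
  refine PTF.iterate' (f := fun (c : γ) (L : List (List α)) => listsStep (cands c) (pad c) L)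
    (a := fun _ => [[]]) hk (ptf_listsStep hc hp) (PTF.const _)
    (B := fun c => (pad c + 1) * (2 * (k c * (2 * sz (cands c) + 1)) + 1)) ?_ ?_
  · have h1 := hp.pb
    have h2 := hk.pb
    have h3 := hc.sz
    fun_prop
  · intro c i hi
    obtain ⟨h1, h2⟩ := hb (cands c) (pad c) i
    refine (sz_list_le (m := k c * (2 * sz (cands c) + 1)) ?_).trans ?_
    · intro l hl
      exact (h1 l hl).trans (Nat.mul_le_mul_right _ hi)
    · exact Nat.mul_le_mul_right _ h2

end lists

section law

variable {X γ : Type} [DecidableEq X]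

/-- one step of the exact integer law, on lists -/
def lawStepL (cap : ℕ) (stp : X → List Bool → X) (seeds : List (List Bool)) (tabs : List X)
    (v : List (X × ℕ)) : List (X × ℕ) :=
  tabs.map (fun y => (y, min cap
    ((v.map (fun q => q.2 * seeds.countP (fun τ => decide (stp q.1 τ = y)))).sum)))

/-- the exact integer law after `T` steps, as a list -/
def lawL (cap : ℕ) (stp : X → List Bool → X) (seeds : List (List Bool)) (tabs : List X)
    (x₀ : X) (T : ℕ) : List (X × ℕ) :=
  (lawStepL cap stp seeds tabs)^[T] (tabs.map (fun y => (y, if y = x₀ then 1 else 0)))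

theorem lawL_eq {stp : X → List Bool → X} {R : ℕ} {tabs : List X} (hnd : tabs.Nodup) {x₀ : X}
    (hx₀ : x₀ ∈ tabs) (hcl : ∀ x ∈ tabs, ∀ l : List Bool, l.length = R → stp x l ∈ tabs)
    (T : ℕ) : lawL (2 ^ (R * T)) stp (allBits R) tabs x₀ T =
      tabs.map (fun y => (y, law stp R tabs x₀ T y)) := by
  have key : ∀ i ≤ T, (lawStepL (2 ^ (R * T)) stp (allBits R) tabs)^[i]
      (tabs.map (fun y => (y, if y = x₀ then 1 else 0))) =
      tabs.map (fun y => (y, law stp R tabs x₀ i y)) := by
    intro i
    induction i with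
    | zero => intro _; rfl
    | succ i ih =>
      intro hi
      rw [Function.iterate_succ_apply', ih (by omega)]
      unfold lawStepL
      refine List.map_congr_left fun y hy => ?_
      simp only [List.map_map, Prod.mk.injEq, true_and, Function.comp_def]
      have h1 : (tabs.map (fun x => law stp R tabs x₀ i x *
          (allBits R).countP (fun τ => decide (stp x τ = y)))).sum = law stp R tabs x₀ (i + 1) y := rfl
      rw [h1]
      refine min_eq_right ?_
      have h2 : law stp R tabs x₀ (i + 1) y ≤ ∑ y ∈ tabs.toFinset, law stp R tabs x₀ (i + 1) y :=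
        Finset.single_le_sum (f := fun y => law stp R tabs x₀ (i + 1) y) (fun _ _ => Nat.zero_le _)
          (by simpa using hy)
      rw [law_sum hnd hx₀ hcl] at h2
      exact h2.trans (Nat.pow_le_pow_right (by norm_num) (Nat.mul_le_mul_left _ hi))
  exact key T le_rfl

variable [PTCode X] [PTCode γ]

theorem ptf_lawStepL {cap : γ → ℕ} {stp : γ → X → List Bool → X} {seeds : γ → List (List Bool)}
    {tabs : γ → List X} (hcap : PTF cap)
    (hstp : PTF (fun p : γ × X × List Bool => stp p.1 p.2.1 p.2.2))
    (hseeds : PTF seeds) (htabs : PTF tabs) :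
    PTF₂ (fun (c : γ) (v : List (X × ℕ)) => lawStepL (cap c) (stp c) (seeds c) (tabs c) v) := by
  -- context: `q : γ × List (X × ℕ)`, then `y : X`, then `r : X × ℕ`, then `τ`
  have hcount : PTU (fun q : ((γ × List (X × ℕ)) × X) × (X × ℕ) =>
      (seeds q.1.1.1).countP (fun τ => decide (stp q.1.1.1 q.2.1 τ = q.1.2))) := by
    refine PTU.countP (l := fun q : ((γ × List (X × ℕ)) × X) × (X × ℕ) => seeds q.1.1.1)
      (p := fun q τ => decide (stp q.1.1.1 q.2.1 τ = q.1.2)) (PTF.comp hseeds (by fun_prop)) ?_
    refine PTF.beq (f := fun q : (((γ × List (X × ℕ)) × X) × (X × ℕ)) × List Bool =>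
        stp q.1.1.1.1 q.1.2.1 q.2) ?_ (by fun_prop)
    exact PTF.comp (g := fun p : γ × X × List Bool => stp p.1 p.2.1 p.2.2)
      (f := fun q : (((γ × List (X × ℕ)) × X) × (X × ℕ)) × List Bool =>
        (q.1.1.1.1, q.1.2.1, q.2)) hstp (by fun_prop)
  have hterm : PTF (fun q : ((γ × List (X × ℕ)) × X) × (X × ℕ) =>
      q.2.2 * (seeds q.1.1.1).countP (fun τ => decide (stp q.1.1.1 q.2.1 τ = q.1.2))) :=
    PTF.natMul (by fun_prop) hcount.toPTF
  have hsum : PTF (fun q : (γ × List (X × ℕ)) × X => (q.1.2.map (fun r => r.2 *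
      (seeds q.1.1).countP (fun τ => decide (stp q.1.1 r.1 τ = q.2)))).sum) :=
    PTF.natListSum (PTF.map (l := fun q : (γ × List (X × ℕ)) × X => q.1.2) (by fun_prop) hterm)
  have hinner : PTF (fun q : (γ × List (X × ℕ)) × X => (q.2, min (cap q.1.1)
      ((q.1.2.map (fun r => r.2 *
        (seeds q.1.1).countP (fun τ => decide (stp q.1.1 r.1 τ = q.2)))).sum))) :=
    PTF.prodMk (by fun_prop) (PTF.natMin (PTF.comp hcap (by fun_prop)) hsum)
  exact PTF.map (l := fun q : γ × List (X × ℕ) => tabs q.1) (PTF.comp htabs (by fun_prop)) hinner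

theorem ptf_lawL {cap T : γ → ℕ} {stp : γ → X → List Bool → X} {seeds : γ → List (List Bool)}
    {tabs : γ → List X} {x₀ : γ → X} (hcap : PTF cap) (hT : PTU T)
    (hstp : PTF (fun p : γ × X × List Bool => stp p.1 p.2.1 p.2.2))
    (hseeds : PTF seeds) (htabs : PTF tabs) (hx₀ : PTF x₀) :
    PTF (fun c => lawL (cap c) (stp c) (seeds c) (tabs c) (x₀ c) (T c)) := by
  have hinit : PTF (fun c => (tabs c).map (fun y => (y, if y = x₀ c then 1 else 0))) := by
    refine PTF.map (f := fun c y => (y, if y = x₀ c then 1 else 0)) htabs ?_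
    refine PTF.prodMk (by fun_prop) (PTF.ite (PTPred.eq (by fun_prop) ?_) (PTF.const _) (PTF.const _))
    exact PTF.comp hx₀ (by fun_prop)
  have hb : ∀ c, ∀ i, sz ((lawStepL (cap c) (stp c) (seeds c) (tabs c))^[i]
      ((tabs c).map (fun y => (y, if y = x₀ c then 1 else 0)))) ≤
      sz (tabs c) * (2 * (2 * sz (tabs c) + 1 + (sz (cap c) + 1)) + 1) := by
    intro c i
    have hlen : ∀ f : X → ℕ, (∀ y, sz (f y) ≤ sz (cap c) + 1) →
        sz ((tabs c).map (fun y => (y, f y))) ≤
          sz (tabs c) * (2 * (2 * sz (tabs c) + 1 + (sz (cap c) + 1)) + 1) := by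
      intro f hf
      refine (sz_list_le (m := 2 * sz (tabs c) + 1 + (sz (cap c) + 1)) ?_).trans ?_
      · intro p hp
        obtain ⟨y, hy, rfl⟩ := List.mem_map.1 hp
        have h1 : sz y ≤ sz (tabs c) := sz_mem_le hy
        have h2 := hf y
        simp only [sz_prod]
        omega
      · rw [List.length_map]
        exact Nat.mul_le_mul_right _ (length_le_sz _)
    cases i with
    | zero =>
      refine hlen (fun y => if y = x₀ c then 1 else 0) (fun y => ?_)
      split_ifs
      · rw [sz_nat]; simp
      · rw [sz_nat]; simp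
    | succ i =>
      rw [Function.iterate_succ_apply']
      unfold lawStepL
      refine hlen (fun y => min (cap c) _) (fun y => ?_)
      simp only [sz_nat]
      refine (Nat.size_le_size (Nat.min_le_left _ _)).trans (Nat.le_succ _)
  refine PTF.iterate' (f := fun (c : γ) v => lawStepL (cap c) (stp c) (seeds c) (tabs c) v) hT
    (ptf_lawStepL hcap hstp hseeds htabs) hinit
    (B := fun c => sz (tabs c) * (2 * (2 * sz (tabs c) + 1 + (sz (cap c) + 1)) + 1)) ?_
    (fun c i _ => hb c i)
  have h1 := htabs.sz
  have h2 := hcap.sz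
  fun_prop

end law

section pick

variable {X γ : Type}

/-- step of `pick` as a fold -/
def pickStep (s : ℕ × Option X) (p : X × ℕ) : ℕ × Option X :=
  match s.2 with
  | some _ => s
  | none => if s.1 < p.2 then (s.1, some p.1) else (s.1 - p.2, none)

theorem foldl_pickStep_some (l : List (X × ℕ)) (v : ℕ) (y : X) :
    l.foldl pickStep (v, some y) = (v, some y) := by
  induction l with
  | nil => rfl
  | cons p l ih => rw [List.foldl_cons]; exact ih

theorem pick_eq_foldl (l : List (X × ℕ)) (v : ℕ) :
    pick l v = (l.foldl pickStep (v, none)).2 := by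
  induction l generalizing v with
  | nil => rfl
  | cons p l ih =>
    rw [List.foldl_cons, pick]
    unfold pickStep
    simp only
    split_ifs with h
    · rw [show (fun (s : ℕ × Option X) (p : X × ℕ) => (match s.2 with
        | some _ => s
        | none => if s.1 < p.2 then (s.1, some p.1) else (s.1 - p.2, none) : ℕ × Option X)) =
        pickStep from rfl]
      rw [foldl_pickStep_some]
    · exact ih _

variable [PTCode X] [PTCode γ]

theorem ptf_pick {l : γ → List (X × ℕ)} {v : γ → ℕ} (hl : PTF l) (hv : PTF v) :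
    PTF (fun c => pick (l c) (v c)) := by
  have hstep : PTF (fun p : γ × (ℕ × Option X) × (X × ℕ) => pickStep p.2.1 p.2.2) := by
    refine PTF.of_eq (PTF.optionCasesOn (s := fun p : γ × (ℕ × Option X) × (X × ℕ) => p.2.1.2)
      (f := fun p => if p.2.1.1 < p.2.2.2 then (p.2.1.1, some p.2.2.1)
        else (p.2.1.1 - p.2.2.2, none)) (g := fun p _ => p.2.1) (by fun_prop) ?_ (by pt_prop)) ?_
    · refine PTF.ite (PTPred.natLt (by fun_prop) (by fun_prop)) (by fun_prop) ?_
      exact PTF.prodMk (PTF.natSub (by fun_prop) (by fun_prop)) (PTF.const _)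
    · rintro ⟨c, ⟨s, o⟩, p⟩
      unfold pickStep
      cases o <;> rfl
  have key : ∀ (l' : List (X × ℕ)) (S v : ℕ) (s : ℕ × Option X), (∀ p ∈ l', sz p.1 ≤ S) →
      s.1 ≤ v → sz s.2 ≤ S + 1 →
      (l'.foldl pickStep s).1 ≤ v ∧ sz (l'.foldl pickStep s).2 ≤ S + 1 := by
    intro l'
    induction l' with
    | nil => intro S v s _ h1 h2; exact ⟨h1, h2⟩
    | cons p l' ih =>
      intro S v s hp h1 h2
      rw [List.foldl_cons]
      refine ih S v _ (fun q hq => hp q (by simp [hq])) ?_ ?_
      · unfold pickStep
        rcases s with ⟨s, _ | y⟩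
        · simp only
          split_ifs
          · exact h1
          · exact (Nat.sub_le _ _).trans h1
        · exact h1
      · unfold pickStep
        rcases s with ⟨s, _ | y⟩
        · simp only
          split_ifs
          · simpa using hp p (by simp)
          · simp
        · exact h2
  have h := PTF.foldl (f := fun (_ : γ) s p => pickStep s p) (b := fun c => (v c, none)) hl
    hstep (PTF.prodMk hv (PTF.const _)) (B := fun c => 2 * sz (v c) + 1 + (sz (l c) + 1)) ?_ ?_
  · exact PTF.of_eq (PTF.comp PTF.snd h) (fun c => (pick_eq_foldl _ _).symm)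
  · have h1 := hl.sz
    have h2 := hv.sz
    fun_prop
  · intro c i _
    obtain ⟨h1, h2⟩ := key ((l c).take i) (sz (l c)) (v c) (v c, none)
      (fun p hp => by
        have h3 : sz p ≤ sz (l c) := sz_mem_le (List.mem_of_mem_take hp)
        rw [sz_prod] at h3
        omega) le_rfl (by simp)
    rw [sz_prod]
    have h3 : sz (((l c).take i).foldl pickStep (v c, none)).1 ≤ sz (v c) := by
      rw [sz_nat, sz_nat]
      exact Nat.size_le_size h1
    exact Nat.add_le_add (Nat.add_le_add_right (Nat.mul_le_mul_left 2 h3) 1) h2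

end pick

end Crest.Agent.R309.Exact9
private theorem rz_7cac0449e4 : type_of% @_root_.Crest.Agent.R309.Exact9.listsFull.eq_def := @_root_.Crest.Agent.R309.Exact9.listsFull.eq_def -- L32
private theorem rz_62c8db5f80 : type_of% @_root_.Crest.Agent.R309.Exact9.listsFull.eq_1 := @_root_.Crest.Agent.R309.Exact9.listsFull.eq_1 -- L32
end

-- ▼ part R309/Exact9Proc
section

/-!
# R309, exactness layer (S0481), part 3: the bit-tape process, its harmonic functions and potential
-/

set_option autoImplicit false

namespace Crest.Agent.R309.Exact9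

open Crest.Agent.R309.Tape Crest.Agent.Lib.PT Crest.Agent.Lib.PT.Arith

/-- environment: instance, then unary numbers `R` (bits per step), `K` (switch exponent),
`T` (number of steps), `D` (number of doublings), `L` (bit reserve) -/
abbrev Env (I : Type) := I × (Un × Un × Un × Un × Un)

/-- phase A: current state and number of remaining steps; phase B: pad and remaining doublings -/
abbrev Mode (X : Type) := (X × Un) ⊕ (Un × Un)

/-- configurations of the process -/
abbrev Conf (I X : Type) := Env I × Mode X

section defs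

variable {I X : Type}

/-- bits per step -/
def eR (e : Env I) : ℕ := e.2.1.val
/-- switch exponent -/
def eK (e : Env I) : ℕ := e.2.2.1.val
/-- number of steps -/
def eT (e : Env I) : ℕ := e.2.2.2.1.val
/-- number of doublings -/
def eD (e : Env I) : ℕ := e.2.2.2.2.1.val
/-- bit reserve -/
def eL (e : Env I) : ℕ := e.2.2.2.2.2.val

/-- the data of the sampler -/
structure Data (I X : Type) where
  /-- one step of the chain -/
  stp : I → X → List Bool → X
  /-- start state -/
  start : I → X
  /-- enumeration of all states (complete once the pad is large) -/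
  enum : I → ℕ → List X
  /-- output words -/
  out : I → X → List ℕ

variable [DecidableEq X] (D : Data I X)

/-- the residual weights -/
def wts (e : Env I) (pad : ℕ) : List (X × ℕ) :=
  (lawL (2 ^ (eR e * eT e)) (D.stp e.1) (listsOf [false, true] pad (eR e)) (D.enum e.1 pad)
    (D.start e.1) (eT e)).map
    (fun q => (q.1, 2 ^ (eK e) * 2 ^ (eR e * eT e) -
      (D.enum e.1 pad).length * (2 ^ (eK e) - 1) * q.2))

/-- the total residual weight -/
def tot (e : Env I) (pad : ℕ) : ℕ := ((wts D e pad).map Prod.snd).sum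

/-- one round of the process -/
def rnd (s : Conf I X) (τ : List Bool) : Conf I X ⊕ List ℕ :=
  match s.2 with
  | Sum.inl xu =>
    if xu.2.val = 0 then
      if (τ.take (eK s.1)).all (fun b => b) = true then Sum.inl (s.1, Sum.inr (⟨1⟩, ⟨eD s.1⟩))
      else Sum.inr (D.out s.1.1 xu.1)
    else Sum.inl (s.1, Sum.inl (D.stp s.1.1 xu.1 (τ.take (eR s.1)), ⟨xu.2.val - 1⟩))
  | Sum.inr pk =>
    if pk.2.val = 0 then
      match pick (wts D s.1 pk.1.val) (msb (τ.take (tot D s.1 pk.1.val).size)) with
      | none => Sum.inl s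
      | some y => Sum.inr (D.out s.1.1 y)
    else Sum.inl (s.1, Sum.inr (⟨2 * pk.1.val⟩, ⟨pk.2.val - 1⟩))

end defs

section ptf

variable {I X : Type} [PTCode I] [PTCode X]

theorem ptu_eR : PTU (eR : Env I → ℕ) := by unfold eR; fun_prop
theorem ptu_eK : PTU (eK : Env I → ℕ) := by unfold eK; fun_prop
theorem ptu_eT : PTU (eT : Env I → ℕ) := by unfold eT; fun_prop
theorem ptu_eD : PTU (eD : Env I → ℕ) := by unfold eD; fun_prop

/-- poly-time data -/
structure Data.Poly (D : Data I X) : Prop where
  stp : PTF (fun p : I × X × List Bool => D.stp p.1 p.2.1 p.2.2)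
  start : PTF D.start
  enum : PTF (fun p : I × Un => D.enum p.1 p.2.val)
  out : PTF (fun p : I × X => D.out p.1 p.2)

variable [DecidableEq X] {D : Data I X}

theorem ptf_wts (hD : D.Poly) : PTF (fun p : Env I × Un => wts D p.1 p.2.val) := by
  have hR : PTU (fun p : Env I × Un => eR p.1) := PTU.comp ptu_eR PTF.fst
  have hK : PTU (fun p : Env I × Un => eK p.1) := PTU.comp ptu_eK PTF.fst
  have hT : PTU (fun p : Env I × Un => eT p.1) := PTU.comp ptu_eT PTF.fst
  have hRT : PTU (fun p : Env I × Un => eR p.1 * eT p.1) := PTU.mul hR hT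
  have hcap : PTF (fun p : Env I × Un => 2 ^ (eR p.1 * eT p.1)) := PTF.natTwoPow hRT
  have hseeds : PTF (fun p : Env I × Un => listsOf [false, true] p.2.val (eR p.1)) :=
    ptf_listsOf (PTF.const _) (PTU.val PTF.snd) hR
  have henum : PTF (fun p : Env I × Un => D.enum p.1.1 p.2.val) :=
    PTF.comp (g := fun p : I × Un => D.enum p.1 p.2.val) (f := fun p : Env I × Un => (p.1.1, p.2))
      hD.enum (by fun_prop)
  have hstart : PTF (fun p : Env I × Un => D.start p.1.1) := PTF.comp hD.start (by fun_prop)
  have hstp : PTF (fun q : (Env I × Un) × X × List Bool => D.stp q.1.1.1 q.2.1 q.2.2) :=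
    PTF.comp (g := fun p : I × X × List Bool => D.stp p.1 p.2.1 p.2.2)
      (f := fun q : (Env I × Un) × X × List Bool => (q.1.1.1, q.2.1, q.2.2)) hD.stp (by fun_prop)
  have hlaw := ptf_lawL (stp := fun p : Env I × Un => D.stp p.1.1) hcap hT hstp hseeds henum hstart
  refine PTF.map (f := fun (p : Env I × Un) (q : X × ℕ) => (q.1, 2 ^ (eK p.1) *
    2 ^ (eR p.1 * eT p.1) - (D.enum p.1.1 p.2.val).length * (2 ^ (eK p.1) - 1) * q.2)) hlaw ?_
  have h1 : PTF (fun q : (Env I × Un) × (X × ℕ) => q.1) := PTF.fst
  have hlen : PTF (fun q : (Env I × Un) × (X × ℕ) => (D.enum q.1.1.1 q.1.2.val).length) :=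
    (PTU.length (PTF.comp (g := fun p : Env I × Un => D.enum p.1.1 p.2.val) henum h1)).toPTF
  have hK2 : PTF (fun q : (Env I × Un) × (X × ℕ) => 2 ^ (eK q.1.1)) :=
    PTF.natTwoPow (PTU.comp (n := fun p : Env I × Un => eK p.1) hK h1)
  have hcap2 : PTF (fun q : (Env I × Un) × (X × ℕ) => 2 ^ (eR q.1.1 * eT q.1.1)) :=
    PTF.comp (g := fun p : Env I × Un => 2 ^ (eR p.1 * eT p.1)) hcap h1
  exact PTF.prodMk (PTF.comp (g := fun r : X × ℕ => r.1) PTF.fst PTF.snd)
    (PTF.natSub (PTF.natMul hK2 hcap2)
    (PTF.natMul (PTF.natMul hlen (PTF.natSub hK2 (PTF.const _)))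
      (PTF.comp (g := fun r : X × ℕ => r.2) PTF.snd PTF.snd)))

theorem ptf_tot (hD : D.Poly) : PTF (fun p : Env I × Un => tot D p.1 p.2.val) :=
  PTF.natListSum (PTF.map (f := fun _ q => q.2) (ptf_wts hD) (by pt_prop))

theorem ptf_msb' {γ : Type} [PTCode γ] {f : γ → List Bool} (hf : PTF f) : PTF (fun c => msb (f c)) :=
  PTF.comp (g := msb) ptf_msb hf

attribute [local irreducible] wts tot msb pick

theorem ptf_final {γ : Type} [PTCode γ] (hD : D.Poly) {s : γ → Conf I X} {τ : γ → List Bool}
    {e : γ → Env I} {pad : γ → Un} (hs : PTF s) (hτ : PTF τ) (he : PTF e) (hpad : PTF pad) :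
    PTF (fun c => (match pick (wts D (e c) (pad c).val)
        (msb ((τ c).take (tot D (e c) (pad c).val).size)) with
      | none => (Sum.inl (s c) : Conf I X ⊕ List ℕ)
      | some y => Sum.inr (D.out (e c).1 y))) := by
  have hep : PTF (fun c => (e c, pad c)) := PTF.prodMk he hpad
  have hw : PTF (fun c => wts D (e c) (pad c).val) :=
    PTF.comp (g := fun p : Env I × Un => wts D p.1 p.2.val) (ptf_wts hD) hep
  have ht0 : PTF (fun c => tot D (e c) (pad c).val) :=
    PTF.comp (g := fun p : Env I × Un => tot D p.1 p.2.val) (ptf_tot hD) hep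
  have ht : PTU (fun c => (tot D (e c) (pad c).val).size) := PTF.natSizeUn ht0
  have hm : PTF (fun c => msb ((τ c).take (tot D (e c) (pad c).val).size)) :=
    ptf_msb' (PTF.take ht hτ)
  have hp : PTF (fun c => pick (wts D (e c) (pad c).val)
      (msb ((τ c).take (tot D (e c) (pad c).val).size))) := ptf_pick hw hm
  refine PTF.optionCasesOn (f := fun c => (Sum.inl (s c) : Conf I X ⊕ List ℕ))
    (g := fun c y => Sum.inr (D.out (e c).1 y)) hp (PTF.inl hs) (PTF.inr ?_)
  exact PTF.comp (g := fun p : I × X => D.out p.1 p.2) (f := fun q : γ × X => ((e q.1).1, q.2)) hD.out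
    (PTF.prodMk (PTF.comp (g := fun e : Env I => e.1) PTF.fst (PTF.comp he PTF.fst)) PTF.snd)

theorem ptf_phaseA {γ : Type} [PTCode γ] (hD : D.Poly) {τ : γ → List Bool}
    {e : γ → Env I} {x : γ → X} {u : γ → Un} (hτ : PTF τ) (he : PTF e) (hx : PTF x) (hu : PTF u) :
    PTF (fun c => (if (u c).val = 0 then
        (if ((τ c).take (eK (e c))).all (fun b => b) = true then
          (Sum.inl (e c, Sum.inr (⟨1⟩, ⟨eD (e c)⟩)) : Conf I X ⊕ List ℕ)
          else Sum.inr (D.out (e c).1 (x c)))
        else Sum.inl (e c, Sum.inl (D.stp (e c).1 (x c) ((τ c).take (eR (e c))),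
          ⟨(u c).val - 1⟩)))) := by
  have he1 : PTF (fun c => (e c).1) := PTF.comp (g := fun e : Env I => e.1) PTF.fst he
  have h0 : PTPred (fun c => (u c).val = 0) := PTU.eq (PTU.val hu) (PTU.const 0)
  have h1 : PTF (fun c => (τ c).take (eK (e c))) := PTF.take (PTU.comp (n := eK) ptu_eK he) hτ
  have h2 : PTF (fun c => ((τ c).take (eK (e c))).all (fun b => b)) :=
    PTF.all (p := fun _ b => b) h1 PTF.snd
  have h3 : PTF (fun c => (Sum.inl (e c, Sum.inr (⟨1⟩, ⟨eD (e c)⟩)) : Conf I X ⊕ List ℕ)) :=
    PTF.inl (PTF.prodMk he (PTF.inr (PTF.prodMk (PTF.const _) (PTU.comp (n := eD) ptu_eD he))))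
  have h4 : PTF (fun c => (Sum.inr (D.out (e c).1 (x c)) : Conf I X ⊕ List ℕ)) :=
    PTF.inr (PTF.comp (g := fun p : I × X => D.out p.1 p.2)
      (f := fun c => ((e c).1, x c)) hD.out (PTF.prodMk he1 hx))
  have h5 : PTF (fun c => (τ c).take (eR (e c))) := PTF.take (PTU.comp (n := eR) ptu_eR he) hτ
  have h6 : PTF (fun c => (Sum.inl (e c, Sum.inl (D.stp (e c).1 (x c) ((τ c).take (eR (e c))),
      ⟨(u c).val - 1⟩)) : Conf I X ⊕ List ℕ)) := by
    refine PTF.inl (PTF.prodMk he (PTF.inl (PTF.prodMk ?_
      (PTU.sub (PTU.val hu) (PTU.const 1)))))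
    exact PTF.comp (g := fun p : I × X × List Bool => D.stp p.1 p.2.1 p.2.2)
      (f := fun c => ((e c).1, x c, (τ c).take (eR (e c)))) hD.stp
      (PTF.prodMk he1 (PTF.prodMk hx h5))
  exact PTF.ite h0 (PTF.ite h2.toPTPred h3 h4) h6

theorem ptf_phaseB {γ : Type} [PTCode γ] (hD : D.Poly) {s : γ → Conf I X} {τ : γ → List Bool}
    {e : γ → Env I} {pad k : γ → Un} (hs : PTF s) (hτ : PTF τ) (he : PTF e) (hpad : PTF pad)
    (hk : PTF k) :
    PTF (fun c => (if (k c).val = 0 then
        (match pick (wts D (e c) (pad c).val)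
            (msb ((τ c).take (tot D (e c) (pad c).val).size)) with
          | none => (Sum.inl (s c) : Conf I X ⊕ List ℕ)
          | some y => Sum.inr (D.out (e c).1 y))
        else Sum.inl (e c, Sum.inr (⟨2 * (pad c).val⟩, ⟨(k c).val - 1⟩)))) := by
  have h0 : PTPred (fun c => (k c).val = 0) := PTU.eq (PTU.val hk) (PTU.const 0)
  have h4 : PTF (fun c => (Sum.inl (e c, Sum.inr (⟨2 * (pad c).val⟩, ⟨(k c).val - 1⟩)) :
      Conf I X ⊕ List ℕ)) :=
    PTF.inl (PTF.prodMk he (PTF.inr (PTF.prodMk
      (PTU.mul (PTU.const 2) (PTU.val hpad))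
      (PTU.sub (PTU.val hk) (PTU.const 1)))))
  exact PTF.ite h0 (ptf_final hD hs hτ he hpad) h4

/-- the round function is poly-time -/
theorem ptf_rnd (hD : D.Poly) : PTF (fun p : Conf I X × List Bool => rnd D p.1 p.2) := by
  have hs : PTF (fun p : Conf I X × List Bool => p.1) := PTF.fst
  have hmode : PTF (fun p : Conf I X × List Bool => p.1.2) := by fun_prop
  have hA : PTF₂ (fun (p : Conf I X × List Bool) (xu : X × Un) =>
      (if xu.2.val = 0 then
        (if (p.2.take (eK p.1.1)).all (fun b => b) = true then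
          (Sum.inl (p.1.1, Sum.inr (⟨1⟩, ⟨eD p.1.1⟩)) : Conf I X ⊕ List ℕ)
          else Sum.inr (D.out p.1.1.1 xu.1))
        else Sum.inl (p.1.1, Sum.inl (D.stp p.1.1.1 xu.1 (p.2.take (eR p.1.1)),
          ⟨xu.2.val - 1⟩)))) :=
    ptf_phaseA hD (τ := fun q : (Conf I X × List Bool) × (X × Un) => q.1.2)
      (e := fun q => q.1.1.1) (x := fun q => q.2.1) (u := fun q => q.2.2)
      (by fun_prop) (by fun_prop) (by fun_prop) (by fun_prop)
  have hB : PTF₂ (fun (p : Conf I X × List Bool) (pk : Un × Un) =>
      (if pk.2.val = 0 then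
        (match pick (wts D p.1.1 pk.1.val) (msb (p.2.take (tot D p.1.1 pk.1.val).size)) with
        | none => (Sum.inl p.1 : Conf I X ⊕ List ℕ)
        | some y => Sum.inr (D.out p.1.1.1 y))
        else Sum.inl (p.1.1, Sum.inr (⟨2 * pk.1.val⟩, ⟨pk.2.val - 1⟩)))) :=
    ptf_phaseB hD (s := fun q : (Conf I X × List Bool) × (Un × Un) => q.1.1)
      (τ := fun q => q.1.2) (e := fun q => q.1.1.1) (pad := fun q => q.2.1) (k := fun q => q.2.2)
      (by fun_prop) (by fun_prop) (by fun_prop) (by fun_prop) (by fun_prop)
  refine PTF.of_eq (PTF.sumCasesOn (s := fun p : Conf I X × List Bool => p.1.2) hmode hA hB)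
    (fun p => ?_)
  unfold rnd
  rcases p.1.2 with xu | pk <;> rfl

end ptf

end Crest.Agent.R309.Exact9
end

-- ▼ part R309/Exact9Cert
section

/-!
# R309, exactness layer (S0481), part 4: harmonic functions and potential of the process
-/

set_option autoImplicit false

namespace Crest.Agent.R309.Exact9

open Crest.Agent.R309.Tape Crest.Agent.Lib.PT Crest.Agent.Lib.PT.Arith

variable {I X : Type} [DecidableEq X]

/-- what an environment has to satisfy -/
structure Good (D : Data I X) (e : Env I) (tabs : List X) : Prop where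
  nodup : tabs.Nodup
  start : D.start e.1 ∈ tabs
  closed : ∀ x ∈ tabs, ∀ l : List Bool, l.length = eR e → D.stp e.1 x l ∈ tabs
  enum : D.enum e.1 (2 ^ eD e) = tabs
  seeds : eR e ≤ eD e
  nonneg : ∀ y ∈ tabs, tabs.length * (2 ^ eK e - 1) *
    law (D.stp e.1) (eR e) tabs (D.start e.1) (eT e) y ≤ 2 ^ eK e * 2 ^ (eR e * eT e)
  bitsR : eR e ≤ eL e
  bitsK : eK e ≤ eL e
  bitsJ : (tabs.length * 2 ^ (eR e * eT e)).size ≤ eL e

/-- the residual weight of `y` -/
def wt (D : Data I X) (e : Env I) (tabs : List X) (y : X) : ℕ :=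
  2 ^ eK e * 2 ^ (eR e * eT e) - tabs.length * (2 ^ eK e - 1) *
    law (D.stp e.1) (eR e) tabs (D.start e.1) (eT e) y

section basic

variable {D : Data I X} {e : Env I} {tabs : List X} (h : Good D e tabs)
include h

theorem Good.length_pos : 0 < tabs.length := List.length_pos_of_mem h.start

theorem Good.wts_eq : wts D e (2 ^ eD e) = tabs.map (fun y => (y, wt D e tabs y)) := by
  unfold wts
  rw [h.enum, listsOf_eq (by simp) (by simpa using Nat.pow_le_pow_right (by norm_num) h.seeds),
    listsFull_bool, lawL_eq h.nodup h.start h.closed, List.map_map]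
  rfl

theorem Good.sum_wt : (tabs.map (wt D e tabs)).sum = tabs.length * 2 ^ (eR e * eT e) := by
  rw [← List.sum_toFinset _ h.nodup]
  have h1 : ∀ y ∈ tabs.toFinset, ((wt D e tabs y : ℕ) : ℤ) = 2 ^ eK e * 2 ^ (eR e * eT e) -
      tabs.length * (2 ^ eK e - 1) *
        (law (D.stp e.1) (eR e) tabs (D.start e.1) (eT e) y : ℤ) := by
    intro y hy
    unfold wt
    rw [Nat.cast_sub (h.nonneg y (by simpa using hy))]
    push_cast
    rw [Nat.cast_sub Nat.one_le_two_pow]
    push_cast
    ring
  have h2 : ((∑ y ∈ tabs.toFinset, wt D e tabs y : ℕ) : ℤ) =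
      ((tabs.length * 2 ^ (eR e * eT e) : ℕ) : ℤ) := by
    have h3 : (∑ y ∈ tabs.toFinset,
        (law (D.stp e.1) (eR e) tabs (D.start e.1) (eT e) y : ℤ)) = 2 ^ (eR e * eT e) := by
      exact_mod_cast law_sum h.nodup h.start h.closed (eT e)
    rw [Nat.cast_sum, Finset.sum_congr rfl h1, Finset.sum_sub_distrib, ← Finset.mul_sum,
      ← Finset.mul_sum, h3, Finset.sum_const, List.toFinset_card_of_nodup h.nodup, nsmul_eq_mul]
    push_cast
    ring
  exact_mod_cast h2

theorem Good.tot_eq : tot D e (2 ^ eD e) = tabs.length * 2 ^ (eR e * eT e) := by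
  unfold tot
  rw [h.wts_eq, List.map_map, ← h.sum_wt]
  rfl

end basic

/-- the invariant of the process -/
def Inv (e : Env I) (tabs : List X) (s : Conf I X) : Prop :=
  s.1 = e ∧ match s.2 with
    | Sum.inl xu => xu.1 ∈ tabs ∧ xu.2.val ≤ eT e
    | Sum.inr pk => pk.1.val * 2 ^ pk.2.val = 2 ^ eD e ∧ pk.2.val ≤ eD e

/-- value of `G` under the residual law -/
noncomputable def resid (D : Data I X) (e : Env I) (tabs : List X) (G : List ℕ → ℝ) : ℝ :=
  (tabs.map (fun y => (wt D e tabs y : ℝ) * G (D.out e.1 y))).sum /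
    (tabs.length * 2 ^ (eR e * eT e))

/-- the harmonic function with boundary values `G` -/
noncomputable def Hf (D : Data I X) (e : Env I) (tabs : List X) (G : List ℕ → ℝ)
    (s : Conf I X) : ℝ :=
  match s.2 with
  | Sum.inl xu => (1 - (2 : ℝ)⁻¹ ^ eK e) *
      (markov (D.stp e.1) (eR e))^[xu.2.val] (fun y => G (D.out e.1 y)) xu.1 +
      (2 : ℝ)⁻¹ ^ eK e * resid D e tabs G
  | Sum.inr _ => resid D e tabs G

/-- value of the next state -/
noncomputable def nxt (V : Conf I X → ℝ) (G : List ℕ → ℝ) : Conf I X ⊕ List ℕ → ℝ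
  | Sum.inl s => V s
  | Sum.inr o => G o

theorem tail_eq (T K : ℕ) (hK : K ≤ T) (a b : ℝ) (c : List Bool → ℝ)
    (hc : ∀ τ : List Bool, c τ = if (τ.take K).all (fun b => b) = true then a else b) :
    avg T c = (1 - (2 : ℝ)⁻¹ ^ K) * b + (2 : ℝ)⁻¹ ^ K * a := by
  rw [show c = fun τ => (fun σ : List Bool => if σ.all (fun b => b) = true then a else b)
    (τ.take K) from funext hc]
  exact (avg_take hK (fun σ : List Bool => if σ.all (fun b => b) = true then a else b)).trans
    (avg_all_true K a b)

section main

variable [PTCode I] [PTCode X]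

theorem eL_le_sz (s : Conf I X) : eL s.1 ≤ sz s := by
  unfold eL
  obtain ⟨⟨i, a, b, c, d, l⟩, m⟩ := s
  simp only [sz_prod, sz_un]
  omega

variable {D : Data I X} {e : Env I} {tabs : List X}

/-- the invariant is preserved and outputs are outputs of states -/
theorem inv_rnd (h : Good D e tabs) {s : Conf I X} (hs : Inv e tabs s) (τ : List Bool)
    (hτ : eL s.1 ≤ τ.length) :
    (∀ s', rnd D s τ = Sum.inl s' → Inv e tabs s') ∧
      (∀ o, rnd D s τ = Sum.inr o → ∃ y ∈ tabs, o = D.out e.1 y) := by
  obtain ⟨e', m⟩ := s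
  obtain ⟨he, hm⟩ := hs
  simp only at he hτ
  subst he
  have hR := h.bitsR
  rcases m with ⟨x, u⟩ | ⟨p, k⟩
  · simp only at hm
    by_cases hu : u.val = 0
    · by_cases hall : (τ.take (eK e')).all (fun b => b) = true
      · have e1 : rnd D (e', Sum.inl (x, u)) τ = Sum.inl (e', Sum.inr (⟨1⟩, ⟨eD e'⟩)) := by
          simp only [rnd, hu, if_true, hall]
        rw [e1]
        refine ⟨?_, fun o ho => by simp at ho⟩
        intro s' hs'
        simp only [Sum.inl.injEq] at hs'
        subst hs'
        exact ⟨rfl, by simp⟩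
      · have e1 : rnd D (e', Sum.inl (x, u)) τ = Sum.inr (D.out e'.1 x) := by
          simp only [rnd, hu, if_true, hall]
          simp
        rw [e1]
        refine ⟨fun s' hs' => by simp at hs', ?_⟩
        intro o ho
        simp only [Sum.inr.injEq] at ho
        exact ⟨x, hm.1, ho.symm⟩
    · have e1 : rnd D (e', Sum.inl (x, u)) τ =
          Sum.inl (e', Sum.inl (D.stp e'.1 x (τ.take (eR e')), ⟨u.val - 1⟩)) := by
        simp only [rnd, hu, if_false]
      rw [e1]
      refine ⟨?_, fun o ho => by simp at ho⟩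
      intro s' hs'
      simp only [Sum.inl.injEq] at hs'
      subst hs'
      refine ⟨rfl, h.closed x hm.1 _ ?_, ?_⟩
      · rw [List.length_take]
        omega
      · simp only
        omega
  · simp only at hm
    by_cases hk : k.val = 0
    · have hp : p.val = 2 ^ eD e' := by
        have := hm.1
        rw [hk] at this
        simpa using this
      rcases hpick : pick (wts D e' p.val) (msb (τ.take (tot D e' p.val).size)) with _ | y
      · have e1 : rnd D (e', Sum.inr (p, k)) τ = Sum.inl (e', Sum.inr (p, k)) := by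
          simp only [rnd, hk, if_true, hpick]
        rw [e1]
        refine ⟨?_, fun o ho => by simp at ho⟩
        intro s' hs'
        simp only [Sum.inl.injEq] at hs'
        subst hs'
        exact ⟨rfl, hm⟩
      · have e1 : rnd D (e', Sum.inr (p, k)) τ = Sum.inr (D.out e'.1 y) := by
          simp only [rnd, hk, if_true, hpick]
        rw [e1]
        refine ⟨fun s' hs' => by simp at hs', ?_⟩
        intro o ho
        simp only [Sum.inr.injEq] at ho
        refine ⟨y, ?_, ho.symm⟩
        rw [hp, h.wts_eq] at hpick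
        have key : ∀ (l : List X) (v : ℕ) (y : X),
            pick (l.map (fun y => (y, wt D e' tabs y))) v = some y → y ∈ l := by
          intro l
          induction l with
          | nil => intro v y hy; simp [pick] at hy
          | cons a l ih =>
            intro v y hy
            rw [List.map_cons, pick] at hy
            split_ifs at hy with hv
            · simp only [Option.some.injEq] at hy
              simp [hy]
            · exact List.mem_cons_of_mem _ (ih _ _ hy)
        exact key _ _ _ hpick
    · have e1 : rnd D (e', Sum.inr (p, k)) τ =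
          Sum.inl (e', Sum.inr (⟨2 * p.val⟩, ⟨k.val - 1⟩)) := by
        simp only [rnd, hk, if_false]
      rw [e1]
      refine ⟨?_, fun o ho => by simp at ho⟩
      intro s' hs'
      simp only [Sum.inl.injEq] at hs'
      subst hs'
      refine ⟨rfl, ?_, ?_⟩
      · simp only
        rw [← hm.1]
        obtain ⟨j, hj⟩ : ∃ j, k.val = j + 1 := ⟨k.val - 1, by omega⟩
        rw [hj, Nat.add_sub_cancel, pow_succ]
        ring
      · simp only
        omega

/-- one-round averages in all cases, for arbitrary `V`, `G` -/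
theorem avg_rnd (h : Good D e tabs) {s : Conf I X} (hs : Inv e tabs s) (V : Conf I X → ℝ)
    (G : List ℕ → ℝ) {ℓ : ℕ} (hL : eL s.1 ≤ ℓ) :
    avg ℓ (fun τ => nxt V G (rnd D s τ)) =
      match s.2 with
      | Sum.inl xu =>
        if xu.2.val = 0 then
          (1 - (2 : ℝ)⁻¹ ^ eK e) * G (D.out e.1 xu.1) +
            (2 : ℝ)⁻¹ ^ eK e * V (e, Sum.inr (⟨1⟩, ⟨eD e⟩))
        else markov (D.stp e.1) (eR e) (fun x => V (e, Sum.inl (x, ⟨xu.2.val - 1⟩))) xu.1
      | Sum.inr pk =>
        if pk.2.val = 0 then
          ((tabs.map (fun y => (wt D e tabs y : ℝ) * G (D.out e.1 y))).sum +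
            ((2 : ℝ) ^ (tabs.length * 2 ^ (eR e * eT e)).size -
              (tabs.length * 2 ^ (eR e * eT e) : ℕ)) * V s) /
            2 ^ (tabs.length * 2 ^ (eR e * eT e)).size
        else V (e, Sum.inr (⟨2 * pk.1.val⟩, ⟨pk.2.val - 1⟩)) := by
  obtain ⟨e', m⟩ := s
  obtain ⟨he, hm⟩ := hs
  simp only at he hL
  subst he
  have hR := h.bitsR
  have hK := h.bitsK
  have hJ := h.bitsJ
  rcases m with ⟨x, u⟩ | ⟨p, k⟩
  · simp only at hm ⊢
    by_cases hu : u.val = 0
    · simp only [hu, if_true]
      refine tail_eq _ _ (hK.trans hL) _ _ _ (fun τ => ?_)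
      by_cases hall : (τ.take (eK e')).all (fun b => b) = true
      · have e1 : rnd D (e', Sum.inl (x, u)) τ = Sum.inl (e', Sum.inr (⟨1⟩, ⟨eD e'⟩)) := by
          simp only [rnd, hu, if_true, hall]
        rw [e1, if_pos hall]
        rfl
      · have e1 : rnd D (e', Sum.inl (x, u)) τ = Sum.inr (D.out e'.1 x) := by
          simp only [rnd, hu, if_true, hall]
          simp
        rw [e1, if_neg hall]
        rfl
    · simp only [hu, if_false]
      have e1 : ∀ τ, nxt V G (rnd D (e', Sum.inl (x, u)) τ) =
          V (e', Sum.inl (D.stp e'.1 x (τ.take (eR e')), ⟨u.val - 1⟩)) := by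
        intro τ
        have : rnd D (e', Sum.inl (x, u)) τ =
          Sum.inl (e', Sum.inl (D.stp e'.1 x (τ.take (eR e')), ⟨u.val - 1⟩)) := by
          simp only [rnd, hu, if_false]
        rw [this]
        rfl
      simp_rw [e1]
      exact avg_take (hR.trans hL)
        (fun σ => V (e', Sum.inl (D.stp e'.1 x σ, ⟨u.val - 1⟩)))
  · simp only at hm ⊢
    by_cases hk : k.val = 0
    · have hp : p.val = 2 ^ eD e' := by
        have := hm.1
        rw [hk] at this
        simpa using this
      simp only [hk, if_true]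
      set g : Option X → ℝ := fun o => match o with
        | none => V (e', Sum.inr (p, k))
        | some y => G (D.out e'.1 y) with hg
      have e1 : ∀ τ, nxt V G (rnd D (e', Sum.inr (p, k)) τ) =
          g (pick (wts D e' p.val) (msb (τ.take (tot D e' p.val).size))) := by
        intro τ
        rcases hpick : pick (wts D e' p.val) (msb (τ.take (tot D e' p.val).size)) with _ | y
        · have : rnd D (e', Sum.inr (p, k)) τ = Sum.inl (e', Sum.inr (p, k)) := by
            simp only [rnd, hk, if_true, hpick]
          rw [this]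
          rfl
        · have : rnd D (e', Sum.inr (p, k)) τ = Sum.inr (D.out e'.1 y) := by
            simp only [rnd, hk, if_true, hpick]
          rw [this]
          rfl
      simp_rw [e1, hp, h.tot_eq, h.wts_eq]
      rw [avg_take (hJ.trans hL) (fun σ => g (pick (tabs.map (fun y => (y, wt D e' tabs y)))
        (msb σ)))]
      have hsum : ((tabs.map (fun y => (y, wt D e' tabs y))).map Prod.snd).sum =
          tabs.length * 2 ^ (eR e' * eT e') := by
        rw [List.map_map, ← h.sum_wt]
        rfl
      rw [avg_pick _ _ (by rw [hsum]; exact (Nat.lt_size_self _).le), hsum, List.map_map]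
      rfl
    · simp only [hk, if_false]
      have e1 : ∀ τ, nxt V G (rnd D (e', Sum.inr (p, k)) τ) =
          V (e', Sum.inr (⟨2 * p.val⟩, ⟨k.val - 1⟩)) := by
        intro τ
        have : rnd D (e', Sum.inr (p, k)) τ =
            Sum.inl (e', Sum.inr (⟨2 * p.val⟩, ⟨k.val - 1⟩)) := by
          simp only [rnd, hk, if_false]
        rw [this]
        rfl
      simp_rw [e1]
      exact avg_const _ _

theorem markov_affine {stp : X → List Bool → X} {R : ℕ} (a b : ℝ) (φ : X → ℝ) (x : X) :
    markov stp R (fun y => a * φ y + b) x = a * markov stp R φ x + b := by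
  unfold markov
  rw [avg_add, avg_mul_left, avg_const]

/-- **harmonicity** -/
theorem harmonic (h : Good D e tabs) {s : Conf I X} (hs : Inv e tabs s) (G : List ℕ → ℝ)
    {ℓ : ℕ} (hL : eL s.1 ≤ ℓ) :
    avg ℓ (fun τ => nxt (Hf D e tabs G) G (rnd D s τ)) = Hf D e tabs G s := by
  rw [avg_rnd h hs _ _ hL]
  obtain ⟨e', m⟩ := s
  obtain ⟨he, hm⟩ := hs
  simp only at he
  subst he
  rcases m with ⟨x, u⟩ | ⟨p, k⟩
  · by_cases hu : u.val = 0
    · simp [Hf, hu]
    · obtain ⟨j, hj⟩ : ∃ j, u.val = j + 1 := ⟨u.val - 1, by omega⟩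
      simp only [Hf, hu, if_false]
      rw [markov_affine, hj, Nat.add_sub_cancel, Function.iterate_succ_apply']
  · by_cases hk : k.val = 0
    · simp only [Hf, hk, if_true]
      have hpos : (0 : ℝ) < (2 : ℝ) ^ (tabs.length * 2 ^ (eR e' * eT e')).size := by positivity
      have hN : (0 : ℝ) < (tabs.length : ℝ) * 2 ^ (eR e' * eT e') := by
        have := h.length_pos
        positivity
      have e2 : (tabs.map (fun y => (wt D e' tabs y : ℝ) * G (D.out e'.1 y))).sum =
          resid D e' tabs G * ((tabs.length : ℝ) * 2 ^ (eR e' * eT e')) := by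
        unfold resid
        exact (div_mul_cancel₀ _ hN.ne').symm
      rw [e2, div_eq_iff hpos.ne']
      push_cast
      ring
    · simp only [Hf, hk, if_false]

/-- the value of the harmonic function at the start is the uniform average -/
theorem Hf_start (h : Good D e tabs) (G : List ℕ → ℝ) (u : Un) (hu : u.val = eT e) :
    Hf D e tabs G (e, Sum.inl (D.start e.1, u)) =
      (tabs.map (fun y => G (D.out e.1 y))).sum / tabs.length := by
  unfold Hf resid
  simp only [hu]
  rw [iterate_markov_eq_law h.nodup h.start h.closed, ← List.sum_toFinset _ h.nodup,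
    ← List.sum_toFinset _ h.nodup, Finset.mul_sum, Finset.sum_div, Finset.mul_sum,
    ← Finset.sum_add_distrib, Finset.sum_div]
  refine Finset.sum_congr rfl fun y hy => ?_
  have h1 : ((wt D e tabs y : ℕ) : ℝ) = 2 ^ eK e * 2 ^ (eR e * eT e) -
      tabs.length * (2 ^ eK e - 1) *
        (law (D.stp e.1) (eR e) tabs (D.start e.1) (eT e) y : ℝ) := by
    unfold wt
    rw [Nat.cast_sub (h.nonneg y (by simpa using hy))]
    push_cast
    rw [Nat.cast_sub Nat.one_le_two_pow]
    push_cast
    ring
  rw [h1]
  have hN : (0 : ℝ) < (tabs.length : ℝ) := by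
    have := h.length_pos
    positivity
  have h2 : (0 : ℝ) < 2 ^ (eR e * eT e) := by positivity
  have h3 : (0 : ℝ) < 2 ^ eK e := by positivity
  rw [inv_pow]
  field_simp
  ring

/-- the potential -/
noncomputable def Vf (e : Env I) (a b : ℝ) (s : Conf I X) : ℝ :=
  match s.2 with
  | Sum.inl xu => (xu.2.val + 1) * a + (2 : ℝ)⁻¹ ^ eK e * ((eD e + 2) * b)
  | Sum.inr pk => (pk.2.val + 2) * b

theorem Vf_nonneg {a b : ℝ} (ha : 0 ≤ a) (hb : 0 ≤ b) (s : Conf I X) : 0 ≤ Vf e a b s := by
  unfold Vf
  rcases s.2 with xu | pk <;> positivity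

/-- **potential inequality** -/
theorem potential (h : Good D e tabs) {a b : ℝ} (ha : 0 ≤ a) (hb : 0 ≤ b) {s : Conf I X}
    (hs : Inv e tabs s) (c : ℝ) (hcA : (∃ xu, s.2 = Sum.inl xu) → c ≤ a)
    (hcB : (∃ pk, s.2 = Sum.inr pk) → c ≤ b) {ℓ : ℕ} (hL : eL s.1 ≤ ℓ) :
    c + avg ℓ (fun τ => nxt (Vf e a b) (fun _ => 0) (rnd D s τ)) ≤ Vf e a b s := by
  rw [avg_rnd h hs _ _ hL]
  obtain ⟨e', m⟩ := s
  obtain ⟨he, hm⟩ := hs
  simp only at he
  subst he
  rcases m with ⟨x, u⟩ | ⟨p, k⟩
  · have hc := hcA ⟨_, rfl⟩
    by_cases hu : u.val = 0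
    · simp only [Vf, hu, if_true]
      push_cast
      linarith
    · obtain ⟨j, hj⟩ : ∃ j, u.val = j + 1 := ⟨u.val - 1, by omega⟩
      simp only [Vf, hu, if_false]
      unfold markov
      rw [avg_const, hj, Nat.add_sub_cancel]
      push_cast
      linarith
  · have hc := hcB ⟨_, rfl⟩
    by_cases hk : k.val = 0
    · simp only [Vf, hk, if_true]
      set M := tabs.length * 2 ^ (eR e' * eT e') with hM
      have hMpos : 0 < M := Nat.mul_pos h.length_pos (by positivity)
      have hpos : (0 : ℝ) < (2 : ℝ) ^ M.size := by positivity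
      have hhalf : (2 : ℝ) ^ M.size ≤ 2 * M := by
        have h1 : M.size ≠ 0 := by
          intro h0
          have := Nat.size_eq_zero.1 h0
          omega
        obtain ⟨j, hj⟩ : ∃ j, M.size = j + 1 := ⟨M.size - 1, by omega⟩
        have h2 : 2 ^ j ≤ M := Nat.lt_size.1 (by omega)
        rw [hj, pow_succ]
        have h3 : ((2 ^ j : ℕ) : ℝ) ≤ M := by exact_mod_cast h2
        push_cast at h3
        linarith
      have e3 : (tabs.map (fun y => (wt D e' tabs y : ℝ) * (0 : ℝ))).sum = 0 := by simp
      rw [e3]
      push_cast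
      rw [zero_add, zero_add]
      have h4 : ((2 : ℝ) ^ M.size - M) * (2 * b) / 2 ^ M.size ≤ b := by
        rw [div_le_iff₀ hpos]
        nlinarith
      linarith
    · obtain ⟨j, hj⟩ : ∃ j, k.val = j + 1 := ⟨k.val - 1, by omega⟩
      simp only [Vf, hk, if_false]
      rw [hj, Nat.add_sub_cancel]
      push_cast
      linarith

end main

end Crest.Agent.R309.Exact9
end

-- ▼ part R309/Exact9Cost
section

/-!
# R309, exactness layer (S0481), part 5: the raw round function with split costs

The round program branches on a tag: on later states it runs the typed round function `f`, whose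
cost polynomial is fixed FIRST; on the start state it runs the start function `g`.
-/

set_option autoImplicit false

namespace Crest.Agent.R309.Exact9

open Crest.Agent.R309.Tape Crest.Agent.Lib.PT

/-- A branching program with separate costs for the two branches. -/
theorem branch_cost {t f : List Bool → List Bool} (ht : PT t) (hf : PT f) :
    ∃ qf : Polynomial ℕ, ∀ g : List Bool → List Bool, PT g →
      ∃ (c : Cmd) (qg : Polynomial ℕ), ∀ x,
        Run c (init x) (init (if (t x).head? = some true then f x else g x))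
          (if (t x).head? = some true then qf.eval x.length else qg.eval x.length) := by
  obtain ⟨bc, hbc⟩ := ht.length_bound
  obtain ⟨cc, r, hcc⟩ := ht
  obtain ⟨cf, p, hcf⟩ := hf
  refine ⟨r + p + 13 * Polynomial.X + 2 * bc + 5, ?_⟩
  rintro g ⟨cg, q, hcg⟩
  refine ⟨.seq dup (.seq (cc.shift 1) (.ite 1 cg (.seq (clear 1) cf) (.seq (clear 1) cg))),
    r + q + 13 * Polynomial.X + 2 * bc + 5, fun x => ?_⟩
  have h1 := run_dup x
  have h2 := call_one (hcc x) x
  have b1 := hbc x
  have h3 : Run (.ite 1 cg (.seq (clear 1) cf) (.seq (clear 1) cg)) (st4 x (t x) [] [])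
      (init (if (t x).head? = some true then f x else g x))
      (2 + 2 * bc.eval x.length +
        (if (t x).head? = some true then p.eval x.length else q.eval x.length)) := by
    have hcl : Run (clear 1) (st4 x (t x) [] []) (init x) (2 * (t x).length + 1) :=
      (run_clear 1 _).of_eq (by simp [init_eq_st4]) (by simp)
    rcases hcx : t x with _ | ⟨b, l⟩
    · have := hcg x
      rw [init_eq_st4 x] at this
      simpa using (Run.ite_nil (k := 1) (e := cg) (c := .seq (clear 1) cf)
        (d := .seq (clear 1) cg) (s := st4 x [] [] []) rfl this).mono (by omega)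
    · rw [hcx] at hcl b1
      cases b
      · simpa using (Run.ite_false (k := 1) (e := cg) (c := .seq (clear 1) cf)
          (d := .seq (clear 1) cg) (s := st4 x (false :: l) [] []) (l := l) rfl
          (hcl.seq (hcg x))).mono (by omega)
      · simpa using (Run.ite_true (k := 1) (e := cg) (c := .seq (clear 1) cf)
          (d := .seq (clear 1) cg) (s := st4 x (true :: l) [] []) (l := l) rfl
          (hcl.seq (hcf x))).mono (by omega)
  refine (h1.seq (h2.seq h3)).mono ?_
  split_ifs <;>
  · simp only [Polynomial.eval_add, Polynomial.eval_mul, Polynomial.eval_ofNat, Polynomial.eval_X]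
    omega

/-- is the state a later state (tag `[false]`)? -/
def tag (x : List Bool) : List Bool := [decide (Crest.Agent.Lib.PT.fst (Crest.Agent.Lib.PT.fst x).tail = [false])]

theorem pt_tag : PT tag :=
  PTB.comp (PTB.eqConst [false]) (PT.fst' (PT.tail' PT.fst))

/-- put the tag on the next state -/
def wrap (y : List Bool) : List Bool :=
  if y.head? = some true then y else false :: pair [false] y.tail

theorem pt_wrap : PT wrap :=
  PT.ite PT.id PT.id (PT.cons' false (PT.pair (PT.const [false]) PT.tail))

/-- the code of a running state -/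
def code {C : Type} [PTCode C] (s : C) : List Bool := false :: pair [false] (enc s)

/-- the raw round function of a typed process -/
theorem raw_round {C : Type} [PTCode C] {f : C × Bits → C ⊕ List ℕ} (hf : PTF f) :
    ∃ qf : Polynomial ℕ, ∀ g : List ℕ → C, PTF g →
      ∃ (c : Cmd) (F : List Bool → List Bool → List Bool) (qg : Polynomial ℕ) (n : List Bool → ℕ),
        (∀ s τ, τ.length = s.length → Run c (init (pair s τ)) (init (F s τ)) (n s)) ∧
        (∀ (L : List ℕ) τ, F (false :: enc L) τ = code (g L)) ∧
        (∀ L : List ℕ, n (false :: enc L) ≤ qg.eval (sz L)) ∧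
        (∀ (s : C) τ, F (code s) τ = match f (s, ⟨τ⟩) with
          | Sum.inl s' => code s'
          | Sum.inr o => true :: enc o) ∧
        (∀ s : C, n (code s) ≤ qf.eval (sz s)) := by
  obtain ⟨f', hf', hf⟩ := hf
  set R : List Bool → List Bool := fun x =>
    wrap (f' (pair (Crest.Agent.Lib.PT.snd (Crest.Agent.Lib.PT.fst x).tail)
      (Crest.Agent.Lib.PT.snd x))) with hR
  have hRp : PT R := PT.comp pt_wrap (PT.comp hf' (PT.pair (PT.snd' (PT.tail' PT.fst)) PT.snd))
  obtain ⟨q, hq⟩ := branch_cost pt_tag hRp
  refine ⟨q.comp (3 * Polynomial.X + 13), ?_⟩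
  rintro g ⟨g', hg', hg⟩
  set G : List Bool → List Bool := fun x =>
    false :: pair [false] (g' (Crest.Agent.Lib.PT.fst x).tail) with hG
  have hGp : PT G := PT.cons' false (PT.pair (PT.const [false]) (PT.comp hg' (PT.tail' PT.fst)))
  obtain ⟨c, qg, hc⟩ := hq G hGp
  refine ⟨c, fun s τ => if (tag (pair s τ)).head? = some true then R (pair s τ) else G (pair s τ),
    qg.comp (3 * Polynomial.X + 4), fun s => if (tag (pair s [])).head? = some true then
      q.eval (3 * s.length + 1) else qg.eval (3 * s.length + 1), ?_, ?_, ?_, ?_, ?_⟩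
  · intro s τ hτ
    have h1 := hc (pair s τ)
    have e1 : tag (pair s τ) = tag (pair s []) := by
      unfold tag
      simp
    have e2 : (pair s τ).length = 3 * s.length + 1 := by
      rw [length_pair, hτ]; ring
    rw [e2] at h1
    rw [e1] at h1
    simp only [e1]
    exact h1
  · intro L τ
    have e1 : (tag (pair (false :: enc L) τ)).head? ≠ some true := by
      unfold tag
      simp only [fst_pair, List.tail_cons, List.head?_cons, ne_eq, Option.some.injEq,
        decide_eq_true_eq]
      rcases L with _ | ⟨a, L⟩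
      · simp [Crest.Agent.Lib.PT.fst]
      · simp only [enc_cons, fst_pair, enc_nat]
        intro h
        have h2 : Arith.msb a.bits.reverse = Arith.msb [false].reverse := by rw [h]
        rw [Arith.msb_bits_reverse] at h2
        have h3 : a = 0 := by simpa [Arith.msb] using h2
        rw [h3] at h
        simp at h
    simp only [if_neg e1]
    simp only [hG, fst_pair, List.tail_cons, hg]
    rfl
  · intro L
    have e1 : (tag (pair (false :: enc L) [])).head? ≠ some true := by
      unfold tag
      simp only [fst_pair, List.tail_cons, List.head?_cons, ne_eq, Option.some.injEq,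
        decide_eq_true_eq]
      rcases L with _ | ⟨a, L⟩
      · simp [Crest.Agent.Lib.PT.fst]
      · simp only [enc_cons, fst_pair, enc_nat]
        intro h
        have h2 : Arith.msb a.bits.reverse = Arith.msb [false].reverse := by rw [h]
        rw [Arith.msb_bits_reverse] at h2
        have h3 : a = 0 := by simpa [Arith.msb] using h2
        rw [h3] at h
        simp at h
    simp only [if_neg e1]
    rw [Polynomial.eval_comp]
    refine polyEval_mono qg ?_
    simp only [Polynomial.eval_add, Polynomial.eval_mul, Polynomial.eval_ofNat, Polynomial.eval_X,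
      List.length_cons, sz]
    omega
  · intro s τ
    have e1 : (tag (pair (code s) τ)).head? = some true := by
      unfold tag code
      simp
    simp only [if_pos e1]
    simp only [hR, fst_pair, snd_pair, code, List.tail_cons]
    have h1 := hf (s, ⟨τ⟩)
    simp only [enc_prod, enc_bits] at h1
    rw [h1]
    rcases f (s, ⟨τ⟩) with s' | o
    · simp [wrap]
    · simp [wrap]
  · intro s
    have e1 : (tag (pair (code s) [])).head? = some true := by
      unfold tag code
      simp
    simp only [if_pos e1]
    rw [Polynomial.eval_comp]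
    refine polyEval_mono q ?_
    simp only [Polynomial.eval_add, Polynomial.eval_mul, Polynomial.eval_ofNat, Polynomial.eval_X,
      code, List.length_cons, length_pair, sz, List.length_nil]
    omega

end Crest.Agent.R309.Exact9
end

-- ▼ part R309/Exact9Typed

/-!
# R309, exactness layer (S0481), part 6: typed processes on the word RAM

`ProcessSpec`: the word-RAM process theorem for raw bit-string processes (proved in the RAM layer).
`typed_process`: its typed form, with split costs.
-/

set_option autoImplicit false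

namespace Crest.Agent.R309.Exact9

open Crest.Agent.R309.Tape Crest.Agent.Lib.PT Crest.WordRAM

/-- the cost of one round on the machine -/
def rcost (len n : ℕ) : ℕ := 20 + 70 * len + 5 * n

/-- the cost of halting -/
def hcost (len : ℕ) : ℕ := 7 + 9 * len

/-- the cost of the start -/
def scost (w K len : ℕ) : ℕ := 4 * w + 3 * K + 11 + (10 + 12 * w) * len

/-- the process theorem for raw processes -/
def ProcessSpec : Prop :=
  ∀ (c : Cmd) (F : List Bool → List Bool → List Bool) (n : List Bool → ℕ),
    (∀ s τ, τ.length = s.length →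
      Run c (Crest.Agent.Lib.PT.init (pair s τ)) (Crest.Agent.Lib.PT.init (F s τ)) (n s)) →
    ∃ (P : Program) (K : ℕ), ∀ (w H : ℕ) (L : List ℕ) (inv : List Bool → Prop),
      2 ≤ w → K * (H + 1) ≤ 2 ^ (w - 1) → (∀ a ∈ L, a + 1 < 2 ^ w) → (enc L).length + 2 ≤ H →
      inv (false :: enc L) →
      (∀ s, inv s → s.head? ≠ some true → 13 * s.length + 3 + n s ≤ H ∧
        ∀ τ : List Bool, τ.length = s.length → inv (F s τ)) →
      (∀ s, inv s → s.head? = some true → ∃ out : List ℕ, s = true :: enc out ∧
        (∀ a ∈ out, a < 2 ^ w) ∧ out.length ≤ 2 ^ (w - 1)) →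
      (∀ (ρ : ℕ → ℕ) (T : ℕ) (out : List ℕ), HaltsWithin P w ρ L T out → inv (true :: enc out)) ∧
      (∀ V : List Bool → ℝ, (∀ s, inv s → 0 ≤ V s) →
        (∀ s, inv s → s.head? ≠ some true →
          (rcost s.length (n s) : ℝ) + avg s.length (fun τ => V (F s τ)) ≤ V s) →
        (∀ s, inv s → s.head? = some true → (hcost s.length : ℝ) ≤ V s) →
        expectedTime P w L ≤ ENNReal.ofReal ((scost w K L.length : ℝ) + V (false :: enc L)) ∧
        ∀ (Good : List ℕ → Prop) (h : List Bool → ℝ), (∀ s, inv s → 0 ≤ h s ∧ h s ≤ 1) →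
          (∀ s, inv s → s.head? ≠ some true → h s = avg s.length (fun τ => h (F s τ))) →
          (∀ out : List ℕ, inv (true :: enc out) → h (true :: enc out) = ind (Good out)) →
          probHaltsWith P w L Good = h (false :: enc L))

theorem code_injective {C : Type} [PTCode C] : Function.Injective (code : C → List Bool) := by
  intro s t h
  unfold code at h
  simp only [List.cons.injEq, true_and] at h
  have := (pair_inj h).2
  exact enc_injective this

theorem length_code {C : Type} [PTCode C] (s : C) : (code s).length = sz s + 4 := by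
  unfold code sz
  simp only [List.length_cons, length_pair, List.length_nil]
  omega

theorem head?_code {C : Type} [PTCode C] (s : C) : (code s).head? = some false := rfl

theorem code_ne_start {C : Type} [PTCode C] (s : C) (L : List ℕ) : code s ≠ false :: enc L := by
  intro h
  unfold code at h
  simp only [List.cons.injEq, true_and] at h
  rcases L with _ | ⟨a, L⟩
  · exact pair_ne_nil _ _ h
  · simp only [enc_cons, enc_nat] at h
    have h1 := (pair_inj h).1
    have h2 : Arith.msb a.bits.reverse = Arith.msb [false].reverse := by rw [h1]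
    rw [Arith.msb_bits_reverse] at h2
    have h3 : a = 0 := by simpa [Arith.msb] using h2
    rw [h3] at h1
    simp at h1

theorem true_enc_inj {o o' : List ℕ} (h : true :: enc o = true :: enc o') : o = o' := by
  simpa using h

/-- **typed process theorem**: the round cost polynomial `qf` is fixed before the start function. -/
theorem typed_process (HP : ProcessSpec) {C : Type} [PTCode C] {f : C × Bits → C ⊕ List ℕ}
    (hf : PTF f) :
    ∃ qf : Polynomial ℕ, ∀ g : List ℕ → C, PTF g →
      ∃ (P : Program) (K : ℕ) (qg : Polynomial ℕ),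
        ∀ (w H : ℕ) (L : List ℕ) (inv : C → Prop) (outs : List ℕ → Prop) (B : ℕ),
        2 ≤ w → K * (H + 1) ≤ 2 ^ (w - 1) → (∀ a ∈ L, a + 1 < 2 ^ w) → (enc L).length + 2 ≤ H →
        13 * (sz L + 1) + 3 + qg.eval (sz L) ≤ H →
        inv (g L) →
        (∀ s, inv s → 13 * (sz s + 4) + 3 + qf.eval (sz s) ≤ H ∧
          ∀ τ : List Bool, τ.length = sz s + 4 →
            (∀ s', f (s, ⟨τ⟩) = Sum.inl s' → inv s') ∧
            (∀ o, f (s, ⟨τ⟩) = Sum.inr o → outs o)) →
        (∀ o, outs o → (∀ a ∈ o, a < 2 ^ w) ∧ o.length ≤ 2 ^ (w - 1) ∧ hcost (sz o + 1) ≤ B) →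
        (∀ (ρ : ℕ → ℕ) (T : ℕ) (out : List ℕ), HaltsWithin P w ρ L T out → outs out) ∧
        (∀ V : C → ℝ, (∀ s, inv s → 0 ≤ V s) →
          (∀ s, inv s → (rcost (sz s + 4) (qf.eval (sz s)) : ℝ) +
            avg (sz s + 4) (fun τ => match f (s, ⟨τ⟩) with
              | Sum.inl s' => V s'
              | Sum.inr _ => 0) ≤ V s) →
          expectedTime P w L ≤ ENNReal.ofReal ((scost w K L.length : ℝ) +
            (rcost (sz L + 1) (qg.eval (sz L)) : ℝ) + V (g L) + B) ∧
          ∀ (Good : List ℕ → Prop) (h : C → ℝ), (∀ s, inv s → 0 ≤ h s ∧ h s ≤ 1) →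
            (∀ s, inv s → h s = avg (sz s + 4) (fun τ => match f (s, ⟨τ⟩) with
              | Sum.inl s' => h s'
              | Sum.inr o => ind (Good o))) →
            probHaltsWith P w L Good = h (g L)) := by
  classical
  obtain ⟨qf, hqf⟩ := raw_round hf
  refine ⟨qf, fun g hg => ?_⟩
  obtain ⟨c, F, qg, n, hrun, hF0, hn0, hF1, hn1⟩ := hqf g hg
  obtain ⟨P, K, hP⟩ := HP c F n hrun
  refine ⟨P, K, qg, fun w H L inv outs B hw hH hL hLH hLH2 hinv0 hinv houts => ?_⟩
  -- the raw invariant
  set Inv' : List Bool → Prop := fun x =>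
    x = false :: enc L ∨ (∃ s : C, inv s ∧ x = code s) ∨ (∃ o, outs o ∧ x = true :: enc o) with hInv'
  have key := hP w H L Inv' hw hH hL hLH (Or.inl rfl) ?_ ?_
  rotate_left
  · rintro x (rfl | ⟨s, hs, rfl⟩ | ⟨o, ho, rfl⟩) hx
    · refine ⟨?_, fun τ _ => Or.inr (Or.inl ⟨g L, hinv0, hF0 L τ⟩)⟩
      have h1 := hn0 L
      have h2 : (false :: enc L).length = sz L + 1 := rfl
      rw [h2]
      omega
    · obtain ⟨h1, h2⟩ := hinv s hs
      refine ⟨?_, fun τ hτ => ?_⟩
      · have h3 := hn1 s
        rw [length_code]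
        omega
      · rw [length_code] at hτ
        obtain ⟨h3, h4⟩ := h2 τ hτ
        rw [hF1]
        rcases hfs : f (s, ⟨τ⟩) with s' | o
        · exact Or.inr (Or.inl ⟨s', h3 s' hfs, rfl⟩)
        · exact Or.inr (Or.inr ⟨o, h4 o hfs, rfl⟩)
    · simp at hx
  · rintro x (rfl | ⟨s, hs, rfl⟩ | ⟨o, ho, rfl⟩) hx
    · simp at hx
    · simp [head?_code] at hx
    · exact ⟨o, rfl, (houts o ho).1, (houts o ho).2.1⟩
  obtain ⟨k1, k2⟩ := key
  refine ⟨?_, ?_⟩
  · intro ρ T out hh
    rcases k1 ρ T out hh with h | ⟨s, _, h⟩ | ⟨o, ho, h⟩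
    · simp at h
    · simp [code] at h
    · rw [true_enc_inj h]; exact ho
  · intro V hV0 hV
    -- raw potential
    set c0 : ℝ := (rcost (sz L + 1) (qg.eval (sz L)) : ℝ) with hc0
    set V' : List Bool → ℝ := fun x =>
      if x = false :: enc L then c0 + (V (g L) + B)
      else if h : ∃ s : C, inv s ∧ x = code s then V h.choose + B else B with hV'
    have hVs : ∀ s, inv s → V' (code s) = V s + B := by
      intro s hs
      have h1 : code s ≠ false :: enc L := code_ne_start s L
      have h2 : ∃ s' : C, inv s' ∧ code s = code s' := ⟨s, hs, rfl⟩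
      simp only [hV', if_neg h1, dif_pos h2]
      rw [← code_injective h2.choose_spec.2]
    have hVo : ∀ o : List ℕ, V' (true :: enc o) = B := by
      intro o
      have h1 : (true :: enc o : List Bool) ≠ false :: enc L := by simp
      have h2 : ¬ ∃ s' : C, inv s' ∧ (true :: enc o : List Bool) = code s' := by
        rintro ⟨s', _, h⟩
        simp [code] at h
      simp only [hV', if_neg h1, dif_neg h2]
    have hV0' : V' (false :: enc L) = c0 + (V (g L) + B) := by simp only [hV', if_true]
    have k2' := k2 V' ?_ ?_ ?_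
    rotate_left
    · rintro x (rfl | ⟨s, hs, rfl⟩ | ⟨o, ho, rfl⟩)
      · rw [hV0']
        have := hV0 _ hinv0
        positivity
      · rw [hVs s hs]
        have := hV0 s hs
        positivity
      · rw [hVo]; positivity
    · rintro x (rfl | ⟨s, hs, rfl⟩ | ⟨o, ho, rfl⟩) hx
      · rw [hV0']
        have e1 : ∀ τ, V' (F (false :: enc L) τ) = V (g L) + B := fun τ => by
          rw [hF0, hVs _ hinv0]
        simp_rw [e1]
        rw [avg_const]
        refine add_le_add_left ?_ _
        rw [hc0]
        have h1 := hn0 L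
        have h2 : (false :: enc L).length = sz L + 1 := rfl
        rw [h2]
        have : rcost (sz L + 1) (n (false :: enc L)) ≤ rcost (sz L + 1) (qg.eval (sz L)) := by
          unfold rcost; omega
        exact_mod_cast this
      · rw [hVs s hs, length_code]
        have h1 : (rcost (sz s + 4) (n (code s)) : ℝ) ≤ rcost (sz s + 4) (qf.eval (sz s)) := by
          have := hn1 s
          have : rcost (sz s + 4) (n (code s)) ≤ rcost (sz s + 4) (qf.eval (sz s)) := by
            unfold rcost; omega
          exact_mod_cast this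
        have h2 : avg (sz s + 4) (fun τ => V' (F (code s) τ)) =
            avg (sz s + 4) (fun τ => match f (s, ⟨τ⟩) with
              | Sum.inl s' => V s'
              | Sum.inr _ => 0) + B := by
          rw [← avg_const (sz s + 4) (B : ℝ), ← avg_add]
          refine avg_congr fun τ hτ => ?_
          rw [hF1]
          obtain ⟨h3, h4⟩ := (hinv s hs).2 τ hτ
          rcases hfs : f (s, ⟨τ⟩) with s' | o
          · simp only [avg_const]
            exact hVs s' (h3 s' hfs)
          · simp only [avg_const, zero_add]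
            exact hVo o
        rw [h2]
        have := hV s hs
        linarith
      · simp at hx
    · rintro x (rfl | ⟨s, hs, rfl⟩ | ⟨o, ho, rfl⟩) hx
      · simp at hx
      · simp [head?_code] at hx
      · rw [hVo]
        have h1 := (houts o ho).2.2
        have h2 : (true :: enc o).length = sz o + 1 := rfl
        rw [h2]
        exact_mod_cast h1
    obtain ⟨k3, k4⟩ := k2'
    refine ⟨?_, ?_⟩
    · rw [hV0'] at k3
      refine k3.trans (le_of_eq ?_)
      congr 1
      ring
    · intro Good h h01 hharm
      set h' : List Bool → ℝ := fun x =>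
        if x = false :: enc L then h (g L)
        else if hx : ∃ s : C, inv s ∧ x = code s then h hx.choose
        else if hx : ∃ o : List ℕ, x = true :: enc o then ind (Good hx.choose) else 0 with hh'
      have hhs : ∀ s, inv s → h' (code s) = h s := by
        intro s hs
        have h1 : code s ≠ false :: enc L := code_ne_start s L
        have h2 : ∃ s' : C, inv s' ∧ code s = code s' := ⟨s, hs, rfl⟩
        simp only [hh', if_neg h1, dif_pos h2]
        rw [← code_injective h2.choose_spec.2]
      have hho : ∀ o : List ℕ, h' (true :: enc o) = ind (Good o) := by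
        intro o
        have h1 : (true :: enc o : List Bool) ≠ false :: enc L := by simp
        have h2 : ¬ ∃ s' : C, inv s' ∧ (true :: enc o : List Bool) = code s' := by
          rintro ⟨s', _, h⟩
          simp [code] at h
        have h3 : ∃ o' : List ℕ, (true :: enc o : List Bool) = true :: enc o' := ⟨o, rfl⟩
        simp only [hh', if_neg h1, dif_neg h2, dif_pos h3]
        rw [← true_enc_inj h3.choose_spec]
      have hh0 : h' (false :: enc L) = h (g L) := by simp only [hh', if_true]
      rw [← hh0]
      refine k4 Good h' ?_ ?_ (fun out _ => hho out)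
      · rintro x (rfl | ⟨s, hs, rfl⟩ | ⟨o, ho, rfl⟩)
        · rw [hh0]; exact h01 _ hinv0
        · rw [hhs s hs]; exact h01 s hs
        · rw [hho]; exact ⟨ind_nonneg _, ind_le_one _⟩
      · rintro x (rfl | ⟨s, hs, rfl⟩ | ⟨o, ho, rfl⟩) hx
        · rw [hh0]
          have e1 : ∀ τ, h' (F (false :: enc L) τ) = h (g L) := fun τ => by
            rw [hF0, hhs _ hinv0]
          simp_rw [e1]
          rw [avg_const]
        · rw [hhs s hs, length_code, hharm s hs]
          refine avg_congr fun τ hτ => ?_
          rw [hF1]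
          obtain ⟨h3, h4⟩ := (hinv s hs).2 τ hτ
          rcases hfs : f (s, ⟨τ⟩) with s' | o
          · exact (hhs s' (h3 s' hfs)).symm
          · exact (hho o).symm
        · simp at hx

end Crest.Agent.R309.Exact9
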