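import Crest.Agent.R309.RAMProb
import Crest.Agent.R309.Exact9Typed

-- ▼ part R309/RAMHarm
section

/-!
# Output probabilities through harmonic functions
-/

set_option autoImplicit false

namespace Crest.Agent.R309.RAM

open Crest.WordRAM
open Function
open scoped ENNReal

namespace Sim

variable {P : Program} {w : ℕ} {input : List ℕ} {f : List Bool → List Bool → List Bool}
  {R : Set (List Bool)} {s0 : List Bool} {out : List Bool → List ℕ} {T0 : ℕ} {q : List Bool → ℕ}

/-- indicator of having halted with a good output at time `T` -/
noncomputable def pg (P : Program) (w : ℕ) (Good : List ℕ → Prop) (ρ : ℕ → ℕ)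
    (c : Cfg P.numRegs) (T : ℕ) : ℝ≥0∞ :=
  ind (((step P w ρ)^[T] c).halted = true ∧ Good ((step P w ρ)^[T] c).output)

/-- indicator of not having halted at time `T` -/
noncomputable def pn (P : Program) (w : ℕ) (ρ : ℕ → ℕ) (c : Cfg P.numRegs) (T : ℕ) : ℝ≥0∞ :=
  ind (((step P w ρ)^[T] c).halted = false)

theorem pg_loc (Good : List ℕ → Prop) (c : Cfg P.numRegs) (T : ℕ) :
    Loc T (fun y => pg P w Good (plc c.drawn y) c T) := by
  intro y y' hy
  show ind _ = ind _
  rw [iterate_congr (P := P) (w := w) (ρ := plc c.drawn y') (ρ' := plc c.drawn y) T]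
  intro i hi hi'
  have := (drawn_le_iterate (P := P) (w := w) (plc c.drawn y') T c).2
  exact hy _ (by omega)

theorem pn_loc (c : Cfg P.numRegs) (T : ℕ) :
    Loc T (fun y => pn P w (plc c.drawn y) c T) := by
  intro y y' hy
  show ind _ = ind _
  rw [iterate_congr (P := P) (w := w) (ρ := plc c.drawn y') (ρ' := plc c.drawn y) T]
  intro i hi hi'
  have := (drawn_le_iterate (P := P) (w := w) (plc c.drawn y') T c).2
  exact hy _ (by omega)

theorem pg_split (Good : List ℕ → Prop) (ρ : ℕ → ℕ) (c : Cfg P.numRegs) {t T : ℕ} (h : t ≤ T) :
    pg P w Good ρ c T = pg P w Good ρ ((step P w ρ)^[t] c) (T - t) := by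
  unfold pg
  rw [← Function.iterate_add_apply, Nat.sub_add_cancel h]

theorem pn_split (ρ : ℕ → ℕ) (c : Cfg P.numRegs) {t T : ℕ} (h : t ≤ T) :
    pn P w ρ c T = pn P w ρ ((step P w ρ)^[t] c) (T - t) := by
  unfold pn
  rw [← Function.iterate_add_apply, Nat.sub_add_cancel h]

/-- superharmonic functions bound the output probabilities from above -/
theorem pg_le (S : Sim P w input f R s0 out T0 q) (Good : List ℕ → Prop) (H : List Bool → ℝ≥0∞)
    (hH : ∀ s ∈ R, s.head? ≠ some true → B s.length (fun τ => H (f s τ)) ≤ H s)
    (hH' : ∀ s ∈ R, s.head? = some true → ind (Good (out s)) ≤ H s) :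
    ∀ (T : ℕ) (s : List Bool) (c : Cfg P.numRegs), s ∈ R → S.Hd s c → ∀ m, T ≤ m →
      A w m (fun y => pg P w Good (plc c.drawn y) c T) ≤ H s := by
  intro T
  induction T using Nat.strong_induction_on with
  | _ T ih =>
    intro s c hs hc m hm
    by_cases hh : s.head? = some true
    · refine le_trans ?_ (hH' s hs hh)
      rw [← A_const (w := w) (n := m) (ind (Good (out s)))]
      refine A_mono fun y => ?_
      obtain ⟨t, c', h2, h3, h4, h5⟩ := S.stop s hs hh c hc (plc c.drawn y)
      unfold pg
      by_cases hT : ((step P w (plc c.drawn y))^[T] c).halted = true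
      · have e : ((step P w (plc c.drawn y))^[T] c).output = out s := by
          rcases le_total t T with htT | htT
          · rw [iterate_of_halted (w := w) htT (by rw [h3]; exact h4), h3, h5]
          · rw [← iterate_of_halted (w := w) htT hT, h3, h5]
        rw [e]
        by_cases hg : Good (out s)
        · rw [ind_true hg]; exact ind_le_one _
        · rw [ind_false (fun h => hg h.2)]; exact bot_le
      · rw [ind_false (fun h => hT h.1)]; exact bot_le
    · refine le_trans ?_ (hH s hs hh)
      have e1 : A w m (fun y => pg P w Good (plc c.drawn y) c T) =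
          A w (s.length + m) (fun y => pg P w Good (plc c.drawn y) c T) := by
        rw [A_loc hm (pg_loc Good c T), A_loc (show T ≤ s.length + m by omega) (pg_loc Good c T)]
      rw [e1]
      refine A_le_B S.hw m s.length _ _ fun x hx => ?_
      obtain ⟨t, c', h1, h2, h3, h4, h5⟩ := S.round' hs hh hc x hx
      by_cases htT : t ≤ T
      · have h6 : ∀ y, pg P w Good (plc c.drawn (sapp x y)) c T =
            pg P w Good (plc c'.drawn y) c' (T - t) := by
          intro y
          rw [pg_split Good _ c htT, (h5 y).1]
          unfold pg
          rw [(h5 y).2]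
        simp only [h6]
        exact ih (T - t) (by omega) _ c' (S.closed s hs hh _ (by rw [length_bits, hx])) h3 m
          (by omega)
      · have h6 : ∀ y, pg P w Good (plc c.drawn (sapp x y)) c T = 0 := by
          intro y
          refine ind_false fun h => ?_
          have := not_halted_of_le (P := P) (w := w) (ρ := plc c.drawn (sapp x y)) (c := c)
            (show T ≤ t by omega) (by rw [(h5 y).1]; exact S.nh _ _ h3)
          rw [this] at h
          exact Bool.noConfusion h.1
        simp only [h6, A_const]
        exact bot_le

/-- subharmonic functions bound the output probabilities from below -/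
theorem le_pg (S : Sim P w input f R s0 out T0 q) (Good : List ℕ → Prop) (H : List Bool → ℝ≥0∞)
    (hH : ∀ s ∈ R, s.head? ≠ some true → H s ≤ B s.length (fun τ => H (f s τ)))
    (hH' : ∀ s ∈ R, s.head? = some true → H s ≤ ind (Good (out s)))
    (hH1 : ∀ s ∈ R, H s ≤ 1) :
    ∀ (T : ℕ) (s : List Bool) (c : Cfg P.numRegs), s ∈ R → S.Hd s c → ∀ m, T ≤ m →
      H s ≤ A w m (fun y => pg P w Good (plc c.drawn y) c T + pn P w (plc c.drawn y) c T) := by
  intro T
  induction T using Nat.strong_induction_on with
  | _ T ih =>
    intro s c hs hc m hm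
    by_cases hh : s.head? = some true
    · refine (hH' s hs hh).trans ?_
      rw [← A_const (w := w) (n := m) (ind (Good (out s)))]
      refine A_mono fun y => ?_
      obtain ⟨t, c', h2, h3, h4, h5⟩ := S.stop s hs hh c hc (plc c.drawn y)
      unfold pg pn
      by_cases hT : ((step P w (plc c.drawn y))^[T] c).halted = true
      · have e : ((step P w (plc c.drawn y))^[T] c).output = out s := by
          rcases le_total t T with htT | htT
          · rw [iterate_of_halted (w := w) htT (by rw [h3]; exact h4), h3, h5]
          · rw [← iterate_of_halted (w := w) htT hT, h3, h5]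
        rw [e]
        by_cases hg : Good (out s)
        · rw [ind_true hg, ind_true (p := _ ∧ _) ⟨hT, hg⟩]; exact le_add_right le_rfl
        · rw [ind_false hg]; exact bot_le
      · rw [ind_true (p := ((step P w (plc c.drawn y))^[T] c).halted = false) (by simpa using hT)]
        exact (ind_le_one _).trans (le_add_left le_rfl)
    · refine (hH s hs hh).trans ?_
      have e1 : A w m (fun y => pg P w Good (plc c.drawn y) c T + pn P w (plc c.drawn y) c T) =
          A w (s.length + m)
            (fun y => pg P w Good (plc c.drawn y) c T + pn P w (plc c.drawn y) c T) := by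
        rw [A_add, A_add, A_loc hm (pg_loc Good c T),
          A_loc (show T ≤ s.length + m by omega) (pg_loc Good c T), A_loc hm (pn_loc c T),
          A_loc (show T ≤ s.length + m by omega) (pn_loc c T)]
      rw [e1]
      refine B_le_A S.hw m s.length _ _ fun x hx => ?_
      obtain ⟨t, c', h1, h2, h3, h4, h5⟩ := S.round' hs hh hc x hx
      have hcl := S.closed s hs hh (bits w x) (by rw [length_bits, hx])
      by_cases htT : t ≤ T
      · have h6 : ∀ y, pg P w Good (plc c.drawn (sapp x y)) c T =
            pg P w Good (plc c'.drawn y) c' (T - t) := by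
          intro y
          rw [pg_split Good _ c htT, (h5 y).1]
          unfold pg
          rw [(h5 y).2]
        have h7 : ∀ y, pn P w (plc c.drawn (sapp x y)) c T =
            pn P w (plc c'.drawn y) c' (T - t) := by
          intro y
          rw [pn_split _ c htT, (h5 y).1]
          unfold pn
          rw [(h5 y).2]
        simp only [h6, h7]
        exact ih (T - t) (by omega) _ c' hcl h3 m (by omega)
      · have h6 : ∀ y, pn P w (plc c.drawn (sapp x y)) c T = 1 := by
          intro y
          refine ind_true ?_
          exact not_halted_of_le (P := P) (w := w) (ρ := plc c.drawn (sapp x y)) (c := c)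
            (show T ≤ t by omega) (by rw [(h5 y).1]; exact S.nh _ _ h3)
        simp only [h6]
        refine (hH1 _ hcl).trans ?_
        rw [A_add, A_const]
        exact le_add_left le_rfl

/-- **Output probabilities.** -/
theorem probHaltsWith_eq (S : Sim P w input f R s0 out T0 q) (Good : List ℕ → Prop)
    (H : List Bool → ℝ≥0∞)
    (hH : ∀ s ∈ R, s.head? ≠ some true → H s = B s.length (fun τ => H (f s τ)))
    (hH' : ∀ s ∈ R, s.head? = some true → H s = ind (Good (out s)))
    (hH1 : ∀ s ∈ R, H s ≤ 1) (hfin : expectedTime P w input ≠ ⊤) :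
    ENNReal.ofReal (probHaltsWith P w input Good) = H s0 := by
  obtain ⟨t, c, h2, h3, h4, h5⟩ := S.start'
  have hprob : ∀ T E, 0 ≤ probAfter P w input T E ∧ probAfter P w input T E ≤ 1 := by
    intro T E
    unfold probAfter Crest.FinProb.uniformProb
    constructor
    · positivity
    · apply div_le_one_of_le₀
      · exact_mod_cast Finset.card_le_univ _
      · positivity
  -- the two bounds at time `T`
  have hup : ∀ T, ENNReal.ofReal (probAfter P w input T
      fun c => c.halted = true ∧ Good c.output) ≤ H s0 := by
    intro T
    rw [ofReal_probAfter]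
    by_cases htT : t ≤ T
    · have h6 : ∀ y, ind ((run P w y input T).halted = true ∧ Good (run P w y input T).output) =
          pg P w Good (plc c.drawn y) c (T - t) := by
        intro y
        have := pg_split (w := w) Good y (init P w input) htT
        rw [h5 y] at this
        rw [h4, plc_zero, ← this]
        rfl
      simp only [h6]
      exact S.pg_le Good H (fun s hs hh => (hH s hs hh).ge) (fun s hs hh => (hH' s hs hh).ge)
        (T - t) s0 c S.mem0 h3 T (by omega)
    · have h6 : ∀ y, ind ((run P w y input T).halted = true ∧ Good (run P w y input T).output) =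
          0 := by
        intro y
        refine ind_false fun h => ?_
        have := not_halted_of_le (P := P) (w := w) (ρ := y) (c := init P w input)
          (show T ≤ t by omega) (by rw [h5]; exact S.nh _ _ h3)
        have h7 := h.1
        unfold run at h7
        rw [this] at h7
        exact Bool.noConfusion h7
      simp only [h6, A_const]
      exact bot_le
  have hlo : ∀ T, t ≤ T → H s0 ≤ ENNReal.ofReal (probAfter P w input T
      fun c => c.halted = true ∧ Good c.output) +
        ENNReal.ofReal (probAfter P w input T fun c => c.halted = false) := by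
    intro T htT
    rw [ofReal_probAfter, ofReal_probAfter, ← A_add]
    have h6 : ∀ y, ind ((run P w y input T).halted = true ∧ Good (run P w y input T).output) =
        pg P w Good (plc c.drawn y) c (T - t) := by
      intro y
      have := pg_split (w := w) Good y (init P w input) htT
      rw [h5 y] at this
      rw [h4, plc_zero, ← this]
      rfl
    have h7 : ∀ y, ind ((run P w y input T).halted = false) =
        pn P w (plc c.drawn y) c (T - t) := by
      intro y
      have := pn_split (w := w) y (init P w input) htT
      rw [h5 y] at this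
      rw [h4, plc_zero, ← this]
      rfl
    simp only [h6, h7]
    exact S.le_pg Good H (fun s hs hh => (hH s hs hh).le) (fun s hs hh => (hH' s hs hh).le) hH1
      (T - t) s0 c S.mem0 h3 T (by omega)
  have hbdd : BddAbove (Set.range fun T => probAfter P w input T
      fun c => c.halted = true ∧ Good c.output) :=
    ⟨1, by rintro _ ⟨T, rfl⟩; exact (hprob T _).2⟩
  apply le_antisymm
  · have hH0 : H s0 ≠ ⊤ := ne_top_of_le_ne_top (by simp) (hH1 s0 S.mem0)
    rw [← ENNReal.ofReal_toReal hH0]
    apply ENNReal.ofReal_le_ofReal
    apply ciSup_le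
    intro T
    have := hup T
    rw [← ENNReal.ofReal_toReal hH0] at this
    exact (ENNReal.ofReal_le_ofReal_iff ENNReal.toReal_nonneg).1 this
  · have hlim := ENNReal.tendsto_atTop_zero_of_tsum_ne_top hfin
    have h1 : Filter.Tendsto (fun T => ENNReal.ofReal (probHaltsWith P w input Good) +
        ENNReal.ofReal (probAfter P w input T fun c => c.halted = false)) Filter.atTop
        (nhds (ENNReal.ofReal (probHaltsWith P w input Good) + 0)) :=
      tendsto_const_nhds.add hlim
    rw [add_zero] at h1
    refine ge_of_tendsto h1 ?_
    filter_upwards [Filter.eventually_ge_atTop t] with T hT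
    refine (hlo T hT).trans ?_
    refine add_le_add_left ?_ _
    apply ENNReal.ofReal_le_ofReal
    exact le_ciSup hbdd T

end Sim

end Crest.Agent.R309.RAM
end

-- ▼ part R309/RAMProcess
section

/-!
# Every polynomial-time bit-tape process runs on the word RAM
-/

set_option autoImplicit false

namespace Crest.Agent.R309.RAM

open Crest.WordRAM hiding init
open Crest.Agent.Lib.PT Function

open Classical in
/-- the output list coded by a halting state -/
noncomputable def outOf (s : List Bool) : List ℕ :=
  if h : ∃ o : List ℕ, s = true :: enc o then h.choose else []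

theorem outOf_eq (o : List ℕ) : outOf (true :: enc o) = o := by
  unfold outOf
  have h : ∃ o' : List ℕ, true :: enc o = true :: enc o' := ⟨o, rfl⟩
  rw [dif_pos h]
  have := h.choose_spec
  rw [List.cons.injEq] at this
  exact (enc_injective this.2).symm


end Crest.Agent.R309.RAM
end

-- ▼ part R309/RAMSpec

/-!
# The process theorem in the form used by the exact sampler
-/

set_option autoImplicit false

namespace Crest.Agent.R309.RAM

open Crest.WordRAM hiding init
open Crest.Agent.Lib.PT Function
open scoped ENNReal

theorem ofReal_avg (n : ℕ) (g : List Bool → ℝ) (h : ∀ τ : List Bool, τ.length = n → 0 ≤ g τ) :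
    0 ≤ Tape.avg n g ∧ ENNReal.ofReal (Tape.avg n g) = B n (fun τ => ENNReal.ofReal (g τ)) := by
  induction n generalizing g with
  | zero => exact ⟨h [] rfl, rfl⟩
  | succ n ih =>
    obtain ⟨a1, a2⟩ := ih (fun l => g (false :: l)) fun τ hτ => h _ (by simp [hτ])
    obtain ⟨b1, b2⟩ := ih (fun l => g (true :: l)) fun τ hτ => h _ (by simp [hτ])
    rw [Tape.avg_succ]
    refine ⟨by positivity, ?_⟩
    rw [ENNReal.ofReal_div_of_pos (by norm_num), ENNReal.ofReal_add a1 b1, a2, b2]
    simp [B]

theorem ofReal_ind (p : Prop) : ENNReal.ofReal (Tape.ind p) = RAM.ind p := by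
  by_cases hp : p
  · rw [RAM.ind_true hp]
    simp [Tape.ind, hp]
  · rw [RAM.ind_false hp]
    simp [Tape.ind, hp]

/-- **ProcessSpec** -/
theorem processSpec : Exact9.ProcessSpec := by
  classical
  intro c F n hrun
  have hcK : c.maxVar < c.maxVar + 3 := by omega
  refine ⟨machine (c.maxVar + 3) .skip c, c.maxVar + 3, ?_⟩
  generalize hKdef : c.maxVar + 3 = K at hcK
  have hK3 : 2 < K := by omega
  intro w H L inv hw hH hL hLH h0 hinv hout
  have hB := two_pow_half (show 1 ≤ w by omega)
  -- the simulation
  have S : Sim (machine K .skip c) w L F {s | inv s} (false :: enc L) outOf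
      (Exact9.scost w K L.length)
      (fun s => if s.head? = some true then Exact9.hcost s.length
        else Exact9.rcost s.length (n s)) :=
    { Hd := Head w K .skip c
      nh := fun s c h => h.not_halted
      start := fun ρ => machine_start_skip ρ hK3 hcK hw hH L hL hLH
      round := by
        intro s hs hnh cf hcf ρ
        obtain ⟨h1, h2⟩ := hinv s hs hnh
        have hr := hrun s (rbits w ρ cf.drawn s.length) (rbits_length _ _ _ _)
        obtain ⟨t, c', g1, g2, g3, g4, g5⟩ := machine_round (n := n s) ρ hK3
          (show Cmd.maxVar .skip < K from (show (0 : ℕ) < K by omega)) hcK (by omega) hH hcf hnh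
          hr h1
        refine ⟨t, c', g1, ?_, g3, g4, g5⟩
        rw [if_neg hnh]
        exact g2
      stop := by
        intro s hs hh' cf hcf ρ
        obtain ⟨o, rfl, ho, hol⟩ := hout s hs hh'
        obtain ⟨t, c', h1, h2, h3, h4⟩ := machine_halt ρ hK3
          (show Cmd.maxVar .skip < K from (show (0 : ℕ) < K by omega)) hcK (by omega) hcf ho hol
        refine ⟨t, c', ?_, h2, h3, by rw [h4, outOf_eq]⟩
        rw [if_pos hh', List.length_cons]
        unfold Exact9.hcost
        omega
      mem0 := h0
      closed := fun s hs hnh τ hτ => (hinv s hs hnh).2 τ hτ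
      hw := by omega }
  refine ⟨?_, ?_⟩
  · intro ρ T out hh
    obtain ⟨s, hs, h1, h2⟩ := S.halts ρ T out hh
    obtain ⟨o, rfl, _, _⟩ := hout s hs h1
    rw [outOf_eq] at h2
    rw [← h2]
    exact hs
  · intro V hV0 hV1 hV2
    have htime : expectedTime (machine K .skip c) w L ≤
        ENNReal.ofReal ((Exact9.scost w K L.length : ℝ) + V (false :: enc L)) := by
      have := S.expectedTime_le (fun s => ENNReal.ofReal (V s)) ?_ ?_
      · rw [ENNReal.ofReal_add (by positivity) (hV0 _ h0), ENNReal.ofReal_natCast]
        exact this
      · intro s hs hnh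
        rw [if_neg hnh]
        obtain ⟨a1, a2⟩ := ofReal_avg s.length (fun τ => V (F s τ))
          (fun τ hτ => hV0 _ ((hinv s hs hnh).2 τ hτ))
        rw [← a2, ← ENNReal.ofReal_natCast, ← ENNReal.ofReal_add (by positivity) a1]
        exact ENNReal.ofReal_le_ofReal (hV1 s hs hnh)
      · intro s hs hh'
        rw [if_pos hh', ← ENNReal.ofReal_natCast]
        exact ENNReal.ofReal_le_ofReal (hV2 s hs hh')
    refine ⟨htime, ?_⟩
    intro Good h hh0 hh1 hh2
    have hfin : expectedTime (machine K .skip c) w L ≠ ⊤ :=
      ne_top_of_le_ne_top ENNReal.ofReal_ne_top htime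
    have := S.probHaltsWith_eq Good (fun s => ENNReal.ofReal (h s)) ?_ ?_ ?_ hfin
    · have hp : 0 ≤ probHaltsWith (machine K .skip c) w L Good := by
        unfold probHaltsWith
        apply Real.iSup_nonneg
        intro T
        unfold probAfter Crest.FinProb.uniformProb
        positivity
      exact (ENNReal.ofReal_eq_ofReal_iff hp (hh0 _ h0).1).1 this
    · intro s hs hnh
      obtain ⟨a1, a2⟩ := ofReal_avg s.length (fun τ => h (F s τ))
        (fun τ hτ => (hh0 _ ((hinv s hs hnh).2 τ hτ)).1)
      rw [← a2, ← hh1 s hs hnh]
    · intro s hs hh'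
      obtain ⟨o, rfl, _, _⟩ := hout s hs hh'
      rw [hh2 o hs, outOf_eq, ofReal_ind]
    · intro s hs
      rw [ENNReal.ofReal_le_one]
      exact (hh0 s hs).2

end Crest.Agent.R309.RAM
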