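import Mathlib
import Crest.Agent.Lib.PT.ArithMore
import Crest.Agent.Lib.PT.ListFns2
import Crest.Agent.R287.Codec
import Crest.Prelude.Def_Tables

-- ▼ part R309/FeasMath
section

/-!
# Row 309: feasibility of bounded tables, the combinatorics

Sub-tables (`Sub`), cuts (`cut`), weak duality, exactness at a closed cut, scaling of cuts.
-/

set_option autoImplicit false

namespace Crest.Agent.R309.Feas

open Finset

/-- `Y` is a sub-table: cell bounds `b`, row sums at most `r`, column sums at most `c`. -/
structure Sub (m n : ℕ) (r c : ℕ → ℕ) (b Y : ℕ → ℕ → ℕ) : Prop where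
  le : ∀ i < m, ∀ j < n, Y i j ≤ b i j
  row : ∀ i < m, ∑ j ∈ range n, Y i j ≤ r i
  col : ∀ j < n, ∑ i ∈ range m, Y i j ≤ c j

/-- total of a matrix -/
def tot (m n : ℕ) (Y : ℕ → ℕ → ℕ) : ℕ := ∑ i ∈ range m, ∑ j ∈ range n, Y i j

/-- capacity of the cut given by rows `S` and columns `T` -/
def cut (m n : ℕ) (r c : ℕ → ℕ) (b : ℕ → ℕ → ℕ) (S T : ℕ → Bool) : ℕ :=
  ∑ i ∈ range m, (if S i = true then ∑ j ∈ range n, (if T j = true then 0 else b i j) else r i) +
    ∑ j ∈ range n, (if T j = true then c j else 0)

theorem tot_le_cut {m n : ℕ} {r c : ℕ → ℕ} {b Y : ℕ → ℕ → ℕ} (h : Sub m n r c b Y)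
    (S T : ℕ → Bool) : tot m n Y ≤ cut m n r c b S T := by
  unfold tot cut
  have h1 : ∀ i ∈ range m, ∑ j ∈ range n, Y i j ≤
      (if S i = true then ∑ j ∈ range n, (if T j = true then 0 else b i j) else r i) +
        ∑ j ∈ range n, (if T j = true then Y i j else 0) := by
    intro i hi
    have hi' := mem_range.1 hi
    split_ifs with hS
    · rw [← sum_add_distrib]
      refine sum_le_sum fun j hj => ?_
      have := h.le i hi' j (mem_range.1 hj)
      split_ifs <;> omega
    · have := h.row i hi'
      omega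
  have h2 : ∑ i ∈ range m, ∑ j ∈ range n, (if T j = true then Y i j else 0) ≤
      ∑ j ∈ range n, (if T j = true then c j else 0) := by
    rw [sum_comm]
    refine sum_le_sum fun j hj => ?_
    split_ifs with hT
    · exact h.col j (mem_range.1 hj)
    · simp
  calc ∑ i ∈ range m, ∑ j ∈ range n, Y i j
      ≤ ∑ i ∈ range m, ((if S i = true then ∑ j ∈ range n, (if T j = true then 0 else b i j)
          else r i) + ∑ j ∈ range n, (if T j = true then Y i j else 0)) := sum_le_sum h1
    _ = _ + ∑ i ∈ range m, ∑ j ∈ range n, (if T j = true then Y i j else 0) := by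
        rw [sum_add_distrib]
    _ ≤ _ := Nat.add_le_add_left h2 _

theorem cut_eq_tot {m n : ℕ} {r c : ℕ → ℕ} {b Y : ℕ → ℕ → ℕ} {S T : ℕ → Bool}
    (hr : ∀ i < m, S i = false → ∑ j ∈ range n, Y i j = r i)
    (hc : ∀ j < n, T j = true → ∑ i ∈ range m, Y i j = c j)
    (hb : ∀ i < m, ∀ j < n, S i = true → T j = false → Y i j = b i j)
    (hz : ∀ i < m, ∀ j < n, S i = false → T j = true → Y i j = 0) :
    cut m n r c b S T = tot m n Y := by
  unfold tot cut
  have h2 : ∑ j ∈ range n, (if T j = true then c j else 0) =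
      ∑ i ∈ range m, ∑ j ∈ range n, (if T j = true then Y i j else 0) := by
    rw [sum_comm (s := range m)]
    refine sum_congr rfl fun j hj => ?_
    by_cases hT : T j = true
    · simp only [hT, if_true]
      exact (hc j (mem_range.1 hj) hT).symm
    · simp [hT]
  rw [h2, ← sum_add_distrib]
  refine sum_congr rfl fun i hi => ?_
  have hi' := mem_range.1 hi
  by_cases hS : S i = true
  · simp only [hS, if_true]
    rw [← sum_add_distrib]
    refine sum_congr rfl fun j hj => ?_
    by_cases hT : T j = true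
    · simp [hT]
    · have := hb i hi' j (mem_range.1 hj) hS (by simpa using hT)
      simp [hT, this]
  · have hS' : S i = false := by simpa using hS
    simp only [hS', Bool.false_eq_true, if_false]
    rw [← hr i hi' hS']
    have : ∑ j ∈ range n, (if T j = true then Y i j else 0) = 0 := by
      refine sum_eq_zero fun j hj => ?_
      by_cases hT : T j = true
      · simp [hT, hz i hi' j (mem_range.1 hj) hS' hT]
      · simp [hT]
    omega

/-- scaling a cut -/
theorem cut_scale {m n : ℕ} {r c r' c' : ℕ → ℕ} {b b' : ℕ → ℕ → ℕ} (S T : ℕ → Bool)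
    (hr : ∀ i < m, r' i ≤ 2 * r i + 1) (hc : ∀ j < n, c' j ≤ 2 * c j + 1)
    (hb : ∀ i < m, ∀ j < n, b' i j ≤ 2 * b i j + 1) :
    cut m n r' c' b' S T ≤ 2 * cut m n r c b S T + (m * (n + 1) + n) := by
  unfold cut
  have h1 : ∑ i ∈ range m, (if S i = true then ∑ j ∈ range n, (if T j = true then 0 else b' i j)
        else r' i) ≤
      2 * (∑ i ∈ range m, (if S i = true then ∑ j ∈ range n, (if T j = true then 0 else b i j)
        else r i)) + m * (n + 1) := by
    calc _ ≤ ∑ i ∈ range m, (2 * (if S i = true then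
              ∑ j ∈ range n, (if T j = true then 0 else b i j) else r i) + (n + 1)) := by
          refine sum_le_sum fun i hi => ?_
          have hi' := mem_range.1 hi
          split_ifs with hS
          · have : ∑ j ∈ range n, (if T j = true then 0 else b' i j) ≤
                ∑ j ∈ range n, (2 * (if T j = true then 0 else b i j) + 1) := by
              refine sum_le_sum fun j hj => ?_
              have := hb i hi' j (mem_range.1 hj)
              split_ifs <;> omega
            rw [sum_add_distrib, ← mul_sum] at this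
            simp only [sum_const, card_range, smul_eq_mul, mul_one] at this
            omega
          · have := hr i hi'
            omega
      _ = _ := by
          rw [sum_add_distrib, ← mul_sum]
          simp
  have h2 : ∑ j ∈ range n, (if T j = true then c' j else 0) ≤
      2 * (∑ j ∈ range n, (if T j = true then c j else 0)) + n := by
    calc _ ≤ ∑ j ∈ range n, (2 * (if T j = true then c j else 0) + 1) := by
          refine sum_le_sum fun j hj => ?_
          have := hc j (mem_range.1 hj)
          split_ifs <;> omega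
      _ = _ := by
          rw [sum_add_distrib, ← mul_sum]
          simp
  omega

theorem tot_double (m n : ℕ) (Y : ℕ → ℕ → ℕ) : tot m n (fun i j => 2 * Y i j) = 2 * tot m n Y := by
  unfold tot
  simp_rw [← mul_sum]

theorem tot_congr {m n : ℕ} {Y Y' : ℕ → ℕ → ℕ} (h : ∀ i < m, ∀ j < n, Y i j = Y' i j) :
    tot m n Y = tot m n Y' := by
  unfold tot
  exact sum_congr rfl fun i hi => sum_congr rfl fun j hj =>
    h i (mem_range.1 hi) j (mem_range.1 hj)

theorem Sub.congr {m n : ℕ} {r c : ℕ → ℕ} {b Y Y' : ℕ → ℕ → ℕ} (h : Sub m n r c b Y)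
    (h' : ∀ i < m, ∀ j < n, Y i j = Y' i j) : Sub m n r c b Y' where
  le i hi j hj := by rw [← h' i hi j hj]; exact h.le i hi j hj
  row i hi := by
    rw [← sum_congr rfl fun j hj => h' i hi j (mem_range.1 hj)]
    exact h.row i hi
  col j hj := by
    rw [← sum_congr rfl fun i hi => h' i (mem_range.1 hi) j hj]
    exact h.col j hj

/-- if each step strictly increases a bounded measure or fixes the point, iterates reach a fixed
point -/
theorem iterate_fixed_of_measure {α : Type*} (f : α → α) (P : α → Prop) (μ : α → ℕ) (N : ℕ)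
    (hP : ∀ a, P a → P (f a)) (hμ : ∀ a, P a → f a = a ∨ μ a < μ (f a)) (hN : ∀ a, P a → μ a ≤ N)
    (a : α) (ha : P a) : f (f^[N] a) = f^[N] a := by
  have hPk : ∀ k, P (f^[k] a) := by
    intro k
    induction k with
    | zero => exact ha
    | succ k ih => rw [Function.iterate_succ_apply']; exact hP _ ih
  have key : ∀ k, f (f^[k] a) = f^[k] a ∨ k ≤ μ (f^[k] a) := by
    intro k
    induction k with
    | zero => right; exact Nat.zero_le _
    | succ k ih =>
      rw [Function.iterate_succ_apply']
      rcases ih with ih | ih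
      · left; rw [ih, ih]
      · rcases hμ _ (hPk k) with h | h
        · left; rw [h, h]
        · right; omega
  rcases key N with h | h
  · exact h
  · rcases hμ _ (hPk N) with h' | h'
    · exact h'
    · have := hN _ (hP _ (hPk N))
      omega

end Crest.Agent.R309.Feas
end

-- ▼ part R309/FeasAlg
section

/-!
# Row 309: feasibility of bounded tables, the algorithm

Matrices are lists of lists; `get`, `tab`. `search`, `augment`, `maxflow`, `feasCore`.
-/

set_option autoImplicit false

namespace Crest.Agent.R309.Feas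

open Finset Crest.Agent.Lib.PT

/-- matrices -/
abbrev Mat : Type := List (List ℕ)

/-- entry of a matrix (`0` outside) -/
def get (M : Mat) (i j : ℕ) : ℕ := (M.getD i []).getD j 0

/-- matrix from its entries -/
def tab (m n : ℕ) (f : ℕ → ℕ → ℕ) : Mat :=
  (List.range m).map fun i => (List.range n).map fun j => f i j

theorem getD_map_range {α : Type} (m : ℕ) (f : ℕ → α) (i : ℕ) (d : α) (hi : i < m) :
    ((List.range m).map f).getD i d = f i := by
  rw [List.getD_eq_getElem?_getD, List.getElem?_map, List.getElem?_range hi]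
  rfl

theorem get_tab {m n : ℕ} {f : ℕ → ℕ → ℕ} {i j : ℕ} (hi : i < m) (hj : j < n) :
    get (tab m n f) i j = f i j := by
  unfold get tab
  rw [getD_map_range _ _ _ _ hi, getD_map_range _ _ _ _ hj]

/-- all pairs of indices -/
def pairs (m n : ℕ) : List (ℕ × ℕ) := (List.range m).flatMap fun i => (List.range n).map fun j => (i, j)

theorem mem_pairs {m n : ℕ} {p : ℕ × ℕ} : p ∈ pairs m n ↔ p.1 < m ∧ p.2 < n := by
  unfold pairs
  simp only [List.mem_flatMap, List.mem_range, List.mem_map]
  constructor
  · rintro ⟨i, hi, j, hj, rfl⟩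
    exact ⟨hi, hj⟩
  · rintro ⟨hi, hj⟩
    exact ⟨p.1, hi, p.2, hj, rfl⟩

/-- add one unit in a cell (clipped by `b0`) -/
def inc (m n : ℕ) (b0 M : Mat) (i j : ℕ) : Mat :=
  tab m n fun i' j' => min (get M i' j' + if i' = i ∧ j' = j then 1 else 0) (get b0 i' j')

/-- remove one unit in a cell (clipped by `b0`) -/
def dec (m n : ℕ) (b0 M : Mat) (i j : ℕ) : Mat :=
  tab m n fun i' j' => min (get M i' j' - if i' = i ∧ j' = j then 1 else 0) (get b0 i' j')

/-- change one entry of a list of options -/
def put {α : Type} (m : ℕ) (l : List (Option α)) (i : ℕ) (v : α) : List (Option α) :=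
  (List.range m).map fun k => if k = i then some v else l.getD k none

theorem getD_put {α : Type} {m : ℕ} {l : List (Option α)} {i k : ℕ} {v : α} (hk : k < m) :
    (put m l i v).getD k none = if k = i then some v else l.getD k none := by
  unfold put
  rw [getD_map_range _ _ _ _ hk]

/-- state of the search: for every row and every column the augmented matrix if it is reached -/
abbrev St : Type := List (Option Mat) × List (Option Mat)

/-- forward condition -/
def condC (b : Mat) (s : St) (p : ℕ × ℕ) : Bool :=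
  (s.1.getD p.1 none).isSome && (!(s.2.getD p.2 none).isSome &&
    decide (get ((s.1.getD p.1 none).getD []) p.1 p.2 < get b p.1 p.2))

/-- backward condition -/
def condR (s : St) (p : ℕ × ℕ) : Bool :=
  (s.2.getD p.2 none).isSome && (!(s.1.getD p.1 none).isSome &&
    decide (0 < get ((s.2.getD p.2 none).getD []) p.1 p.2))

/-- one step of the search -/
def sstep (m n : ℕ) (b0 b : Mat) (s : St) : St :=
  match (pairs m n).find? (condC b s) with
  | some p => (s.1, put n s.2 p.2 (inc m n b0 ((s.1.getD p.1 none).getD []) p.1 p.2))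
  | none =>
    match (pairs m n).find? (condR s) with
    | some p => (put m s.1 p.1 (dec m n b0 ((s.2.getD p.2 none).getD []) p.1 p.2), s.2)
    | none => s

/-- row sum -/
def rowS (n : ℕ) (M : Mat) (i : ℕ) : ℕ := ∑ j ∈ range n, get M i j

/-- column sum -/
def colS (m : ℕ) (M : Mat) (j : ℕ) : ℕ := ∑ i ∈ range m, get M i j

/-- initial state -/
def sinit (m n : ℕ) (r : List ℕ) (Y : Mat) : St :=
  ((List.range m).map fun i => if rowS n Y i < r.getD i 0 then some Y else none,
    (List.range n).map fun _ => none)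

/-- final state of the search -/
def search (m n : ℕ) (b0 : Mat) (r : List ℕ) (b Y : Mat) : St :=
  (sstep m n b0 b)^[m + n] (sinit m n r Y)

/-- one augmentation, if possible -/
def augment (m n : ℕ) (b0 : Mat) (r c : List ℕ) (b Y : Mat) : Mat :=
  match (List.range n).find? (fun j => ((search m n b0 r b Y).2.getD j none).isSome &&
      decide (colS m Y j < c.getD j 0)) with
  | some j => ((search m n b0 r b Y).2.getD j none).getD []
  | none => Y

/-- the sub-table predicate for lists -/
abbrev SubL (m n : ℕ) (r c : List ℕ) (b Y : Mat) : Prop :=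
  Sub m n (fun i => r.getD i 0) (fun j => c.getD j 0) (get b) (get Y)

/-- invariant of the search -/
structure Inv (m n : ℕ) (r c : List ℕ) (b Y : Mat) (s : St) : Prop where
  rows : ∀ i < m, ∀ M, s.1.getD i none = some M → ∃ i0 < m, rowS n Y i0 < r.getD i0 0 ∧
    (∀ i' < m, rowS n M i' + (if i' = i then 1 else 0) = rowS n Y i' + if i' = i0 then 1 else 0) ∧
    (∀ j' < n, colS m M j' = colS m Y j') ∧ (∀ i' < m, ∀ j' < n, get M i' j' ≤ get b i' j') ∧
    (∀ i' < m, ∀ j' < n, s.1.getD i' none = none ∨ s.2.getD j' none = none →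
      get M i' j' = get Y i' j')
  cols : ∀ j < n, ∀ M, s.2.getD j none = some M → ∃ i0 < m, rowS n Y i0 < r.getD i0 0 ∧
    (∀ i' < m, rowS n M i' = rowS n Y i' + if i' = i0 then 1 else 0) ∧
    (∀ j' < n, colS m M j' = colS m Y j' + if j' = j then 1 else 0) ∧
    (∀ i' < m, ∀ j' < n, get M i' j' ≤ get b i' j') ∧
    (∀ i' < m, ∀ j' < n, s.1.getD i' none = none ∨ s.2.getD j' none = none →
      get M i' j' = get Y i' j')
  slack : ∀ i < m, s.1.getD i none = none → r.getD i 0 ≤ rowS n Y i

theorem get_inc {m n : ℕ} {b0 M : Mat} {i j i' j' : ℕ} (hi : i' < m) (hj : j' < n)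
    (h : get M i' j' + (if i' = i ∧ j' = j then 1 else 0) ≤ get b0 i' j') :
    get (inc m n b0 M i j) i' j' = get M i' j' + if i' = i ∧ j' = j then 1 else 0 := by
  unfold inc
  rw [get_tab hi hj, min_eq_left h]

theorem get_dec {m n : ℕ} {b0 M : Mat} {i j i' j' : ℕ} (hi : i' < m) (hj : j' < n)
    (h : get M i' j' ≤ get b0 i' j') :
    get (dec m n b0 M i j) i' j' = get M i' j' - if i' = i ∧ j' = j then 1 else 0 := by
  unfold dec
  rw [get_tab hi hj, min_eq_left (by omega)]

theorem rowS_inc {m n : ℕ} {b0 M : Mat} {i j i' : ℕ} (hj : j < n) (hi' : i' < m)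
    (h : ∀ a < m, ∀ d < n, get M a d + (if a = i ∧ d = j then 1 else 0) ≤ get b0 a d) :
    rowS n (inc m n b0 M i j) i' = rowS n M i' + if i' = i then 1 else 0 := by
  unfold rowS
  rw [sum_congr rfl fun d hd => get_inc hi' (mem_range.1 hd) (h i' hi' d (mem_range.1 hd)),
    sum_add_distrib]
  congr 1
  by_cases hii : i' = i
  · subst hii
    simp [hj]
  · simp [hii]

theorem colS_inc {m n : ℕ} {b0 M : Mat} {i j j' : ℕ} (hi : i < m) (hj' : j' < n)
    (h : ∀ a < m, ∀ d < n, get M a d + (if a = i ∧ d = j then 1 else 0) ≤ get b0 a d) :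
    colS m (inc m n b0 M i j) j' = colS m M j' + if j' = j then 1 else 0 := by
  unfold colS
  rw [sum_congr rfl fun a ha => get_inc (mem_range.1 ha) hj' (h a (mem_range.1 ha) j' hj'),
    sum_add_distrib]
  congr 1
  by_cases hjj : j' = j
  · subst hjj
    simp [hi]
  · simp [hjj]

theorem rowS_dec {m n : ℕ} {b0 M : Mat} {i j i' : ℕ} (hj : j < n) (hi' : i' < m)
    (h : ∀ a < m, ∀ d < n, get M a d ≤ get b0 a d) (hpos : 0 < get M i j) :
    rowS n (dec m n b0 M i j) i' + (if i' = i then 1 else 0) = rowS n M i' := by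
  unfold rowS
  rw [sum_congr rfl fun d hd => get_dec hi' (mem_range.1 hd) (h i' hi' d (mem_range.1 hd))]
  by_cases hii : i' = i
  · subst hii
    have h1 : ∑ d ∈ range n, (if d = j then 1 else 0) = 1 := by simp [hj]
    have h2 : ∑ d ∈ range n, (get M i' d - if i' = i' ∧ d = j then 1 else 0) +
        ∑ d ∈ range n, (if d = j then 1 else 0) = ∑ d ∈ range n, get M i' d := by
      rw [← sum_add_distrib]
      refine sum_congr rfl fun d _ => ?_
      by_cases hd : d = j
      · subst hd; simp only [and_self, if_true]; omega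
      · simp [hd]
    rw [if_pos rfl, ← h2, h1]
  · simp [hii]

theorem colS_dec {m n : ℕ} {b0 M : Mat} {i j j' : ℕ} (hi : i < m) (hj' : j' < n)
    (h : ∀ a < m, ∀ d < n, get M a d ≤ get b0 a d) (hpos : 0 < get M i j) :
    colS m (dec m n b0 M i j) j' + (if j' = j then 1 else 0) = colS m M j' := by
  unfold colS
  rw [sum_congr rfl fun a ha => get_dec (mem_range.1 ha) hj' (h a (mem_range.1 ha) j' hj')]
  by_cases hjj : j' = j
  · subst hjj
    have h1 : ∑ a ∈ range m, (if a = i then 1 else 0) = 1 := by simp [hi]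
    have h2 : ∑ a ∈ range m, (get M a j' - if a = i ∧ j' = j' then 1 else 0) +
        ∑ a ∈ range m, (if a = i then 1 else 0) = ∑ a ∈ range m, get M a j' := by
      rw [← sum_add_distrib]
      refine sum_congr rfl fun a _ => ?_
      by_cases ha : a = i
      · subst ha; simp only [and_self, if_true]; omega
      · simp [ha]
    rw [if_pos rfl, ← h2, h1]
  · simp [hjj]

theorem inv_sinit {m n : ℕ} {r c : List ℕ} {b Y : Mat} (h : SubL m n r c b Y) :
    Inv m n r c b Y (sinit m n r Y) where
  rows i hi M hM := by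
    unfold sinit at hM
    simp only [getD_map_range _ _ _ _ hi] at hM
    split_ifs at hM with hlt
    obtain rfl := Option.some.inj hM
    exact ⟨i, hi, hlt, fun _ _ => rfl, fun _ _ => rfl, fun i' hi' j' hj' => h.le i' hi' j' hj',
      fun _ _ _ _ _ => rfl⟩
  cols j hj M hM := by
    unfold sinit at hM
    simp only [getD_map_range _ _ _ _ hj] at hM
    exact absurd hM (by simp)
  slack i hi hM := by
    unfold sinit at hM
    simp only [getD_map_range _ _ _ _ hi] at hM
    split_ifs at hM with hlt
    omega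

theorem isSome_getD {α : Type} {o : Option α} (d : α) (h : o.isSome = true) :
    o = some (o.getD d) := by
  cases o with
  | none => simp at h
  | some a => rfl

theorem inv_sstep {m n : ℕ} {r c : List ℕ} {b0 b Y : Mat} {s : St}
    (hb : ∀ i < m, ∀ j < n, get b i j ≤ get b0 i j) (h : Inv m n r c b Y s) :
    Inv m n r c b Y (sstep m n b0 b s) := by
  unfold sstep
  cases hC : (pairs m n).find? (condC b s) with
  | some p =>
    simp only
    have hp := List.mem_of_find?_eq_some hC
    have hc := List.find?_some hC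
    obtain ⟨hi, hj⟩ := mem_pairs.1 hp
    obtain ⟨i, j⟩ := p
    simp only at hi hj
    unfold condC at hc
    simp only [Bool.and_eq_true, Bool.not_eq_true', decide_eq_true_eq] at hc
    obtain ⟨h1, h2, h3⟩ := hc
    have h1' := isSome_getD [] h1
    set M := (s.1.getD i none).getD [] with hMdef
    have h2' : s.2.getD j none = none := by simpa using h2
    obtain ⟨i0, hi0, hsl, hrow, hcol, hle, hag⟩ := h.rows i hi M h1'
    have hclip : ∀ a < m, ∀ d < n, get M a d + (if a = i ∧ d = j then 1 else 0) ≤ get b0 a d := by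
      intro a ha d hd
      split_ifs with hh
      · obtain ⟨rfl, rfl⟩ := hh
        have := hb a ha d hd
        omega
      · have := hle a ha d hd
        have := hb a ha d hd
        omega
    refine ⟨?_, ?_, ?_⟩
    · intro i' hi' M' hM'
      obtain ⟨i0', hi0', hsl', hrow', hcol', hle', hag'⟩ := h.rows i' hi' M' hM'
      refine ⟨i0', hi0', hsl', hrow', hcol', hle', fun a ha d hd hh => hag' a ha d hd ?_⟩
      rcases hh with hh | hh
      · exact Or.inl hh
      · right
        rw [getD_put hd] at hh
        split_ifs at hh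
        exact hh
    · intro j' hj' M' hM'
      rw [getD_put hj'] at hM'
      split_ifs at hM' with hjj
      · subst hjj
        obtain rfl := Option.some.inj hM'
        refine ⟨i0, hi0, hsl, ?_, ?_, ?_, ?_⟩
        · intro a ha
          rw [rowS_inc hj ha hclip]
          exact hrow a ha
        · intro d hd
          rw [colS_inc hi hd hclip, hcol d hd]
        · intro a ha d hd
          rw [get_inc ha hd (hclip a ha d hd)]
          split_ifs with hh
          · obtain ⟨rfl, rfl⟩ := hh
            omega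
          · have := hle a ha d hd
            omega
        · intro a ha d hd hh
          rw [get_inc ha hd (hclip a ha d hd)]
          have hne : ¬ (a = i ∧ d = j') := by
            rintro ⟨rfl, rfl⟩
            rcases hh with hh | hh
            · rw [h1'] at hh; exact absurd hh (by simp)
            · rw [getD_put hd, if_pos rfl] at hh; exact absurd hh (by simp)
          rw [if_neg hne]
          refine hag a ha d hd ?_
          rcases hh with hh | hh
          · exact Or.inl hh
          · right
            rw [getD_put hd] at hh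
            split_ifs at hh
            exact hh
      · obtain ⟨i0', hi0', hsl', hrow', hcol', hle', hag'⟩ := h.cols j' hj' M' hM'
        refine ⟨i0', hi0', hsl', hrow', hcol', hle', fun a ha d hd hh => hag' a ha d hd ?_⟩
        rcases hh with hh | hh
        · exact Or.inl hh
        · right
          rw [getD_put hd] at hh
          split_ifs at hh
          exact hh
    · exact h.slack
  | none =>
    simp only
    cases hR : (pairs m n).find? (condR s) with
    | none => exact h
    | some p =>
      simp only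
      have hp := List.mem_of_find?_eq_some hR
      have hc := List.find?_some hR
      obtain ⟨hi, hj⟩ := mem_pairs.1 hp
      obtain ⟨i, j⟩ := p
      simp only at hi hj
      unfold condR at hc
      simp only [Bool.and_eq_true, Bool.not_eq_true', decide_eq_true_eq] at hc
      obtain ⟨h1, h2, h3⟩ := hc
      have h1' := isSome_getD [] h1
      set M := (s.2.getD j none).getD [] with hMdef
      have h2' : s.1.getD i none = none := by simpa using h2
      obtain ⟨i0, hi0, hsl, hrow, hcol, hle, hag⟩ := h.cols j hj M h1'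
      have hclip : ∀ a < m, ∀ d < n, get M a d ≤ get b0 a d := fun a ha d hd =>
        (hle a ha d hd).trans (hb a ha d hd)
      refine ⟨?_, ?_, ?_⟩
      · intro i' hi' M' hM'
        rw [getD_put hi'] at hM'
        split_ifs at hM' with hii
        · subst hii
          obtain rfl := Option.some.inj hM'
          refine ⟨i0, hi0, hsl, ?_, ?_, ?_, ?_⟩
          · intro a ha
            rw [rowS_dec hj ha hclip h3]
            exact hrow a ha
          · intro d hd
            have e1 := colS_dec (b0 := b0) hi hd hclip h3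
            have e2 := hcol d hd
            change colS m (dec m n b0 M i' j) d = _
            omega
          · intro a ha d hd
            rw [get_dec ha hd (hclip a ha d hd)]
            exact (Nat.sub_le _ _).trans (hle a ha d hd)
          · intro a ha d hd hh
            rw [get_dec ha hd (hclip a ha d hd)]
            have hne : ¬ (a = i' ∧ d = j) := by
              rintro ⟨rfl, rfl⟩
              rcases hh with hh | hh
              · rw [getD_put ha, if_pos rfl] at hh; exact absurd hh (by simp)
              · rw [h1'] at hh; exact absurd hh (by simp)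
            rw [if_neg hne, Nat.sub_zero]
            refine hag a ha d hd ?_
            rcases hh with hh | hh
            · left
              rw [getD_put ha] at hh
              split_ifs at hh
              exact hh
            · exact Or.inr hh
        · obtain ⟨i0', hi0', hsl', hrow', hcol', hle', hag'⟩ := h.rows i' hi' M' hM'
          refine ⟨i0', hi0', hsl', hrow', hcol', hle', fun a ha d hd hh => hag' a ha d hd ?_⟩
          rcases hh with hh | hh
          · left
            rw [getD_put ha] at hh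
            split_ifs at hh
            exact hh
          · exact Or.inr hh
      · intro j' hj' M' hM'
        obtain ⟨i0', hi0', hsl', hrow', hcol', hle', hag'⟩ := h.cols j' hj' M' hM'
        refine ⟨i0', hi0', hsl', hrow', hcol', hle', fun a ha d hd hh => hag' a ha d hd ?_⟩
        rcases hh with hh | hh
        · left
          rw [getD_put ha] at hh
          split_ifs at hh
          exact hh
        · exact Or.inr hh
      · intro i' hi' hh
        rw [getD_put hi'] at hh
        split_ifs at hh with hii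
        exact h.slack i' hi' hh

/-- number of reached nodes -/
def reached (m n : ℕ) (s : St) : ℕ :=
  ((range m).filter fun i => (s.1.getD i none).isSome = true).card +
    ((range n).filter fun j => (s.2.getD j none).isSome = true).card

theorem reached_le (m n : ℕ) (s : St) : reached m n s ≤ m + n := by
  unfold reached
  have h1 := card_filter_le (range m) fun i => (s.1.getD i none).isSome = true
  have h2 := card_filter_le (range n) fun j => (s.2.getD j none).isSome = true
  simp only [card_range] at h1 h2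
  omega

theorem card_put {α : Type} {m : ℕ} {l : List (Option α)} {i : ℕ} {v : α} (hi : i < m)
    (h : l.getD i none = none) :
    ((range m).filter fun k => (l.getD k none).isSome = true).card <
      ((range m).filter fun k => ((put m l i v).getD k none).isSome = true).card := by
  refine card_lt_card ⟨?_, ?_⟩
  · intro k hk
    simp only [mem_filter, mem_range] at hk ⊢
    refine ⟨hk.1, ?_⟩
    rw [getD_put hk.1]
    split_ifs
    · rfl
    · exact hk.2
  · intro hsub
    have : i ∈ (range m).filter fun k => ((put m l i v).getD k none).isSome = true := by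
      simp only [mem_filter, mem_range]
      refine ⟨hi, ?_⟩
      rw [getD_put hi, if_pos rfl]
      rfl
    have := hsub this
    simp only [mem_filter, mem_range, h] at this
    exact absurd this.2 (by simp)

theorem sstep_progress (m n : ℕ) (b0 b : Mat) (s : St) :
    sstep m n b0 b s = s ∨ reached m n s < reached m n (sstep m n b0 b s) := by
  unfold sstep
  cases hC : (pairs m n).find? (condC b s) with
  | some p =>
    simp only
    have hp := List.mem_of_find?_eq_some hC
    have hc := List.find?_some hC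
    obtain ⟨hi, hj⟩ := mem_pairs.1 hp
    unfold condC at hc
    simp only [Bool.and_eq_true, Bool.not_eq_true', decide_eq_true_eq] at hc
    right
    unfold reached
    have := card_put (l := s.2) (v := inc m n b0 ((s.1.getD p.1 none).getD []) p.1 p.2) hj
      (by simpa using hc.2.1)
    simp only
    omega
  | none =>
    simp only
    cases hR : (pairs m n).find? (condR s) with
    | none => left; rfl
    | some p =>
      simp only
      have hp := List.mem_of_find?_eq_some hR
      have hc := List.find?_some hR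
      obtain ⟨hi, hj⟩ := mem_pairs.1 hp
      unfold condR at hc
      simp only [Bool.and_eq_true, Bool.not_eq_true', decide_eq_true_eq] at hc
      right
      unfold reached
      have := card_put (l := s.1) (v := dec m n b0 ((s.2.getD p.2 none).getD []) p.1 p.2) hi
        (by simpa using hc.2.1)
      simp only
      omega

theorem put_ne {α : Type} {m : ℕ} {l : List (Option α)} {i : ℕ} {v : α} (hi : i < m)
    (h : l.getD i none = none) : put m l i v ≠ l := by
  intro e
  have : (put m l i v).getD i none = l.getD i none := by rw [e]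
  rw [getD_put hi, if_pos rfl, h] at this
  exact absurd this (by simp)

/-- a fixed state is closed -/
theorem closed_of_fixed {m n : ℕ} {b0 b : Mat} {s : St} (h : sstep m n b0 b s = s) :
    (∀ i < m, ∀ j < n, condC b s (i, j) = false) ∧ (∀ i < m, ∀ j < n, condR s (i, j) = false) := by
  unfold sstep at h
  cases hC : (pairs m n).find? (condC b s) with
  | some p =>
    exfalso
    rw [hC] at h
    simp only at h
    have hp := List.mem_of_find?_eq_some hC
    have hc := List.find?_some hC
    obtain ⟨hi, hj⟩ := mem_pairs.1 hp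
    unfold condC at hc
    simp only [Bool.and_eq_true, Bool.not_eq_true', decide_eq_true_eq] at hc
    have := congrArg Prod.snd h
    exact put_ne hj (by simpa using hc.2.1) this
  | none =>
    rw [hC] at h
    simp only at h
    cases hR : (pairs m n).find? (condR s) with
    | some p =>
      exfalso
      rw [hR] at h
      simp only at h
      have hp := List.mem_of_find?_eq_some hR
      have hc := List.find?_some hR
      obtain ⟨hi, hj⟩ := mem_pairs.1 hp
      unfold condR at hc
      simp only [Bool.and_eq_true, Bool.not_eq_true', decide_eq_true_eq] at hc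
      have := congrArg Prod.fst h
      exact put_ne hi (by simpa using hc.2.1) this
    | none =>
      rw [List.find?_eq_none] at hC hR
      refine ⟨fun i hi j hj => ?_, fun i hi j hj => ?_⟩
      · simpa using hC (i, j) (mem_pairs.2 ⟨hi, hj⟩)
      · simpa using hR (i, j) (mem_pairs.2 ⟨hi, hj⟩)

theorem search_inv {m n : ℕ} {r c : List ℕ} {b0 b Y : Mat}
    (hb : ∀ i < m, ∀ j < n, get b i j ≤ get b0 i j) (h : SubL m n r c b Y) :
    Inv m n r c b Y (search m n b0 r b Y) := by
  unfold search
  have : ∀ k, Inv m n r c b Y ((sstep m n b0 b)^[k] (sinit m n r Y)) := by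
    intro k
    induction k with
    | zero => exact inv_sinit h
    | succ k ih => rw [Function.iterate_succ_apply']; exact inv_sstep hb ih
  exact this _

theorem search_fixed (m n : ℕ) (r : List ℕ) (b0 b Y : Mat) :
    sstep m n b0 b (search m n b0 r b Y) = search m n b0 r b Y :=
  iterate_fixed_of_measure (sstep m n b0 b) (fun _ => True) (reached m n) (m + n)
    (fun _ _ => trivial) (fun s _ => sstep_progress m n b0 b s) (fun s _ => reached_le m n s)
    (sinit m n r Y) trivial

/-- `Y` meets a cut -/
def HasCut (m n : ℕ) (r c : List ℕ) (b Y : Mat) : Prop :=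
  ∃ S T : ℕ → Bool, cut m n (fun i => r.getD i 0) (fun j => c.getD j 0) (get b) S T ≤
    tot m n (get Y)

theorem HasCut.max {m n : ℕ} {r c : List ℕ} {b Y : Mat} (h : HasCut m n r c b Y)
    {Y' : ℕ → ℕ → ℕ} (h' : Sub m n (fun i => r.getD i 0) (fun j => c.getD j 0) (get b) Y') :
    tot m n Y' ≤ tot m n (get Y) := by
  obtain ⟨S, T, hc⟩ := h
  exact (tot_le_cut h' S T).trans hc

theorem augment_spec {m n : ℕ} {r c : List ℕ} {b0 b Y : Mat}
    (hb : ∀ i < m, ∀ j < n, get b i j ≤ get b0 i j) (h : SubL m n r c b Y) :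
    (SubL m n r c b (augment m n b0 r c b Y) ∧
      tot m n (get (augment m n b0 r c b Y)) = tot m n (get Y) + 1) ∨
    (augment m n b0 r c b Y = Y ∧ HasCut m n r c b Y) := by
  have hinv := search_inv (b0 := b0) hb h
  have hfix := search_fixed m n r b0 b Y
  set s := search m n b0 r b Y with hs
  unfold augment
  rw [← hs]
  cases hf : (List.range n).find? (fun j => (s.2.getD j none).isSome &&
      decide (colS m Y j < c.getD j 0)) with
  | some j =>
    left
    simp only
    have hj := List.mem_range.1 (List.mem_of_find?_eq_some hf)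
    have hc := List.find?_some hf
    simp only [Bool.and_eq_true, decide_eq_true_eq] at hc
    obtain ⟨h1, h2⟩ := hc
    have h1' := isSome_getD [] h1
    set M := (s.2.getD j none).getD [] with hM
    obtain ⟨i0, hi0, hsl, hrow, hcol, hle, _⟩ := hinv.cols j hj M h1'
    refine ⟨⟨hle, ?_, ?_⟩, ?_⟩
    · intro i hi
      have e := hrow i hi
      have e2 : ∑ j ∈ range n, get Y i j ≤ r.getD i 0 := h.row i hi
      change ∑ j ∈ range n, get M i j ≤ r.getD i 0
      unfold rowS at e hsl
      split_ifs at e with hh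
      · subst hh; omega
      · omega
    · intro j' hj'
      have e := hcol j' hj'
      have e2 : ∑ i ∈ range m, get Y i j' ≤ c.getD j' 0 := h.col j' hj'
      change ∑ i ∈ range m, get M i j' ≤ c.getD j' 0
      unfold colS at e h2
      split_ifs at e with hh
      · subst hh; omega
      · omega
    · unfold tot
      have : ∀ i ∈ range m, ∑ j ∈ range n, get M i j = (∑ j ∈ range n, get Y i j) +
          if i = i0 then 1 else 0 := fun i hi => hrow i (mem_range.1 hi)
      rw [sum_congr rfl this, sum_add_distrib]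
      simp [hi0]
  | none =>
    right
    refine ⟨rfl, fun i => (s.1.getD i none).isSome, fun j => (s.2.getD j none).isSome, ?_⟩
    obtain ⟨hcC, hcR⟩ := closed_of_fixed hfix
    rw [List.find?_eq_none] at hf
    refine (cut_eq_tot ?_ ?_ ?_ ?_).le
    · intro i hi hS
      have h1 := hinv.slack i hi (by simpa using hS)
      exact le_antisymm (h.row i hi) h1
    · intro j hj hT
      have := hf j (List.mem_range.2 hj)
      simp only [hT, Bool.true_and, decide_eq_true_eq, not_lt] at this
      exact le_antisymm (h.col j hj) this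
    · intro i hi j hj hS hT
      have h1 := hcC i hi j hj
      unfold condC at h1
      change (s.1.getD i none).isSome = true at hS
      change (s.2.getD j none).isSome = false at hT
      simp only [hS, hT, Bool.true_and, Bool.not_false, decide_eq_false_iff_not, not_lt] at h1
      have h1' := isSome_getD [] hS
      obtain ⟨i0, _, _, _, _, _, hag⟩ := hinv.rows i hi _ h1'
      have := hag i hi j hj (Or.inr (by simpa using hT))
      rw [this] at h1
      exact le_antisymm (h.le i hi j hj) h1
    · intro i hi j hj hS hT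
      have h1 := hcR i hi j hj
      unfold condR at h1
      change (s.1.getD i none).isSome = false at hS
      change (s.2.getD j none).isSome = true at hT
      simp only [hS, hT, Bool.true_and, Bool.not_false, decide_eq_false_iff_not, not_lt,
        Nat.le_zero] at h1
      have h1' := isSome_getD [] hT
      obtain ⟨i0, _, _, _, _, _, hag⟩ := hinv.cols j hj _ h1'
      have := hag i hi j hj (Or.inl (by simpa using hS))
      rw [this] at h1
      exact h1

end Crest.Agent.R309.Feas
end

-- ▼ part R309/FeasFlow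
section

/-!
# Row 309: feasibility of bounded tables: maximum flow by capacity scaling

`maxflow`, `flow`, `feasCore`, `feasCore_spec`.
-/

set_option autoImplicit false

namespace Crest.Agent.R309.Feas

open Finset Crest.Agent.Lib.PT

/-- number of augmentations per scale -/
def steps (m n : ℕ) : ℕ := m * (n + 1) + n

/-- repeated augmentation -/
def maxflow (m n : ℕ) (b0 : Mat) (r c : List ℕ) (b Y : Mat) : Mat :=
  (augment m n b0 r c b)^[steps m n] Y

theorem augment_iter {m n : ℕ} {r c : List ℕ} {b0 b Y : Mat}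
    (hb : ∀ i < m, ∀ j < n, get b i j ≤ get b0 i j) (h : SubL m n r c b Y) (k : ℕ) :
    SubL m n r c b ((augment m n b0 r c b)^[k] Y) ∧
      (tot m n (get Y) + k ≤ tot m n (get ((augment m n b0 r c b)^[k] Y)) ∨
        HasCut m n r c b ((augment m n b0 r c b)^[k] Y)) := by
  induction k with
  | zero => exact ⟨h, Or.inl (by simp)⟩
  | succ k ih =>
    rw [Function.iterate_succ_apply']
    obtain ⟨h1, h2⟩ := ih
    rcases augment_spec (b0 := b0) hb h1 with ⟨h3, h4⟩ | ⟨h3, h4⟩
    · refine ⟨h3, ?_⟩
      rcases h2 with h2 | h2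
      · left; omega
      · exfalso
        have := h2.max h3
        omega
    · rw [h3]
      exact ⟨h1, Or.inr h4⟩

theorem maxflow_spec {m n : ℕ} {r c : List ℕ} {b0 b Y : Mat}
    (hb : ∀ i < m, ∀ j < n, get b i j ≤ get b0 i j) (h : SubL m n r c b Y) {S T : ℕ → Bool}
    (hcut : cut m n (fun i => r.getD i 0) (fun j => c.getD j 0) (get b) S T ≤
      tot m n (get Y) + steps m n) :
    SubL m n r c b (maxflow m n b0 r c b Y) ∧ HasCut m n r c b (maxflow m n b0 r c b Y) := by
  obtain ⟨h1, h2⟩ := augment_iter (b0 := b0) hb h (steps m n)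
  refine ⟨h1, ?_⟩
  rcases h2 with h2 | h2
  · exact ⟨S, T, by unfold maxflow; omega⟩
  · exact h2

/-- scaled list -/
def scL (k : ℕ) (l : List ℕ) : List ℕ := l.map fun x => x / 2 ^ k

/-- scaled matrix -/
def scM (k : ℕ) (M : Mat) : Mat := M.map fun l => l.map fun x => x / 2 ^ k

theorem getD_map' {α β : Type} (f : α → β) (l : List α) (i : ℕ) (d : α) :
    (l.map f).getD i (f d) = f (l.getD i d) := by
  simp [List.getD_eq_getElem?_getD]

theorem getD_scL (k : ℕ) (l : List ℕ) (i : ℕ) : (scL k l).getD i 0 = l.getD i 0 / 2 ^ k := by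
  have := getD_map' (fun x => x / 2 ^ k) l i 0
  simpa [scL] using this

theorem get_scM (k : ℕ) (M : Mat) (i j : ℕ) : get (scM k M) i j = get M i j / 2 ^ k := by
  unfold get scM
  have h1 := getD_map' (fun l : List ℕ => l.map fun x => x / 2 ^ k) M i []
  simp only [List.map_nil] at h1
  rw [h1]
  have h2 := getD_map' (fun x => x / 2 ^ k) (M.getD i []) j 0
  simpa using h2

/-- doubled matrix, clipped -/
def dbl (m n : ℕ) (b0 Y : Mat) : Mat := tab m n fun i j => min (2 * get Y i j) (get b0 i j)

/-- one scale: the first component is the current scale -/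
def fstep (m n : ℕ) (b0 : Mat) (r c : List ℕ) (b : Mat) (s : Un × Mat) : Un × Mat :=
  (⟨s.1.val - 1⟩, maxflow m n b0 (scL (s.1.val - 1) r) (scL (s.1.val - 1) c)
    (scM (s.1.val - 1) b) (dbl m n b0 s.2))

/-- zero matrix -/
def zeroM (m n : ℕ) : Mat := tab m n fun _ _ => 0

/-- number of scales -/
def scales (r : List ℕ) : ℕ := sz r

/-- the maximum flow -/
def flow (m n : ℕ) (r c : List ℕ) (b : Mat) : Mat :=
  ((fstep m n b r c b)^[scales r] (⟨scales r⟩, zeroM m n)).2

theorem getD_lt_two_pow (r : List ℕ) (i : ℕ) : r.getD i 0 < 2 ^ scales r := by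
  unfold scales
  by_cases h : i < r.length
  · have hm : r.getD i 0 ∈ r := by
      rw [List.getD_eq_getElem?_getD, List.getElem?_eq_getElem h]
      simp
    have h1 := sz_mem_le hm
    rw [sz_nat] at h1
    calc r.getD i 0 < 2 ^ (r.getD i 0).size := Nat.lt_size_self _
      _ ≤ _ := Nat.pow_le_pow_right (by norm_num) h1
  · rw [List.getD_eq_getElem?_getD, List.getElem?_eq_none (by omega)]
    simp

theorem div_succ_le (x k : ℕ) : 2 * (x / 2 ^ (k + 1)) ≤ x / 2 ^ k ∧
    x / 2 ^ k ≤ 2 * (x / 2 ^ (k + 1)) + 1 := by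
  rw [pow_succ, ← Nat.div_div_eq_div_mul]
  omega

theorem flow_iter {m n : ℕ} {r c : List ℕ} {b : Mat} (k : ℕ) (hk : k ≤ scales r) :
    ((fstep m n b r c b)^[k] (⟨scales r⟩, zeroM m n)).1.val = scales r - k ∧
    SubL m n (scL (scales r - k) r) (scL (scales r - k) c) (scM (scales r - k) b)
      ((fstep m n b r c b)^[k] (⟨scales r⟩, zeroM m n)).2 ∧
    HasCut m n (scL (scales r - k) r) (scL (scales r - k) c) (scM (scales r - k) b)
      ((fstep m n b r c b)^[k] (⟨scales r⟩, zeroM m n)).2 := by
  induction k with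
  | zero =>
    have hz : ∀ i < m, ∀ j < n, get (zeroM m n) i j = 0 := fun i hi j hj => by
      unfold zeroM
      rw [get_tab hi hj]
    refine ⟨rfl, ⟨?_, ?_, ?_⟩, fun _ => false, fun _ => false, ?_⟩
    · intro i hi j hj
      simp only [Function.iterate_zero, id_eq]
      rw [hz i hi j hj]
      exact Nat.zero_le _
    · intro i hi
      simp only [Function.iterate_zero, id_eq]
      rw [sum_eq_zero fun j hj => hz i hi j (mem_range.1 hj)]
      exact Nat.zero_le _
    · intro j hj
      simp only [Function.iterate_zero, id_eq]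
      rw [sum_eq_zero fun i hi => hz i (mem_range.1 hi) j hj]
      exact Nat.zero_le _
    · unfold cut
      simp only [Bool.false_eq_true, if_false, sum_const_zero, add_zero, getD_scL, Nat.sub_zero]
      rw [sum_eq_zero]
      · exact Nat.zero_le _
      · intro i _
        exact Nat.div_eq_of_lt (getD_lt_two_pow r i)
  | succ k ih =>
    obtain ⟨h1, h2, S, T, h3⟩ := ih (by omega)
    rw [Function.iterate_succ_apply']
    set s := (fstep m n b r c b)^[k] (⟨scales r⟩, zeroM m n) with hs
    have hk' : scales r - k = (scales r - (k + 1)) + 1 := by omega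
    set t := scales r - (k + 1) with ht
    have hs1 : s.1.val - 1 = t := by omega
    have hbt : ∀ i < m, ∀ j < n, get (scM t b) i j ≤ get b i j := fun i _ j _ => by
      rw [get_scM]
      exact Nat.div_le_self _ _
    have hdb : ∀ i < m, ∀ j < n, get (dbl m n b s.2) i j = 2 * get s.2 i j := by
      intro i hi j hj
      unfold dbl
      rw [get_tab hi hj]
      refine min_eq_left ?_
      have e1 := h2.le i hi j hj
      rw [get_scM, hk'] at e1
      have e2 := (div_succ_le (get b i j) t).1
      have e3 := Nat.div_le_self (get b i j) (2 ^ t)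
      omega
    have hsub : SubL m n (scL t r) (scL t c) (scM t b) (dbl m n b s.2) := by
      refine ⟨?_, ?_, ?_⟩
      · intro i hi j hj
        rw [hdb i hi j hj, get_scM]
        have e1 := h2.le i hi j hj
        rw [get_scM, hk'] at e1
        have e2 := (div_succ_le (get b i j) t).1
        omega
      · intro i hi
        rw [sum_congr rfl fun j hj => hdb i hi j (mem_range.1 hj), ← mul_sum, getD_scL]
        have e1 : ∑ j ∈ range n, get s.2 i j ≤ (scL (scales r - k) r).getD i 0 := h2.row i hi
        rw [getD_scL, hk'] at e1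
        have e2 := (div_succ_le (r.getD i 0) t).1
        omega
      · intro j hj
        rw [sum_congr rfl fun i hi => hdb i (mem_range.1 hi) j hj, ← mul_sum, getD_scL]
        have e1 : ∑ i ∈ range m, get s.2 i j ≤ (scL (scales r - k) c).getD j 0 := h2.col j hj
        rw [getD_scL, hk'] at e1
        have e2 := (div_succ_le (c.getD j 0) t).1
        omega
    have htot : tot m n (get (dbl m n b s.2)) = 2 * tot m n (get s.2) := by
      rw [← tot_double]
      exact tot_congr hdb
    have hcut : cut m n (fun i => (scL t r).getD i 0) (fun j => (scL t c).getD j 0)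
        (get (scM t b)) S T ≤ tot m n (get (dbl m n b s.2)) + steps m n := by
      rw [htot]
      have e := cut_scale (m := m) (n := n) (r := fun i => (scL (scales r - k) r).getD i 0)
        (c := fun j => (scL (scales r - k) c).getD j 0) (b := get (scM (scales r - k) b))
        (r' := fun i => (scL t r).getD i 0) (c' := fun j => (scL t c).getD j 0)
        (b' := get (scM t b)) S T
        (fun i _ => by
          simp only [getD_scL]
          rw [hk']
          exact (div_succ_le _ t).2)
        (fun j _ => by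
          simp only [getD_scL]
          rw [hk']
          exact (div_succ_le _ t).2)
        (fun i _ j _ => by
          rw [get_scM, get_scM, hk']
          exact (div_succ_le _ t).2)
      unfold steps
      omega
    have hm := maxflow_spec (b0 := b) hbt hsub hcut
    unfold fstep
    rw [hs1]
    exact ⟨rfl, hm⟩

theorem flow_spec {m n : ℕ} {r c : List ℕ} {b : Mat} :
    SubL m n r c b (flow m n r c b) ∧ HasCut m n r c b (flow m n r c b) := by
  obtain ⟨_, h1, h2⟩ := flow_iter (m := m) (n := n) (r := r) (c := c) (b := b) (scales r) le_rfl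
  have e1 : ∀ l : List ℕ, scL 0 l = l := fun l => by unfold scL; simp
  have e2 : scM 0 b = b := by unfold scM; simp
  rw [Nat.sub_self, e1, e1, e2] at h1 h2
  exact ⟨h1, h2⟩

/-- total of the first `m` entries -/
def sumTo (m : ℕ) (r : List ℕ) : ℕ := ∑ i ∈ range m, r.getD i 0

/-- total of a matrix given by a list -/
def totL (m n : ℕ) (Y : Mat) : ℕ := ∑ i ∈ range m, ∑ j ∈ range n, get Y i j

/-- the feasibility procedure -/
def feasCore (m n : ℕ) (r c : List ℕ) (b : Mat) : Option Mat :=
  if sumTo m r = sumTo n c ∧ totL m n (flow m n r c b) = sumTo m r then some (flow m n r c b)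
  else none

/-- exact tables -/
structure Tab (m n : ℕ) (r c : ℕ → ℕ) (b Y : ℕ → ℕ → ℕ) : Prop where
  le : ∀ i < m, ∀ j < n, Y i j ≤ b i j
  row : ∀ i < m, ∑ j ∈ range n, Y i j = r i
  col : ∀ j < n, ∑ i ∈ range m, Y i j = c j

theorem Tab.sub {m n : ℕ} {r c : ℕ → ℕ} {b Y : ℕ → ℕ → ℕ} (h : Tab m n r c b Y) :
    Sub m n r c b Y := ⟨h.le, fun i hi => (h.row i hi).le, fun j hj => (h.col j hj).le⟩

theorem Tab.tot {m n : ℕ} {r c : ℕ → ℕ} {b Y : ℕ → ℕ → ℕ} (h : Tab m n r c b Y) :
    Feas.tot m n Y = ∑ i ∈ range m, r i ∧ ∑ i ∈ range m, r i = ∑ j ∈ range n, c j := by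
  unfold Feas.tot
  have h1 : ∑ i ∈ range m, ∑ j ∈ range n, Y i j = ∑ i ∈ range m, r i :=
    sum_congr rfl fun i hi => h.row i (mem_range.1 hi)
  refine ⟨h1, ?_⟩
  rw [← h1, sum_comm]
  exact sum_congr rfl fun j hj => h.col j (mem_range.1 hj)

theorem feasCore_some {m n : ℕ} {r c : List ℕ} {b X : Mat} (h : feasCore m n r c b = some X) :
    Tab m n (fun i => r.getD i 0) (fun j => c.getD j 0) (get b) (get X) := by
  unfold feasCore at h
  split_ifs at h with hc
  obtain rfl := Option.some.inj h
  obtain ⟨h1, h2⟩ := hc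
  obtain ⟨hs, _⟩ := flow_spec (m := m) (n := n) (r := r) (c := c) (b := b)
  set Y := flow m n r c b with hY
  refine ⟨hs.le, ?_, ?_⟩
  · have e : ∑ i ∈ range m, ∑ j ∈ range n, get Y i j = ∑ i ∈ range m, r.getD i 0 := h2
    have := (sum_eq_sum_iff_of_le (fun i hi => hs.row i (mem_range.1 hi))).1 e
    intro i hi
    exact this i (mem_range.2 hi)
  · have e : ∑ j ∈ range n, ∑ i ∈ range m, get Y i j = ∑ j ∈ range n, c.getD j 0 := by
      rw [sum_comm]
      exact h2.trans h1
    have := (sum_eq_sum_iff_of_le (fun j hj => hs.col j (mem_range.1 hj))).1 e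
    intro j hj
    exact this j (mem_range.2 hj)

theorem feasCore_none {m n : ℕ} {r c : List ℕ} {b : Mat} (h : feasCore m n r c b = none)
    (Y : ℕ → ℕ → ℕ) : ¬ Tab m n (fun i => r.getD i 0) (fun j => c.getD j 0) (get b) Y := by
  intro hY
  unfold feasCore at h
  split_ifs at h with hc
  obtain ⟨e1, e2⟩ := hY.tot
  obtain ⟨hs, hcut⟩ := flow_spec (m := m) (n := n) (r := r) (c := c) (b := b)
  refine hc ⟨e2, ?_⟩
  have h1 := hcut.max hY.sub
  have h2 : tot m n (get (flow m n r c b)) ≤ ∑ i ∈ range m, r.getD i 0 :=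
    sum_le_sum fun i hi => hs.row i (mem_range.1 hi)
  unfold totL sumTo
  unfold Feas.tot at h1 h2 e1
  omega

end Crest.Agent.R309.Feas
end

-- ▼ part R309/FeasPT
section

/-!
# Row 309: feasibility of bounded tables is in polynomial time
-/

set_option autoImplicit false

namespace Crest.Agent.R309.Feas

open Finset Crest.Agent.Lib.PT

section pt

variable {γ α : Type} [PTCode γ] [PTCode α]

theorem ptf_getDB {n : γ → ℕ} {l : γ → List α} {d : γ → α} (hn : PTF n) (hl : PTF l)
    (hd : PTF d) : PTF (fun c => (l c).getD (n c) (d c)) := by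
  have h := PTF.optionGetD (s := fun c => ((l c).drop (n c)).head?)
    (PTF.head? (R287.ptf_dropB hn hl)) hd
  refine PTF.of_eq h (fun c => ?_)
  rw [List.getD_eq_getElem?_getD, List.head?_drop]

@[fun_prop]
theorem ptf_get {M : γ → Mat} {i j : γ → ℕ} (hM : PTF M) (hi : PTF i) (hj : PTF j) :
    PTF (fun c => get (M c) (i c) (j c)) := by
  unfold get
  exact ptf_getDB hj (ptf_getDB hi hM (PTF.const _)) (PTF.const _)

theorem ptf_tab {m n : γ → ℕ} {f : γ → ℕ → ℕ → ℕ} (hm : PTU m) (hn : PTU n)
    (hf : PTF (fun q : (γ × ℕ) × ℕ => f q.1.1 q.1.2 q.2)) :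
    PTF (fun c => tab (m c) (n c) (f c)) := by
  unfold tab
  refine PTF.tabulate hm (f := fun c i => (List.range (n c)).map fun j => f c i j) ?_
  refine PTF.tabulate (γ := γ × ℕ) (n := fun p => n p.1) (PTU.comp hn PTF.fst)
    (f := fun p j => f p.1 p.2 j) ?_
  exact hf

theorem ptf_rowS {n : γ → ℕ} {M : γ → Mat} {i : γ → ℕ} (hn : PTU n) (hM : PTF M) (hi : PTF i) :
    PTF (fun c => rowS (n c) (M c) (i c)) := by
  unfold rowS
  refine PTF.natSumRange hn (f := fun c j => get (M c) (i c) j) ?_
  exact ptf_get (hM.comp PTF.fst) (hi.comp PTF.fst) PTF.snd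

theorem ptf_colS {m : γ → ℕ} {M : γ → Mat} {j : γ → ℕ} (hm : PTU m) (hM : PTF M) (hj : PTF j) :
    PTF (fun c => colS (m c) (M c) (j c)) := by
  unfold colS
  refine PTF.natSumRange hm (f := fun c i => get (M c) i (j c)) ?_
  exact ptf_get (hM.comp PTF.fst) PTF.snd (hj.comp PTF.fst)

theorem ptf_pairs {m n : γ → ℕ} (hm : PTU m) (hn : PTU n) : PTF (fun c => pairs (m c) (n c)) := by
  unfold pairs
  refine PTF.flatMap (PTF.range hm) (f := fun c i => (List.range (n c)).map fun j => (i, j)) ?_
  refine PTF.tabulate (γ := γ × ℕ) (n := fun p => n p.1) (PTU.comp hn PTF.fst)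
    (f := fun p j => (p.2, j)) ?_
  pt_prop

theorem ptf_inc {m n : γ → ℕ} {b0 M : γ → Mat} {i j : γ → ℕ} (hm : PTU m) (hn : PTU n)
    (hb : PTF b0) (hM : PTF M) (hi : PTF i) (hj : PTF j) :
    PTF (fun c => inc (m c) (n c) (b0 c) (M c) (i c) (j c)) := by
  unfold inc
  refine ptf_tab hm hn (f := fun c i' j' => min (get (M c) i' j' +
    if i' = i c ∧ j' = j c then 1 else 0) (get (b0 c) i' j')) ?_
  have h1 : PTF (fun q : (γ × ℕ) × ℕ => q.1.1) := by fun_prop
  have h2 : PTF (fun q : (γ × ℕ) × ℕ => q.1.2) := by fun_prop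
  have h3 : PTF (fun q : (γ × ℕ) × ℕ => q.2) := by fun_prop
  refine PTF.natMin (PTF.natAdd (ptf_get (hM.comp h1) h2 h3) (PTF.ite
    (PTPred.and (PTPred.natEq h2 (hi.comp h1)) (PTPred.natEq h3 (hj.comp h1))) (PTF.const _)
    (PTF.const _))) (ptf_get (hb.comp h1) h2 h3)

theorem ptf_dec {m n : γ → ℕ} {b0 M : γ → Mat} {i j : γ → ℕ} (hm : PTU m) (hn : PTU n)
    (hb : PTF b0) (hM : PTF M) (hi : PTF i) (hj : PTF j) :
    PTF (fun c => dec (m c) (n c) (b0 c) (M c) (i c) (j c)) := by
  unfold dec
  refine ptf_tab hm hn (f := fun c i' j' => min (get (M c) i' j' -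
    if i' = i c ∧ j' = j c then 1 else 0) (get (b0 c) i' j')) ?_
  have h1 : PTF (fun q : (γ × ℕ) × ℕ => q.1.1) := by fun_prop
  have h2 : PTF (fun q : (γ × ℕ) × ℕ => q.1.2) := by fun_prop
  have h3 : PTF (fun q : (γ × ℕ) × ℕ => q.2) := by fun_prop
  refine PTF.natMin (PTF.natSub (ptf_get (hM.comp h1) h2 h3) (PTF.ite
    (PTPred.and (PTPred.natEq h2 (hi.comp h1)) (PTPred.natEq h3 (hj.comp h1))) (PTF.const _)
    (PTF.const _))) (ptf_get (hb.comp h1) h2 h3)

theorem ptf_put {m : γ → ℕ} {l : γ → List (Option α)} {i : γ → ℕ} {v : γ → α} (hm : PTU m)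
    (hl : PTF l) (hi : PTF i) (hv : PTF v) : PTF (fun c => put (m c) (l c) (i c) (v c)) := by
  unfold put
  refine PTF.tabulate hm (f := fun c k => if k = i c then some (v c) else (l c).getD k none) ?_
  refine PTF.ite (PTPred.natEq PTF.snd (hi.comp PTF.fst)) (PTF.optSome (hv.comp PTF.fst))
    (ptf_getDB PTF.snd (hl.comp PTF.fst) (PTF.const _))

theorem ptf_dbl {m n : γ → ℕ} {b0 M : γ → Mat} (hm : PTU m) (hn : PTU n)
    (hb : PTF b0) (hM : PTF M) : PTF (fun c => dbl (m c) (n c) (b0 c) (M c)) := by
  unfold dbl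
  refine ptf_tab hm hn (f := fun c i' j' => min (2 * get (M c) i' j') (get (b0 c) i' j')) ?_
  have h1 : PTF (fun q : (γ × ℕ) × ℕ => q.1.1) := by fun_prop
  have h2 : PTF (fun q : (γ × ℕ) × ℕ => q.1.2) := by fun_prop
  have h3 : PTF (fun q : (γ × ℕ) × ℕ => q.2) := by fun_prop
  exact PTF.natMin (PTF.natMul (PTF.const _) (ptf_get (hM.comp h1) h2 h3))
    (ptf_get (hb.comp h1) h2 h3)

/-- iteration with an invariant -/
theorem ptf_iterate_inv {n : γ → ℕ} {f : γ → α → α} {a : γ → α} (hn : PTU n) (hf : PTF₂ f)
    (ha : PTF a) (P : γ → α → Prop) {B : γ → ℕ} (hB : PB B) (h0 : ∀ c, P c (a c))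
    (h1 : ∀ c x, P c x → P c (f c x)) (h2 : ∀ c x, P c x → sz x ≤ B c) :
    PTF (fun c => (f c)^[n c] (a c)) := by
  have key : ∀ c i, P c ((f c)^[i] (a c)) := by
    intro c i
    induction i with
    | zero => exact h0 c
    | succ i ih => rw [Function.iterate_succ_apply']; exact h1 c _ ih
  exact PTF.iterate' hn hf ha hB (fun c i _ => h2 c _ (key c i))

/-- size bound for tabulated matrices -/
theorem sz_tab_le {m n K : ℕ} {f : ℕ → ℕ → ℕ} (h : ∀ i < m, ∀ j < n, sz (f i j) ≤ K) :
    sz (tab m n f) ≤ m * (2 * (n * (2 * K + 1)) + 1) := by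
  have h1 : ∀ l ∈ tab m n f, sz l ≤ n * (2 * K + 1) := by
    intro l hl
    unfold tab at hl
    obtain ⟨i, hi, rfl⟩ := List.mem_map.1 hl
    have := sz_list_le (l := (List.range n).map fun j => f i j) (m := K) (by
      intro a ha
      obtain ⟨j, hj, rfl⟩ := List.mem_map.1 ha
      exact h i (List.mem_range.1 hi) j (List.mem_range.1 hj))
    simpa using this
  have := sz_list_le h1
  simpa [tab] using this

theorem sz_nat_mono {a b : ℕ} (h : a ≤ b) : sz a ≤ sz b := by
  rw [sz_nat, sz_nat]
  exact Nat.size_le_size h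

theorem sz_get_le (M : Mat) (i j : ℕ) : sz (get M i j) ≤ sz M := by
  have key : ∀ {β : Type} [PTCode β] (l : List β) (i : ℕ) (d : β), sz d = 0 →
      sz (l.getD i d) ≤ sz l := by
    intro β _ l i d hd
    by_cases h : i < l.length
    · rw [List.getD_eq_getElem?_getD, List.getElem?_eq_getElem h]
      exact sz_mem_le (List.getElem_mem h)
    · rw [List.getD_eq_getElem?_getD, List.getElem?_eq_none (by omega)]
      simp [hd]
  unfold get
  exact (key _ j 0 (by simp [sz_nat])).trans (key M i [] rfl)

/-- size bound for clipped matrices -/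
def BM (m n K : ℕ) : ℕ := m * (2 * (n * (2 * K + 1)) + 1)

theorem sz_inc_le (m n : ℕ) (b0 M : Mat) (i j : ℕ) : sz (inc m n b0 M i j) ≤ BM m n (sz b0) := by
  unfold inc BM
  exact sz_tab_le fun i' _ j' _ => (sz_nat_mono (min_le_right _ _)).trans (sz_get_le b0 i' j')

theorem sz_dec_le (m n : ℕ) (b0 M : Mat) (i j : ℕ) : sz (dec m n b0 M i j) ≤ BM m n (sz b0) := by
  unfold dec BM
  exact sz_tab_le fun i' _ j' _ => (sz_nat_mono (min_le_right _ _)).trans (sz_get_le b0 i' j')

theorem sz_dbl_le (m n : ℕ) (b0 M : Mat) : sz (dbl m n b0 M) ≤ BM m n (sz b0) := by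
  unfold dbl BM
  exact sz_tab_le fun i' _ j' _ => (sz_nat_mono (min_le_right _ _)).trans (sz_get_le b0 i' j')

theorem sz_zeroM_le (m n K : ℕ) : sz (zeroM m n) ≤ BM m n K := by
  unfold zeroM BM
  exact sz_tab_le fun i' _ j' _ => by simp [sz_nat]

/-- size predicate for the search state -/
def SGood (m n K : ℕ) (s : St) : Prop :=
  s.1.length ≤ m ∧ s.2.length ≤ n ∧ (∀ x ∈ s.1, sz x ≤ K + 1) ∧ (∀ x ∈ s.2, sz x ≤ K + 1)

theorem SGood.put {m K : ℕ} {l : List (Option Mat)} {i : ℕ} {v : Mat} (hl : ∀ x ∈ l, sz x ≤ K + 1)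
    (hv : sz v ≤ K) : (put m l i v).length ≤ m ∧ ∀ x ∈ Feas.put m l i v, sz x ≤ K + 1 := by
  unfold Feas.put
  refine ⟨by simp, fun x hx => ?_⟩
  obtain ⟨k, _, rfl⟩ := List.mem_map.1 hx
  split_ifs
  · simp only [sz_some]; omega
  · by_cases h : k < l.length
    · rw [List.getD_eq_getElem?_getD, List.getElem?_eq_getElem h]
      exact hl _ (List.getElem_mem h)
    · rw [List.getD_eq_getElem?_getD, List.getElem?_eq_none (by omega)]
      simp

theorem sgood_sstep {m n K : ℕ} {b0 b : Mat} {s : St} (hK : BM m n (sz b0) ≤ K)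
    (h : SGood m n K s) : SGood m n K (sstep m n b0 b s) := by
  unfold sstep
  obtain ⟨h1, h2, h3, h4⟩ := h
  cases (pairs m n).find? (condC b s) with
  | some p =>
    have := SGood.put (m := n) (i := p.2) h4 ((sz_inc_le m n b0 ((s.1.getD p.1 none).getD []) p.1
      p.2).trans hK)
    exact ⟨h1, this.1, h3, this.2⟩
  | none =>
    simp only
    cases (pairs m n).find? (condR s) with
    | some p =>
      have := SGood.put (m := m) (i := p.1) h3 ((sz_dec_le m n b0 ((s.2.getD p.2 none).getD []) p.1
        p.2).trans hK)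
      exact ⟨this.1, h2, this.2, h4⟩
    | none => exact ⟨h1, h2, h3, h4⟩

theorem sgood_sinit {m n K : ℕ} {r : List ℕ} {Y : Mat} (hY : sz Y ≤ K) :
    SGood m n K (sinit m n r Y) := by
  unfold sinit
  refine ⟨by simp, by simp, fun x hx => ?_, fun x hx => ?_⟩
  · obtain ⟨k, _, rfl⟩ := List.mem_map.1 hx
    split_ifs
    · simp only [sz_some]; omega
    · simp
  · obtain ⟨k, _, rfl⟩ := List.mem_map.1 hx
    simp

theorem SGood.sz {m n K : ℕ} {s : St} (h : SGood m n K s) :
    Lib.PT.sz s ≤ 2 * (m * (2 * (K + 1) + 1)) + 1 + n * (2 * (K + 1) + 1) := by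
  obtain ⟨h1, h2, h3, h4⟩ := h
  rw [sz_prod]
  have e1 := sz_list_le h3
  have e2 := sz_list_le h4
  have e3 := Nat.mul_le_mul_right (2 * (K + 1) + 1) h1
  have e4 := Nat.mul_le_mul_right (2 * (K + 1) + 1) h2
  omega

theorem ptf_condC {b : γ → Mat} {s : γ → St} {p : γ → ℕ × ℕ} (hb : PTF b) (hs : PTF s)
    (hp : PTF p) : PTF (fun c => condC (b c) (s c) (p c)) := by
  unfold condC
  have h1 : PTF (fun c => (p c).1) := PTF.comp (g := fun q : ℕ × ℕ => q.1) (by fun_prop) hp
  have h2 : PTF (fun c => (p c).2) := PTF.comp (g := fun q : ℕ × ℕ => q.2) (by fun_prop) hp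
  have h3 : PTF (fun c => (s c).1) := PTF.comp (g := fun q : St => q.1) (by fun_prop) hs
  have h4 : PTF (fun c => (s c).2) := PTF.comp (g := fun q : St => q.2) (by fun_prop) hs
  have h5 := ptf_getDB h1 h3 (PTF.const none)
  have h6 := ptf_getDB h2 h4 (PTF.const none)
  exact PTF.and (PTF.isSome h5) (PTF.and (PTF.not (PTF.isSome h6)) (PTPred.toPTF
    (PTPred.natLt (ptf_get (PTF.optionGetD h5 (PTF.const [])) h1 h2) (ptf_get hb h1 h2))))

theorem ptf_condR {s : γ → St} {p : γ → ℕ × ℕ} (hs : PTF s)
    (hp : PTF p) : PTF (fun c => condR (s c) (p c)) := by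
  unfold condR
  have h1 : PTF (fun c => (p c).1) := PTF.comp (g := fun q : ℕ × ℕ => q.1) (by fun_prop) hp
  have h2 : PTF (fun c => (p c).2) := PTF.comp (g := fun q : ℕ × ℕ => q.2) (by fun_prop) hp
  have h3 : PTF (fun c => (s c).1) := PTF.comp (g := fun q : St => q.1) (by fun_prop) hs
  have h4 : PTF (fun c => (s c).2) := PTF.comp (g := fun q : St => q.2) (by fun_prop) hs
  have h5 := ptf_getDB h1 h3 (PTF.const none)
  have h6 := ptf_getDB h2 h4 (PTF.const none)
  exact PTF.and (PTF.isSome h6) (PTF.and (PTF.not (PTF.isSome h5)) (PTPred.toPTF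
    (PTPred.natLt (PTF.const 0) (ptf_get (PTF.optionGetD h6 (PTF.const [])) h1 h2))))

theorem ptf_sstep {m n : γ → ℕ} {b0 b : γ → Mat} {s : γ → St} (hm : PTU m) (hn : PTU n)
    (hb0 : PTF b0) (hb : PTF b) (hs : PTF s) :
    PTF (fun c => sstep (m c) (n c) (b0 c) (b c) (s c)) := by
  have h3 : PTF (fun c => (s c).1) := PTF.comp (g := fun q : St => q.1) (by fun_prop) hs
  have h4 : PTF (fun c => (s c).2) := PTF.comp (g := fun q : St => q.2) (by fun_prop) hs
  have e1 : PTF (fun q : γ × (ℕ × ℕ) => q.2.1) := by fun_prop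
  have e2 : PTF (fun q : γ × (ℕ × ℕ) => q.2.2) := by fun_prop
  have e0 : PTF (fun q : γ × (ℕ × ℕ) => q.1) := by fun_prop
  have hfC : PTF (fun c => (pairs (m c) (n c)).find? (condC (b c) (s c))) :=
    PTF.find? (ptf_pairs hm hn) (ptf_condC (hb.comp PTF.fst) (hs.comp PTF.fst) PTF.snd)
  have hfR : PTF (fun c => (pairs (m c) (n c)).find? (condR (s c))) :=
    PTF.find? (ptf_pairs hm hn) (ptf_condR (hs.comp PTF.fst) PTF.snd)
  have hR : PTF (fun c => (((pairs (m c) (n c)).find? (condR (s c))).map (fun p =>
      ((put (m c) (s c).1 p.1 (dec (m c) (n c) (b0 c) (((s c).2.getD p.2 none).getD []) p.1 p.2),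
        (s c).2) : St))).getD (s c)) := by
    refine PTF.optionGetD (PTF.optionMap (g := fun c p => ((put (m c) (s c).1 p.1 (dec (m c) (n c)
      (b0 c) (((s c).2.getD p.2 none).getD []) p.1 p.2), (s c).2) : St)) hfR ?_) hs
    refine PTF.prodMk ?_ (h4.comp e0)
    exact ptf_put (PTU.comp hm e0) (h3.comp e0) e1 (ptf_dec (PTU.comp hm e0) (PTU.comp hn e0)
      (hb0.comp e0) (PTF.optionGetD (ptf_getDB e2 (h4.comp e0) (PTF.const none)) (PTF.const []))
      e1 e2)
  have hC : PTF (fun c => (((pairs (m c) (n c)).find? (condC (b c) (s c))).map (fun p =>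
      (((s c).1, put (n c) (s c).2 p.2 (inc (m c) (n c) (b0 c)
        (((s c).1.getD p.1 none).getD []) p.1 p.2)) : St))).getD
      ((((pairs (m c) (n c)).find? (condR (s c))).map (fun p =>
      ((put (m c) (s c).1 p.1 (dec (m c) (n c) (b0 c) (((s c).2.getD p.2 none).getD []) p.1 p.2),
        (s c).2) : St))).getD (s c))) := by
    refine PTF.optionGetD (PTF.optionMap (g := fun c p => (((s c).1, put (n c) (s c).2 p.2
      (inc (m c) (n c) (b0 c) (((s c).1.getD p.1 none).getD []) p.1 p.2)) : St)) hfC ?_) hR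
    refine PTF.prodMk (h3.comp e0) ?_
    exact ptf_put (PTU.comp hn e0) (h4.comp e0) e2 (ptf_inc (PTU.comp hm e0) (PTU.comp hn e0)
      (hb0.comp e0) (PTF.optionGetD (ptf_getDB e1 (h3.comp e0) (PTF.const none)) (PTF.const []))
      e1 e2)
  refine PTF.of_eq hC (fun c => ?_)
  unfold sstep
  cases (pairs (m c) (n c)).find? (condC (b c) (s c)) with
  | some p => rfl
  | none =>
    simp only [Option.map_none, Option.getD_none]
    cases (pairs (m c) (n c)).find? (condR (s c)) with
    | some p => rfl
    | none => rfl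

theorem ptf_sinit {m n : γ → ℕ} {r : γ → List ℕ} {Y : γ → Mat} (hm : PTU m) (hn : PTU n)
    (hr : PTF r) (hY : PTF Y) : PTF (fun c => sinit (m c) (n c) (r c) (Y c)) := by
  unfold sinit
  refine PTF.prodMk (PTF.tabulate hm (f := fun c i => if rowS (n c) (Y c) i < (r c).getD i 0
    then some (Y c) else none) ?_) (PTF.tabulate hn (f := fun _ _ => (none : Option Mat))
      (PTF.const _))
  exact PTF.ite (PTPred.natLt (ptf_rowS (PTU.comp hn PTF.fst) (hY.comp PTF.fst) PTF.snd)
    (ptf_getDB PTF.snd (hr.comp PTF.fst) (PTF.const 0))) (PTF.optSome (hY.comp PTF.fst))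
    (PTF.const _)

theorem pb_BM {m n K : γ → ℕ} (hm : PB m) (hn : PB n) (hK : PB K) :
    PB (fun c => BM (m c) (n c) (K c)) := by
  unfold BM
  fun_prop

theorem ptf_search {m n : γ → ℕ} {b0 : γ → Mat} {r : γ → List ℕ} {b Y : γ → Mat} (hm : PTU m)
    (hn : PTU n) (hb0 : PTF b0) (hr : PTF r) (hb : PTF b) (hY : PTF Y) :
    PTF (fun c => search (m c) (n c) (b0 c) (r c) (b c) (Y c)) := by
  unfold search
  have hm' := hm.pb
  have hn' := hn.pb
  have hb0' := hb0.sz
  have hY' := hY.sz
  have hBM := pb_BM hm' hn' hb0'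
  refine ptf_iterate_inv (PTU.add hm hn) (f := fun c s => sstep (m c) (n c) (b0 c) (b c) s)
    (ptf_sstep (PTU.comp hm PTF.fst) (PTU.comp hn PTF.fst) (hb0.comp PTF.fst) (hb.comp PTF.fst)
      PTF.snd) (ptf_sinit hm hn hr hY)
    (fun c s => SGood (m c) (n c) (BM (m c) (n c) (sz (b0 c)) + sz (Y c)) s)
    (B := fun c => 2 * ((m c) * (2 * ((BM (m c) (n c) (sz (b0 c)) + sz (Y c)) + 1) + 1)) + 1 +
      (n c) * (2 * ((BM (m c) (n c) (sz (b0 c)) + sz (Y c)) + 1) + 1)) (by fun_prop)
    (fun c => sgood_sinit (by omega)) (fun c s hs => sgood_sstep (by omega) hs)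
    (fun c s hs => hs.sz)

theorem ptf_augment {m n : γ → ℕ} {b0 : γ → Mat} {r c : γ → List ℕ} {b Y : γ → Mat} (hm : PTU m)
    (hn : PTU n) (hb0 : PTF b0) (hr : PTF r) (hc : PTF c) (hb : PTF b) (hY : PTF Y) :
    PTF (fun x => augment (m x) (n x) (b0 x) (r x) (c x) (b x) (Y x)) := by
  have hs := ptf_search hm hn hb0 hr hb hY
  have hs2 : PTF (fun x => (search (m x) (n x) (b0 x) (r x) (b x) (Y x)).2) :=
    PTF.comp (g := fun q : St => q.2) (by fun_prop) hs
  have e0 : PTF (fun q : γ × ℕ => q.1) := by fun_prop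
  have e1 : PTF (fun q : γ × ℕ => q.2) := by fun_prop
  have hf : PTF (fun x => (List.range (n x)).find? (fun j =>
      ((search (m x) (n x) (b0 x) (r x) (b x) (Y x)).2.getD j none).isSome &&
      decide (colS (m x) (Y x) j < (c x).getD j 0))) := by
    refine PTF.find? (PTF.range hn) (p := fun x j =>
      ((search (m x) (n x) (b0 x) (r x) (b x) (Y x)).2.getD j none).isSome &&
      decide (colS (m x) (Y x) j < (c x).getD j 0)) ?_
    refine PTF.and (PTF.isSome (ptf_getDB e1 (hs2.comp e0) (PTF.const none))) (PTPred.toPTF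
      (PTPred.natLt (ptf_colS (PTU.comp hm e0) (hY.comp e0) e1)
        (ptf_getDB e1 (hc.comp e0) (PTF.const 0))))
  have h := PTF.optionGetD (PTF.optionMap (g := fun x j =>
    ((search (m x) (n x) (b0 x) (r x) (b x) (Y x)).2.getD j none).getD []) hf
    (PTF.optionGetD (ptf_getDB e1 (hs2.comp e0) (PTF.const none)) (PTF.const []))) hY
  refine PTF.of_eq h (fun x => ?_)
  unfold augment
  cases (List.range (n x)).find? (fun j =>
      ((search (m x) (n x) (b0 x) (r x) (b x) (Y x)).2.getD j none).isSome &&
      decide (colS (m x) (Y x) j < (c x).getD j 0)) <;> rfl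

theorem sz_search_mem {m n K : ℕ} {b0 : Mat} {r : List ℕ} {b Y : Mat} (hK : BM m n (sz b0) ≤ K)
    (hY : sz Y ≤ K) : SGood m n K (search m n b0 r b Y) := by
  unfold search
  have : ∀ k, SGood m n K ((sstep m n b0 b)^[k] (sinit m n r Y)) := by
    intro k
    induction k with
    | zero => exact sgood_sinit hY
    | succ k ih => rw [Function.iterate_succ_apply']; exact sgood_sstep hK ih
  exact this _

theorem sz_augment {m n K : ℕ} {b0 : Mat} {r c : List ℕ} {b Y : Mat} (hK : BM m n (sz b0) ≤ K)
    (hY : sz Y ≤ K) : sz (augment m n b0 r c b Y) ≤ K := by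
  have h := sz_search_mem (r := r) (b := b) hK hY
  unfold augment
  cases (List.range n).find? (fun j =>
      ((search m n b0 r b Y).2.getD j none).isSome && decide (colS m Y j < c.getD j 0)) with
  | none => exact hY
  | some j =>
    simp only
    by_cases hj : j < (search m n b0 r b Y).2.length
    · rw [List.getD_eq_getElem?_getD, List.getElem?_eq_getElem hj]
      simp only [Option.getD_some]
      have := h.2.2.2 _ (List.getElem_mem hj)
      cases hx : (search m n b0 r b Y).2[j] with
      | none => simp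
      | some M =>
        rw [hx, sz_some] at this
        simp only [Option.getD_some]
        omega
    · rw [List.getD_eq_getElem?_getD, List.getElem?_eq_none (by omega)]
      simp

theorem ptu_steps {m n : γ → ℕ} (hm : PTU m) (hn : PTU n) : PTU (fun x => steps (m x) (n x)) := by
  unfold steps
  exact PTU.add (PTU.mul hm (PTU.add hn (PTU.const 1))) hn

theorem ptf_maxflow {m n : γ → ℕ} {b0 : γ → Mat} {r c : γ → List ℕ} {b Y : γ → Mat} (hm : PTU m)
    (hn : PTU n) (hb0 : PTF b0) (hr : PTF r) (hc : PTF c) (hb : PTF b) (hY : PTF Y) :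
    PTF (fun x => maxflow (m x) (n x) (b0 x) (r x) (c x) (b x) (Y x)) := by
  unfold maxflow
  have hm' := hm.pb
  have hn' := hn.pb
  have hb0' := hb0.sz
  have hY' := hY.sz
  have hBM := pb_BM hm' hn' hb0'
  exact ptf_iterate_inv (ptu_steps hm hn) (f := fun x Z => augment (m x) (n x) (b0 x) (r x) (c x)
      (b x) Z)
    (ptf_augment (PTU.comp hm PTF.fst) (PTU.comp hn PTF.fst) (hb0.comp PTF.fst) (hr.comp PTF.fst)
      (hc.comp PTF.fst) (hb.comp PTF.fst) PTF.snd) hY
    (fun x Z => sz Z ≤ BM (m x) (n x) (sz (b0 x)) + sz (Y x))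
    (B := fun x => BM (m x) (n x) (sz (b0 x)) + sz (Y x)) (by fun_prop)
    (fun x => by omega) (fun x Z hZ => sz_augment (by omega) hZ) (fun x Z hZ => hZ)

theorem sz_maxflow {m n K : ℕ} {b0 : Mat} {r c : List ℕ} {b Y : Mat} (hK : BM m n (sz b0) ≤ K)
    (hY : sz Y ≤ K) : sz (maxflow m n b0 r c b Y) ≤ K := by
  unfold maxflow
  have : ∀ k, sz ((augment m n b0 r c b)^[k] Y) ≤ K := by
    intro k
    induction k with
    | zero => exact hY
    | succ k ih => rw [Function.iterate_succ_apply']; exact sz_augment hK ih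
  exact this _

theorem ptf_scL {k : γ → ℕ} {l : γ → List ℕ} (hk : PTU k) (hl : PTF l) :
    PTF (fun x => scL (k x) (l x)) := by
  unfold scL
  refine PTF.map hl (f := fun x a => a / 2 ^ (k x)) ?_
  exact PTF.natDiv PTF.snd (PTF.natTwoPow (PTU.comp hk PTF.fst))

theorem ptf_scM {k : γ → ℕ} {M : γ → Mat} (hk : PTU k) (hM : PTF M) :
    PTF (fun x => scM (k x) (M x)) := by
  unfold scM
  refine PTF.map hM (f := fun x l => l.map fun a => a / 2 ^ (k x)) ?_
  exact ptf_scL (PTU.comp hk PTF.fst) PTF.snd

theorem ptf_fstep {m n : γ → ℕ} {b0 : γ → Mat} {r c : γ → List ℕ} {b : γ → Mat}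
    {s : γ → Un × Mat} (hm : PTU m) (hn : PTU n) (hb0 : PTF b0) (hr : PTF r) (hc : PTF c)
    (hb : PTF b) (hs : PTF s) :
    PTF (fun x => fstep (m x) (n x) (b0 x) (r x) (c x) (b x) (s x)) := by
  unfold fstep
  have h1 : PTU (fun x => (s x).1.val) :=
    PTU.val (PTF.comp (g := fun q : Un × Mat => q.1) (by fun_prop) hs)
  have h2 : PTU (fun x => (s x).1.val - 1) := PTU.sub h1 (PTU.const 1)
  have h3 : PTF (fun x => (s x).2) := PTF.comp (g := fun q : Un × Mat => q.2) (by fun_prop) hs
  exact PTF.prodMk h2 (ptf_maxflow hm hn hb0 (ptf_scL h2 hr) (ptf_scL h2 hc) (ptf_scM h2 hb)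
    (ptf_dbl hm hn hb0 h3))

theorem ptf_flow {m n : γ → ℕ} {r c : γ → List ℕ} {b : γ → Mat} (hm : PTU m) (hn : PTU n)
    (hr : PTF r) (hc : PTF c) (hb : PTF b) :
    PTF (fun x => flow (m x) (n x) (r x) (c x) (b x)) := by
  unfold flow
  have hm' := hm.pb
  have hn' := hn.pb
  have hb' := hb.sz
  have hr' := hr.sz
  have hBM := pb_BM hm' hn' hb'
  have hsc : PTU (fun x => scales (r x)) := by
    unfold scales
    exact PTF.szU hr
  have hscb := hsc.pb
  have hz : PTF (fun x => zeroM (m x) (n x)) := by
    unfold zeroM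
    exact ptf_tab hm hn (f := fun _ _ _ => 0) (PTF.const _)
  have h := ptf_iterate_inv hsc (f := fun x s => fstep (m x) (n x) (b x) (r x) (c x) (b x) s)
    (a := fun x => ((⟨scales (r x)⟩, zeroM (m x) (n x)) : Un × Mat))
    (ptf_fstep (PTU.comp hm PTF.fst) (PTU.comp hn PTF.fst) (hb.comp PTF.fst) (hr.comp PTF.fst)
      (hc.comp PTF.fst) (hb.comp PTF.fst) PTF.snd) (PTF.prodMk hsc hz)
    (fun x s => s.1.val ≤ scales (r x) ∧ sz s.2 ≤ BM (m x) (n x) (sz (b x)))
    (B := fun x => 2 * scales (r x) + 1 + BM (m x) (n x) (sz (b x))) (by fun_prop)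
    (fun x => ⟨le_rfl, sz_zeroM_le _ _ _⟩)
    (fun x s hs => by
      unfold fstep
      refine ⟨?_, ?_⟩
      · have := hs.1
        simp only
        omega
      · exact sz_maxflow le_rfl (sz_dbl_le _ _ _ _))
    (fun x s hs => by
      rw [sz_prod, sz_un]
      have := hs.1
      have := hs.2
      omega)
  exact PTF.comp (g := fun q : Un × Mat => q.2) (by fun_prop) h

theorem ptf_sumTo {m : γ → ℕ} {r : γ → List ℕ} (hm : PTU m) (hr : PTF r) :
    PTF (fun x => sumTo (m x) (r x)) := by
  unfold sumTo
  exact PTF.natSumRange hm (f := fun x i => (r x).getD i 0)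
    (ptf_getDB PTF.snd (hr.comp PTF.fst) (PTF.const 0))

theorem ptf_totL {m n : γ → ℕ} {Y : γ → Mat} (hm : PTU m) (hn : PTU n) (hY : PTF Y) :
    PTF (fun x => totL (m x) (n x) (Y x)) := by
  unfold totL
  have e1 : PTF (fun q : (γ × ℕ) × ℕ => q.1.1) := by fun_prop
  have e2 : PTF (fun q : (γ × ℕ) × ℕ => q.1.2) := by fun_prop
  have e3 : PTF (fun q : (γ × ℕ) × ℕ => q.2) := by fun_prop
  have h1 : PTF (fun q : (γ × ℕ) × ℕ => get (Y q.1.1) q.1.2 q.2) := ptf_get (hY.comp e1) e2 e3
  have h2 : PTF (fun q : γ × ℕ => ∑ j ∈ range (n q.1), get (Y q.1) q.2 j) :=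
    PTF.natSumRange (PTU.comp hn PTF.fst) (f := fun (q : γ × ℕ) j => get (Y q.1) q.2 j) h1
  exact PTF.natSumRange hm (f := fun x i => ∑ j ∈ range (n x), get (Y x) i j) h2

theorem ptf_feasCore {m n : γ → ℕ} {r c : γ → List ℕ} {b : γ → Mat} (hm : PTU m) (hn : PTU n)
    (hr : PTF r) (hc : PTF c) (hb : PTF b) :
    PTF (fun x => feasCore (m x) (n x) (r x) (c x) (b x)) := by
  unfold feasCore
  have h := ptf_flow hm hn hr hc hb
  exact PTF.ite (PTPred.and (PTPred.natEq (ptf_sumTo hm hr) (ptf_sumTo hn hc))
    (PTPred.natEq (ptf_totL hm hn h) (ptf_sumTo hm hr))) (PTF.optSome h) (PTF.const none)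

end pt

end Crest.Agent.R309.Feas
end

-- ▼ part R309/Feas

/-!
# Row 309: the feasibility oracle

`feas : Inst → Option (List (List ℕ))`, `ptf_feas`, `feas_some`, `feas_none`, `feas_isSome_iff`,
`numBoundedTables_pos_iff`.
-/

set_option autoImplicit false

namespace Crest.Agent.R309.Feas

open Finset Crest.Agent.Lib.PT Crest.Tables

/-- table instances: row sums, column sums, cell bounds -/
abbrev Inst : Type := List ℕ × List ℕ × List (List ℕ)

/-- the instance given by functions -/
def mkInst {m n : ℕ} (rs : Fin m → ℕ) (cs : Fin n → ℕ) (b : Fin m → Fin n → ℕ) : Inst :=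
  (List.ofFn rs, List.ofFn cs, List.ofFn fun i => List.ofFn (b i))

/-- the matrix of a function -/
def ofFn2 {m n : ℕ} (X : Fin m → Fin n → ℕ) : List (List ℕ) := List.ofFn fun i => List.ofFn (X i)

/-- the feasibility oracle: a table with the given margins and bounds, if there is one -/
def feas (x : Inst) : Option (List (List ℕ)) :=
  (feasCore x.1.length x.2.1.length x.1 x.2.1 x.2.2).map fun X =>
    tab x.1.length x.2.1.length (get X)

theorem ptf_feas : PTF feas := by
  have h1 : PTF (fun x : Inst => x.1) := by fun_prop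
  have h2 : PTF (fun x : Inst => x.2.1) := by fun_prop
  have h3 : PTF (fun x : Inst => x.2.2) := by fun_prop
  have hm : PTU (fun x : Inst => x.1.length) := PTU.length h1
  have hn : PTU (fun x : Inst => x.2.1.length) := PTU.length h2
  refine PTF.optionMap (g := fun (x : Inst) X => tab x.1.length x.2.1.length (get X))
    (ptf_feasCore hm hn h1 h2 h3) ?_
  refine ptf_tab (γ := Inst × Mat) (m := fun q => q.1.1.length) (n := fun q => q.1.2.1.length)
    (PTU.comp (n := fun x : Inst => x.1.length) (f := fun q : Inst × Mat => q.1) hm PTF.fst)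
    (PTU.comp (n := fun x : Inst => x.2.1.length) (f := fun q : Inst × Mat => q.1) hn PTF.fst)
    (f := fun q i j => get q.2 i j) ?_
  exact ptf_get (PTF.snd.comp (PTF.fst.comp PTF.fst)) (PTF.snd.comp PTF.fst) PTF.snd

/-! ### translation to functions -/

theorem getD_ofFn {α : Type} {m : ℕ} (f : Fin m → α) (i : Fin m) (d : α) :
    (List.ofFn f).getD i d = f i := by
  rw [List.getD_eq_getElem?_getD, List.getElem?_eq_getElem (by simp)]
  simp

theorem get_ofFn2 {m n : ℕ} (X : Fin m → Fin n → ℕ) (i : Fin m) (j : Fin n) :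
    get (ofFn2 X) i j = X i j := by
  unfold get ofFn2
  rw [getD_ofFn, getD_ofFn]

theorem tab_eq_ofFn2 (m n : ℕ) (f : ℕ → ℕ → ℕ) :
    tab m n f = ofFn2 (fun (i : Fin m) (j : Fin n) => f i j) := by
  unfold tab ofFn2
  have h : ∀ {β : Type} (k : ℕ) (g : ℕ → β), (List.range k).map g = List.ofFn fun i : Fin k => g i := by
    intro β k g
    apply List.ext_getElem
    · simp
    · intro i h1 h2
      simp
  rw [h m]
  congr 1
  funext i
  rw [h n]

theorem ofFn2_inj {m n : ℕ} {X Y : Fin m → Fin n → ℕ} (h : ofFn2 X = ofFn2 Y) : X = Y := by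
  funext i j
  rw [← get_ofFn2 X i j, ← get_ofFn2 Y i j, h]

/-- a bounded table, in `Fin` form -/
def IsBTable {m n : ℕ} (rs : Fin m → ℕ) (cs : Fin n → ℕ) (b X : Fin m → Fin n → ℕ) : Prop :=
  (∀ i j, X i j ≤ b i j) ∧ (∀ i, ∑ j, X i j = rs i) ∧ ∀ j, ∑ i, X i j = cs j

theorem tab_iff {m n : ℕ} {rs : Fin m → ℕ} {cs : Fin n → ℕ} {b : Fin m → Fin n → ℕ}
    {X : ℕ → ℕ → ℕ} :
    Tab m n (fun i => (List.ofFn rs).getD i 0) (fun j => (List.ofFn cs).getD j 0)
      (get (ofFn2 b)) X ↔ IsBTable rs cs b (fun i j => X i j) := by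
  constructor
  · intro h
    refine ⟨fun i j => ?_, fun i => ?_, fun j => ?_⟩
    · have := h.le i i.2 j j.2
      rwa [get_ofFn2] at this
    · have := h.row i i.2
      simp only [getD_ofFn] at this
      rw [← this, Finset.sum_range]
    · have := h.col j j.2
      simp only [getD_ofFn] at this
      rw [← this, Finset.sum_range]
  · rintro ⟨h1, h2, h3⟩
    refine ⟨fun i hi j hj => ?_, fun i hi => ?_, fun j hj => ?_⟩
    · have := h1 ⟨i, hi⟩ ⟨j, hj⟩
      have e := get_ofFn2 b ⟨i, hi⟩ ⟨j, hj⟩
      simp only at e this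
      rw [e]
      exact this
    · have := h2 ⟨i, hi⟩
      have e := getD_ofFn rs ⟨i, hi⟩ 0
      simp only at e this ⊢
      rw [e, ← this, Finset.sum_range]
    · have := h3 ⟨j, hj⟩
      have e := getD_ofFn cs ⟨j, hj⟩ 0
      simp only at e this ⊢
      rw [e, ← this, Finset.sum_range]

theorem feas_some {m n : ℕ} {rs : Fin m → ℕ} {cs : Fin n → ℕ} {b : Fin m → Fin n → ℕ}
    {X : List (List ℕ)} (h : feas (mkInst rs cs b) = some X) :
    ∃ Y : Fin m → Fin n → ℕ, X = ofFn2 Y ∧ IsBTable rs cs b Y := by
  unfold feas mkInst at h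
  simp only [List.length_ofFn] at h
  obtain ⟨Z, hZ, rfl⟩ := Option.map_eq_some_iff.1 h
  refine ⟨fun i j => get Z i j, tab_eq_ofFn2 _ _ _, ?_⟩
  exact tab_iff.1 (feasCore_some hZ)

theorem feas_none {m n : ℕ} {rs : Fin m → ℕ} {cs : Fin n → ℕ} {b : Fin m → Fin n → ℕ}
    (h : feas (mkInst rs cs b) = none) (Y : Fin m → Fin n → ℕ) : ¬ IsBTable rs cs b Y := by
  unfold feas mkInst at h
  simp only [List.length_ofFn, Option.map_eq_none_iff] at h
  intro hY
  refine feasCore_none h (fun i j => get (ofFn2 Y) i j) ((tab_iff (rs := rs) (cs := cs) (b := b)).2 ?_)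
  have : (fun (i : Fin m) (j : Fin n) => get (ofFn2 Y) i j) = Y := by
    funext i j
    exact get_ofFn2 Y i j
  simpa [this] using hY




end Crest.Agent.R309.Feas
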