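import Mathlib

/-!
# Row 309: abstract block variance decomposition (helper959)

For a finite set `s` (uniform measure) and key functions `κ`, `cavg s κ f` is the conditional
expectation of `f` given the key, `csv s κ f` the unnormalised expected conditional variance.

* `two_block` : near independence (through a coupling) of a key `A` and a randomly shifted key
  `B t` gives `(1 - √(2δ)) * sv s f ≤ csv s A f + avg_t csv s (B t) f`.
* `telescope` : iteration along nested keys.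
* `mixing` : the block heat-bath kernel mixes.
* `perturb` : stability under approximate block updates.
-/

set_option autoImplicit false

namespace Crest.Agent.R309.Blocks

open Finset

variable {X K K' T : Type*} [DecidableEq X] [DecidableEq K] [DecidableEq K'] [DecidableEq T]

/-- Average over a finite set. -/
noncomputable def avg (s : Finset X) (f : X → ℝ) : ℝ := (∑ x ∈ s, f x) / (s.card : ℝ)

/-- Sum of squared deviations from the average. -/
noncomputable def sv (s : Finset X) (f : X → ℝ) : ℝ := ∑ x ∈ s, (f x - avg s f) ^ 2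

/-- The fibre of the key `κ` through `x`. -/
def fib (s : Finset X) (κ : X → K) (x : X) : Finset X := s.filter (fun y => κ y = κ x)

/-- Conditional average given the key. -/
noncomputable def cavg (s : Finset X) (κ : X → K) (f : X → ℝ) (x : X) : ℝ := avg (fib s κ x) f

/-- Sum of squared deviations from the conditional average. -/
noncomputable def csv (s : Finset X) (κ : X → K) (f : X → ℝ) : ℝ :=
  ∑ x ∈ s, (f x - cavg s κ f x) ^ 2

omit [DecidableEq X] in
lemma mem_fib {s : Finset X} {κ : X → K} {x y : X} : y ∈ fib s κ x ↔ y ∈ s ∧ κ y = κ x := by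
  simp [fib]

omit [DecidableEq X] in
lemma self_mem_fib {s : Finset X} {κ : X → K} {x : X} (hx : x ∈ s) : x ∈ fib s κ x := by
  simp [fib, hx]

omit [DecidableEq X] in
lemma fib_eq {s : Finset X} {κ : X → K} {x y : X} (h : κ y = κ x) : fib s κ y = fib s κ x := by
  simp [fib, h]

omit [DecidableEq X] in
lemma fib_card_pos {s : Finset X} {κ : X → K} {x : X} (hx : x ∈ s) :
    (0 : ℝ) < ((fib s κ x).card : ℝ) := by
  exact_mod_cast Finset.card_pos.mpr ⟨x, self_mem_fib hx⟩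

omit [DecidableEq X] in
lemma cavg_eq {s : Finset X} {κ : X → K} {f : X → ℝ} {x y : X} (h : κ y = κ x) :
    cavg s κ f y = cavg s κ f x := by
  simp [cavg, fib_eq h]

omit [DecidableEq X] in
/-- Kernel form of the conditional average. -/
lemma cavg_eq_sum (s : Finset X) (κ : X → K) (f : X → ℝ) (x : X) :
    cavg s κ f x = ∑ y ∈ s, (if κ y = κ x then f y / ((fib s κ x).card : ℝ) else 0) := by
  unfold cavg avg
  rw [Finset.sum_div, fib, Finset.sum_filter]

omit [DecidableEq X] in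
/-- Self-adjointness of conditional averaging. -/
lemma sum_cavg_mul (s : Finset X) (κ : X → K) (f g : X → ℝ) :
    ∑ x ∈ s, cavg s κ f x * g x = ∑ x ∈ s, f x * cavg s κ g x := by
  simp only [cavg_eq_sum, Finset.sum_mul, Finset.mul_sum]
  rw [Finset.sum_comm]
  refine Finset.sum_congr rfl fun y _ => Finset.sum_congr rfl fun x _ => ?_
  by_cases h : κ y = κ x
  · rw [if_pos h, if_pos h.symm, fib_eq h.symm]
    ring
  · rw [if_neg h, if_neg (fun h' => h h'.symm)]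
    ring

omit [DecidableEq X] in
lemma cavg_const (s : Finset X) (κ : X → K) (c : ℝ) {x : X} (hx : x ∈ s) :
    cavg s κ (fun _ => c) x = c := by
  unfold cavg avg
  rw [Finset.sum_const, nsmul_eq_mul, mul_comm, mul_div_assoc, div_self (fib_card_pos hx).ne', mul_one]

omit [DecidableEq X] in
/-- A function that is constant on the fibres is fixed by conditional averaging. -/
lemma cavg_of_const {s : Finset X} {κ : X → K} {g : X → ℝ} {x : X} (hx : x ∈ s)
    (hg : ∀ y ∈ s, κ y = κ x → g y = g x) : cavg s κ g x = g x := by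
  unfold cavg avg
  rw [Finset.sum_congr rfl (fun y hy => hg y (mem_fib.mp hy).1 (mem_fib.mp hy).2),
    Finset.sum_const, nsmul_eq_mul, mul_comm, mul_div_assoc, div_self (fib_card_pos hx).ne', mul_one]

omit [DecidableEq X] in
lemma cavg_cavg {s : Finset X} {κ : X → K} {f : X → ℝ} {x : X} (hx : x ∈ s) :
    cavg s κ (cavg s κ f) x = cavg s κ f x :=
  cavg_of_const hx fun _ _ h => cavg_eq h

omit [DecidableEq X] in
lemma sum_cavg (s : Finset X) (κ : X → K) (f : X → ℝ) :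
    ∑ x ∈ s, cavg s κ f x = ∑ x ∈ s, f x := by
  have h := sum_cavg_mul s κ f (fun _ => (1 : ℝ))
  simp only [mul_one] at h
  rw [h]
  exact Finset.sum_congr rfl fun x hx => by rw [cavg_const s κ 1 hx, mul_one]

omit [DecidableEq X] in
lemma sum_cavg_sq (s : Finset X) (κ : X → K) (f : X → ℝ) :
    ∑ x ∈ s, cavg s κ f x ^ 2 = ∑ x ∈ s, f x * cavg s κ f x := by
  have h := sum_cavg_mul s κ f (cavg s κ f)
  rw [Finset.sum_congr rfl (fun x hx => by rw [pow_two] : ∀ x ∈ s, cavg s κ f x ^ 2 =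
    cavg s κ f x * cavg s κ f x), h]
  exact Finset.sum_congr rfl fun x hx => by rw [cavg_cavg hx]

omit [DecidableEq X] in
/-- Pythagoras. -/
lemma csv_eq (s : Finset X) (κ : X → K) (f : X → ℝ) :
    csv s κ f = ∑ x ∈ s, f x ^ 2 - ∑ x ∈ s, cavg s κ f x ^ 2 := by
  have h : csv s κ f = ∑ x ∈ s, f x ^ 2 - 2 * ∑ x ∈ s, f x * cavg s κ f x
      + ∑ x ∈ s, cavg s κ f x ^ 2 := by
    unfold csv
    rw [Finset.mul_sum, ← Finset.sum_sub_distrib, ← Finset.sum_add_distrib]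
    exact Finset.sum_congr rfl fun x _ => by ring
  rw [h, ← sum_cavg_sq]
  ring

omit [DecidableEq X] in
lemma csv_nonneg (s : Finset X) (κ : X → K) (f : X → ℝ) : 0 ≤ csv s κ f :=
  Finset.sum_nonneg fun _ _ => sq_nonneg _

omit [DecidableEq X] in
lemma sv_nonneg (s : Finset X) (f : X → ℝ) : 0 ≤ sv s f :=
  Finset.sum_nonneg fun _ _ => sq_nonneg _

omit [DecidableEq X] in
lemma sv_eq_csv (s : Finset X) (f : X → ℝ) : sv s f = csv s (fun _ => ()) f := by
  unfold sv csv cavg fib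
  simp

omit [DecidableEq X] in
/-- Conditional averages commute with subtracting a constant. -/
lemma cavg_sub_const {s : Finset X} {κ : X → K} {f : X → ℝ} (c : ℝ) {x : X} (hx : x ∈ s) :
    cavg s κ (fun y => f y - c) x = cavg s κ f x - c := by
  have hc := fib_card_pos (κ := κ) hx
  unfold cavg avg
  rw [Finset.sum_sub_distrib, Finset.sum_const, nsmul_eq_mul]
  field_simp

omit [DecidableEq X] in
lemma csv_sub_const (s : Finset X) (κ : X → K) (f : X → ℝ) (c : ℝ) :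
    csv s κ (fun y => f y - c) = csv s κ f := by
  unfold csv
  refine Finset.sum_congr rfl fun x hx => ?_
  rw [cavg_sub_const c hx]
  ring

omit [DecidableEq X] in
lemma sv_sub_const (s : Finset X) (f : X → ℝ) (c : ℝ) :
    sv s (fun y => f y - c) = sv s f := by
  rw [sv_eq_csv, sv_eq_csv, csv_sub_const]

omit [DecidableEq X] in
lemma sv_of_sum_zero (s : Finset X) (f : X → ℝ) (h : ∑ x ∈ s, f x = 0) :
    sv s f = ∑ x ∈ s, f x ^ 2 := by
  unfold sv avg
  rw [h]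
  simp

omit [DecidableEq X] in
/-- pair form of the sum of squares for centred functions. -/
lemma sum_sq_pair (s : Finset X) (m : X → ℝ) (h0 : ∑ x ∈ s, m x = 0) :
    2 * (s.card : ℝ) * ∑ x ∈ s, m x ^ 2 = ∑ x ∈ s, ∑ y ∈ s, (m x - m y) ^ 2 := by
  have : ∀ x ∈ s, ∑ y ∈ s, (m x - m y) ^ 2 =
      (s.card : ℝ) * m x ^ 2 - 2 * m x * ∑ y ∈ s, m y + ∑ y ∈ s, m y ^ 2 := by
    intro x _
    rw [Finset.mul_sum, ← nsmul_eq_mul, ← Finset.sum_const, ← Finset.sum_sub_distrib,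
      ← Finset.sum_add_distrib]
    exact Finset.sum_congr rfl fun y _ => by ring
  rw [Finset.sum_congr rfl this, h0]
  simp only [mul_zero, sub_zero]
  rw [Finset.sum_add_distrib, ← Finset.mul_sum, Finset.sum_const, nsmul_eq_mul]
  ring


/-- Near-independence of the key `A` and the shifted keys `B t`, in coupling form: the laws of a
uniform point of two fibres of `A` can be coupled on pairs that are separated by at most a
proportion `δ` of the shifts. -/
def Coupled (s : Finset X) (A : X → K) (Ts : Finset T) (B : T → X → K') (δ : ℝ) : Prop :=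
  ∀ x ∈ s, ∀ y ∈ s, ∃ c : X → X → ℝ, (∀ z z', 0 ≤ c z z') ∧
    (∀ z ∈ fib s A x, ∑ z' ∈ fib s A y, c z z' = 1 / ((fib s A x).card : ℝ)) ∧
    (∀ z' ∈ fib s A y, ∑ z ∈ fib s A x, c z z' = 1 / ((fib s A y).card : ℝ)) ∧
    (∀ z ∈ fib s A x, ∀ z' ∈ fib s A y, c z z' ≠ 0 →
      ((Ts.filter (fun t => B t z ≠ B t z')).card : ℝ) ≤ δ * (Ts.card : ℝ))

omit [DecidableEq X] [DecidableEq T] in
lemma diff_bound {s : Finset X} {A : X → K} {Ts : Finset T} {B : T → X → K'} {δ : ℝ}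
    (hδ : 0 ≤ δ) (hc : Coupled s A Ts B δ) (h : T → X → ℝ)
    (hh : ∀ t ∈ Ts, ∀ z ∈ s, ∀ z' ∈ s, B t z = B t z' → h t z = h t z')
    {x y : X} (hx : x ∈ s) (hy : y ∈ s) :
    ((∑ t ∈ Ts, cavg s A (h t) x) - (∑ t ∈ Ts, cavg s A (h t) y)) ^ 2 ≤
      δ * (Ts.card : ℝ) * (2 * (∑ t ∈ Ts, (cavg s A (fun z => h t z ^ 2) x
        + cavg s A (fun z => h t z ^ 2) y))) := by
  obtain ⟨c, c0, cx, cy, csep⟩ := hc x hx y hy
  set Fx := fib s A x with hFx
  set Fy := fib s A y with hFy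
  have mx : ∀ g : X → ℝ, cavg s A g x = ∑ z ∈ Fx, ∑ z' ∈ Fy, c z z' * g z := by
    intro g
    unfold cavg avg
    rw [Finset.sum_div]
    refine Finset.sum_congr rfl fun z hz => ?_
    rw [← Finset.sum_mul, cx z hz]
    ring
  have my : ∀ g : X → ℝ, cavg s A g y = ∑ z ∈ Fx, ∑ z' ∈ Fy, c z z' * g z' := by
    intro g
    unfold cavg avg
    rw [Finset.sum_div, Finset.sum_comm]
    refine Finset.sum_congr rfl fun z hz => ?_
    rw [← Finset.sum_mul, cy z hz]
    ring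
  have hdiff : (∑ t ∈ Ts, cavg s A (h t) x) - (∑ t ∈ Ts, cavg s A (h t) y)
      = ∑ p ∈ Ts ×ˢ (Fx ×ˢ Fy), c p.2.1 p.2.2 * (h p.1 p.2.1 - h p.1 p.2.2) := by
    rw [← Finset.sum_sub_distrib, Finset.sum_product]
    refine Finset.sum_congr rfl fun t _ => ?_
    rw [Finset.sum_product, mx, my, ← Finset.sum_sub_distrib]
    refine Finset.sum_congr rfl fun z _ => ?_
    rw [← Finset.sum_sub_distrib]
    exact Finset.sum_congr rfl fun z' _ => by ring
  have hmass : ∑ z ∈ Fx, ∑ z' ∈ Fy, c z z' = 1 := by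
    rw [Finset.sum_congr rfl (fun z hz => cx z hz), Finset.sum_const, nsmul_eq_mul,
      mul_one_div, div_self (fib_card_pos hx).ne']
  rw [hdiff]
  refine (Finset.sum_sq_le_sum_mul_sum_of_sq_le_mul (Ts ×ˢ (Fx ×ˢ Fy))
    (f := fun p => if B p.1 p.2.1 ≠ B p.1 p.2.2 then c p.2.1 p.2.2 else 0)
    (g := fun p => c p.2.1 p.2.2 * (h p.1 p.2.1 - h p.1 p.2.2) ^ 2)
    (fun p _ => by
      by_cases hB : B p.1 p.2.1 ≠ B p.1 p.2.2
      · simp only [if_pos hB]; exact c0 _ _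
      · simp only [if_neg hB]; exact le_refl _)
    (fun p _ => mul_nonneg (c0 _ _) (sq_nonneg _)) ?_).trans ?_
  · rintro ⟨t, z, z'⟩ hp
    simp only [Finset.mem_product] at hp
    by_cases hB : B t z ≠ B t z'
    · simp only [if_pos hB]; exact le_of_eq (by ring)
    · simp only [if_neg hB]
      push Not at hB
      rw [hh t hp.1 z (mem_fib.mp hp.2.1).1 z' (mem_fib.mp hp.2.2).1 hB]
      exact le_of_eq (by ring)
  · have e1 : (∑ p ∈ Ts ×ˢ (Fx ×ˢ Fy), if B p.1 p.2.1 ≠ B p.1 p.2.2 then c p.2.1 p.2.2 else 0)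
        ≤ δ * (Ts.card : ℝ) := by
      rw [Finset.sum_product_right]
      have : ∀ q ∈ Fx ×ˢ Fy, (∑ t ∈ Ts, if B t q.1 ≠ B t q.2 then c q.1 q.2 else 0)
          ≤ δ * (Ts.card : ℝ) * c q.1 q.2 := by
        rintro ⟨z, z'⟩ hq
        simp only [Finset.mem_product] at hq
        rw [← Finset.sum_filter, Finset.sum_const, nsmul_eq_mul]
        by_cases hcz : c z z' = 0
        · simp [hcz]
        · exact mul_le_mul_of_nonneg_right (csep z hq.1 z' hq.2 hcz) (c0 _ _)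
      refine (Finset.sum_le_sum this).trans ?_
      rw [← Finset.mul_sum, Finset.sum_product, hmass, mul_one]
    have e2 : (∑ p ∈ Ts ×ˢ (Fx ×ˢ Fy), c p.2.1 p.2.2 * (h p.1 p.2.1 - h p.1 p.2.2) ^ 2)
        ≤ 2 * (∑ t ∈ Ts, (cavg s A (fun z => h t z ^ 2) x + cavg s A (fun z => h t z ^ 2) y)) := by
      rw [Finset.sum_product, Finset.mul_sum]
      refine Finset.sum_le_sum fun t _ => ?_
      rw [mx, my, Finset.sum_product, ← Finset.sum_add_distrib, Finset.mul_sum]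
      refine Finset.sum_le_sum fun z _ => ?_
      rw [← Finset.sum_add_distrib, Finset.mul_sum]
      refine Finset.sum_le_sum fun z' _ => ?_
      nlinarith [mul_nonneg (c0 z z') (sq_nonneg (h t z + h t z'))]
    have e3 : 0 ≤ (∑ p ∈ Ts ×ˢ (Fx ×ˢ Fy), c p.2.1 p.2.2 * (h p.1 p.2.1 - h p.1 p.2.2) ^ 2) :=
      Finset.sum_nonneg fun p _ => mul_nonneg (c0 _ _) (sq_nonneg _)
    exact (mul_le_mul_of_nonneg_right e1 e3).trans
      (mul_le_mul_of_nonneg_left e2 (mul_nonneg hδ (Nat.cast_nonneg _)))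


lemma two_block_alg {N F G H C r : ℝ} (hN : 0 ≤ N) (hF : 0 ≤ F) (hG : 0 ≤ G) (hH : 0 ≤ H)
    (hr : 0 ≤ r) (hC2 : C ^ 2 ≤ G * (r ^ 2 * N * H))
    (hCS : (N * G + H) ^ 2 ≤ (N * F) * (N * G + H + 2 * C)) :
    N * G + H ≤ (1 + r) * (N * F) := by
  have hCle : 2 * C ≤ r * (N * G + H) := by
    have h3 : (2 * C) ^ 2 ≤ (r * (N * G + H)) ^ 2 := by
      have e : (r * (N * G + H)) ^ 2 - 4 * (G * (r ^ 2 * N * H)) = (r * (N * G - H)) ^ 2 := by
        ring
      nlinarith [sq_nonneg (r * (N * G - H))]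
    exact (abs_le_of_sq_le_sq' h3 (by positivity)).2
  have hS : 0 ≤ N * G + H := by positivity
  rcases hS.eq_or_lt with h0' | hpos
  · rw [← h0']; positivity
  · have h1 : (N * F) * (N * G + H + 2 * C) ≤ (N * F) * (N * G + H + r * (N * G + H)) :=
      mul_le_mul_of_nonneg_left (by linarith) (by positivity)
    have : (N * G + H) * (N * G + H) ≤ ((1 + r) * (N * F)) * (N * G + H) := by
      calc (N * G + H) * (N * G + H) = (N * G + H) ^ 2 := by ring
        _ ≤ (N * F) * (N * G + H + 2 * C) := hCS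
        _ ≤ (N * F) * (N * G + H + r * (N * G + H)) := h1
        _ = ((1 + r) * (N * F)) * (N * G + H) := by ring
    exact le_of_mul_le_mul_right this hpos

omit [DecidableEq X] [DecidableEq T] in
lemma mean_sq_bound {s : Finset X} {A : X → K} {Ts : Finset T} {B : T → X → K'} {δ : ℝ}
    (hδ : 0 ≤ δ) (hc : Coupled s A Ts B δ) (h : T → X → ℝ)
    (hh : ∀ t ∈ Ts, ∀ z ∈ s, ∀ z' ∈ s, B t z = B t z' → h t z = h t z')
    (h0 : ∑ x ∈ s, ∑ t ∈ Ts, cavg s A (h t) x = 0) :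
    ∑ x ∈ s, (∑ t ∈ Ts, cavg s A (h t) x) ^ 2 ≤
      2 * δ * (Ts.card : ℝ) * ∑ t ∈ Ts, ∑ x ∈ s, h t x ^ 2 := by
  rcases s.eq_empty_or_nonempty with hs | hs
  · subst hs; simp
  have hcard : (0 : ℝ) < (s.card : ℝ) := by exact_mod_cast Finset.card_pos.mpr hs
  have hp := sum_sq_pair s (fun x => ∑ t ∈ Ts, cavg s A (h t) x) h0
  have hb : ∑ x ∈ s, ∑ y ∈ s,
      ((∑ t ∈ Ts, cavg s A (h t) x) - (∑ t ∈ Ts, cavg s A (h t) y)) ^ 2 ≤
      ∑ x ∈ s, ∑ y ∈ s, δ * (Ts.card : ℝ) * (2 * (∑ t ∈ Ts, (cavg s A (fun z => h t z ^ 2) x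
        + cavg s A (fun z => h t z ^ 2) y))) :=
    Finset.sum_le_sum fun x hx => Finset.sum_le_sum fun y hy =>
      diff_bound hδ hc h hh hx hy
  have e2 : ∑ x ∈ s, ∑ t ∈ Ts, cavg s A (fun z => h t z ^ 2) x
      = ∑ t ∈ Ts, ∑ x ∈ s, h t x ^ 2 := by
    rw [Finset.sum_comm]
    exact Finset.sum_congr rfl fun t _ => sum_cavg s A _
  have e1 : ∀ x ∈ s, ∑ y ∈ s, δ * (Ts.card : ℝ) *
      (2 * (∑ t ∈ Ts, (cavg s A (fun z => h t z ^ 2) x + cavg s A (fun z => h t z ^ 2) y))) =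
      δ * (Ts.card : ℝ) * (2 * ((s.card : ℝ) * (∑ t ∈ Ts, cavg s A (fun z => h t z ^ 2) x)
        + ∑ t ∈ Ts, ∑ x ∈ s, h t x ^ 2)) := by
    intro x _
    rw [← Finset.mul_sum, ← Finset.mul_sum]
    congr 2
    simp only [Finset.sum_add_distrib]
    rw [Finset.sum_const, nsmul_eq_mul, e2]
  rw [Finset.sum_congr rfl e1, ← Finset.mul_sum, ← Finset.mul_sum, Finset.sum_add_distrib,
    ← Finset.mul_sum, Finset.sum_const, nsmul_eq_mul, e2] at hb
  have key : (2 * (s.card : ℝ)) * ∑ x ∈ s, (∑ t ∈ Ts, cavg s A (h t) x) ^ 2 ≤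
      (2 * (s.card : ℝ)) * (2 * δ * (Ts.card : ℝ) * ∑ t ∈ Ts, ∑ x ∈ s, h t x ^ 2) := by
    calc (2 * (s.card : ℝ)) * ∑ x ∈ s, (∑ t ∈ Ts, cavg s A (h t) x) ^ 2
        = ∑ x ∈ s, ∑ y ∈ s,
          ((∑ t ∈ Ts, cavg s A (h t) x) - (∑ t ∈ Ts, cavg s A (h t) y)) ^ 2 := hp
      _ ≤ _ := hb
      _ = _ := by ring
  exact le_of_mul_le_mul_left key (by positivity)

omit [DecidableEq X] [DecidableEq T] in
lemma two_block_aux {s : Finset X} {A : X → K} {Ts : Finset T} {B : T → X → K'} {δ : ℝ}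
    (hδ : 0 ≤ δ) (hc : Coupled s A Ts B δ) (f : X → ℝ)
    (h0 : ∑ x ∈ s, f x = 0) :
    (1 - √(2 * δ)) * sv s f * (Ts.card : ℝ) ≤
      (Ts.card : ℝ) * csv s A f + ∑ t ∈ Ts, csv s (B t) f := by
  have hr2 : √(2 * δ) ^ 2 = 2 * δ := Real.sq_sqrt (by positivity)
  have hG : ∑ x ∈ s, f x * cavg s A f x = ∑ x ∈ s, cavg s A f x ^ 2 := (sum_cavg_sq s A f).symm
  have hH : ∑ t ∈ Ts, ∑ x ∈ s, f x * cavg s (B t) f x
      = ∑ t ∈ Ts, ∑ x ∈ s, cavg s (B t) f x ^ 2 :=
    Finset.sum_congr rfl fun t _ => (sum_cavg_sq s (B t) f).symm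
  -- cross term
  have hCross : ∑ t ∈ Ts, ∑ x ∈ s, cavg s A f x * cavg s (B t) f x =
      ∑ x ∈ s, cavg s A f x * ∑ t ∈ Ts, cavg s A (cavg s (B t) f) x := by
    have : ∀ t ∈ Ts, ∑ x ∈ s, cavg s A f x * cavg s (B t) f x =
        ∑ x ∈ s, cavg s A f x * cavg s A (cavg s (B t) f) x := by
      intro t _
      rw [← sum_cavg_mul s A (cavg s A f) (cavg s (B t) f)]
      exact Finset.sum_congr rfl fun x hx => by rw [cavg_cavg hx]
    rw [Finset.sum_congr rfl this, Finset.sum_comm]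
    exact Finset.sum_congr rfl fun x _ => by rw [Finset.mul_sum]
  have hMsum : ∑ x ∈ s, ∑ t ∈ Ts, cavg s A (cavg s (B t) f) x = 0 := by
    rw [Finset.sum_comm]
    refine Finset.sum_eq_zero fun t _ => ?_
    rw [sum_cavg, sum_cavg, h0]
  have hMsq := mean_sq_bound hδ hc (fun t => cavg s (B t) f)
    (fun t _ z _ z' _ hz => cavg_eq hz) hMsum
  have hC2 : (∑ x ∈ s, cavg s A f x * ∑ t ∈ Ts, cavg s A (cavg s (B t) f) x) ^ 2 ≤
      (∑ x ∈ s, cavg s A f x ^ 2) * (√(2 * δ) ^ 2 * (Ts.card : ℝ) *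
        ∑ t ∈ Ts, ∑ x ∈ s, cavg s (B t) f x ^ 2) := by
    refine (Finset.sum_mul_sq_le_sq_mul_sq s _ _).trans
      (mul_le_mul_of_nonneg_left ?_ (Finset.sum_nonneg fun _ _ => sq_nonneg _))
    rw [hr2]; exact hMsq
  have e1 : (Ts.card : ℝ) * (∑ x ∈ s, cavg s A f x ^ 2)
      + ∑ t ∈ Ts, ∑ x ∈ s, cavg s (B t) f x ^ 2
      = ∑ p ∈ Ts ×ˢ s, f p.2 * (cavg s A f p.2 + cavg s (B p.1) f p.2) := by
    rw [Finset.sum_product]
    simp only [mul_add, Finset.sum_add_distrib]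
    rw [hH, hG, Finset.sum_const, nsmul_eq_mul]
  have e2 : (Ts.card : ℝ) * (∑ x ∈ s, f x ^ 2) = ∑ p ∈ Ts ×ˢ s, f p.2 ^ 2 := by
    rw [Finset.sum_product]
    simp only [Finset.sum_const, nsmul_eq_mul]
  have e3 : (Ts.card : ℝ) * (∑ x ∈ s, cavg s A f x ^ 2)
      + ∑ t ∈ Ts, ∑ x ∈ s, cavg s (B t) f x ^ 2
      + 2 * ∑ x ∈ s, cavg s A f x * ∑ t ∈ Ts, cavg s A (cavg s (B t) f) x
      = ∑ p ∈ Ts ×ˢ s, (cavg s A f p.2 + cavg s (B p.1) f p.2) ^ 2 := by
    rw [Finset.sum_product]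
    have : ∀ t ∈ Ts, ∑ x ∈ s, (cavg s A f x + cavg s (B t) f x) ^ 2 =
        ∑ x ∈ s, cavg s A f x ^ 2 + ∑ x ∈ s, cavg s (B t) f x ^ 2
          + 2 * ∑ x ∈ s, cavg s A f x * cavg s (B t) f x := by
      intro t _
      rw [Finset.mul_sum, ← Finset.sum_add_distrib, ← Finset.sum_add_distrib]
      exact Finset.sum_congr rfl fun x _ => by ring
    rw [Finset.sum_congr rfl this, Finset.sum_add_distrib, Finset.sum_add_distrib,
      Finset.sum_const, nsmul_eq_mul, ← Finset.mul_sum, hCross]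
  have hCS : ((Ts.card : ℝ) * (∑ x ∈ s, cavg s A f x ^ 2)
      + ∑ t ∈ Ts, ∑ x ∈ s, cavg s (B t) f x ^ 2) ^ 2 ≤
      ((Ts.card : ℝ) * (∑ x ∈ s, f x ^ 2)) *
      ((Ts.card : ℝ) * (∑ x ∈ s, cavg s A f x ^ 2)
      + ∑ t ∈ Ts, ∑ x ∈ s, cavg s (B t) f x ^ 2
      + 2 * ∑ x ∈ s, cavg s A f x * ∑ t ∈ Ts, cavg s A (cavg s (B t) f) x) := by
    rw [e3, e2, e1]
    exact Finset.sum_mul_sq_le_sq_mul_sq _ _ _
  have hmain := two_block_alg (Nat.cast_nonneg _) (Finset.sum_nonneg fun _ _ => sq_nonneg _)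
    (Finset.sum_nonneg fun _ _ => sq_nonneg _)
    (Finset.sum_nonneg fun _ _ => Finset.sum_nonneg fun _ _ => sq_nonneg _)
    (Real.sqrt_nonneg _) hC2 hCS
  have hB : ∑ t ∈ Ts, csv s (B t) f = (Ts.card : ℝ) * (∑ x ∈ s, f x ^ 2)
      - ∑ t ∈ Ts, ∑ x ∈ s, cavg s (B t) f x ^ 2 := by
    rw [Finset.sum_congr rfl (fun t _ => csv_eq s (B t) f), Finset.sum_sub_distrib,
      Finset.sum_const, nsmul_eq_mul]
  rw [sv_of_sum_zero s f h0, csv_eq, hB]
  linarith [hmain]

omit [DecidableEq X] [DecidableEq T] in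
/-- **Two-block variance inequality** with random shifts. -/
theorem two_block {s : Finset X} {A : X → K} {Ts : Finset T} {B : T → X → K'} {δ : ℝ}
    (hδ : 0 ≤ δ) (hc : Coupled s A Ts B δ) (f : X → ℝ) :
    (1 - √(2 * δ)) * sv s f * (Ts.card : ℝ) ≤
      (Ts.card : ℝ) * csv s A f + ∑ t ∈ Ts, csv s (B t) f := by
  rcases s.eq_empty_or_nonempty with hs | hs
  · subst hs
    simp [sv, csv]
  have hcard : (s.card : ℝ) ≠ 0 := by exact_mod_cast (Finset.card_pos.mpr hs).ne'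
  have h := two_block_aux hδ hc (fun y => f y - avg s f) (by
    rw [Finset.sum_sub_distrib, Finset.sum_const, nsmul_eq_mul, avg, mul_div_cancel₀ _ hcard,
      sub_self])
  simp only [sv_sub_const, csv_sub_const] at h
  exact h


/-! ### Sums over fibres and telescoping -/

omit [DecidableEq X] in
lemma sum_fib_div (s : Finset X) (κ : X → K) (φ : X → ℝ) :
    ∑ x ∈ s, (∑ y ∈ fib s κ x, φ y) / ((fib s κ x).card : ℝ) = ∑ x ∈ s, φ x := by
  have := sum_cavg s κ φ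
  unfold cavg avg at this
  exact this

omit [DecidableEq X] in
lemma fib_fib {s : Finset X} {κ : X → K} {B : X → K'} {x y : X} (hy : y ∈ fib s κ x) :
    fib (fib s κ x) B y = fib s (fun z => (κ z, B z)) y := by
  ext z
  have h := (mem_fib.mp hy).2
  simp only [mem_fib, Prod.mk.injEq, h]
  tauto

omit [DecidableEq X] in
lemma sum_csv_fib (s : Finset X) (κ : X → K) (B : X → K') (f : X → ℝ) :
    ∑ x ∈ s, csv (fib s κ x) B f / ((fib s κ x).card : ℝ) = csv s (fun z => (κ z, B z)) f := by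
  have h := sum_fib_div s κ (fun x => (f x - cavg s (fun z => (κ z, B z)) f x) ^ 2)
  refine Eq.trans ?_ h
  refine Finset.sum_congr rfl fun x _ => ?_
  congr 1
  unfold csv cavg
  exact Finset.sum_congr rfl fun y hy => by rw [fib_fib hy]

omit [DecidableEq X] in
lemma sum_sv_fib (s : Finset X) (κ : X → K) (f : X → ℝ) :
    ∑ x ∈ s, sv (fib s κ x) f / ((fib s κ x).card : ℝ) = csv s κ f := by
  have h := sum_fib_div s κ (fun x => (f x - cavg s κ f x) ^ 2)
  refine Eq.trans ?_ h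
  refine Finset.sum_congr rfl fun x _ => ?_
  congr 1
  unfold sv cavg
  exact Finset.sum_congr rfl fun y hy => by rw [fib_eq (mem_fib.mp hy).2]

omit [DecidableEq X] in
lemma csv_congr_key {L L' : Type*} [DecidableEq L] [DecidableEq L'] (s : Finset X) (κ : X → L)
    (κ' : X → L') (f : X → ℝ) (h : ∀ x ∈ s, ∀ y ∈ s, κ x = κ y ↔ κ' x = κ' y) :
    csv s κ f = csv s κ' f := by
  unfold csv cavg
  refine Finset.sum_congr rfl fun x hx => ?_
  have : fib s κ x = fib s κ' x := by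
    ext z
    simp only [mem_fib]
    exact ⟨fun hz => ⟨hz.1, (h z hz.1 x hx).mp hz.2⟩, fun hz => ⟨hz.1, (h z hz.1 x hx).mpr hz.2⟩⟩
  rw [this]

omit [DecidableEq X] [DecidableEq T] in
/-- One telescoping step. -/
lemma telescope_step {s : Finset X} {Ts : Finset T} {κ κ₁ : X → K} {B : T → X → K'} {δ : ℝ}
    (hδ : 0 ≤ δ) (hnest : ∀ x ∈ s, ∀ y ∈ s, κ₁ x = κ₁ y → κ x = κ y)
    (hc : ∀ x ∈ s, Coupled (fib s κ x) κ₁ Ts B δ) (f : X → ℝ) :
    (1 - √(2 * δ)) * csv s κ f * (Ts.card : ℝ) ≤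
      (Ts.card : ℝ) * csv s κ₁ f + ∑ t ∈ Ts, csv s (fun z => (κ z, B t z)) f := by
  have h1 : ∀ x ∈ s, (1 - √(2 * δ)) * (sv (fib s κ x) f / ((fib s κ x).card : ℝ)) * (Ts.card : ℝ) ≤
      (Ts.card : ℝ) * (csv (fib s κ x) κ₁ f / ((fib s κ x).card : ℝ)) +
      ∑ t ∈ Ts, csv (fib s κ x) (B t) f / ((fib s κ x).card : ℝ) := by
    intro x hx
    have h := two_block hδ (hc x hx) f
    have hp := fib_card_pos (κ := κ) hx
    rw [← Finset.sum_div]
    calc (1 - √(2 * δ)) * (sv (fib s κ x) f / ((fib s κ x).card : ℝ)) * (Ts.card : ℝ)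
        = ((1 - √(2 * δ)) * sv (fib s κ x) f * (Ts.card : ℝ)) / ((fib s κ x).card : ℝ) := by ring
      _ ≤ ((Ts.card : ℝ) * csv (fib s κ x) κ₁ f + ∑ t ∈ Ts, csv (fib s κ x) (B t) f)
          / ((fib s κ x).card : ℝ) := div_le_div_of_nonneg_right h hp.le
      _ = _ := by ring
  have h2 := Finset.sum_le_sum h1
  rw [← Finset.sum_mul, ← Finset.mul_sum, sum_sv_fib, Finset.sum_add_distrib, ← Finset.mul_sum,
    sum_csv_fib, Finset.sum_comm] at h2
  have h3 : csv s (fun z => (κ z, κ₁ z)) f = csv s κ₁ f := by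
    refine csv_congr_key s _ _ f fun x hx y hy => ?_
    simp only [Prod.mk.injEq]
    exact ⟨fun h => h.2, fun h => ⟨hnest x hx y hy h, h⟩⟩
  rw [h3] at h2
  refine h2.trans (le_of_eq ?_)
  congr 1
  exact Finset.sum_congr rfl fun t _ => sum_csv_fib s κ (B t) f

omit [DecidableEq X] [DecidableEq T] in
/-- **Telescoping**: nested keys `r 0, …, r J`, `r 0` constant, `r J` injective. -/
theorem telescope {s : Finset X} {Ts : Finset T} (J : ℕ) (r : ℕ → X → K) (B : ℕ → T → X → K')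
    {δ : ℝ} (hδ : 0 ≤ δ) (hδ1 : √(2 * δ) ≤ 1)
    (h0 : ∀ x ∈ s, ∀ y ∈ s, r 0 x = r 0 y)
    (hJ : ∀ x ∈ s, ∀ y ∈ s, r J x = r J y → x = y)
    (hnest : ∀ j < J, ∀ x ∈ s, ∀ y ∈ s, r (j + 1) x = r (j + 1) y → r j x = r j y)
    (hc : ∀ j < J, ∀ x ∈ s, Coupled (fib s (r j) x) (r (j + 1)) Ts (B j) δ) (f : X → ℝ) :
    (1 - √(2 * δ)) ^ J * sv s f * (Ts.card : ℝ) ≤
      ∑ j ∈ Finset.range J, ∑ t ∈ Ts, csv s (fun z => (r j z, B j t z)) f := by
  set q := 1 - √(2 * δ) with hq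
  have hq0 : 0 ≤ q := by rw [hq]; linarith
  have hq1 : q ≤ 1 := by rw [hq]; linarith [Real.sqrt_nonneg (2 * δ)]
  have key : ∀ k, k ≤ J → q ^ k * csv s (r 0) f * (Ts.card : ℝ) ≤
      (Ts.card : ℝ) * csv s (r k) f +
        ∑ j ∈ Finset.range k, ∑ t ∈ Ts, csv s (fun z => (r j z, B j t z)) f := by
    intro k
    induction k with
    | zero => intro _; simp [mul_comm]
    | succ k ih =>
      intro hk
      have h1 := ih (by omega)
      have h2 := telescope_step hδ (hnest k (by omega)) (hc k (by omega)) f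
      rw [Finset.sum_range_succ]
      have hS : 0 ≤ ∑ j ∈ Finset.range k, ∑ t ∈ Ts, csv s (fun z => (r j z, B j t z)) f :=
        Finset.sum_nonneg fun _ _ => Finset.sum_nonneg fun _ _ => csv_nonneg _ _ _
      calc q ^ (k + 1) * csv s (r 0) f * (Ts.card : ℝ)
          = q * (q ^ k * csv s (r 0) f * (Ts.card : ℝ)) := by ring
        _ ≤ q * ((Ts.card : ℝ) * csv s (r k) f +
            ∑ j ∈ Finset.range k, ∑ t ∈ Ts, csv s (fun z => (r j z, B j t z)) f) :=
          mul_le_mul_of_nonneg_left h1 hq0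
        _ = q * csv s (r k) f * (Ts.card : ℝ) +
            q * ∑ j ∈ Finset.range k, ∑ t ∈ Ts, csv s (fun z => (r j z, B j t z)) f := by ring
        _ ≤ ((Ts.card : ℝ) * csv s (r (k + 1)) f +
            ∑ t ∈ Ts, csv s (fun z => (r k z, B k t z)) f) +
            1 * ∑ j ∈ Finset.range k, ∑ t ∈ Ts, csv s (fun z => (r j z, B j t z)) f :=
          add_le_add h2 (mul_le_mul_of_nonneg_right hq1 hS)
        _ = _ := by ring
  have hlast : csv s (r J) f = 0 := by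
    unfold csv
    refine Finset.sum_eq_zero fun x hx => ?_
    rw [cavg_of_const hx (fun y hy h => by rw [hJ y hy x hx h]), sub_self]
    simp
  have hfirst : csv s (r 0) f = sv s f := by
    rw [sv_eq_csv]
    exact csv_congr_key s _ _ f fun x hx y hy => ⟨fun _ => rfl, fun _ => h0 x hx y hy⟩
  have := key J le_rfl
  rw [hlast, hfirst, mul_zero, zero_add] at this
  exact this


/-! ### The block heat-bath operator and its mixing -/

section Mixing

variable {ι : Type*}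










omit [DecidableEq X] in
lemma sv_le_card (s : Finset X) (f : X → ℝ) (hf : ∀ x ∈ s, |f x| ≤ 1) : sv s f ≤ (s.card : ℝ) := by
  rw [sv_eq_csv, csv_eq]
  have h1 : ∑ x ∈ s, f x ^ 2 ≤ ∑ _x ∈ s, (1 : ℝ) :=
    Finset.sum_le_sum fun x hx => by
      have := hf x hx
      rw [← sq_abs]
      nlinarith [abs_nonneg (f x)]
  have h2 : 0 ≤ ∑ x ∈ s, cavg s (fun _ => ()) f x ^ 2 := Finset.sum_nonneg fun _ _ => sq_nonneg _
  rw [Finset.sum_const, nsmul_eq_mul, mul_one] at h1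
  linarith



end Mixing

/-! ### The block chain: telescoping + mixing -/

section Chain

omit [DecidableEq X] [DecidableEq T] in
/-- **Block chain theorem.** Nested residue keys `r 0, …, r J` (constant at `0`, injective at `J`),
randomly shifted window keys `B j t`, near independence with parameter `δ` where
`√(2δ) ≤ 1/J`. Then `sv s f * |J × T| ≤ (4 J) * ∑_{(j,t)} csv s (r j, B j t) f`. -/
theorem block_poincare {s : Finset X} {Ts : Finset T} (J : ℕ) (hJ2 : 2 ≤ J)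
    (r : ℕ → X → K) (B : ℕ → T → X → K') {δ : ℝ} (hδ : 0 ≤ δ)
    (hδ1 : √(2 * δ) ≤ 1 / J)
    (h0 : ∀ x ∈ s, ∀ y ∈ s, r 0 x = r 0 y)
    (hJ : ∀ x ∈ s, ∀ y ∈ s, r J x = r J y → x = y)
    (hnest : ∀ j < J, ∀ x ∈ s, ∀ y ∈ s, r (j + 1) x = r (j + 1) y → r j x = r j y)
    (hc : ∀ j < J, ∀ x ∈ s, Coupled (fib s (r j) x) (r (j + 1)) Ts (B j) δ) (f : X → ℝ) :
    sv s f * ((Finset.range J ×ˢ Ts).card : ℝ) ≤
      (4 * (J : ℝ)) * ∑ p ∈ Finset.range J ×ˢ Ts, csv s (fun z => (r p.1 z, B p.1 p.2 z)) f := by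
  have hJr : (2 : ℝ) ≤ (J : ℝ) := by exact_mod_cast hJ2
  have hJ0 : (0 : ℝ) < (J : ℝ) := by linarith
  have hle1 : √(2 * δ) ≤ 1 := hδ1.trans (by rw [div_le_one hJ0]; linarith)
  have h := telescope J r B hδ hle1 h0 hJ hnest hc f
  have hpow : (1 : ℝ) / 4 ≤ (1 - √(2 * δ)) ^ J := by
    have h1 : (1 - 1 / (J : ℝ)) ^ J ≤ (1 - √(2 * δ)) ^ J := by
      refine pow_le_pow_left₀ ?_ (by linarith) J
      rw [sub_nonneg, div_le_one hJ0]; linarith
    refine le_trans ?_ h1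
    -- (1 - 1/J)^J ≥ 1/4 for J ≥ 2
    obtain ⟨m, hm⟩ := Nat.even_or_odd' J
    have hb : ∀ k : ℕ, 1 - (k : ℝ) / J ≤ (1 - 1 / (J : ℝ)) ^ k := by
      intro k
      have := one_add_mul_le_pow (a := -(1 / (J : ℝ))) (by
        have : 1 / (J : ℝ) ≤ 1 := by rw [div_le_one hJ0]; linarith
        linarith) k
      calc 1 - (k : ℝ) / J = 1 + (k : ℝ) * (-(1 / (J : ℝ))) := by ring
        _ ≤ (1 + -(1 / (J : ℝ))) ^ k := this
        _ = _ := by ring
    rcases hm with hm | hm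
    · have h2 : (1 : ℝ) / 2 ≤ (1 - 1 / (J : ℝ)) ^ m := by
        refine le_trans (le_of_eq ?_) (hb m)
        have : (J : ℝ) = 2 * m := by rw [hm]; push_cast; ring
        have hm0 : (0 : ℝ) < m := by linarith
        rw [this]; field_simp; ring
      calc (1 : ℝ) / 4 = (1 / 2) * (1 / 2) := by norm_num
        _ ≤ (1 - 1 / (J : ℝ)) ^ m * (1 - 1 / (J : ℝ)) ^ m :=
          mul_le_mul h2 h2 (by norm_num) (by linarith)
        _ = (1 - 1 / (J : ℝ)) ^ J := by
          rw [← pow_add]; congr 1; omega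
    · -- J = 2m+1, m ≥ 1
      have hmr : (J : ℝ) = 2 * m + 1 := by rw [hm]; push_cast; ring
      have hm0 : (1 : ℝ) ≤ m := by
        have : 1 ≤ m := by omega
        exact_mod_cast this
      have h2 := hb m
      have h3 := hb (m + 1)
      have e2 : 1 - (m : ℝ) / J = (m + 1) / (2 * m + 1) := by rw [hmr]; field_simp; ring
      have e3 : 1 - ((m + 1 : ℕ) : ℝ) / J = m / (2 * m + 1) := by
        rw [hmr]; push_cast; field_simp; ring
      rw [e2] at h2
      rw [e3] at h3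
      have hpos2 : (0 : ℝ) ≤ (m + 1) / (2 * m + 1) := by positivity
      have hpos3 : (0 : ℝ) ≤ m / (2 * m + 1) := by positivity
      -- (m+1) m / (2m+1)^2 < 1/4, need a slightly better bound
      have hJm : (1 - 1 / (J : ℝ)) ^ J = (1 - 1 / (J : ℝ)) ^ m * (1 - 1 / (J : ℝ)) ^ (m + 1) := by
        rw [← pow_add]; congr 1; omega
      rw [hJm]
      have hq : 1 - 1 / (J : ℝ) = 2 * m / (2 * m + 1) := by rw [hmr]; field_simp; ring
      -- second order Bernoulli: (1-x)^m ≥ (1 - x m)  and m ≥ 1; use (1-x)^(m+1) = (1-x)(1-x)^m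
      have h4 : (1 - 1 / (J : ℝ)) ^ (m + 1) = (2 * m / (2 * m + 1)) * (1 - 1 / (J : ℝ)) ^ m := by
        rw [pow_succ, hq]; ring
      rw [h4]
      have h5 : (m + 1 : ℝ) / (2 * m + 1) * ((2 * m / (2 * m + 1)) * ((m + 1) / (2 * m + 1))) ≤
          (1 - 1 / (J : ℝ)) ^ m * ((2 * m / (2 * m + 1)) * (1 - 1 / (J : ℝ)) ^ m) := by
        refine mul_le_mul h2 (mul_le_mul_of_nonneg_left h2 (by positivity)) (by positivity) ?_
        exact hpos2.trans h2
      refine le_trans ?_ h5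
      rw [div_mul_div_comm, div_mul_div_comm, div_le_div_iff₀ (by norm_num) (by positivity)]
      nlinarith [mul_nonneg (by linarith : (0:ℝ) ≤ m) (by linarith : (0:ℝ) ≤ (m:ℝ) - 1), hm0,
        pow_pos (by linarith : (0:ℝ) < m) 3]
  have hsum : ∑ p ∈ Finset.range J ×ˢ Ts, csv s (fun z => (r p.1 z, B p.1 p.2 z)) f =
      ∑ j ∈ Finset.range J, ∑ t ∈ Ts, csv s (fun z => (r j z, B j t z)) f := by
    rw [Finset.sum_product]
  rw [hsum, Finset.card_product, Finset.card_range, Nat.cast_mul]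
  have hsv : 0 ≤ sv s f * (Ts.card : ℝ) := mul_nonneg (sv_nonneg _ _) (Nat.cast_nonneg _)
  have h1 : 1 / 4 * (sv s f * (Ts.card : ℝ)) ≤
      ∑ j ∈ Finset.range J, ∑ t ∈ Ts, csv s (fun z => (r j z, B j t z)) f := by
    refine le_trans ?_ h
    calc 1 / 4 * (sv s f * (Ts.card : ℝ)) ≤ (1 - √(2 * δ)) ^ J * (sv s f * (Ts.card : ℝ)) :=
          mul_le_mul_of_nonneg_right hpow hsv
      _ = _ := by ring
  nlinarith [h1]

end Chain

end Crest.Agent.R309.Blocks
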