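import Mathlib
import Crest.Prelude.Def_Tables
import Crest.Agent.R309.Stab1
import Crest.Agent.R309.Iface

-- ▼ part R309/Conv1
section

/-!
# R309: conversions (helper694), part 1

Contingency tables as integer flows in a box (`Stab.sys`), as functions and as lists.
-/

set_option autoImplicit false

namespace Crest.Agent.R309.Conv

open Finset
open Crest.Tables Crest.Agent.R309.Stab

/-! ### tables as functions -/

section fn
variable {m n : ℕ}

/-- bounded tables as functions into `ℕ` -/
def IsBTable (r : Fin m → ℕ) (c : Fin n → ℕ) (b : Fin m → Fin n → ℕ) (X : Fin m → Fin n → ℕ) : Prop :=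
  (∀ i j, X i j ≤ b i j) ∧ (∀ i, ∑ j, X i j = r i) ∧ ∀ j, ∑ i, X i j = c j

instance (r : Fin m → ℕ) (c : Fin n → ℕ) (b : Fin m → Fin n → ℕ) (X : Fin m → Fin n → ℕ) :
    Decidable (IsBTable r c b X) := by
  unfold IsBTable; infer_instance

/-- the finite set of bounded tables, as functions into `ℕ` -/
def ftabs (r : Fin m → ℕ) (c : Fin n → ℕ) (b : Fin m → Fin n → ℕ) : Finset (Fin m → Fin n → ℕ) :=
  (Fintype.piFinset fun i => Fintype.piFinset fun j => Finset.range (b i j + 1)).filter
    fun X => (∀ i, ∑ j, X i j = r i) ∧ ∀ j, ∑ i, X i j = c j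

theorem mem_ftabs {r : Fin m → ℕ} {c : Fin n → ℕ} {b : Fin m → Fin n → ℕ} {X : Fin m → Fin n → ℕ} :
    X ∈ ftabs r c b ↔ IsBTable r c b X := by
  simp [ftabs, IsBTable]

theorem card_ftabs (r : Fin m → ℕ) (c : Fin n → ℕ) (b : Fin m → Fin n → ℕ) :
    (ftabs r c b).card = numBoundedTables r c b := by
  classical
  unfold numBoundedTables
  rw [← Fintype.card_coe (ftabs r c b)]
  refine Fintype.card_congr ?_
  refine
    { toFun := fun X => ⟨fun i j => ⟨X.1 i j, Nat.lt_succ_iff.2 ((mem_ftabs.1 X.2).1 i j)⟩,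
        (mem_ftabs.1 X.2).2⟩
      invFun := fun Y => ⟨fun i j => (Y.1 i j : ℕ), mem_ftabs.2
        ⟨fun i j => Nat.lt_succ_iff.1 (Y.1 i j).2, Y.2⟩⟩
      left_inv := fun X => by ext; rfl
      right_inv := fun Y => by ext; rfl }



/-- tail of the cell `(i,j)`: the row `i` -/
def cs (e : Fin m × Fin n) : Fin m ⊕ Fin n := Sum.inl e.1
/-- head of the cell `(i,j)`: the column `j` -/
def ct (e : Fin m × Fin n) : Fin m ⊕ Fin n := Sum.inr e.2

theorem cs_ne_ct (e : Fin m × Fin n) : (cs e : Fin m ⊕ Fin n) ≠ ct e := by simp [cs, ct]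

/-- the boundary vector with margins `r`, `c` -/
def marg (r : Fin m → ℕ) (c : Fin n → ℕ) : Fin m ⊕ Fin n → ℤ :=
  Sum.elim (fun i => (r i : ℤ)) (fun j => -(c j : ℤ))

theorem bd_inl (x : Fin m × Fin n → ℤ) (i : Fin m) : bd cs ct x (Sum.inl i) = ∑ j, x (i, j) := by
  simp only [bd, chi, cs, ct]
  rw [Fintype.sum_prod_type]
  simp only [Sum.inl.injEq, reduceCtorEq, if_false, sub_zero, mul_ite, mul_one, mul_zero]
  rw [Finset.sum_eq_single i]
  · simp
  · intro k _ hk; simp [hk]
  · simp

theorem bd_inr (x : Fin m × Fin n → ℤ) (j : Fin n) : bd cs ct x (Sum.inr j) = -∑ i, x (i, j) := by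
  simp only [bd, chi, cs, ct]
  rw [Fintype.sum_prod_type_right]
  simp only [Sum.inr.injEq, reduceCtorEq, if_false, zero_sub, mul_neg, mul_ite, mul_one, mul_zero]
  rw [Finset.sum_eq_single j]
  · simp
  · intro k _ hk; simp [hk]
  · simp

/-- the flow of a table -/
def toFlow (X : Fin m → Fin n → ℕ) : Fin m × Fin n → ℤ := fun e => (X e.1 e.2 : ℤ)

/-- the table of a (nonnegative) flow -/
def ofFlow (x : Fin m × Fin n → ℤ) : Fin m → Fin n → ℕ := fun i j => (x (i, j)).toNat

@[simp] theorem ofFlow_toFlow (X : Fin m → Fin n → ℕ) : ofFlow (toFlow X) = X := by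
  funext i j; simp [ofFlow, toFlow]

theorem toFlow_ofFlow {x : Fin m × Fin n → ℤ} (h : ∀ e, 0 ≤ x e) : toFlow (ofFlow x) = x := by
  funext ⟨i, j⟩; simp [ofFlow, toFlow, h]

theorem toFlow_zero : (toFlow (fun _ _ => 0) : Fin m × Fin n → ℤ) = fun _ => 0 := by
  funext e; simp [toFlow]

theorem toFlow_injective : Function.Injective (toFlow : (Fin m → Fin n → ℕ) → _) := fun X Y h => by
  rw [← ofFlow_toFlow X, h, ofFlow_toFlow]

theorem bd_toFlow_eq_marg_iff {r : Fin m → ℕ} {c : Fin n → ℕ} {X : Fin m → Fin n → ℕ} :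
    bd cs ct (toFlow X) = marg r c ↔ (∀ i, ∑ j, X i j = r i) ∧ ∀ j, ∑ i, X i j = c j := by
  rw [funext_iff, Sum.forall]
  simp only [bd_inl, bd_inr, marg, Sum.elim_inl, Sum.elim_inr, toFlow, neg_inj]
  constructor
  · rintro ⟨h1, h2⟩
    exact ⟨fun i => by exact_mod_cast h1 i, fun j => by exact_mod_cast h2 j⟩
  · rintro ⟨h1, h2⟩
    exact ⟨fun i => by exact_mod_cast h1 i, fun j => by exact_mod_cast h2 j⟩

/-- tables with lower and upper bounds form a box system -/
theorem toFlow_mem_sys_iff {r : Fin m → ℕ} {c : Fin n → ℕ} {lo b : Fin m → Fin n → ℕ}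
    {X : Fin m → Fin n → ℕ} :
    toFlow X ∈ sys cs ct (toFlow lo) (toFlow b) (marg r c) ↔ (∀ i j, lo i j ≤ X i j) ∧ IsBTable r c b X := by
  rw [mem_sys, bd_toFlow_eq_marg_iff]
  unfold IsBTable toFlow
  constructor
  · rintro ⟨h1, h2⟩
    refine ⟨fun i j => by exact_mod_cast (h1 (i, j)).1, fun i j => by exact_mod_cast (h1 (i, j)).2, h2⟩
  · rintro ⟨h1, h2, h3⟩
    exact ⟨fun e => ⟨by exact_mod_cast h1 e.1 e.2, by exact_mod_cast h2 e.1 e.2⟩, h3⟩

/-- bounded tables = integer flows in the box `[0,b]` -/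
theorem sys_eq_image (r : Fin m → ℕ) (c : Fin n → ℕ) (b : Fin m → Fin n → ℕ) :
    sys cs ct (fun _ => 0) (toFlow b) (marg r c) = (ftabs r c b).image toFlow := by
  classical
  ext x
  rw [mem_image]
  constructor
  · intro hx
    have h0 : ∀ e, 0 ≤ x e := fun e => ((mem_sys.1 hx).1 e).1
    refine ⟨ofFlow x, ?_, toFlow_ofFlow h0⟩
    rw [mem_ftabs]
    have := (toFlow_mem_sys_iff (r := r) (c := c) (lo := fun _ _ => 0) (b := b) (X := ofFlow x)).1
    rw [toFlow_ofFlow h0] at this
    rw [toFlow_zero] at this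
    exact (this hx).2
  · rintro ⟨X, hX, rfl⟩
    have := (toFlow_mem_sys_iff (r := r) (c := c) (lo := fun _ _ => 0) (b := b) (X := X)).2
      ⟨fun _ _ => Nat.zero_le _, mem_ftabs.1 hX⟩
    rwa [toFlow_zero] at this



end fn

end Crest.Agent.R309.Conv
end

-- ▼ part R309/Conv2

/-!
# R309: conversions (helper694), part 2: tables as lists (`Iface.Inst`, `Iface.Tab`, `Iface.tabs`)
-/

set_option autoImplicit false

namespace Crest.Agent.R309.Conv

open Finset
open Crest.Enc Crest.Tables Crest.Agent.R309.Stab Crest.Agent.R309.Iface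

section
variable {m n : ℕ}

/-- a matrix as a list of rows -/
def toL (X : Fin m → Fin n → ℕ) : Tab := List.ofFn fun i => List.ofFn (X i)

/-- a list of rows as an `m × n` matrix (missing entries are `0`) -/
def ofL (m n : ℕ) (T : Tab) : Fin m → Fin n → ℕ := fun i j => (T.getD i []).getD j 0

/-- the instance with rows `r`, columns `c` and bounds `b` -/
def inst (r : Fin m → ℕ) (c : Fin n → ℕ) (b : Fin m → Fin n → ℕ) : Inst :=
  (List.ofFn r, List.ofFn c, toL b)

@[simp] theorem inst_fst (r : Fin m → ℕ) (c : Fin n → ℕ) (b : Fin m → Fin n → ℕ) :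
    (inst r c b).1 = List.ofFn r := rfl
@[simp] theorem inst_snd_fst (r : Fin m → ℕ) (c : Fin n → ℕ) (b : Fin m → Fin n → ℕ) :
    (inst r c b).2.1 = List.ofFn c := rfl
@[simp] theorem inst_snd_snd (r : Fin m → ℕ) (c : Fin n → ℕ) (b : Fin m → Fin n → ℕ) :
    (inst r c b).2.2 = toL b := rfl

@[simp] theorem toL_length (X : Fin m → Fin n → ℕ) : (toL X).length = m := by simp [toL]

theorem mem_toL_length {X : Fin m → Fin n → ℕ} {row : List ℕ} (h : row ∈ toL X) : row.length = n := by
  simp only [toL, List.mem_ofFn] at h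
  obtain ⟨i, rfl⟩ := h
  simp


@[simp] theorem ofL_toL (X : Fin m → Fin n → ℕ) : ofL m n (toL X) = X := by
  funext i j
  simp [ofL, toL, List.getD_eq_getElem?_getD]

theorem toL_injective : Function.Injective (toL : (Fin m → Fin n → ℕ) → Tab) := fun X Y h => by
  rw [← ofL_toL X, h, ofL_toL]

theorem toL_ofL {T : Tab} (h1 : T.length = m) (h2 : ∀ row ∈ T, row.length = n) : toL (ofL m n T) = T := by
  subst h1
  apply List.ext_getElem (by simp [toL])
  intro i hi hi'
  have hrow := h2 _ (List.getElem_mem hi')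
  simp only [toL, List.getElem_ofFn]
  apply List.ext_getElem (by simp [hrow])
  intro j hj hj'
  simp [ofL, List.getD_eq_getElem?_getD, hi', hj']

/-- a well shaped list table comes from a matrix -/
theorem exists_toL {T : Tab} (h1 : T.length = m) (h2 : ∀ row ∈ T, row.length = n) :
    ∃ X : Fin m → Fin n → ℕ, toL X = T := ⟨_, toL_ofL h1 h2⟩

theorem toL_map_sum (X : Fin m → Fin n → ℕ) :
    (toL X).map List.sum = List.ofFn fun i => ∑ j, X i j := by
  simp [toL, List.map_ofFn, Function.comp_def, List.sum_ofFn]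

theorem colSum_toL (X : Fin m → Fin n → ℕ) (j : Fin n) : colSum (toL X) j = ∑ i, X i j := by
  simp [colSum, toL, List.map_ofFn, Function.comp_def, List.sum_ofFn, List.getD_eq_getElem?_getD]

theorem forall₂_ofFn {α β : Type*} {k : ℕ} {R : α → β → Prop} (f : Fin k → α) (g : Fin k → β) :
    List.Forall₂ R (List.ofFn f) (List.ofFn g) ↔ ∀ i, R (f i) (g i) := by
  rw [List.forall₂_iff_get]
  constructor
  · rintro ⟨_, h⟩ i
    have := h i (by simp) (by simp)
    simpa using this
  · intro h
    refine ⟨by simp, fun i h1 h2 => ?_⟩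
    simpa using h ⟨i, by simpa using h1⟩

theorem isTab_inst_toL {r : Fin m → ℕ} {c : Fin n → ℕ} {b X : Fin m → Fin n → ℕ} :
    IsTab (inst r c b) (toL X) ↔ IsBTable r c b X := by
  constructor
  · intro h
    refine ⟨?_, ?_, ?_⟩
    · have := h.bds
      simp only [inst_snd_snd, toL] at this
      rw [forall₂_ofFn] at this
      intro i j
      exact (forall₂_ofFn _ _).1 (this i) j
    · have := h.rows
      rw [toL_map_sum] at this
      simp only [inst_fst] at this
      exact fun i => congrFun (List.ofFn_injective this) i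
    · intro j
      have := h.cols j (by simp)
      rw [colSum_toL] at this
      simpa [List.getD_eq_getElem?_getD] using this
  · rintro ⟨h1, h2, h3⟩
    refine ⟨?_, ?_, ?_, ?_⟩
    · rw [toL_map_sum]
      simp only [inst_fst]
      congr 1
      funext i; exact h2 i
    · intro row hrow
      rw [mem_toL_length hrow]
      simp
    · intro j hj
      simp only [inst_snd_fst, List.length_ofFn] at hj
      have := h3 ⟨j, hj⟩
      rw [← colSum_toL] at this
      rw [this]
      simp [List.getD_eq_getElem?_getD, hj]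
    · simp only [inst_snd_snd, toL]
      rw [forall₂_ofFn]
      intro i
      rw [forall₂_ofFn]
      exact h1 i

theorem isTab_inst_iff {r : Fin m → ℕ} {c : Fin n → ℕ} {b : Fin m → Fin n → ℕ} {T : Tab} :
    IsTab (inst r c b) T ↔ ∃ X, IsBTable r c b X ∧ toL X = T := by
  constructor
  · intro h
    have h1 : T.length = m := by
      have := congrArg List.length h.rows
      simpa using this
    have h2 : ∀ row ∈ T, row.length = n := fun row hr => by
      have := h.len row hr
      simpa using this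
    obtain ⟨X, rfl⟩ := exists_toL h1 h2
    exact ⟨X, isTab_inst_toL.1 h, rfl⟩
  · rintro ⟨X, hX, rfl⟩
    exact isTab_inst_toL.2 hX

theorem tabs_inst (r : Fin m → ℕ) (c : Fin n → ℕ) (b : Fin m → Fin n → ℕ) :
    tabs (inst r c b) = (ftabs r c b).image toL := by
  ext T
  rw [mem_tabs, isTab_inst_iff, mem_image]
  simp only [mem_ftabs]

theorem card_tabs_inst (r : Fin m → ℕ) (c : Fin n → ℕ) (b : Fin m → Fin n → ℕ) :
    (tabs (inst r c b)).card = numBoundedTables r c b := by
  rw [tabs_inst, card_image_of_injective _ toL_injective, card_ftabs]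

theorem sum_tabs_inst {M : Type*} [AddCommMonoid M] (r : Fin m → ℕ) (c : Fin n → ℕ)
    (b : Fin m → Fin n → ℕ) (f : Tab → M) :
    ∑ T ∈ tabs (inst r c b), f T = ∑ X ∈ ftabs r c b, f (toL X) := by
  rw [tabs_inst, Finset.sum_image (fun _ _ _ _ h => toL_injective h)]





end

/-! ### arbitrary list instances -/

/-- shape of an instance -/
def Shaped (I : Inst) : Prop := I.2.2.length = I.1.length ∧ ∀ row ∈ I.2.2, row.length = I.2.1.length

instance (I : Inst) : Decidable (Shaped I) := by unfold Shaped; infer_instance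

theorem shaped_inst {m n : ℕ} (r : Fin m → ℕ) (c : Fin n → ℕ) (b : Fin m → Fin n → ℕ) :
    Shaped (inst r c b) := by
  refine ⟨by simp, fun row hr => ?_⟩
  rw [mem_toL_length hr]; simp

theorem IsTab.shaped {I : Inst} {X : Tab} (h : IsTab I X) : Shaped I := by
  have h1 : X.length = I.1.length := by
    have := congrArg List.length h.rows; simpa using this
  have h2 : X.length = I.2.2.length := h.bds.length_eq
  refine ⟨by omega, fun row hr => ?_⟩
  obtain ⟨i, hi, rfl⟩ := List.getElem_of_mem hr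
  have hi' : i < X.length := by omega
  have h3 := ((List.forall₂_iff_get.1 h.bds).2 i hi' hi).length_eq
  have h4 := h.len _ (List.getElem_mem hi')
  simp only [List.get_eq_getElem] at h3
  omega

theorem exists_inst {I : Inst} (h : Shaped I) :
    ∃ (r : Fin I.1.length → ℕ) (c : Fin I.2.1.length → ℕ) (b : Fin I.1.length → Fin I.2.1.length → ℕ),
      I = inst r c b := by
  obtain ⟨b, hb⟩ := exists_toL (m := I.1.length) (n := I.2.1.length) h.1 h.2
  refine ⟨fun i => I.1.get i, fun j => I.2.1.get j, b, ?_⟩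
  obtain ⟨I1, I2, I3⟩ := I
  simp only [inst, hb]
  simp

/-- a shaped instance is the instance of the functions `rowsF`, `colsF`, `bdsF` -/
def rowsF (I : Inst) : Fin I.1.length → ℕ := fun i => I.1.getD i 0
/-- column sums as a function -/
def colsF (I : Inst) : Fin I.2.1.length → ℕ := fun j => I.2.1.getD j 0
/-- bounds as a function -/
def bdsF (I : Inst) : Fin I.1.length → Fin I.2.1.length → ℕ := ofL _ _ I.2.2

theorem inst_of_shaped {I : Inst} (h : Shaped I) : inst (rowsF I) (colsF I) (bdsF I) = I := by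
  obtain ⟨I1, I2, I3⟩ := I
  simp only [inst, bdsF]
  rw [toL_ofL h.1 h.2]
  have e1 : (List.ofFn fun i : Fin I1.length => I1.getD i 0) = I1 := by
    apply List.ext_getElem (by simp)
    intro i h1 h2
    simp [List.getD_eq_getElem?_getD]
  have e2 : (List.ofFn fun i : Fin I2.length => I2.getD i 0) = I2 := by
    apply List.ext_getElem (by simp)
    intro i h1 h2
    simp [List.getD_eq_getElem?_getD]
  exact Prod.ext e1 (Prod.ext e2 rfl)





end Crest.Agent.R309.Conv
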