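import Mathlib
import Crest.Agent.R309.Stab1
import Crest.Agent.R309.Blocks959
import Crest.Agent.R309.Conv2
import Crest.Agent.R309.Tape
import Crest.Agent.R309.OuterAlg1
import Crest.Agent.R309.MCTape
import Crest.Agent.R309.PTSolve

-- ▼ part R309/Stab2
section

/-!
# Row 309, stability chain, part 2 (helper550)

Couplings of uniform laws (`Near`), quantile coupling, the one-unit stability theorem `near_one`.
-/

set_option autoImplicit false
set_option linter.unusedSectionVars false

namespace Crest.Agent.R309.Stab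

open Finset

variable {E V : Type} [Fintype E] [DecidableEq E] [Fintype V] [DecidableEq V]

/-- the uniform laws on `A` and `B` have a coupling with all coordinates at distance `≤ K` -/
def Near (K : ℤ) (A B : Finset (E → ℤ)) : Prop :=
  ∃ π : (E → ℤ) → (E → ℤ) → ℝ, (∀ x y, 0 ≤ π x y) ∧
    (∀ x ∈ A, ∑ y ∈ B, π x y = 1 / (A.card : ℝ)) ∧
    (∀ y ∈ B, ∑ x ∈ A, π x y = 1 / (B.card : ℝ)) ∧
    (∀ x ∈ A, ∀ y ∈ B, π x y ≠ 0 → ∀ e, |x e - y e| ≤ K)

theorem Near.mono {K K' : ℤ} {A B : Finset (E → ℤ)} (h : Near K A B) (hK : K ≤ K') : Near K' A B := by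
  obtain ⟨π, h0, h1, h2, h3⟩ := h
  exact ⟨π, h0, h1, h2, fun x hx y hy hne e => (h3 x hx y hy hne e).trans hK⟩

theorem Near.refl (A : Finset (E → ℤ)) {K : ℤ} (hK : 0 ≤ K) : Near K A A := by
  refine ⟨fun x y => if x = y then 1 / (A.card : ℝ) else 0, ?_, ?_, ?_, ?_⟩
  · intro x y
    dsimp only
    split_ifs <;> positivity
  · intro x hx
    rw [Finset.sum_ite_eq]; simp [hx]
  · intro y hy
    simp only [Finset.sum_ite_eq', hy, if_true]
  · intro x _ y _ hne e
    by_cases h : x = y
    · subst h; simpa using hK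
    · simp [h] at hne

theorem Near.symm {K : ℤ} {A B : Finset (E → ℤ)} (h : Near K A B) : Near K B A := by
  obtain ⟨π, h0, h1, h2, h3⟩ := h
  refine ⟨fun x y => π y x, fun x y => h0 y x, h2, h1, fun x hx y hy hne e => ?_⟩
  rw [abs_sub_comm]
  exact h3 y hy x hx hne e

theorem Near.trans {K K' : ℤ} {A B C : Finset (E → ℤ)} (h : Near K A B) (h' : Near K' B C) :
    Near (K + K') A C := by
  obtain ⟨π, h0, h1, h2, h3⟩ := h
  obtain ⟨ρ, g0, g1, g2, g3⟩ := h'
  by_cases hB : B = ∅
  · subst hB
    refine ⟨fun _ _ => 0, fun _ _ => le_rfl, ?_, ?_, ?_⟩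
    · intro x hx
      exfalso
      have := h1 x hx
      have hpos : (0 : ℝ) < A.card := by exact_mod_cast Finset.card_pos.mpr ⟨x, hx⟩
      rw [Finset.sum_empty] at this
      have h2 : 0 < 1 / (A.card : ℝ) := by positivity
      linarith
    · intro x hx
      exfalso
      have := g2 x hx
      have hpos : (0 : ℝ) < C.card := by exact_mod_cast Finset.card_pos.mpr ⟨x, hx⟩
      rw [Finset.sum_empty] at this
      have h2 : 0 < 1 / (C.card : ℝ) := by positivity
      linarith
    · intro x _ y _ hne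
      exact absurd rfl hne
  have hBpos : (0 : ℝ) < B.card := by
    exact_mod_cast Finset.card_pos.mpr (Finset.nonempty_iff_ne_empty.mpr hB)
  refine ⟨fun x z => ∑ y ∈ B, π x y * ρ y z * B.card, ?_, ?_, ?_, ?_⟩
  · intro x z
    exact Finset.sum_nonneg fun y _ => mul_nonneg (mul_nonneg (h0 x y) (g0 y z)) hBpos.le
  · intro x hx
    rw [Finset.sum_comm, ← h1 x hx]
    apply Finset.sum_congr rfl
    intro y hy
    rw [← Finset.sum_mul, ← Finset.mul_sum, g1 y hy]
    field_simp
  · intro z hz
    rw [Finset.sum_comm, ← g2 z hz]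
    apply Finset.sum_congr rfl
    intro y hy
    have : ∑ x ∈ A, π x y * ρ y z * (B.card : ℝ) = (∑ x ∈ A, π x y) * ρ y z * B.card := by
      rw [Finset.sum_mul, Finset.sum_mul]
    rw [this, h2 y hy]
    field_simp
  · intro x hx z hz hne e
    obtain ⟨y, hy, hyne⟩ := Finset.exists_ne_zero_of_sum_ne_zero hne
    have hπ : π x y ≠ 0 := by
      intro h; simp [h] at hyne
    have hρ : ρ y z ≠ 0 := by
      intro h; simp [h] at hyne
    have e1 := h3 x hx y hy hπ e
    have e2 := g3 y hy z hz hρ e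
    have : x e - z e = (x e - y e) + (y e - z e) := by ring
    rw [this]
    exact (abs_add_le _ _).trans (add_le_add e1 e2)

theorem Near.of_bij {K K' : ℤ} {A B A' B' : Finset (E → ℤ)} (φ ψ : (E → ℤ) → (E → ℤ))
    (hφ : Set.BijOn φ A A') (hψ : Set.BijOn ψ B B')
    (hK : ∀ x ∈ A, ∀ y ∈ B, (∀ e, |φ x e - ψ y e| ≤ K') → ∀ e, |x e - y e| ≤ K)
    (h : Near K' A' B') : Near K A B := by
  obtain ⟨π, h0, h1, h2, h3⟩ := h
  have cA : A.card = A'.card :=
    Finset.card_nbij φ (fun x hx => hφ.mapsTo hx) hφ.injOn hφ.surjOn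
  have cB : B.card = B'.card :=
    Finset.card_nbij ψ (fun x hx => hψ.mapsTo hx) hψ.injOn hψ.surjOn
  refine ⟨fun x y => π (φ x) (ψ y), fun _ _ => h0 _ _, ?_, ?_, ?_⟩
  · intro x hx
    rw [cA, ← h1 (φ x) (hφ.mapsTo hx)]
    exact Finset.sum_nbij ψ (fun x hx => hψ.mapsTo hx) hψ.injOn hψ.surjOn (fun _ _ => rfl)
  · intro y hy
    rw [cB, ← h2 (ψ y) (hψ.mapsTo hy)]
    exact Finset.sum_nbij φ (fun x hx => hφ.mapsTo hx) hφ.injOn hφ.surjOn (fun _ _ => rfl)
  · intro x hx y hy hne
    exact hK x hx y hy (h3 _ (hφ.mapsTo hx) _ (hψ.mapsTo hy) hne)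

/-- gluing of couplings along the values of a statistic `f` -/
theorem glue (K : ℤ) (A B : Finset (E → ℤ)) (f : (E → ℤ) → ℤ) (I : Finset ℤ)
    (hAI : ∀ x ∈ A, f x ∈ I) (hBI : ∀ y ∈ B, f y ∈ I) (q : ℤ → ℤ → ℝ) (hq0 : ∀ k k', 0 ≤ q k k')
    (hq1 : ∀ k ∈ I, ∑ k' ∈ I, q k k' = ((A.filter fun x => f x = k).card : ℝ) / A.card)
    (hq2 : ∀ k' ∈ I, ∑ k ∈ I, q k k' = ((B.filter fun x => f x = k').card : ℝ) / B.card)
    (hN : ∀ k ∈ I, ∀ k' ∈ I, q k k' ≠ 0 →
      Near K (A.filter fun x => f x = k) (B.filter fun x => f x = k')) : Near K A B := by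
  classical
  have hex : ∀ k k' : ℤ, ∃ P : (E → ℤ) → (E → ℤ) → ℝ, (∀ x y, 0 ≤ P x y) ∧
      (k ∈ I → k' ∈ I → q k k' ≠ 0 →
        (∀ x ∈ (A.filter fun x => f x = k), ∑ y ∈ (B.filter fun x => f x = k'), P x y =
          1 / ((A.filter fun x => f x = k).card : ℝ)) ∧
        (∀ y ∈ (B.filter fun x => f x = k'), ∑ x ∈ (A.filter fun x => f x = k), P x y =
          1 / ((B.filter fun x => f x = k').card : ℝ)) ∧
        (∀ x ∈ (A.filter fun x => f x = k), ∀ y ∈ (B.filter fun x => f x = k'), P x y ≠ 0 →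
          ∀ e, |x e - y e| ≤ K)) := by
    intro k k'
    by_cases h : k ∈ I ∧ k' ∈ I ∧ q k k' ≠ 0
    · obtain ⟨P, a, b, c, d⟩ := hN k h.1 k' h.2.1 h.2.2
      exact ⟨P, a, fun _ _ _ => ⟨b, c, d⟩⟩
    · refine ⟨fun _ _ => 0, fun _ _ => le_rfl, fun h1 h2 h3 => absurd ⟨h1, h2, h3⟩ h⟩
  choose P hP0 hP using hex
  refine ⟨fun x y => q (f x) (f y) * P (f x) (f y) x y,
    fun x y => mul_nonneg (hq0 _ _) (hP0 _ _ _ _), ?_, ?_, ?_⟩
  · intro x hx
    have hxk : x ∈ A.filter fun x' => f x' = f x := by simp [hx]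
    have hpos : (0 : ℝ) < (A.filter fun x' => f x' = f x).card := by
      exact_mod_cast Finset.card_pos.mpr ⟨x, hxk⟩
    rw [← Finset.sum_fiberwise_of_maps_to (g := f) (t := I) hBI]
    have : ∀ k' ∈ I, ∑ y ∈ B.filter (fun y => f y = k'), q (f x) (f y) * P (f x) (f y) x y =
        q (f x) k' * (1 / ((A.filter fun x' => f x' = f x).card : ℝ)) := by
      intro k' hk'
      have e1 : ∑ y ∈ B.filter (fun y => f y = k'), q (f x) (f y) * P (f x) (f y) x y =
          ∑ y ∈ B.filter (fun y => f y = k'), q (f x) k' * P (f x) k' x y := by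
        apply Finset.sum_congr rfl
        intro y hy
        rw [(Finset.mem_filter.mp hy).2]
      rw [e1, ← Finset.mul_sum]
      by_cases h0 : q (f x) k' = 0
      · rw [h0]; simp
      · rw [((hP (f x) k') (hAI x hx) hk' h0).1 x hxk]
    rw [Finset.sum_congr rfl this, ← Finset.sum_mul, hq1 (f x) (hAI x hx)]
    field_simp
  · intro y hy
    have hyk : y ∈ B.filter fun x' => f x' = f y := by simp [hy]
    have hpos : (0 : ℝ) < (B.filter fun x' => f x' = f y).card := by
      exact_mod_cast Finset.card_pos.mpr ⟨y, hyk⟩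
    rw [← Finset.sum_fiberwise_of_maps_to (g := f) (t := I) hAI]
    have : ∀ k ∈ I, ∑ x ∈ A.filter (fun x => f x = k), q (f x) (f y) * P (f x) (f y) x y =
        q k (f y) * (1 / ((B.filter fun x' => f x' = f y).card : ℝ)) := by
      intro k hk
      have e1 : ∑ x ∈ A.filter (fun x => f x = k), q (f x) (f y) * P (f x) (f y) x y =
          ∑ x ∈ A.filter (fun x => f x = k), q k (f y) * P k (f y) x y := by
        apply Finset.sum_congr rfl
        intro x hx
        rw [(Finset.mem_filter.mp hx).2]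
      rw [e1, ← Finset.mul_sum]
      by_cases h0 : q k (f y) = 0
      · rw [h0]; simp
      · rw [((hP k (f y)) hk (hBI y hy) h0).2.1 y hyk]
    rw [Finset.sum_congr rfl this, ← Finset.sum_mul, hq2 (f y) (hBI y hy)]
    field_simp
  · intro x hx y hy hne
    have h0 : q (f x) (f y) ≠ 0 := by
      intro h; simp [h] at hne
    have h1 : P (f x) (f y) x y ≠ 0 := by
      intro h; simp [h] at hne
    exact ((hP (f x) (f y)) (hAI x hx) (hBI y hy) h0).2.2 x (by simp [hx]) y (by simp [hy]) h1

/-! ### quantile coupling on `ℤ` -/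

/-- partial sums -/
noncomputable def cdf (m : ℤ) (p : ℤ → ℝ) (k : ℤ) : ℝ := ∑ j ∈ Finset.Icc m k, p j

theorem cdf_succ (m : ℤ) (p : ℤ → ℝ) (k : ℤ) (hk : m ≤ k) : cdf m p k = cdf m p (k - 1) + p k := by
  unfold cdf
  have : Finset.Icc m k = insert k (Finset.Icc m (k - 1)) := by
    ext j; simp only [Finset.mem_Icc, Finset.mem_insert]; omega
  rw [this, Finset.sum_insert (by simp), add_comm]

theorem cdf_lt (m : ℤ) (p : ℤ → ℝ) (k : ℤ) (hk : k < m) : cdf m p k = 0 := by
  unfold cdf
  rw [Finset.Icc_eq_empty (by omega), Finset.sum_empty]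

theorem quantile (m M : ℤ) (p q : ℤ → ℝ)
    (hp1 : cdf m p M = 1) (hq1 : cdf m q M = 1)
    (h1 : ∀ k, cdf m p k ≤ cdf m q k) (h2 : ∀ k, cdf m q (k - 1) ≤ cdf m p k) :
    ∃ r : ℤ → ℤ → ℝ, (∀ k k', 0 ≤ r k k') ∧
      (∀ k ∈ Finset.Icc m M, ∑ k' ∈ Finset.Icc m M, r k k' = p k) ∧
      (∀ k' ∈ Finset.Icc m M, ∑ k ∈ Finset.Icc m M, r k k' = q k') ∧
      (∀ k k', r k k' ≠ 0 → k = k' ∨ k = k' + 1) := by
  refine ⟨fun k k' => (if k = k' then cdf m p k - cdf m q (k - 1) else 0) +
    (if k = k' + 1 then cdf m q k' - cdf m p k' else 0), ?_, ?_, ?_, ?_⟩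
  · intro k k'
    have e1 := h2 k
    have e2 := h1 k'
    apply add_nonneg
    · split_ifs
      · linarith
      · exact le_rfl
    · split_ifs
      · linarith
      · exact le_rfl
  · intro k hk
    have hk' := Finset.mem_Icc.mp hk
    rw [Finset.sum_add_distrib, Finset.sum_ite_eq]
    simp only [hk, if_true]
    have e1 : ∑ k' ∈ Finset.Icc m M, (if k = k' + 1 then cdf m q k' - cdf m p k' else 0) =
        cdf m q (k - 1) - cdf m p (k - 1) := by
      by_cases hm : k = m
      · rw [Finset.sum_eq_zero, cdf_lt m q _ (by omega), cdf_lt m p _ (by omega), sub_zero]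
        intro j hj
        have := Finset.mem_Icc.mp hj
        rw [if_neg (by omega)]
      · rw [Finset.sum_eq_single (k - 1)]
        · rw [if_pos (by ring)]
        · intro j _ hj
          rw [if_neg (by omega)]
        · intro h
          exact absurd (Finset.mem_Icc.mpr ⟨by omega, by omega⟩) h
    rw [e1]
    have := cdf_succ m p k hk'.1
    linarith
  · intro k hk
    have hk' := Finset.mem_Icc.mp hk
    rw [Finset.sum_add_distrib, Finset.sum_ite_eq']
    simp only [hk, if_true]
    have e1 : ∑ j ∈ Finset.Icc m M, (if j = k + 1 then cdf m q k - cdf m p k else 0) =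
        cdf m q k - cdf m p k := by
      by_cases hm : k = M
      · rw [Finset.sum_eq_zero, hm, hp1, hq1, sub_self]
        intro j hj
        have := Finset.mem_Icc.mp hj
        rw [if_neg (by omega)]
      · rw [Finset.sum_eq_single (k + 1)]
        · rw [if_pos rfl]
        · intro j _ hj
          rw [if_neg hj]
        · intro h
          exact absurd (Finset.mem_Icc.mpr ⟨by omega, by omega⟩) h
    rw [e1]
    have := cdf_succ m q k hk'.1
    linarith
  · intro k k' hne
    by_contra hcon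
    push Not at hcon
    simp [hcon.1, hcon.2] at hne

theorem cdf_le_of_mlr (m M : ℤ) (p q : ℤ → ℝ) (k : ℤ) (hk : k ≤ M)
    (h : ∀ x y, x < y → p x * q y ≤ p y * q x) :
    cdf m p k * cdf m q M ≤ cdf m q k * cdf m p M := by
  by_cases hmk : m ≤ k
  · have split : ∀ p : ℤ → ℝ, cdf m p M = cdf m p k + ∑ j ∈ Finset.Icc (k + 1) M, p j := by
      intro p
      unfold cdf
      have : Finset.Icc m M = Finset.Icc m k ∪ Finset.Icc (k + 1) M := by
        ext j; simp only [Finset.mem_Icc, Finset.mem_union]; omega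
      rw [this, Finset.sum_union]
      rw [Finset.disjoint_left]
      intro j h1 h2
      simp only [Finset.mem_Icc] at h1 h2
      omega
    rw [split p, split q]
    have key : cdf m p k * ∑ j ∈ Finset.Icc (k + 1) M, q j ≤
        cdf m q k * ∑ j ∈ Finset.Icc (k + 1) M, p j := by
      unfold cdf
      rw [Finset.sum_mul_sum, Finset.sum_mul_sum]
      apply Finset.sum_le_sum
      intro x hx
      apply Finset.sum_le_sum
      intro y hy
      simp only [Finset.mem_Icc] at hx hy
      have := h x y (by omega)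
      linarith [mul_comm (p y) (q x)]
    nlinarith
  · rw [cdf_lt m p k (by omega), cdf_lt m q k (by omega)]; simp

/-- Coupling of the uniform laws on `A` and `B` from monotone likelihood ratios of a statistic `f`. -/
theorem cell_step (K : ℤ) (A B : Finset (E → ℤ)) (f : (E → ℤ) → ℤ)
    (hA : A.Nonempty) (hB : B.Nonempty)
    (h1 : ∀ x y : ℤ, x < y →
      (A.filter fun z => f z = x).card * (B.filter fun z => f z = y).card ≤
        (A.filter fun z => f z = y).card * (B.filter fun z => f z = x).card)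
    (h2 : ∀ x y : ℤ, x < y →
      (A.filter fun z => f z = y + 1).card * (B.filter fun z => f z = x).card ≤
        (A.filter fun z => f z = x + 1).card * (B.filter fun z => f z = y).card)
    (h3 : ∀ j : ℤ, (A.filter fun z => f z = j).Nonempty → (B.filter fun z => f z = j).Nonempty →
      Near K (A.filter fun z => f z = j) (B.filter fun z => f z = j))
    (h4 : ∀ j : ℤ, (A.filter fun z => f z = j + 1).Nonempty → (B.filter fun z => f z = j).Nonempty →
      Near K (A.filter fun z => f z = j + 1) (B.filter fun z => f z = j)) :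
    Near K A B := by
  -- an interval containing all values
  obtain ⟨m, M, hmM⟩ : ∃ m M : ℤ, ∀ x ∈ A ∪ B, m ≤ f x ∧ f x ≤ M := by
    have hne : ((A ∪ B).image f).Nonempty := (hA.mono Finset.subset_union_left).image f
    refine ⟨((A ∪ B).image f).min' hne, ((A ∪ B).image f).max' hne, fun x hx => ?_⟩
    exact ⟨Finset.min'_le _ _ (Finset.mem_image_of_mem f hx),
      Finset.le_max' _ _ (Finset.mem_image_of_mem f hx)⟩
  have hAr : ∀ x ∈ A, m ≤ f x ∧ f x ≤ M := fun x hx => hmM x (Finset.mem_union_left _ hx)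
  have hBr : ∀ x ∈ B, m ≤ f x ∧ f x ≤ M := fun x hx => hmM x (Finset.mem_union_right _ hx)
  have hAc : (0 : ℝ) < A.card := by exact_mod_cast hA.card_pos
  have hBc : (0 : ℝ) < B.card := by exact_mod_cast hB.card_pos
  set p : ℤ → ℝ := fun k => ((A.filter fun x => f x = k).card : ℝ) / A.card with hp
  set q : ℤ → ℝ := fun k => ((B.filter fun x => f x = k).card : ℝ) / B.card with hq
  have zero_of : ∀ (C : Finset (E → ℤ)) (k : ℤ), (∀ x ∈ C, m ≤ f x ∧ f x ≤ M) → (k < m ∨ M < k) →
      (C.filter fun x => f x = k) = ∅ := by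
    intro C k hC hk
    rw [Finset.filter_eq_empty_iff]
    intro x hx h
    have := hC x hx
    omega
  have total : ∀ (C : Finset (E → ℤ)), (∀ x ∈ C, m ≤ f x ∧ f x ≤ M) → C.Nonempty →
      cdf m (fun k => ((C.filter fun x => f x = k).card : ℝ) / C.card) M = 1 := by
    intro C hC hCne
    unfold cdf
    rw [← Finset.sum_div]
    have h := Finset.card_eq_sum_card_fiberwise (f := f) (s := C) (t := Finset.Icc m M)
      (fun x hx => Finset.mem_coe.mpr (Finset.mem_Icc.mpr (hC x hx)))
    have h' : (C.card : ℝ) = ∑ k ∈ Finset.Icc m M, ((C.filter fun x => f x = k).card : ℝ) := by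
      exact_mod_cast h
    rw [← h']
    exact div_self (by exact_mod_cast hCne.card_pos.ne')
  have hp1 : cdf m p M = 1 := total A hAr hA
  have hq1 : cdf m q M = 1 := total B hBr hB
  have mlr1 : ∀ x y, x < y → p x * q y ≤ p y * q x := by
    intro x y hxy
    have h := h1 x y hxy
    have h' : ((A.filter fun z => f z = x).card : ℝ) * (B.filter fun z => f z = y).card ≤
        (A.filter fun z => f z = y).card * (B.filter fun z => f z = x).card := by exact_mod_cast h
    simp only [hp, hq]
    rw [div_mul_div_comm, div_mul_div_comm]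
    exact div_le_div_of_nonneg_right h' (by positivity)
  have mlr2 : ∀ x y, x < y → q x * p (y + 1) ≤ q y * p (x + 1) := by
    intro x y hxy
    have h := h2 x y hxy
    have h' : ((A.filter fun z => f z = y + 1).card : ℝ) * (B.filter fun z => f z = x).card ≤
        (A.filter fun z => f z = x + 1).card * (B.filter fun z => f z = y).card := by exact_mod_cast h
    simp only [hp, hq]
    rw [div_mul_div_comm, div_mul_div_comm, mul_comm, mul_comm (B.card : ℝ),
      mul_comm ((B.filter fun z => f z = y).card : ℝ)]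
    exact div_le_div_of_nonneg_right h' (by positivity)
  have const_of : ∀ (p : ℤ → ℝ), (∀ k, M < k → p k = 0) → ∀ k, M ≤ k → cdf m p k = cdf m p M := by
    intro p hp0 k hk
    unfold cdf
    symm
    apply Finset.sum_subset (Finset.Icc_subset_Icc_right hk)
    intro j h1 h2
    simp only [Finset.mem_Icc] at h1 h2
    exact hp0 j (by omega)
  have hpz : ∀ k, M < k → p k = 0 := by
    intro k hk; simp only [hp]; rw [zero_of A k hAr (Or.inr hk)]; simp
  have hqz : ∀ k, M < k → q k = 0 := by
    intro k hk; simp only [hq]; rw [zero_of B k hBr (Or.inr hk)]; simp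
  have hqz' : ∀ k, k < m → q k = 0 := by
    intro k hk; simp only [hq]; rw [zero_of B k hBr (Or.inl hk)]; simp
  have d1 : ∀ k, cdf m p k ≤ cdf m q k := by
    intro k
    rcases le_or_gt k M with hk | hk
    · have := cdf_le_of_mlr m M p q k hk mlr1
      rwa [hp1, hq1, mul_one, mul_one] at this
    · rw [const_of p hpz k hk.le, const_of q hqz k hk.le, hp1, hq1]
  have d2 : ∀ k, cdf m q (k - 1) ≤ cdf m p k := by
    intro k
    set p' : ℤ → ℝ := fun j => p (j + 1) with hp'
    have shift : ∀ k, cdf (m - 1) p' (k - 1) = cdf m p k := by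
      intro k
      unfold cdf
      apply Finset.sum_nbij (fun j => j + 1)
      · intro j hj
        simp only [Finset.mem_Icc] at hj ⊢
        omega
      · intro a _ b _ h
        simpa using h
      · intro j hj
        simp only [Finset.coe_Icc, Set.mem_Icc] at hj
        exact ⟨j - 1, by simp only [Finset.coe_Icc, Set.mem_Icc]; omega, by simp⟩
      · intro j _; rfl
    have low : ∀ k, cdf (m - 1) q k = cdf m q k := by
      intro k
      unfold cdf
      symm
      apply Finset.sum_subset (Finset.Icc_subset_Icc_left (by omega))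
      intro j h1 h2
      simp only [Finset.mem_Icc] at h1 h2
      exact hqz' j (by omega)
    rcases le_or_gt (k - 1) M with hk | hk
    · have h := cdf_le_of_mlr (m - 1) M q p' (k - 1) hk mlr2
      have e1 : cdf (m - 1) p' M = 1 := by
        have := shift (M + 1)
        rw [add_sub_cancel_right] at this
        rw [this, const_of p hpz (M + 1) (by omega), hp1]
      rw [e1, low, low, hq1, mul_one, mul_one, shift] at h
      exact h
    · rw [const_of q hqz _ hk.le, const_of p hpz _ (by omega), hp1, hq1]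
  obtain ⟨r, r0, r1, r2, r3⟩ := quantile m M p q hp1 hq1 d1 d2
  refine glue K A B f (Finset.Icc m M) (fun x hx => Finset.mem_Icc.mpr (hAr x hx))
    (fun x hx => Finset.mem_Icc.mpr (hBr x hx)) r r0 r1 r2 ?_
  intro k hk k' hk' hne
  have hrpos : 0 < r k k' := lt_of_le_of_ne (r0 k k') (Ne.symm hne)
  have hAk : (A.filter fun z => f z = k).Nonempty := by
    rw [Finset.nonempty_iff_ne_empty]
    intro h0
    have : p k = 0 := by simp only [hp]; rw [h0]; simp
    have h5 := r1 k hk
    rw [this] at h5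
    have := (Finset.sum_eq_zero_iff_of_nonneg (fun j _ => r0 k j)).mp h5 k' hk'
    exact hne this
  have hBk : (B.filter fun z => f z = k').Nonempty := by
    rw [Finset.nonempty_iff_ne_empty]
    intro h0
    have : q k' = 0 := by simp only [hq]; rw [h0]; simp
    have h5 := r2 k' hk'
    rw [this] at h5
    have := (Finset.sum_eq_zero_iff_of_nonneg (fun j _ => r0 j k')).mp h5 k hk
    exact hne this
  rcases r3 k k' hne with h | h
  · subst h; exact h3 k hAk hBk
  · subst h; exact h4 k' hAk hBk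

end Crest.Agent.R309.Stab
end

-- ▼ part R309/Outer926B
section

/-!
# Row 309, outer sampler, part B (helper926): the block Poincaré inequality for box systems

* residue keys `rkey j X = X mod 2^j`, window keys `wkey L j u X = (X / 2^j + u) / L` (scalar shift);
* quotient systems: the points of `sys s t lo hi β` congruent to `x` mod `2^j` are the points
  `2^j Y + (x mod 2^j)` with `Y` in the quotient system;
* parity stability (`ParityNear`, from the stability chain) implies `Coupled`;
* `sys_block_poincare`.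
-/

set_option autoImplicit false
set_option linter.unusedSectionVars false

namespace Crest.Agent.R309.Outer926

open Finset Crest.Agent.R309.Stab Crest.Agent.R309.Blocks

variable {E V : Type} [Fintype E] [DecidableEq E] [Fintype V] [DecidableEq V]

/-- residue key of level `j` -/
def rkey (j : ℕ) (X : E → ℤ) : E → ℤ := fun e => X e % 2 ^ j

/-- window key of level `j`, window length `L`, scalar shift `u` -/
def wkey (L j : ℕ) (u : ℕ) (X : E → ℤ) : E → ℤ := fun e => (X e / 2 ^ j + u) / L

/-! ### quotient systems -/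

/-- lower bound of the quotient system -/
def qlo (lo ρ : E → ℤ) (j : ℕ) : E → ℤ := fun e => (lo e - ρ e + (2 ^ j - 1)) / 2 ^ j

/-- upper bound of the quotient system -/
def qhi (hi ρ : E → ℤ) (j : ℕ) : E → ℤ := fun e => (hi e - ρ e) / 2 ^ j

/-- quotient of a point -/
def quo (j : ℕ) (X : E → ℤ) : E → ℤ := fun e => X e / 2 ^ j

/-- the point `2^j Y + ρ` -/
def lift (j : ℕ) (ρ Y : E → ℤ) : E → ℤ := (2 ^ j : ℤ) • Y + ρ

theorem two_pow_pos' (j : ℕ) : (0 : ℤ) < 2 ^ j := by positivity

theorem lift_apply (j : ℕ) (ρ Y : E → ℤ) (e : E) : lift j ρ Y e = 2 ^ j * Y e + ρ e := by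
  simp [lift]

theorem lift_quo (j : ℕ) (X : E → ℤ) : lift j (rkey j X) (quo j X) = X := by
  funext e
  rw [lift_apply]
  exact Int.mul_ediv_add_emod (X e) (2 ^ j)

theorem lift_quo' {j : ℕ} {X ρ : E → ℤ} (h : rkey j X = ρ) : lift j ρ (quo j X) = X := by
  rw [← h, lift_quo]

theorem quo_lift (j : ℕ) (x Y : E → ℤ) : quo j (lift j (rkey j x) Y) = Y := by
  funext e
  have hp := two_pow_pos' j
  have h1 : 0 ≤ x e % 2 ^ j := Int.emod_nonneg _ hp.ne'
  have h2 : x e % 2 ^ j < 2 ^ j := Int.emod_lt_of_pos _ hp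
  show lift j (rkey j x) Y e / 2 ^ j = Y e
  rw [lift_apply, rkey, Int.add_comm, Int.add_mul_ediv_left _ _ hp.ne', Int.ediv_eq_zero_of_lt h1 h2,
    zero_add]

theorem rkey_lift (j : ℕ) (x Y : E → ℤ) : rkey j (lift j (rkey j x) Y) = rkey j x := by
  funext e
  show lift j (rkey j x) Y e % 2 ^ j = x e % 2 ^ j
  rw [lift_apply, rkey, Int.add_comm, Int.add_mul_emod_self_left, Int.emod_emod_of_dvd _ (dvd_refl _)]


theorem bd_lift (s t : E → V) (j : ℕ) (ρ Y : E → ℤ) :
    bd s t (lift j ρ Y) = (2 ^ j : ℤ) • bd s t Y + bd s t ρ := by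
  rw [lift, bd_add, bd_smul]

theorem le_lift_iff (lo ρ Y : E → ℤ) (j : ℕ) (e : E) :
    lo e ≤ lift j ρ Y e ↔ qlo lo ρ j e ≤ Y e := by
  have hp := two_pow_pos' j
  rw [lift_apply, qlo]
  constructor
  · intro h
    have : (lo e - ρ e + (2 ^ j - 1)) < (Y e + 1) * 2 ^ j := by nlinarith
    have := Int.ediv_lt_of_lt_mul hp this
    omega
  · intro h
    by_contra hcon
    push Not at hcon
    have h1 : Y e + 1 ≤ (lo e - ρ e + (2 ^ j - 1)) / 2 ^ j := by
      rw [Int.le_ediv_iff_mul_le hp]
      nlinarith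
    omega

theorem lift_le_iff (hi ρ Y : E → ℤ) (j : ℕ) (e : E) :
    lift j ρ Y e ≤ hi e ↔ Y e ≤ qhi hi ρ j e := by
  have hp := two_pow_pos' j
  rw [lift_apply, qhi, Int.le_ediv_iff_mul_le hp]
  constructor
  · intro h; linarith
  · intro h; linarith

/-- membership in the system for a lifted point, relative to a base point `x` -/
theorem lift_mem_sys {s t : E → V} {lo hi : E → ℤ} {β : V → ℤ} {x : E → ℤ}
    (hx : x ∈ sys s t lo hi β) (j : ℕ) (Y : E → ℤ) :
    lift j (rkey j x) Y ∈ sys s t lo hi β ↔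
      Y ∈ sys s t (qlo lo (rkey j x) j) (qhi hi (rkey j x) j) (bd s t (quo j x)) := by
  rw [mem_sys, mem_sys]
  have hxb := (mem_sys.mp hx).2
  have hp := two_pow_pos' j
  have hb : bd s t (lift j (rkey j x) Y) = β ↔ bd s t Y = bd s t (quo j x) := by
    rw [← hxb]
    conv_lhs => rw [← lift_quo j x]
    rw [rkey_lift, bd_lift, lift_quo, ← lift_quo j x, rkey_lift, lift_quo]
    have hx2 : bd s t x = (2 ^ j : ℤ) • bd s t (quo j x) + bd s t (rkey j x) := by
      conv_lhs => rw [← lift_quo j x]
      rw [bd_lift]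
    rw [hx2]
    constructor
    · intro h
      have h1 := add_right_cancel h
      funext v
      have h2 := congrFun h1 v
      simp only [Pi.smul_apply, smul_eq_mul] at h2
      exact mul_left_cancel₀ hp.ne' h2
    · intro h; rw [h]
  rw [hb]
  constructor
  · rintro ⟨h1, h2⟩
    exact ⟨fun e => ⟨(le_lift_iff lo _ Y j e).mp (h1 e).1, (lift_le_iff hi _ Y j e).mp (h1 e).2⟩, h2⟩
  · rintro ⟨h1, h2⟩
    exact ⟨fun e => ⟨(le_lift_iff lo _ Y j e).mpr (h1 e).1, (lift_le_iff hi _ Y j e).mpr (h1 e).2⟩, h2⟩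

theorem quo_mem {s t : E → V} {lo hi : E → ℤ} {β : V → ℤ} {x X : E → ℤ}
    (hx : x ∈ sys s t lo hi β) (j : ℕ) (hX : X ∈ sys s t lo hi β) (h : rkey j X = rkey j x) :
    quo j X ∈ sys s t (qlo lo (rkey j x) j) (qhi hi (rkey j x) j) (bd s t (quo j x)) := by
  rw [← lift_mem_sys hx, lift_quo' h]
  exact hX

theorem rkey_zero (X : E → ℤ) : rkey 0 X = 0 := by
  funext e
  simp [rkey]

theorem rkey_mono {j : ℕ} {X Y : E → ℤ} (h : rkey (j + 1) X = rkey (j + 1) Y) :
    rkey j X = rkey j Y := by
  funext e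
  have := congrFun h e
  simp only [rkey] at this ⊢
  have hd : (2 : ℤ) ^ j ∣ 2 ^ (j + 1) := pow_dvd_pow _ (by omega)
  rw [← Int.emod_emod_of_dvd (X e) hd, this, Int.emod_emod_of_dvd _ hd]

theorem rkey_succ_iff {j : ℕ} {X Y : E → ℤ} :
    rkey (j + 1) X = rkey (j + 1) Y ↔ rkey j X = rkey j Y ∧ rkey 1 (quo j X) = rkey 1 (quo j Y) := by
  have key : ∀ a : ℤ, a % 2 ^ (j + 1) = a % 2 ^ j + 2 ^ j * ((a / 2 ^ j) % 2) := by
    intro a
    have hp := two_pow_pos' j
    have hp1 := two_pow_pos' (j + 1)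
    have e1 : a = a % 2 ^ j + 2 ^ j * (a / 2 ^ j) := by
      have := Int.emod_add_mul_ediv a (2 ^ j); linarith
    have e2 : a / 2 ^ j = (a / 2 ^ j) % 2 + 2 * ((a / 2 ^ j) / 2) := by
      have := Int.emod_add_mul_ediv (a / 2 ^ j) 2; linarith
    have h1 : 0 ≤ a % 2 ^ j := Int.emod_nonneg _ hp.ne'
    have h2 : a % 2 ^ j < 2 ^ j := Int.emod_lt_of_pos _ hp
    have h3 : 0 ≤ (a / 2 ^ j) % 2 := Int.emod_nonneg _ (by norm_num)
    have h4 : (a / 2 ^ j) % 2 < 2 := Int.emod_lt_of_pos _ (by norm_num)
    have e3 : a = (a % 2 ^ j + 2 ^ j * ((a / 2 ^ j) % 2)) + 2 ^ (j + 1) * ((a / 2 ^ j) / 2) := by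
      rw [pow_succ]
      calc a = a % 2 ^ j + 2 ^ j * (a / 2 ^ j) := e1
        _ = a % 2 ^ j + 2 ^ j * ((a / 2 ^ j) % 2 + 2 * ((a / 2 ^ j) / 2)) := by rw [← e2]
        _ = _ := by ring
    have h5 : 0 ≤ a % 2 ^ j + 2 ^ j * ((a / 2 ^ j) % 2) := by positivity
    have h6 : a % 2 ^ j + 2 ^ j * ((a / 2 ^ j) % 2) < 2 ^ (j + 1) := by
      rw [pow_succ]; nlinarith
    conv_lhs => rw [e3]
    rw [Int.add_mul_emod_self_left, Int.emod_eq_of_lt h5 h6]
  constructor
  · intro h
    have h0 := rkey_mono h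
    refine ⟨h0, ?_⟩
    funext e
    have h1 := congrFun h e
    have h2 := congrFun h0 e
    simp only [rkey] at h1 h2
    rw [key, key, h2] at h1
    have hp := two_pow_pos' j
    have h3 : (2 : ℤ) ^ j * ((X e / 2 ^ j) % 2) = 2 ^ j * ((Y e / 2 ^ j) % 2) := by linarith
    have h4 := mul_left_cancel₀ hp.ne' h3
    simpa [rkey, quo] using h4
  · rintro ⟨h1, h2⟩
    funext e
    have h3 := congrFun h1 e
    have h4 := congrFun h2 e
    simp only [rkey, quo, pow_one] at h3 h4 ⊢
    rw [key, key, h3, h4]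

theorem rkey_inj {J : ℕ} {X Y : E → ℤ} (h : rkey J X = rkey J Y)
    (hd : ∀ e, |X e - Y e| < 2 ^ J) : X = Y := by
  funext e
  have h1 := congrFun h e
  simp only [rkey] at h1
  have h2 : (2 : ℤ) ^ J ∣ X e - Y e := Int.ModEq.dvd (Int.ModEq.symm h1)
  have h3 := Int.eq_zero_of_abs_lt_dvd h2 (hd e)
  linarith

/-! ### counting the separating shifts -/

theorem shift_count (L : ℕ) (hL : 0 < L) (a b : ℤ) (K : ℕ) (hK : |a - b| ≤ K) :
    ((Finset.range L).filter fun u : ℕ => (a + u) / (L : ℤ) ≠ (b + u) / (L : ℤ)).card ≤ K := by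
  wlog hab : a ≤ b generalizing a b
  · have := this b a (by rw [abs_sub_comm]; exact hK) (by omega)
    refine le_trans (Finset.card_le_card ?_) this
    intro u hu
    simp only [Finset.mem_filter] at hu ⊢
    exact ⟨hu.1, fun h => hu.2 h.symm⟩
  have hLp : (0 : ℤ) < L := by exact_mod_cast hL
  have hd : b - a ≤ K := by
    rw [abs_sub_comm] at hK
    exact (le_abs_self _).trans hK
  have hsub : ∀ u : ℕ, (a + u) / (L : ℤ) ≠ (b + u) / (L : ℤ) → (b + u) % (L : ℤ) < b - a := by
    intro u hu
    by_contra hcon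
    push Not at hcon
    apply hu
    have h1 := Int.emod_add_mul_ediv (b + u) L
    have h2 : (b + u) % (L : ℤ) < L := Int.emod_lt_of_pos _ hLp
    have e1 : a + u = ((b + u) % (L : ℤ) - (b - a)) + L * ((b + u) / (L : ℤ)) := by linarith
    rw [e1, Int.add_mul_ediv_left _ _ hLp.ne', Int.ediv_eq_zero_of_lt (by omega) (by omega), zero_add]
  calc ((Finset.range L).filter fun u : ℕ => (a + u) / (L : ℤ) ≠ (b + u) / (L : ℤ)).card
      ≤ (Finset.range K).card := by
        refine Finset.card_le_card_of_injOn (fun u => ((b + u) % (L : ℤ)).toNat) ?_ ?_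
        · intro u hu
          have hu' := Finset.mem_filter.mp (Finset.mem_coe.mp hu)
          have h1 := hsub u hu'.2
          have h0 : 0 ≤ (b + u) % (L : ℤ) := Int.emod_nonneg _ hLp.ne'
          simp only [Finset.coe_range, Set.mem_Iio]
          omega
        · intro u hu v hv huv
          have hu' := Finset.mem_range.mp (Finset.mem_filter.mp (Finset.mem_coe.mp hu)).1
          have hv' := Finset.mem_range.mp (Finset.mem_filter.mp (Finset.mem_coe.mp hv)).1
          have h0 : 0 ≤ (b + u) % (L : ℤ) := Int.emod_nonneg _ hLp.ne'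
          have h1 : 0 ≤ (b + v) % (L : ℤ) := Int.emod_nonneg _ hLp.ne'
          have h2 : (b + u) % (L : ℤ) = (b + v) % (L : ℤ) := by
            have := congrArg (fun n : ℕ => (n : ℤ)) huv
            simp only [Int.toNat_of_nonneg h0, Int.toNat_of_nonneg h1] at this
            exact this
          have h3 : (L : ℤ) ∣ (b + u) - (b + v) := Int.ModEq.dvd (Int.ModEq.symm h2)
          have h4 : |(b + u) - (b + v)| < (L : ℤ) := by
            rw [abs_lt]; constructor <;> omega
          have h5 := Int.eq_zero_of_abs_lt_dvd h3 h4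
          omega
    _ = K := Finset.card_range K

theorem wkey_count (L : ℕ) (hL : 0 < L) (j K : ℕ) (z z' : E → ℤ)
    (hK : ∀ e, |quo j z e - quo j z' e| ≤ (K : ℤ)) :
    ((Finset.range L).filter fun u => wkey L j u z ≠ wkey L j u z').card ≤ Fintype.card E * K := by
  classical
  calc ((Finset.range L).filter fun u => wkey L j u z ≠ wkey L j u z').card
      ≤ (Finset.univ.biUnion fun e : E => (Finset.range L).filter fun u : ℕ =>
          (quo j z e + u) / (L : ℤ) ≠ (quo j z' e + u) / (L : ℤ)).card := by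
        apply Finset.card_le_card
        intro u hu
        simp only [Finset.mem_filter, Finset.mem_biUnion, Finset.mem_univ, true_and] at hu ⊢
        obtain ⟨hu1, hu2⟩ := hu
        by_contra hcon
        push Not at hcon
        apply hu2
        funext e
        exact hcon e hu1
    _ ≤ ∑ e : E, ((Finset.range L).filter fun u : ℕ =>
          (quo j z e + u) / (L : ℤ) ≠ (quo j z' e + u) / (L : ℤ)).card := Finset.card_biUnion_le
    _ ≤ ∑ _e : E, K := Finset.sum_le_sum fun e _ => shift_count L hL _ _ K (hK e)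
    _ = Fintype.card E * K := by simp

/-! ### stability and the block Poincaré inequality -/

/-- Stability of parity classes: the uniform laws on any two parity classes of any system over the
graph `(s,t)` can be coupled at `ℓ_∞` distance `≤ K`. -/
def ParityNear (s t : E → V) (K : ℕ) : Prop :=
  ∀ (lo hi : E → ℤ) (β : V → ℤ), ∀ a ∈ sys s t lo hi β, ∀ b ∈ sys s t lo hi β,
    Near (K : ℤ) ((sys s t lo hi β).filter fun Y => rkey 1 Y = rkey 1 a)
      ((sys s t lo hi β).filter fun Y => rkey 1 Y = rkey 1 b)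

theorem coupled_of_near {s t : E → V} {K : ℕ} (hN : ParityNear s t K) (lo hi : E → ℤ) (β : V → ℤ)
    (L : ℕ) (hL : 0 < L) (j : ℕ) {x : E → ℤ} (hx : x ∈ sys s t lo hi β) {δ : ℝ}
    (hδ : (Fintype.card E * K : ℕ) ≤ δ * L) :
    Coupled (fib (sys s t lo hi β) (rkey j) x) (rkey (j + 1)) (Finset.range L) (wkey L j) δ := by
  classical
  set S := sys s t lo hi β with hS
  set Q := sys s t (qlo lo (rkey j x) j) (qhi hi (rkey j x) j) (bd s t (quo j x)) with hQ
  intro a ha b hb
  have ha' := mem_fib.mp ha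
  have hb' := mem_fib.mp hb
  have haQ : quo j a ∈ Q := quo_mem hx j ha'.1 ha'.2
  have hbQ : quo j b ∈ Q := quo_mem hx j hb'.1 hb'.2
  obtain ⟨π, h0, h1, h2, h3⟩ := hN _ _ _ (quo j a) haQ (quo j b) hbQ
  -- the fibres are in bijection with the parity classes of the quotient system
  have hbij : ∀ c ∈ fib S (rkey j) x,
      Set.BijOn (quo j) (↑(fib (fib S (rkey j) x) (rkey (j + 1)) c) : Set (E → ℤ))
        (↑(Q.filter fun Y => rkey 1 Y = rkey 1 (quo j c)) : Set (E → ℤ)) := by
    intro c hc
    have hc' := mem_fib.mp hc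
    refine ⟨?_, ?_, ?_⟩
    · intro z hz
      have hz' := mem_fib.mp (Finset.mem_coe.mp hz)
      have hz1 := mem_fib.mp hz'.1
      rw [Finset.mem_coe, Finset.mem_filter]
      exact ⟨quo_mem hx j hz1.1 hz1.2, (rkey_succ_iff.mp hz'.2).2⟩
    · intro z hz z' hz' h
      have hz1 := mem_fib.mp (mem_fib.mp (Finset.mem_coe.mp hz)).1
      have hz2 := mem_fib.mp (mem_fib.mp (Finset.mem_coe.mp hz')).1
      rw [← lift_quo' hz1.2, ← lift_quo' hz2.2, h]
    · intro Y hY
      have hY' := Finset.mem_filter.mp (Finset.mem_coe.mp hY)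
      refine ⟨lift j (rkey j x) Y, ?_, quo_lift j x Y⟩
      rw [Finset.mem_coe, mem_fib, mem_fib]
      refine ⟨⟨(lift_mem_sys hx j Y).mpr hY'.1, rkey_lift j x Y⟩, ?_⟩
      rw [rkey_succ_iff, quo_lift, rkey_lift]
      exact ⟨hc'.2.symm, hY'.2⟩
  have hca := hbij a ha
  have hcb := hbij b hb
  have carda : (fib (fib S (rkey j) x) (rkey (j + 1)) a).card =
      (Q.filter fun Y => rkey 1 Y = rkey 1 (quo j a)).card :=
    Finset.card_nbij (quo j) (fun z hz => hca.mapsTo hz) hca.injOn hca.surjOn
  have cardb : (fib (fib S (rkey j) x) (rkey (j + 1)) b).card =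
      (Q.filter fun Y => rkey 1 Y = rkey 1 (quo j b)).card :=
    Finset.card_nbij (quo j) (fun z hz => hcb.mapsTo hz) hcb.injOn hcb.surjOn
  refine ⟨fun z z' => π (quo j z) (quo j z'), fun z z' => h0 _ _, ?_, ?_, ?_⟩
  · intro z hz
    rw [carda, ← h1 (quo j z) (hca.mapsTo hz)]
    exact Finset.sum_nbij (quo j) (fun z hz => hcb.mapsTo hz) hcb.injOn hcb.surjOn (fun _ _ => rfl)
  · intro z hz
    rw [cardb, ← h2 (quo j z) (hcb.mapsTo hz)]
    exact Finset.sum_nbij (quo j) (fun z hz => hca.mapsTo hz) hca.injOn hca.surjOn (fun _ _ => rfl)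
  · intro z hz z' hz' hne
    have hK := h3 _ (hca.mapsTo hz) _ (hcb.mapsTo hz') hne
    have hcnt := wkey_count L hL j K z z' hK
    rw [Finset.card_range]
    refine le_trans ?_ hδ
    exact_mod_cast hcnt

/-- **Block Poincaré inequality for box systems.** -/
theorem sys_block_poincare {s t : E → V} {K : ℕ} (hN : ParityNear s t K) (lo hi : E → ℤ)
    (β : V → ℤ) (J : ℕ) (hJ : 2 ≤ J) (hrange : ∀ e, hi e - lo e < 2 ^ J) (L : ℕ) (hL : 0 < L)
    (hLJ : 2 * (Fintype.card E * K) * J ^ 2 ≤ L) (f : (E → ℤ) → ℝ) :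
    sv (sys s t lo hi β) f * ((Finset.range J ×ˢ Finset.range L).card : ℝ) ≤
      (4 * (J : ℝ)) * ∑ p ∈ Finset.range J ×ˢ Finset.range L,
        csv (sys s t lo hi β) (fun z => (rkey p.1 z, wkey L p.1 p.2 z)) f := by
  classical
  have hLr : (0 : ℝ) < L := by exact_mod_cast hL
  have hJr : (0 : ℝ) < J := by exact_mod_cast (by omega : 0 < J)
  set δ : ℝ := (Fintype.card E * K : ℕ) / L with hδ
  have hδ0 : 0 ≤ δ := by positivity
  have hδL : ((Fintype.card E * K : ℕ) : ℝ) ≤ δ * L := by
    rw [hδ, div_mul_cancel₀ _ hLr.ne']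
  refine block_poincare J hJ rkey (wkey L) hδ0 ?_ ?_ ?_ ?_ ?_ f
  · have h1 : 2 * δ ≤ (1 / (J : ℝ)) ^ 2 := by
      rw [hδ, div_pow, one_pow, mul_div_assoc', div_le_div_iff₀ hLr (by positivity), one_mul]
      have : ((2 * (Fintype.card E * K) * J ^ 2 : ℕ) : ℝ) ≤ L := by exact_mod_cast hLJ
      push_cast at this ⊢
      linarith
    calc √(2 * δ) ≤ √((1 / (J : ℝ)) ^ 2) := Real.sqrt_le_sqrt h1
      _ = 1 / J := Real.sqrt_sq (by positivity)
  · intro x _ y _; rw [rkey_zero, rkey_zero]
  · intro x hx y hy h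
    refine rkey_inj h fun e => ?_
    have h1 := (mem_sys.mp hx).1 e
    have h2 := (mem_sys.mp hy).1 e
    have h3 := hrange e
    rw [abs_lt]
    constructor <;> linarith
  · intro j _ x _ y _ h; exact rkey_mono h
  · intro j _ x hx
    exact coupled_of_near hN lo hi β L hL j hx hδL

end Crest.Agent.R309.Outer926
end

-- ▼ part R309/Outer926C
section

/-!
# Row 309, outer sampler, part C (helper926): the block Poincaré inequality for list tables

Transport of `sys_block_poincare` along the bijections `flows ↔ function tables ↔ list tables`.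
-/

set_option autoImplicit false
set_option linter.unusedSectionVars false

namespace Crest.Agent.R309.Outer926

open Finset Crest.Agent.R309.Stab Crest.Agent.R309.Blocks Crest.Agent.R309.Iface
  Crest.Agent.R309.Conv

section Transport

variable {X Y K K' : Type*} [DecidableEq X] [DecidableEq Y] [DecidableEq K] [DecidableEq K']

theorem avg_image (s : Finset X) (e : X → Y) (he : Set.InjOn e s) (g : Y → ℝ) :
    avg (s.image e) g = avg s (fun x => g (e x)) := by
  unfold avg
  rw [Finset.sum_image he, Finset.card_image_of_injOn he]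

theorem sv_image (s : Finset X) (e : X → Y) (he : Set.InjOn e s) (g : Y → ℝ) :
    sv (s.image e) g = sv s (fun x => g (e x)) := by
  unfold sv
  rw [Finset.sum_image he, avg_image s e he]

theorem csv_image (s : Finset X) (e : X → Y) (he : Set.InjOn e s) (κ : Y → K) (κ' : X → K')
    (hκ : ∀ x ∈ s, ∀ y ∈ s, κ (e x) = κ (e y) ↔ κ' x = κ' y) (g : Y → ℝ) :
    csv (s.image e) κ g = csv s κ' (fun x => g (e x)) := by
  unfold csv
  rw [Finset.sum_image he]
  refine Finset.sum_congr rfl fun x hx => ?_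
  have h1 : fib (s.image e) κ (e x) = (fib s κ' x).image e := by
    ext z
    rw [mem_fib, Finset.mem_image, Finset.mem_image]
    constructor
    · rintro ⟨⟨y, hy, rfl⟩, hz⟩
      exact ⟨y, mem_fib.mpr ⟨hy, (hκ y hy x hx).mp hz⟩, rfl⟩
    · rintro ⟨y, hy, rfl⟩
      have hy' := mem_fib.mp hy
      exact ⟨⟨y, hy'.1, rfl⟩, (hκ y hy'.1 x hx).mpr hy'.2⟩
  unfold cavg
  rw [h1, avg_image _ e (he.mono fun y hy => (mem_fib.mp hy).1)]

end Transport

/-- key of a list table: residues mod `2^j` and windows of length `L` of the quotients, shift `u` -/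
def tkey (L j u : ℕ) (X : Tab) : Tab × Tab :=
  (X.map (List.map (· % 2 ^ j)), X.map (List.map fun x => (x / 2 ^ j + u) / L))

/-- the flow key and the list key agree -/
theorem tkey_iff {m n : ℕ} (L j u : ℕ) (A B : Fin m → Fin n → ℕ) :
    tkey L j u (toL A) = tkey L j u (toL B) ↔
      (rkey j (toFlow A), wkey L j u (toFlow A)) = (rkey j (toFlow B), wkey L j u (toFlow B)) := by
  have h1 : ∀ (g : ℕ → ℕ) (X : Fin m → Fin n → ℕ), (toL X).map (List.map g) =
      toL (fun i k => g (X i k)) := by
    intro g X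
    simp [toL, List.map_ofFn, Function.comp_def]
  unfold tkey
  rw [h1, h1, h1, h1, Prod.mk.injEq, Prod.mk.injEq]
  have h2 : ∀ (g : ℕ → ℕ) (g' : ℤ → ℤ), (∀ x : ℕ, ((g x : ℕ) : ℤ) = g' x) →
      (toL (fun i k => g (A i k)) = toL (fun i k => g (B i k)) ↔
        (fun e => g' (toFlow A e)) = (fun e => g' (toFlow B e))) := by
    intro g g' hg
    constructor
    · intro h
      have := toL_injective h
      funext e
      have h3 := congrFun (congrFun this e.1) e.2
      show g' (A e.1 e.2 : ℤ) = g' (B e.1 e.2 : ℤ)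
      rw [← hg, ← hg]
      exact_mod_cast h3
    · intro h
      congr 1
      funext i k
      have h3 := congrFun h (i, k)
      have h4 : g' (A i k : ℤ) = g' (B i k : ℤ) := h3
      rw [← hg, ← hg] at h4
      exact_mod_cast h4
  rw [h2 (· % 2 ^ j) (· % 2 ^ j) (by intro x; push_cast; rfl),
    h2 (fun x => (x / 2 ^ j + u) / L) (fun x => (x / 2 ^ j + u) / L) (by intro x; push_cast; rfl)]
  rfl

/-- **Block Poincaré inequality for function tables.** -/
theorem inst_block_poincare {m n K : ℕ}
    (hN : ParityNear (cs : Fin m × Fin n → Fin m ⊕ Fin n) ct K)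
    (r : Fin m → ℕ) (c : Fin n → ℕ) (b : Fin m → Fin n → ℕ) (J : ℕ) (hJ : 2 ≤ J)
    (hb : ∀ i k, b i k < 2 ^ J) (L : ℕ) (hL : 0 < L)
    (hLJ : 2 * (m * n * K) * J ^ 2 ≤ L) (f : Tab → ℝ) :
    sv (tabs (inst r c b)) f * ((Finset.range J ×ˢ Finset.range L).card : ℝ) ≤
      (4 * (J : ℝ)) * ∑ p ∈ Finset.range J ×ˢ Finset.range L,
        csv (tabs (inst r c b)) (tkey L p.1 p.2) f := by
  classical
  set g : (Fin m × Fin n → ℤ) → ℝ := fun x => f (toL (ofFlow x)) with hg
  have hinj1 : Set.InjOn (toL : (Fin m → Fin n → ℕ) → Tab) (ftabs r c b) := toL_injective.injOn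
  have hinj2 : Set.InjOn (toFlow : (Fin m → Fin n → ℕ) → _) (ftabs r c b) := toFlow_injective.injOn
  have hmain := sys_block_poincare hN (fun _ => 0) (toFlow b) (marg r c) J hJ
    (by intro e; have := hb e.1 e.2; show (b e.1 e.2 : ℤ) - 0 < 2 ^ J; rw [sub_zero]; exact_mod_cast this)
    L hL (by simpa [Fintype.card_prod] using hLJ) g
  rw [sys_eq_image, sv_image _ _ hinj2] at hmain
  rw [tabs_inst, sv_image _ _ hinj1]
  have e1 : (fun x => g (toFlow x)) = fun x : Fin m → Fin n → ℕ => f (toL x) := by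
    funext x; simp [hg]
  rw [e1] at hmain
  refine hmain.trans_eq ?_
  congr 1
  refine Finset.sum_congr rfl fun p _ => ?_
  rw [csv_image (ftabs r c b) toFlow hinj2 (fun z => (rkey p.1 z, wkey L p.1 p.2 z))
    (fun A => tkey L p.1 p.2 (toL A)) (fun A _ B _ => (tkey_iff L p.1 p.2 A B).symm), e1,
    csv_image (ftabs r c b) toL hinj1 (tkey L p.1 p.2)
    (fun A => tkey L p.1 p.2 (toL A)) (fun A _ B _ => Iff.rfl)]

/-- **Block Poincaré inequality for list instances.** -/
theorem tabs_block_poincare (I : Inst) {K : ℕ}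
    (hN : ParityNear (cs : Fin I.1.length × Fin I.2.1.length → Fin I.1.length ⊕ Fin I.2.1.length)
      ct K) (J : ℕ) (hJ : 2 ≤ J)
    (hb : ∀ row ∈ I.2.2, ∀ b ∈ row, b < 2 ^ J) (L : ℕ) (hL : 0 < L)
    (hLJ : 2 * (I.1.length * I.2.1.length * K) * J ^ 2 ≤ L) (f : Tab → ℝ) :
    sv (tabs I) f * ((Finset.range J ×ˢ Finset.range L).card : ℝ) ≤
      (4 * (J : ℝ)) * ∑ p ∈ Finset.range J ×ˢ Finset.range L,
        csv (tabs I) (tkey L p.1 p.2) f := by
  classical
  by_cases hS : Shaped I
  · have hI := inst_of_shaped hS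
    have hbb : ∀ i k, bdsF I i k < 2 ^ J := by
      intro i k
      have hi : i.val < I.2.2.length := by rw [hS.1]; exact i.2
      have h1 : I.2.2[i.val] ∈ I.2.2 := List.getElem_mem hi
      have h2 := hS.2 _ h1
      have hk : k.val < (I.2.2[i.val]).length := by rw [h2]; exact k.2
      have e1 : bdsF I i k = (I.2.2[i.val])[k.val] := by
        unfold bdsF ofL
        rw [List.getD_eq_getElem _ _ hi, List.getD_eq_getElem _ _ hk]
      rw [e1]
      exact hb _ h1 _ (List.getElem_mem hk)
    have h := inst_block_poincare hN (rowsF I) (colsF I) (bdsF I) J hJ hbb L hL hLJ f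
    rw [hI] at h
    exact h
  · have hemp : tabs I = ∅ := by
      rw [Finset.eq_empty_iff_forall_notMem]
      intro X hX
      exact hS (IsTab.shaped (mem_tabs.mp hX))
    rw [hemp]
    simp [sv, csv]

end Crest.Agent.R309.Outer926
end

-- ▼ part R309/Stab3
section

/-!
# Row 309, stability chain, part 3 (helper550)

One-unit stability `near_one`, demand path `near_demand`, bound changes `near_bounds`.
-/

set_option autoImplicit false
set_option linter.unusedSectionVars false

namespace Crest.Agent.R309.Stab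

open Finset

variable {E V : Type} [Fintype E] [DecidableEq E] [Fintype V] [DecidableEq V]

/-! ### slices -/

theorem bd_update (s t : E → V) (x : E → ℤ) (e : E) (k : ℤ) :
    bd s t (Function.update x e k) = bd s t x + (k - x e) • chi s t e := by
  have : Function.update x e k = x + Pi.single e (k - x e) := by
    funext e'
    by_cases h : e' = e
    · subst h; simp
    · simp [h]
  rw [this, bd_add, bd_single]

theorem slice_bij (s t : E → V) (lo hi : E → ℤ) (β : V → ℤ) (e : E) (σ : ℤ) (hσ : σ * σ = 1) (j : ℤ)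
    (hj : lo e ≤ σ * j ∧ σ * j ≤ hi e) :
    Set.BijOn (fun x : E → ℤ => Function.update x e 0)
      ((sys s t lo hi β).filter fun x => σ * x e = j : Finset (E → ℤ))
      (sys s t (Function.update lo e 0) (Function.update hi e 0) (β - j • (σ • chi s t e)) :
        Finset (E → ℤ)) := by
  have hval : ∀ x : E → ℤ, σ * x e = j → x e = σ * j := by
    intro x hx; rw [← hx, ← mul_assoc, hσ, one_mul]
  refine ⟨?_, ?_, ?_⟩
  · intro x hx
    rw [Finset.mem_coe, Finset.mem_filter, mem_sys] at hx
    obtain ⟨⟨h1, h2⟩, h3⟩ := hx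
    rw [Finset.mem_coe, mem_sys]
    refine ⟨fun e' => ?_, ?_⟩
    · by_cases h : e' = e
      · subst h; simp
      · simp only [Function.update_of_ne h]; exact h1 e'
    · rw [bd_update, h2, hval x h3, zero_sub, neg_smul, smul_smul, mul_comm σ j]
      abel
  · intro x hx y hy h
    rw [Finset.mem_coe, Finset.mem_filter] at hx hy
    funext e'
    by_cases h' : e' = e
    · subst h'
      rw [hval x hx.2, hval y hy.2]
    · have := congrFun h e'
      simpa [Function.update_of_ne h'] using this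
  · intro y hy
    rw [Finset.mem_coe, mem_sys] at hy
    obtain ⟨h1, h2⟩ := hy
    have hye : y e = 0 := by
      have := h1 e
      simp only [Function.update_self] at this
      omega
    refine ⟨Function.update y e (σ * j), ?_, ?_⟩
    · rw [Finset.mem_coe, Finset.mem_filter, mem_sys]
      refine ⟨⟨fun e' => ?_, ?_⟩, ?_⟩
      · by_cases h : e' = e
        · subst h; simpa using hj
        · have := h1 e'
          simpa only [Function.update_of_ne h] using this
      · rw [bd_update, h2, hye, sub_zero, smul_smul, mul_comm σ j]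
        abel
      · rw [Function.update_self, ← mul_assoc, hσ, one_mul]
    · dsimp only
      rw [Function.update_idem]
      funext e'
      by_cases h : e' = e
      · subst h; simp [hye]
      · simp [Function.update_of_ne h]

theorem slice_range (s t : E → V) (lo hi : E → ℤ) (β : V → ℤ) (e : E) (σ : ℤ) (hσ : σ * σ = 1) (j : ℤ)
    (h : ((sys s t lo hi β).filter fun x => σ * x e = j).Nonempty) :
    (lo e ≤ σ * j ∧ σ * j ≤ hi e) ∧
      (sys s t (Function.update lo e 0) (Function.update hi e 0) (β - j • (σ • chi s t e))).Nonempty := by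
  obtain ⟨x, hx⟩ := h
  have hx' := hx
  rw [Finset.mem_filter, mem_sys] at hx
  obtain ⟨⟨h1, h2⟩, h3⟩ := hx
  have hval : x e = σ * j := by rw [← h3, ← mul_assoc, hσ, one_mul]
  have hr : lo e ≤ σ * j ∧ σ * j ≤ hi e := by rw [← hval]; exact h1 e
  exact ⟨hr, _, (slice_bij s t lo hi β e σ hσ j hr).mapsTo hx'⟩

theorem slice_card (s t : E → V) (lo hi : E → ℤ) (β : V → ℤ) (e : E) (σ : ℤ) (hσ : σ * σ = 1) (j : ℤ) :
    ((sys s t lo hi β).filter fun x => σ * x e = j).card =
      if lo e ≤ σ * j ∧ σ * j ≤ hi e then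
        (sys s t (Function.update lo e 0) (Function.update hi e 0) (β - j • (σ • chi s t e))).card
      else 0 := by
  split_ifs with h
  · have hb := slice_bij s t lo hi β e σ hσ j h
    exact Finset.card_nbij _ (fun x hx => hb.mapsTo hx) hb.injOn hb.surjOn
  · rw [Finset.card_eq_zero]
    by_contra hne
    exact h (slice_range s t lo hi β e σ hσ j (Finset.nonempty_iff_ne_empty.mpr hne)).1

theorem near_slice {K : ℤ} (hK : 1 ≤ K) (s t : E → V) (lo hi lo' hi' : E → ℤ) (β β' : V → ℤ) (e : E)
    (σ : ℤ) (hσ : σ * σ = 1) (j j' : ℤ) (hj : lo e ≤ σ * j ∧ σ * j ≤ hi e)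
    (hj' : lo' e ≤ σ * j' ∧ σ * j' ≤ hi' e) (hjj : |j - j'| ≤ 1)
    (h : Near K (sys s t (Function.update lo e 0) (Function.update hi e 0) (β - j • (σ • chi s t e)))
      (sys s t (Function.update lo' e 0) (Function.update hi' e 0) (β' - j' • (σ • chi s t e)))) :
    Near K ((sys s t lo hi β).filter fun x => σ * x e = j)
      ((sys s t lo' hi' β').filter fun x => σ * x e = j') := by
  refine Near.of_bij _ _ (slice_bij s t lo hi β e σ hσ j hj) (slice_bij s t lo' hi' β' e σ hσ j' hj')
    ?_ h
  intro x hx y hy hxy e'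
  by_cases h' : e' = e
  · subst h'
    rw [Finset.mem_filter] at hx hy
    have hσ' : σ = 1 ∨ σ = -1 := by
      rcases Int.isUnit_iff.mp (IsUnit.of_mul_eq_one _ hσ) with h | h
      · exact Or.inl h
      · exact Or.inr h
    have e1 := hx.2; have e2 := hy.2
    rw [abs_le] at hjj ⊢
    rcases hσ' with rfl | rfl <;> constructor <;> omega
  · have := hxy e'
    simpa only [Function.update_of_ne h'] using this

/-! ### one-unit stability -/

theorem near_one_aux (s t : E → V) (hst : ∀ e, s e ≠ t e) (n : ℕ) :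
    ∀ (lo hi : E → ℤ), (univ.filter fun e => lo e < hi e).card ≤ n → ∀ (κ : V → ℤ) (a c : V),
      (sys s t lo hi (κ + uv a)).Nonempty → (sys s t lo hi (κ + uv c)).Nonempty →
        Near 1 (sys s t lo hi (κ + uv a)) (sys s t lo hi (κ + uv c)) := by
  induction n with
  | zero =>
    intro lo hi hn κ a c ⟨x, hx⟩ ⟨y, hy⟩
    have hn' : ∀ e, hi e ≤ lo e := by
      intro e
      have h0 : (univ.filter fun e => lo e < hi e) = ∅ := by
        rw [← Finset.card_eq_zero]; omega
      have := Finset.filter_eq_empty_iff.mp h0 (Finset.mem_univ e)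
      omega
    rw [mem_sys] at hx hy
    have hxy : x = y := by
      funext e
      have := hx.1 e; have := hy.1 e; have := hn' e
      omega
    have : κ + uv a = κ + uv c := by rw [← hx.2, ← hy.2, hxy]
    rw [this]
    exact Near.refl _ (by norm_num)
  | succ n ih =>
    intro lo hi hn κ a c hA hB
    by_cases hac : a = c
    · subst hac; exact Near.refl _ (by norm_num)
    obtain ⟨x, hx⟩ := id hA
    obtain ⟨y, hy⟩ := id hB
    rw [mem_sys] at hx hy
    -- a cell at `a` on which `x` and `y` differ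
    obtain ⟨e, he⟩ : ∃ e, x e * chi s t e a ≠ y e * chi s t e a := by
      by_contra hcon
      push Not at hcon
      have h1 : bd s t x a = bd s t y a := Finset.sum_congr rfl fun e _ => hcon e
      rw [hx.2, hy.2] at h1
      simp [hac] at h1
    have hxye : x e ≠ y e := fun h => he (by rw [h])
    have hfree : lo e < hi e := by
      have := hx.1 e; have := hy.1 e
      omega
    obtain ⟨σ, u, hua, hσ, hχ⟩ : ∃ (σ : ℤ) (u : V), u ≠ a ∧ (σ = 1 ∨ σ = -1) ∧
        chi s t e = σ • (uv a - uv u) := by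
      by_cases h1 : s e = a
      · refine ⟨1, t e, ?_, Or.inl rfl, ?_⟩
        · rintro h2; exact hst e (h1.trans h2.symm)
        · rw [chi_eq, h1, one_smul]
      · by_cases h2 : t e = a
        · refine ⟨-1, s e, h1, Or.inr rfl, ?_⟩
          rw [chi_eq, h2]; simp
        · exfalso
          simp [chi, h1, h2] at he
    have hsq : σ * σ = 1 := by rcases hσ with rfl | rfl <;> norm_num
    have hψ : σ • chi s t e = uv a - uv u := by rw [hχ, smul_smul, hsq, one_smul]
    -- the smaller system
    set lo' := Function.update lo e 0 with hlo'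
    set hi' := Function.update hi e 0 with hhi'
    have hn' : (univ.filter fun e' => lo' e' < hi' e').card ≤ n := by
      have hsub : (univ.filter fun e' => lo' e' < hi' e') ⊆
          (univ.filter fun e' => lo e' < hi e').erase e := by
        intro e' he'
        rw [Finset.mem_filter] at he'
        rw [Finset.mem_erase, Finset.mem_filter]
        by_cases h : e' = e
        · subst h
          simp [hlo', hhi'] at he'
        · refine ⟨h, Finset.mem_univ _, ?_⟩
          simpa only [hlo', hhi', Function.update_of_ne h] using he'.2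
      have h1 := Finset.card_le_card hsub
      rw [Finset.card_erase_of_mem (by simp [hfree])] at h1
      omega
    have IH := ih lo' hi' hn'
    -- the two forms of the slices
    have eA : ∀ j : ℤ, κ + uv a - j • (σ • chi s t e) = (κ - j • (uv a - uv u)) + uv a := by
      intro j; rw [hψ]; abel
    have eA' : ∀ j : ℤ, κ + uv a - (j + 1) • (σ • chi s t e) = (κ - j • (uv a - uv u)) + uv u := by
      intro j; rw [hψ, add_smul, one_smul]; abel
    have eB : ∀ j : ℤ, κ + uv c - j • (σ • chi s t e) = (κ - j • (uv a - uv u)) + uv c := by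
      intro j; rw [hψ]; abel
    have conv : ∀ x y z : ℤ, x ≤ z → z ≤ y → (lo e ≤ σ * x ∧ σ * x ≤ hi e) →
        (lo e ≤ σ * y ∧ σ * y ≤ hi e) → (lo e ≤ σ * z ∧ σ * z ≤ hi e) := by
      intro x y z h1 h2 h3 h4
      rcases hσ with rfl | rfl <;> constructor <;> omega
    refine cell_step 1 _ _ (fun x => σ * x e) hA hB ?_ ?_ ?_ ?_
    · intro x y hxy
      rw [slice_card _ _ _ _ _ _ _ hsq, slice_card _ _ _ _ _ _ _ hsq,
        slice_card _ _ _ _ _ _ _ hsq, slice_card _ _ _ _ _ _ _ hsq]
      by_cases h1 : lo e ≤ σ * x ∧ σ * x ≤ hi e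
      · by_cases h2 : lo e ≤ σ * y ∧ σ * y ≤ hi e
        · rw [if_pos h1, if_pos h2, if_pos h2, if_pos h1, eA, eA, eB, eB]
          have := rayleigh s t hst lo' hi' (κ - y • (uv a - uv u)) ((y - x) • (uv a - uv u)) a c ?_
          · have e1 : κ - y • (uv a - uv u) + (y - x) • (uv a - uv u) =
                κ - x • (uv a - uv u) := by rw [sub_smul]; abel
            rw [e1] at this
            exact this
          · intro v hv
            simp only [Pi.smul_apply, Pi.sub_apply, uv, Pi.single_eq_of_ne hv, smul_eq_mul, zero_sub]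
            have : (0 : ℤ) ≤ (Pi.single u 1 : V → ℤ) v := by
              by_cases h : v = u
              · subst h; simp
              · simp [h]
            nlinarith
        · rw [if_neg h2]; simp
      · rw [if_neg h1]; simp
    · intro x y hxy
      rw [slice_card _ _ _ _ _ _ _ hsq, slice_card _ _ _ _ _ _ _ hsq,
        slice_card _ _ _ _ _ _ _ hsq, slice_card _ _ _ _ _ _ _ hsq]
      by_cases h1 : lo e ≤ σ * (y + 1) ∧ σ * (y + 1) ≤ hi e
      · by_cases h2 : lo e ≤ σ * x ∧ σ * x ≤ hi e
        · rw [if_pos h1, if_pos h2, if_pos (conv x (y + 1) (x + 1) (by omega) (by omega) h2 h1),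
            if_pos (conv x (y + 1) y (by omega) (by omega) h2 h1), eA', eA', eB, eB]
          have := rayleigh s t hst lo' hi' (κ - x • (uv a - uv u)) ((y - x) • (uv u - uv a)) u c ?_
          · have e1 : κ - x • (uv a - uv u) + (y - x) • (uv u - uv a) =
                κ - y • (uv a - uv u) := by
              have : (uv u - uv a : V → ℤ) = -(uv a - uv u) := by abel
              rw [this, smul_neg, sub_smul]; abel
            rw [e1] at this
            exact this
          · intro v hv
            simp only [Pi.smul_apply, Pi.sub_apply, uv, Pi.single_eq_of_ne hv, smul_eq_mul, zero_sub]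
            have : (0 : ℤ) ≤ (Pi.single a 1 : V → ℤ) v := by
              by_cases h : v = a
              · subst h; simp
              · simp [h]
            nlinarith
        · rw [if_neg h2]; simp
      · rw [if_neg h1]; simp
    · intro j h1 h2
      have r1 := slice_range s t lo hi _ e σ hsq j h1
      have r2 := slice_range s t lo hi _ e σ hsq j h2
      refine near_slice le_rfl s t lo hi lo hi _ _ e σ hsq j j r1.1 r2.1 (by simp) ?_
      have n1 := r1.2
      have n2 := r2.2
      rw [eA] at n1 ⊢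
      rw [eB] at n2 ⊢
      exact IH _ _ _ n1 n2
    · intro j h1 h2
      have r1 := slice_range s t lo hi _ e σ hsq (j + 1) h1
      have r2 := slice_range s t lo hi _ e σ hsq j h2
      refine near_slice le_rfl s t lo hi lo hi _ _ e σ hsq (j + 1) j r1.1 r2.1 (by simp) ?_
      have n1 := r1.2
      have n2 := r2.2
      rw [eA'] at n1 ⊢
      rw [eB] at n2 ⊢
      exact IH _ _ _ n1 n2

/-- **One-unit stability**: moving one unit of demand moves the uniform law by at most one in
every cell. -/
theorem near_one (s t : E → V) (hst : ∀ e, s e ≠ t e) (lo hi : E → ℤ) (κ : V → ℤ) (a c : V)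
    (hA : (sys s t lo hi (κ + uv a)).Nonempty) (hB : (sys s t lo hi (κ + uv c)).Nonempty) :
    Near 1 (sys s t lo hi (κ + uv a)) (sys s t lo hi (κ + uv c)) :=
  near_one_aux s t hst _ lo hi le_rfl κ a c hA hB

/-- demand path -/
theorem near_demand (s t : E → V) (hst : ∀ e, s e ≠ t e) (lo hi : E → ℤ) (n : ℕ) :
    ∀ (β β' : V → ℤ), (∑ v, (β v - β' v).toNat) ≤ n →
      (sys s t lo hi β).Nonempty → (sys s t lo hi β').Nonempty →
        Near n (sys s t lo hi β) (sys s t lo hi β') := by
  induction n with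
  | zero =>
    intro β β' hn hA hB
    obtain ⟨x, hx⟩ := id hA
    obtain ⟨y, hy⟩ := id hB
    rw [mem_sys] at hx hy
    have h1 : ∀ v, β v ≤ β' v := by
      intro v
      have h := (Finset.sum_eq_zero_iff.mp (Nat.le_zero.mp hn)) v (Finset.mem_univ _)
      omega
    have h2 : ∑ v, β v = ∑ v, β' v := by
      rw [← hx.2, ← hy.2, sum_bd, sum_bd]
    have h3 : β = β' := by
      funext v
      exact (Finset.sum_eq_sum_iff_of_le fun v _ => h1 v).mp h2 v (Finset.mem_univ _)
    rw [h3]
    exact Near.refl _ (by simp)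
  | succ n ih =>
    intro β β' hn hA hB
    by_cases hββ : β = β'
    · rw [hββ]; exact Near.refl _ (by positivity)
    obtain ⟨x, hx⟩ := id hA
    obtain ⟨y, hy⟩ := id hB
    rw [mem_sys] at hx hy
    have h2 : ∑ v, β' v = ∑ v, β v := by
      rw [← hx.2, ← hy.2, sum_bd, sum_bd]
    obtain ⟨c, hc⟩ : ∃ c, β c < β' c := by
      by_contra hcon
      push Not at hcon
      apply hββ
      funext v
      exact ((Finset.sum_eq_sum_iff_of_le fun v _ => hcon v).mp h2 v (Finset.mem_univ _)).symm
    obtain ⟨a, ha, z, hz, hzb⟩ := walk s t hst _ x y rfl c (by rw [hx.2, hy.2]; exact hc)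
    rw [hx.2, hy.2] at ha
    rw [hx.2] at hzb
    have hac : a ≠ c := by rintro rfl; omega
    have hz' : (sys s t lo hi (β - uv a + uv c)).Nonempty := by
      refine ⟨z, ?_⟩
      rw [mem_sys]
      refine ⟨fun e => ?_, hzb⟩
      have := hx.1 e; have := hy.1 e; have := hz e
      omega
    have h1 := near_one s t hst lo hi (β - uv a) a c (by simpa using hA) hz'
    have h3 : Near n (sys s t lo hi (β - uv a + uv c)) (sys s t lo hi β') := by
      apply ih _ _ _ hz' hB
      have h4 : ∑ v, ((β - uv a + uv c) v - β' v).toNat < ∑ v, (β v - β' v).toNat := by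
        apply Finset.sum_lt_sum
        · intro v _
          simp only [Pi.add_apply, Pi.sub_apply, uv, Pi.single_apply]
          by_cases hva : v = a
          · subst hva
            simp only [if_true, if_neg hac]
            omega
          · by_cases hvc : v = c
            · subst hvc
              simp only [if_true, if_neg hva]
              omega
            · simp [hva, hvc]
        · refine ⟨a, Finset.mem_univ _, ?_⟩
          simp only [Pi.add_apply, Pi.sub_apply, uv, Pi.single_apply, if_true, if_neg hac]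
          omega
      omega
    have h4 := h1.trans h3
    simp only [sub_add_cancel] at h4
    refine h4.mono ?_
    push_cast; omega

end Crest.Agent.R309.Stab
end

-- ▼ part R309/Stab4
section

/-!
# Row 309, stability chain, part 4 (helper550)

Bound changes, residue classes, windows.
-/

set_option autoImplicit false
set_option linter.unusedSectionVars false

namespace Crest.Agent.R309.Stab

open Finset

variable {E V : Type} [Fintype E] [DecidableEq E] [Fintype V] [DecidableEq V]

/-- enlarging the range of one cell by one unit (in direction `σ`) moves the uniform law by at most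
one -/
theorem near_enlarge (s t : E → V) (hst : ∀ e, s e ≠ t e) (lo hi lo' hi' : E → ℤ) (β : V → ℤ) (e : E)
    (σ : ℤ) (hσ : σ = 1 ∨ σ = -1) (hlo : ∀ e', e' ≠ e → lo' e' = lo e') (hhi : ∀ e', e' ≠ e → hi' e' = hi e')
    (p q : ℤ)
    (hr : ∀ j, (lo e ≤ σ * j ∧ σ * j ≤ hi e) ↔ (p ≤ j ∧ j ≤ q))
    (hr' : ∀ j, (lo' e ≤ σ * j ∧ σ * j ≤ hi' e) ↔ (p ≤ j ∧ j ≤ q + 1))
    (hB : (sys s t lo hi β).Nonempty) (hA : (sys s t lo' hi' β).Nonempty) :
    Near 1 (sys s t lo' hi' β) (sys s t lo hi β) := by
  have hsq : σ * σ = 1 := by rcases hσ with rfl | rfl <;> norm_num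
  have elo : Function.update lo' e 0 = Function.update lo e 0 := by
    funext e'
    by_cases h : e' = e
    · subst h; simp
    · simp only [Function.update_of_ne h]; exact hlo e' h
  have ehi : Function.update hi' e 0 = Function.update hi e 0 := by
    funext e'
    by_cases h : e' = e
    · subst h; simp
    · simp only [Function.update_of_ne h]; exact hhi e' h
  obtain ⟨a, u, hua, hψ⟩ : ∃ a u : V, u ≠ a ∧ σ • chi s t e = uv a - uv u := by
    rcases hσ with rfl | rfl
    · exact ⟨s e, t e, (hst e).symm, by rw [chi_eq, one_smul]⟩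
    · exact ⟨t e, s e, hst e, by rw [chi_eq]; simp⟩
  set lo0 := Function.update lo e 0 with hlo0
  set hi0 := Function.update hi e 0 with hhi0
  refine cell_step 1 _ _ (fun x => σ * x e) hA hB ?_ ?_ ?_ ?_
  · intro x y hxy
    rw [slice_card _ _ _ _ _ _ _ hsq, slice_card _ _ _ _ _ _ _ hsq,
      slice_card _ _ _ _ _ _ _ hsq, slice_card _ _ _ _ _ _ _ hsq, elo, ehi]
    simp only [hr, hr']
    by_cases h1 : p ≤ x ∧ x ≤ q + 1
    · by_cases h2 : p ≤ y ∧ y ≤ q
      · rw [if_pos h1, if_pos h2, if_pos (by omega), if_pos (by omega), mul_comm]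
      · rw [if_neg h2]; simp
    · rw [if_neg h1]; simp
  · intro x y hxy
    rw [slice_card _ _ _ _ _ _ _ hsq, slice_card _ _ _ _ _ _ _ hsq,
      slice_card _ _ _ _ _ _ _ hsq, slice_card _ _ _ _ _ _ _ hsq, elo, ehi]
    simp only [hr, hr']
    by_cases h1 : p ≤ y + 1 ∧ y + 1 ≤ q + 1
    · by_cases h2 : p ≤ x ∧ x ≤ q
      · rw [if_pos h1, if_pos h2, if_pos (by omega), if_pos (by omega)]
        have := rayleigh s t hst lo0 hi0 (β - y • (uv a - uv u) - uv a) ((y - x) • (uv a - uv u)) a u ?_
        · have e1 : β - y • (uv a - uv u) - uv a + (y - x) • (uv a - uv u) + uv a =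
              β - x • (σ • chi s t e) := by rw [hψ, sub_smul]; abel
          have e2 : β - y • (uv a - uv u) - uv a + uv u = β - (y + 1) • (σ • chi s t e) := by
            rw [hψ, add_smul, one_smul]; abel
          have e3 : β - y • (uv a - uv u) - uv a + uv a = β - y • (σ • chi s t e) := by
            rw [hψ]; abel
          have e4 : β - y • (uv a - uv u) - uv a + (y - x) • (uv a - uv u) + uv u =
              β - (x + 1) • (σ • chi s t e) := by
            rw [hψ, sub_smul, add_smul, one_smul]; abel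
          rw [e1, e2, e3, e4] at this
          rw [mul_comm, mul_comm (sys s t lo0 hi0 (β - (x + 1) • σ • chi s t e)).card]
          exact this
        · intro v hv
          simp only [Pi.smul_apply, Pi.sub_apply, uv, Pi.single_eq_of_ne hv, smul_eq_mul, zero_sub]
          have : (0 : ℤ) ≤ (Pi.single u 1 : V → ℤ) v := by
            by_cases h : v = u
            · subst h; simp
            · simp [h]
          nlinarith
      · rw [if_neg h2]; simp
    · rw [if_neg h1]; simp
  · intro j h1 h2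
    have r1 := slice_range s t lo' hi' _ e σ hsq j h1
    have r2 := slice_range s t lo hi _ e σ hsq j h2
    refine near_slice le_rfl s t lo' hi' lo hi _ _ e σ hsq j j r1.1 r2.1 (by simp) ?_
    rw [elo, ehi]
    exact Near.refl _ (by norm_num)
  · intro j h1 h2
    have r1 := slice_range s t lo' hi' _ e σ hsq (j + 1) h1
    have r2 := slice_range s t lo hi _ e σ hsq j h2
    refine near_slice le_rfl s t lo' hi' lo hi _ _ e σ hsq (j + 1) j r1.1 r2.1 (by simp) ?_
    have n1 := r1.2
    have n2 := r2.2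
    rw [elo, ehi] at n1 ⊢
    have e3 : β - j • (σ • chi s t e) = β - j • (uv a - uv u) - uv a + uv a := by
      rw [hψ]; abel
    have e2 : β - (j + 1) • (σ • chi s t e) = β - j • (uv a - uv u) - uv a + uv u := by
      rw [hψ, add_smul, one_smul]; abel
    rw [e2] at n1 ⊢
    rw [e3] at n2 ⊢
    exact near_one s t hst lo0 hi0 _ _ _ n1 n2

theorem near_enlarge_hi (s t : E → V) (hst : ∀ e, s e ≠ t e) (lo hi : E → ℤ) (β : V → ℤ) (e : E)
    (hB : (sys s t lo hi β).Nonempty) :
    Near 1 (sys s t lo (Function.update hi e (hi e + 1)) β) (sys s t lo hi β) := by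
  obtain ⟨x, hx⟩ := id hB
  rw [mem_sys] at hx
  refine near_enlarge s t hst lo hi lo _ β e 1 (Or.inl rfl) (fun _ _ => rfl)
    (fun e' h => Function.update_of_ne h _ _) (lo e) (hi e) ?_ ?_ hB ⟨x, ?_⟩
  · intro j; rw [one_mul]
  · intro j; rw [one_mul, Function.update_self]
  · rw [mem_sys]
    refine ⟨fun e' => ?_, hx.2⟩
    by_cases h : e' = e
    · subst h; have := hx.1 e'; simp only [Function.update_self]; omega
    · rw [Function.update_of_ne h]; exact hx.1 e'

theorem near_enlarge_lo (s t : E → V) (hst : ∀ e, s e ≠ t e) (lo hi : E → ℤ) (β : V → ℤ) (e : E)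
    (hB : (sys s t lo hi β).Nonempty) :
    Near 1 (sys s t (Function.update lo e (lo e - 1)) hi β) (sys s t lo hi β) := by
  obtain ⟨x, hx⟩ := id hB
  rw [mem_sys] at hx
  refine near_enlarge s t hst lo hi _ hi β e (-1) (Or.inr rfl) (fun e' h => Function.update_of_ne h _ _)
    (fun _ _ => rfl) (- hi e) (- lo e) ?_ ?_ hB ⟨x, ?_⟩
  · intro j; constructor <;> intro h <;> constructor <;> omega
  · intro j; rw [Function.update_self]; constructor <;> intro h <;> constructor <;> omega
  · rw [mem_sys]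
    refine ⟨fun e' => ?_, hx.2⟩
    by_cases h : e' = e
    · subst h; have := hx.1 e'; simp only [Function.update_self]; omega
    · rw [Function.update_of_ne h]; exact hx.1 e'

/-- enlarging the box -/
theorem near_box (s t : E → V) (hst : ∀ e, s e ≠ t e) (lo' hi' : E → ℤ) (β : V → ℤ) (n : ℕ) :
    ∀ lo hi : E → ℤ, (∀ e, lo' e ≤ lo e) → (∀ e, hi e ≤ hi' e) →
      (∑ e, ((lo e - lo' e).toNat + (hi' e - hi e).toNat)) ≤ n →
      (sys s t lo hi β).Nonempty → Near n (sys s t lo' hi' β) (sys s t lo hi β) := by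
  induction n with
  | zero =>
    intro lo hi hlo hhi hn hB
    have h0 := Finset.sum_eq_zero_iff.mp (Nat.le_zero.mp hn)
    have e1 : lo = lo' := by
      funext e
      have := h0 e (Finset.mem_univ _); have := hlo e; omega
    have e2 : hi = hi' := by
      funext e
      have := h0 e (Finset.mem_univ _); have := hhi e; omega
    subst e1; subst e2
    exact Near.refl _ (by simp)
  | succ n ih =>
    intro lo hi hlo hhi hn hB
    obtain ⟨x, hx⟩ := id hB
    rw [mem_sys] at hx
    by_cases h : ∃ e, lo' e < lo e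
    · obtain ⟨e, he⟩ := h
      have h1 := near_enlarge_lo s t hst lo hi β e hB
      have hne : (sys s t (Function.update lo e (lo e - 1)) hi β).Nonempty := by
        refine ⟨x, ?_⟩
        rw [mem_sys]
        refine ⟨fun e' => ?_, hx.2⟩
        by_cases h : e' = e
        · subst h; have := hx.1 e'; simp only [Function.update_self]; omega
        · rw [Function.update_of_ne h]; exact hx.1 e'
      have h2 := ih (Function.update lo e (lo e - 1)) hi (fun e' => ?_) hhi ?_ hne
      · refine (h2.trans h1).mono ?_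
        push_cast; omega
      · by_cases h : e' = e
        · subst h; simp only [Function.update_self]; omega
        · rw [Function.update_of_ne h]; exact hlo e'
      · have : ∑ e', ((Function.update lo e (lo e - 1) e' - lo' e').toNat + (hi' e' - hi e').toNat) <
            ∑ e', ((lo e' - lo' e').toNat + (hi' e' - hi e').toNat) := by
          apply Finset.sum_lt_sum
          · intro e' _
            by_cases h : e' = e
            · subst h; simp only [Function.update_self]; omega
            · rw [Function.update_of_ne h]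
          · exact ⟨e, Finset.mem_univ _, by simp only [Function.update_self]; omega⟩
        omega
    · by_cases h' : ∃ e, hi e < hi' e
      · obtain ⟨e, he⟩ := h'
        have h1 := near_enlarge_hi s t hst lo hi β e hB
        have hne : (sys s t lo (Function.update hi e (hi e + 1)) β).Nonempty := by
          refine ⟨x, ?_⟩
          rw [mem_sys]
          refine ⟨fun e' => ?_, hx.2⟩
          by_cases h : e' = e
          · subst h; have := hx.1 e'; simp only [Function.update_self]; omega
          · rw [Function.update_of_ne h]; exact hx.1 e'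
        have h2 := ih lo (Function.update hi e (hi e + 1)) hlo (fun e' => ?_) ?_ hne
        · refine (h2.trans h1).mono ?_
          push_cast; omega
        · by_cases h : e' = e
          · subst h; simp only [Function.update_self]; omega
          · rw [Function.update_of_ne h]; exact hhi e'
        · have : ∑ e', ((lo e' - lo' e').toNat + (hi' e' - Function.update hi e (hi e + 1) e').toNat) <
              ∑ e', ((lo e' - lo' e').toNat + (hi' e' - hi e').toNat) := by
            apply Finset.sum_lt_sum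
            · intro e' _
              by_cases h : e' = e
              · subst h; simp only [Function.update_self]; omega
              · rw [Function.update_of_ne h]
            · exact ⟨e, Finset.mem_univ _, by simp only [Function.update_self]; omega⟩
          omega
      · push Not at h h'
        have e1 : lo = lo' := by
          funext e
          exact le_antisymm (h e) (hlo e)
        have e2 : hi = hi' := by
          funext e
          exact le_antisymm (hhi e) (h' e)
        subst e1; subst e2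
        exact Near.refl _ (by positivity)

/-- **General stability**: two feasible systems over the same graph. -/
theorem near_sys (s t : E → V) (hst : ∀ e, s e ≠ t e) (lo hi lo' hi' : E → ℤ) (β β' : V → ℤ)
    (hA : (sys s t lo hi β).Nonempty) (hB : (sys s t lo' hi' β').Nonempty) :
    Near (((∑ e, ((lo e - lo' e).natAbs + (hi e - hi' e).natAbs)) +
      ∑ v, (β v - β' v).toNat : ℕ) : ℤ)
      (sys s t lo hi β) (sys s t lo' hi' β') := by
  obtain ⟨x, hx⟩ := id hA
  obtain ⟨y, hy⟩ := id hB
  rw [mem_sys] at hx hy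
  set L : E → ℤ := fun e => min (lo e) (lo' e) with hL
  set H : E → ℤ := fun e => max (hi e) (hi' e) with hH
  have n1 : (sys s t L H β).Nonempty := by
    refine ⟨x, ?_⟩
    rw [mem_sys]
    refine ⟨fun e => ?_, hx.2⟩
    have := hx.1 e
    exact ⟨(min_le_left _ _).trans this.1, this.2.trans (le_max_left _ _)⟩
  have n2 : (sys s t L H β').Nonempty := by
    refine ⟨y, ?_⟩
    rw [mem_sys]
    refine ⟨fun e => ?_, hy.2⟩
    have := hy.1 e
    exact ⟨(min_le_right _ _).trans this.1, this.2.trans (le_max_right _ _)⟩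
  have h1 := near_box s t hst L H β _ lo hi (fun e => min_le_left _ _) (fun e => le_max_left _ _)
    le_rfl hA
  have h2 := near_box s t hst L H β' _ lo' hi' (fun e => min_le_right _ _) (fun e => le_max_right _ _)
    le_rfl hB
  have h3 := near_demand s t hst L H _ β β' le_rfl n1 n2
  refine ((h1.symm.trans h3).trans h2).mono ?_
  have key : (∑ e, ((lo e - L e).toNat + (H e - hi e).toNat)) +
      (∑ e, ((lo' e - L e).toNat + (H e - hi' e).toNat)) =
      ∑ e, ((lo e - lo' e).natAbs + (hi e - hi' e).natAbs) := by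
    rw [← Finset.sum_add_distrib]
    apply Finset.sum_congr rfl
    intro e _
    simp only [hL, hH]
    rcases le_total (lo e) (lo' e) with h | h <;> rcases le_total (hi e) (hi' e) with h' | h' <;>
      simp only [min_eq_left h, min_eq_right h, max_eq_left h', max_eq_right h'] <;> omega
  rw [← key]
  push_cast
  omega

end Crest.Agent.R309.Stab
end

-- ▼ part R309/Stab5
section

/-!
# Row 309, stability chain, part 5 (helper550)

Residue classes and windows.
-/

set_option autoImplicit false
set_option linter.unusedSectionVars false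

namespace Crest.Agent.R309.Stab

open Finset

variable {E V : Type} [Fintype E] [DecidableEq E] [Fintype V] [DecidableEq V]

/-! ### residue classes modulo 2 -/

/-- the points of the system with prescribed parities -/
noncomputable def res (s t : E → V) (lo hi : E → ℤ) (β : V → ℤ) (ρ : E → ℤ) : Finset (E → ℤ) :=
  (sys s t lo hi β).filter fun x => ∀ e, x e % 2 = ρ e

theorem mem_res {s t : E → V} {lo hi : E → ℤ} {β : V → ℤ} {ρ x : E → ℤ} :
    x ∈ res s t lo hi β ρ ↔
      ((∀ e, lo e ≤ x e ∧ x e ≤ hi e) ∧ bd s t x = β) ∧ ∀ e, x e % 2 = ρ e := by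
  rw [res, Finset.mem_filter, mem_sys]

theorem res_bij (s t : E → V) (lo hi : E → ℤ) (β : V → ℤ) (ρ : E → ℤ)
    (hne : (res s t lo hi β ρ).Nonempty) :
    Set.BijOn (fun (x : E → ℤ) (e : E) => x e / 2) (res s t lo hi β ρ : Finset (E → ℤ))
      (sys s t (fun e => (lo e - ρ e + 1) / 2) (fun e => (hi e - ρ e) / 2)
        (fun v => (β v - bd s t ρ v) / 2) : Finset (E → ℤ)) := by
  have key : ∀ x : E → ℤ, (∀ e, x e % 2 = ρ e) → x = 2 • (fun e => x e / 2) + ρ := by
    intro x hx
    funext e
    have e1 : ((2 : ℕ) • (fun e => x e / 2) + ρ) e = 2 * (x e / 2) + ρ e := by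
      simp
    rw [e1]
    have := hx e
    omega
  have key2 : ∀ x : E → ℤ, (∀ e, x e % 2 = ρ e) → ∀ v,
      bd s t x v = 2 * bd s t (fun e => x e / 2) v + bd s t ρ v := by
    intro x hx v
    conv_lhs => rw [key x hx]
    rw [bd_add, ← natCast_zsmul, bd_smul]
    simp
  obtain ⟨x₀, hx₀⟩ := hne
  rw [mem_res] at hx₀
  refine ⟨?_, ?_, ?_⟩
  · intro x hx
    rw [Finset.mem_coe, mem_res] at hx
    obtain ⟨⟨h1, h2⟩, h3⟩ := hx
    rw [Finset.mem_coe, mem_sys]
    refine ⟨fun e => ?_, ?_⟩
    · have := h1 e; have := h3 e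
      dsimp only
      omega
    · funext v
      have := key2 x h3 v
      rw [h2] at this
      dsimp only
      omega
  · intro x hx y hy h
    rw [Finset.mem_coe, mem_res] at hx hy
    funext e
    have h1 := hx.2 e
    have h2 := hy.2 e
    have h3 := congrFun h e
    dsimp only at h3
    omega
  · intro y hy
    rw [Finset.mem_coe, mem_sys] at hy
    obtain ⟨h1, h2⟩ := hy
    have hρ : ∀ e, ρ e = 0 ∨ ρ e = 1 := by
      intro e; have := hx₀.2 e; omega
    refine ⟨fun e => 2 * y e + ρ e, ?_, ?_⟩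
    · rw [Finset.mem_coe, mem_res]
      refine ⟨⟨fun e => ?_, ?_⟩, fun e => ?_⟩
      · have h4 := h1 e; have h5 := hρ e
        constructor <;> omega
      · funext v
        have e1 : (fun e => 2 * y e + ρ e) = 2 • y + ρ := by
          funext e; simp
        rw [e1, bd_add, ← natCast_zsmul, bd_smul, h2]
        have := key2 x₀ hx₀.2 v
        rw [hx₀.1.2] at this
        simp only [Pi.add_apply, Pi.smul_apply, smul_eq_mul]
        push_cast
        omega
      · have := hρ e; omega
    · funext e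
      have := hρ e
      dsimp only
      omega

theorem bd_natAbs (s t : E → V) (ρ : E → ℤ) (hρ : ∀ e, |ρ e| ≤ 1) :
    ∑ v, (bd s t ρ v).natAbs ≤ 2 * Fintype.card E := by
  have h1 : ∀ e, ∑ v, |ρ e * chi s t e v| ≤ 2 := by
    intro e
    have h2 : ∀ v, |ρ e * chi s t e v| ≤ (if s e = v then 1 else 0) + (if t e = v then 1 else 0) := by
      intro v
      rw [abs_mul]
      have h3 : |chi s t e v| ≤ (if s e = v then 1 else 0) + (if t e = v then 1 else 0) := by
        rw [chi]
        split_ifs <;> simp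
      have := hρ e
      have h4 := abs_nonneg (chi s t e v)
      nlinarith
    calc ∑ v, |ρ e * chi s t e v| ≤
        ∑ v, ((if s e = v then (1:ℤ) else 0) + (if t e = v then 1 else 0)) :=
          Finset.sum_le_sum fun v _ => h2 v
      _ = 2 := by rw [Finset.sum_add_distrib]; simp
  have h5 : (∑ v, ((bd s t ρ v).natAbs : ℤ)) ≤ 2 * Fintype.card E := by
    calc (∑ v, ((bd s t ρ v).natAbs : ℤ)) = ∑ v, |bd s t ρ v| := by
          apply Finset.sum_congr rfl; intro v _; rw [Int.natCast_natAbs]
      _ ≤ ∑ v, ∑ e, |ρ e * chi s t e v| := by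
          apply Finset.sum_le_sum; intro v _
          exact Finset.abs_sum_le_sum_abs _ _
      _ = ∑ e, ∑ v, |ρ e * chi s t e v| := Finset.sum_comm
      _ ≤ ∑ e : E, 2 := Finset.sum_le_sum fun e _ => h1 e
      _ = 2 * Fintype.card E := by simp [mul_comm]
  exact_mod_cast h5

/-- **Residue classes are close**: two nonempty parity classes of a system -/
theorem near_res (s t : E → V) (hst : ∀ e, s e ≠ t e) (lo hi : E → ℤ) (β : V → ℤ) (ρ ρ' : E → ℤ)
    (hA : (res s t lo hi β ρ).Nonempty) (hB : (res s t lo hi β ρ').Nonempty) :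
    Near (6 * Fintype.card E + 1) (res s t lo hi β ρ) (res s t lo hi β ρ') := by
  have bA := res_bij s t lo hi β ρ hA
  have bB := res_bij s t lo hi β ρ' hB
  obtain ⟨x, hx⟩ := id hA
  obtain ⟨y, hy⟩ := id hB
  have mx := bA.mapsTo hx
  have my := bB.mapsTo hy
  have h := near_sys s t hst _ _ _ _ _ _ ⟨_, mx⟩ ⟨_, my⟩
  have hρ : ∀ e, ρ e = 0 ∨ ρ e = 1 := by
    intro e; have := (mem_res.mp hx).2 e; omega
  have hρ' : ∀ e, ρ' e = 0 ∨ ρ' e = 1 := by
    intro e; have := (mem_res.mp hy).2 e; omega
  refine Near.of_bij (K' := 3 * Fintype.card E) _ _ bA bB ?_ (h.mono ?_)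
  · intro x' hx' y' hy' hd e
    have h1 := hd e
    have h2 := (mem_res.mp hx').2 e
    have h3 := (mem_res.mp hy').2 e
    have h4 := hρ e
    have h5 := hρ' e
    rw [abs_le] at h1 ⊢
    constructor <;> omega
  · have h1 : ∑ e, (((lo e - ρ e + 1) / 2 - (lo e - ρ' e + 1) / 2).natAbs +
        ((hi e - ρ e) / 2 - (hi e - ρ' e) / 2).natAbs) ≤ 2 * Fintype.card E := by
      calc _ ≤ ∑ e : E, 2 := by
            apply Finset.sum_le_sum
            intro e _
            have h4 := hρ e
            have h5 := hρ' e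
            omega
        _ = 2 * Fintype.card E := by simp [mul_comm]
    have h2 : ∑ v, ((β v - bd s t ρ v) / 2 - (β v - bd s t ρ' v) / 2).toNat ≤ Fintype.card E := by
      have h3 := bd_natAbs s t (ρ' - ρ) (by
        intro e
        simp only [Pi.sub_apply]
        have h4 := hρ e
        have h5 := hρ' e
        rw [abs_le]
        constructor <;> omega)
      have ex : ∀ v, (β v - bd s t ρ v) % 2 = 0 := by
        intro v
        have : β v - bd s t ρ v = bd s t (x - ρ) v := by
          rw [bd_sub, (mem_res.mp hx).1.2]; rfl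
        rw [this, bd]
        apply Int.emod_eq_zero_of_dvd
        apply Finset.dvd_sum
        intro e _
        have := (mem_res.mp hx).2 e
        apply Dvd.dvd.mul_right
        simp only [Pi.sub_apply]
        omega
      have ey : ∀ v, (β v - bd s t ρ' v) % 2 = 0 := by
        intro v
        have : β v - bd s t ρ' v = bd s t (y - ρ') v := by
          rw [bd_sub, (mem_res.mp hy).1.2]; rfl
        rw [this, bd]
        apply Int.emod_eq_zero_of_dvd
        apply Finset.dvd_sum
        intro e _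
        have := (mem_res.mp hy).2 e
        apply Dvd.dvd.mul_right
        simp only [Pi.sub_apply]
        omega
      have h4 : 2 * ∑ v, ((β v - bd s t ρ v) / 2 - (β v - bd s t ρ' v) / 2).toNat ≤
          ∑ v, (bd s t (ρ' - ρ) v).natAbs := by
        rw [Finset.mul_sum]
        apply Finset.sum_le_sum
        intro v _
        rw [bd_sub]
        simp only [Pi.sub_apply]
        have := ex v; have := ey v
        omega
      omega
    have h3 := Nat.add_le_add h1 h2
    have h4 : 2 * Fintype.card E + Fintype.card E = 3 * Fintype.card E := by ring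
    rw [h4] at h3
    exact_mod_cast h3

/-! ### windows -/






end Crest.Agent.R309.Stab
end

-- ▼ part R309/Blocks959b
section

/-!
# Row 309: symmetric lazy chains built from block kernels (helper959)

* `SymKer s K` : a symmetric stochastic kernel on the finite set `s`.
* `kop` : its action on functions; `dirf` its Dirichlet form.
* `kop_mixing` : Poincaré inequality + laziness give exponential convergence, all test functions.
* `mixture_poinc` : lazy mixtures of block kernels with `K_i x y ≥ c / |block|`.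
* `tape_mixing` : the same for a randomised step reading a tape (`Tape.markov`).
-/

set_option autoImplicit false

namespace Crest.Agent.R309.Blocks

open Finset

variable {X K T : Type*} [DecidableEq X] [DecidableEq K] [DecidableEq T]

/-- action of a kernel on functions -/
noncomputable def kop (s : Finset X) (P : X → X → ℝ) (f : X → ℝ) (x : X) : ℝ :=
  ∑ y ∈ s, P x y * f y

/-- symmetric stochastic kernel on `s` -/
structure SymKer (s : Finset X) (P : X → X → ℝ) : Prop where
  nonneg : ∀ x ∈ s, ∀ y ∈ s, 0 ≤ P x y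
  sum_one : ∀ x ∈ s, ∑ y ∈ s, P x y = 1
  symm : ∀ x ∈ s, ∀ y ∈ s, P x y = P y x

/-- Dirichlet form -/
noncomputable def dirf (s : Finset X) (P : X → X → ℝ) (f : X → ℝ) : ℝ :=
  (∑ x ∈ s, ∑ y ∈ s, P x y * (f x - f y) ^ 2) / 2

omit [DecidableEq X] in
lemma SymKer.sum_one' {s : Finset X} {P : X → X → ℝ} (h : SymKer s P) {y : X} (hy : y ∈ s) :
    ∑ x ∈ s, P x y = 1 := by
  rw [← h.sum_one y hy]
  exact Finset.sum_congr rfl fun x hx => h.symm x hx y hy

omit [DecidableEq X] in
lemma sum_sum_left {s : Finset X} {P : X → X → ℝ} (h : SymKer s P) (g : X → ℝ) :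
    ∑ x ∈ s, ∑ y ∈ s, P x y * g x = ∑ x ∈ s, g x := by
  refine Finset.sum_congr rfl fun x hx => ?_
  rw [← Finset.sum_mul, h.sum_one x hx, one_mul]

omit [DecidableEq X] in
lemma sum_sum_right {s : Finset X} {P : X → X → ℝ} (h : SymKer s P) (g : X → ℝ) :
    ∑ x ∈ s, ∑ y ∈ s, P x y * g y = ∑ x ∈ s, g x := by
  rw [Finset.sum_comm]
  refine Finset.sum_congr rfl fun x hx => ?_
  rw [← Finset.sum_mul, h.sum_one' hx, one_mul]

omit [DecidableEq X] in
lemma sum_kop {s : Finset X} {P : X → X → ℝ} (h : SymKer s P) (f : X → ℝ) :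
    ∑ x ∈ s, kop s P f x = ∑ x ∈ s, f x := sum_sum_right h f

omit [DecidableEq X] in
lemma sum_kop_mul {s : Finset X} {P : X → X → ℝ} (h : SymKer s P) (f g : X → ℝ) :
    ∑ x ∈ s, kop s P f x * g x = ∑ x ∈ s, f x * kop s P g x := by
  unfold kop
  simp only [Finset.sum_mul, Finset.mul_sum]
  rw [Finset.sum_comm]
  refine Finset.sum_congr rfl fun y hy => Finset.sum_congr rfl fun x hx => ?_
  rw [h.symm x hx y hy]
  ring

omit [DecidableEq X] in
lemma dirf_eq {s : Finset X} {P : X → X → ℝ} (h : SymKer s P) (f : X → ℝ) :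
    dirf s P f = ∑ x ∈ s, f x ^ 2 - ∑ x ∈ s, f x * kop s P f x := by
  have e : ∑ x ∈ s, ∑ y ∈ s, P x y * (f x - f y) ^ 2 =
      ∑ x ∈ s, ∑ y ∈ s, P x y * f x ^ 2 + ∑ x ∈ s, ∑ y ∈ s, P x y * f y ^ 2
        - 2 * ∑ x ∈ s, f x * kop s P f x := by
    unfold kop
    rw [← Finset.sum_add_distrib, Finset.mul_sum, ← Finset.sum_sub_distrib]
    refine Finset.sum_congr rfl fun x _ => ?_
    rw [← Finset.sum_add_distrib, Finset.mul_sum, Finset.mul_sum, ← Finset.sum_sub_distrib]
    exact Finset.sum_congr rfl fun y _ => by ring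
  unfold dirf
  rw [e, sum_sum_left h (fun x => f x ^ 2), sum_sum_right h (fun x => f x ^ 2)]
  ring

omit [DecidableEq X] in
lemma psd_of_lazy {s : Finset X} {P : X → X → ℝ} (h : SymKer s P)
    (hl : ∀ x ∈ s, 1 / 2 ≤ P x x) (f : X → ℝ) : 0 ≤ ∑ x ∈ s, f x * kop s P f x := by
  have e : ∑ x ∈ s, ∑ y ∈ s, P x y * (f x + f y) ^ 2 =
      ∑ x ∈ s, ∑ y ∈ s, P x y * f x ^ 2 + ∑ x ∈ s, ∑ y ∈ s, P x y * f y ^ 2
        + 2 * ∑ x ∈ s, f x * kop s P f x := by
    unfold kop
    rw [← Finset.sum_add_distrib, Finset.mul_sum, ← Finset.sum_add_distrib]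
    refine Finset.sum_congr rfl fun x _ => ?_
    rw [← Finset.sum_add_distrib, Finset.mul_sum, Finset.mul_sum, ← Finset.sum_add_distrib]
    exact Finset.sum_congr rfl fun y _ => by ring
  rw [sum_sum_left h (fun x => f x ^ 2), sum_sum_right h (fun x => f x ^ 2)] at e
  have lb : ∑ x ∈ s, 2 * f x ^ 2 ≤ ∑ x ∈ s, ∑ y ∈ s, P x y * (f x + f y) ^ 2 := by
    refine Finset.sum_le_sum fun x hx => ?_
    calc 2 * f x ^ 2 ≤ P x x * (f x + f x) ^ 2 := by nlinarith [hl x hx, sq_nonneg (f x)]
      _ ≤ ∑ y ∈ s, P x y * (f x + f y) ^ 2 :=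
        Finset.single_le_sum (f := fun y => P x y * (f x + f y) ^ 2)
          (fun y hy => mul_nonneg (h.nonneg x hx y hy) (sq_nonneg _)) hx
  rw [← Finset.mul_sum] at lb
  linarith

omit [DecidableEq X] in
lemma kop_add_smul {s : Finset X} {P : X → X → ℝ} (f g : X → ℝ) (t : ℝ) (x : X) :
    kop s P (fun y => f y - t * g y) x = kop s P f x - t * kop s P g x := by
  unfold kop
  rw [Finset.mul_sum, ← Finset.sum_sub_distrib]
  exact Finset.sum_congr rfl fun y _ => by ring

omit [DecidableEq X] in
/-- One-step contraction, centred form. -/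
lemma kop_contract_aux {s : Finset X} {P : X → X → ℝ} (h : SymKer s P)
    (hl : ∀ x ∈ s, 1 / 2 ≤ P x x) {γ : ℝ} (hγ : γ ≤ 1)
    (hP : ∀ f : X → ℝ, γ * sv s f ≤ dirf s P f) (f : X → ℝ) (h0 : ∑ x ∈ s, f x = 0) :
    ∑ x ∈ s, kop s P f x ^ 2 ≤ (1 - γ) ^ 2 * ∑ x ∈ s, f x ^ 2 := by
  set g : X → ℝ := kop s P f with hg
  have hg0 : ∑ x ∈ s, g x = 0 := by rw [hg, sum_kop h, h0]
  have quad : ∀ u : X → ℝ, ∑ x ∈ s, u x = 0 →
      ∑ x ∈ s, u x * kop s P u x ≤ (1 - γ) * ∑ x ∈ s, u x ^ 2 := by
    intro u hu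
    have h1 := hP u
    rw [sv_of_sum_zero s u hu, dirf_eq h] at h1
    linarith
  have hgg : ∑ x ∈ s, g x ^ 2 = ∑ x ∈ s, f x * kop s P g x := by
    rw [← sum_kop_mul h f g]
    exact Finset.sum_congr rfl fun x _ => by rw [pow_two]
  -- for all t: 2 t |g|² ≤ ⟨f,Pf⟩ + t² ⟨g,Pg⟩
  have key : ∀ t : ℝ, 2 * t * ∑ x ∈ s, g x ^ 2 ≤
      ∑ x ∈ s, f x * kop s P f x + t ^ 2 * ∑ x ∈ s, g x * kop s P g x := by
    intro t
    have h1 := psd_of_lazy h hl (fun y => f y - t * g y)
    have e : ∑ x ∈ s, (f x - t * g x) * kop s P (fun y => f y - t * g y) x =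
        ∑ x ∈ s, f x * kop s P f x - t * ∑ x ∈ s, f x * kop s P g x
          - t * ∑ x ∈ s, g x * kop s P f x + t ^ 2 * ∑ x ∈ s, g x * kop s P g x := by
      rw [Finset.mul_sum, Finset.mul_sum, Finset.mul_sum, ← Finset.sum_sub_distrib,
        ← Finset.sum_sub_distrib, ← Finset.sum_add_distrib]
      exact Finset.sum_congr rfl fun x _ => by rw [kop_add_smul]; ring
    have e2 : ∑ x ∈ s, g x * kop s P f x = ∑ x ∈ s, g x ^ 2 :=
      Finset.sum_congr rfl fun x _ => by rw [← hg, pow_two]
    rw [e, e2, ← hgg] at h1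
    linarith
  have hq1 := quad f h0
  have hq2 := quad g hg0
  have hG : 0 ≤ ∑ x ∈ s, g x ^ 2 := Finset.sum_nonneg fun _ _ => sq_nonneg _
  have hF : 0 ≤ ∑ x ∈ s, f x ^ 2 := Finset.sum_nonneg fun _ _ => sq_nonneg _
  rcases (sub_nonneg.mpr hγ).eq_or_lt with hz | hpos
  · rw [← hz] at hq1 hq2 ⊢
    have h1 := key 1
    nlinarith
  · have h1 := key (1 / (1 - γ))
    set θ := 1 - γ with hθ
    have h2 : 2 * (1 / θ) * ∑ x ∈ s, g x ^ 2 ≤
        θ * ∑ x ∈ s, f x ^ 2 + (1 / θ) ^ 2 * (θ * ∑ x ∈ s, g x ^ 2) := by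
      have := mul_le_mul_of_nonneg_left hq2 (sq_nonneg (1 / θ))
      linarith
    have e1 : (1 / θ) ^ 2 * (θ * ∑ x ∈ s, g x ^ 2) = (1 / θ) * ∑ x ∈ s, g x ^ 2 := by
      field_simp
    rw [e1] at h2
    have h3 : (1 / θ) * ∑ x ∈ s, g x ^ 2 ≤ θ * ∑ x ∈ s, f x ^ 2 := by linarith
    have h4 := mul_le_mul_of_nonneg_left h3 hpos.le
    have e2 : θ * (1 / θ * ∑ x ∈ s, g x ^ 2) = ∑ x ∈ s, g x ^ 2 := by field_simp
    rw [e2] at h4
    linarith [h4]

omit [DecidableEq X] in
lemma kop_sub_const {s : Finset X} {P : X → X → ℝ} (h : SymKer s P) (f : X → ℝ) (c : ℝ) {x : X}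
    (hx : x ∈ s) : kop s P (fun y => f y - c) x = kop s P f x - c := by
  unfold kop
  simp only [mul_sub, Finset.sum_sub_distrib]
  rw [← Finset.sum_mul, h.sum_one x hx, one_mul]

omit [DecidableEq X] in
lemma avg_kop {s : Finset X} {P : X → X → ℝ} (h : SymKer s P) (f : X → ℝ) :
    avg s (kop s P f) = avg s f := by
  unfold avg; rw [sum_kop h]

omit [DecidableEq X] in
lemma sv_kop_le {s : Finset X} {P : X → X → ℝ} (h : SymKer s P)
    (hl : ∀ x ∈ s, 1 / 2 ≤ P x x) {γ : ℝ} (hγ : γ ≤ 1)
    (hP : ∀ f : X → ℝ, γ * sv s f ≤ dirf s P f) (f : X → ℝ) :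
    sv s (kop s P f) ≤ (1 - γ) ^ 2 * sv s f := by
  rcases s.eq_empty_or_nonempty with hs | hs
  · subst hs; simp [sv]
  have hcard : (s.card : ℝ) ≠ 0 := by exact_mod_cast (Finset.card_pos.mpr hs).ne'
  have hz : ∑ x ∈ s, (f x - avg s f) = 0 := by
    rw [Finset.sum_sub_distrib, Finset.sum_const, nsmul_eq_mul, avg, mul_div_cancel₀ _ hcard,
      sub_self]
  have h1 := kop_contract_aux h hl hγ hP (fun y => f y - avg s f) hz
  have e : sv s (kop s P f) = ∑ x ∈ s, kop s P (fun y => f y - avg s f) x ^ 2 := by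
    unfold sv
    rw [avg_kop h]
    exact Finset.sum_congr rfl fun x hx => by rw [kop_sub_const h _ _ hx]
  rw [e]
  exact h1

omit [DecidableEq X] in
/-- **Exponential convergence** for a lazy symmetric kernel with a Poincaré inequality. -/
theorem kop_mixing {s : Finset X} {P : X → X → ℝ} (h : SymKer s P)
    (hl : ∀ x ∈ s, 1 / 2 ≤ P x x) {γ : ℝ} (hγ : γ ≤ 1)
    (hP : ∀ f : X → ℝ, γ * sv s f ≤ dirf s P f) (f : X → ℝ) (n : ℕ) {x : X} (hx : x ∈ s) :
    |(kop s P)^[n] f x - avg s f| ≤ (1 - γ) ^ n * √(sv s f) := by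
  have hθ0 : 0 ≤ 1 - γ := sub_nonneg.mpr hγ
  have ha : ∀ m : ℕ, avg s ((kop s P)^[m] f) = avg s f := by
    intro m
    induction m with
    | zero => rfl
    | succ m ih => rw [Function.iterate_succ_apply', avg_kop h, ih]
  have hv : ∀ m : ℕ, sv s ((kop s P)^[m] f) ≤ ((1 - γ) ^ m) ^ 2 * sv s f := by
    intro m
    induction m with
    | zero => simp
    | succ m ih =>
      rw [Function.iterate_succ_apply']
      refine (sv_kop_le h hl hγ hP _).trans ?_
      calc (1 - γ) ^ 2 * sv s ((kop s P)^[m] f)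
          ≤ (1 - γ) ^ 2 * (((1 - γ) ^ m) ^ 2 * sv s f) :=
            mul_le_mul_of_nonneg_left ih (sq_nonneg _)
        _ = ((1 - γ) ^ (m + 1)) ^ 2 * sv s f := by ring
  refine abs_le_of_sq_le_sq ?_ (by positivity)
  calc ((kop s P)^[n] f x - avg s f) ^ 2
      = ((kop s P)^[n] f x - avg s ((kop s P)^[n] f)) ^ 2 := by rw [ha]
    _ ≤ sv s ((kop s P)^[n] f) :=
        Finset.single_le_sum (f := fun y => ((kop s P)^[n] f y - avg s ((kop s P)^[n] f)) ^ 2)
          (fun _ _ => sq_nonneg _) hx
    _ ≤ ((1 - γ) ^ n) ^ 2 * sv s f := hv n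
    _ = ((1 - γ) ^ n * √(sv s f)) ^ 2 := by
        rw [mul_pow, Real.sq_sqrt (sv_nonneg s f)]

/-! ### Block kernels -/

omit [DecidableEq X] in
/-- Pair form of the conditional variance. -/
lemma csv_pair (s : Finset X) (κ : X → K) (f : X → ℝ) :
    csv s κ f = (∑ x ∈ s, ∑ y ∈ s, (if κ y = κ x then 1 / ((fib s κ x).card : ℝ) else 0)
      * (f x - f y) ^ 2) / 2 := by
  have hP : SymKer s (fun x y => if κ y = κ x then 1 / ((fib s κ x).card : ℝ) else 0) := by
    refine ⟨fun x _ y _ => ?_, fun x hx => ?_, fun x _ y _ => ?_⟩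
    · split_ifs
      · positivity
      · exact le_rfl
    · rw [← Finset.sum_filter, Finset.sum_const, nsmul_eq_mul]
      exact mul_one_div_cancel (fib_card_pos hx).ne'
    · by_cases h : κ y = κ x
      · rw [if_pos h, if_pos h.symm, fib_eq h]
      · rw [if_neg h, if_neg (fun h' => h h'.symm)]
  have h1 := dirf_eq hP f
  unfold dirf at h1
  rw [h1, csv_eq, sum_cavg_sq]
  congr 1
  refine Finset.sum_congr rfl fun x _ => ?_
  congr 1
  rw [cavg_eq_sum]
  unfold kop
  refine Finset.sum_congr rfl fun y _ => ?_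
  by_cases h : κ y = κ x
  · simp only [if_pos h]; ring
  · simp only [if_neg h]; ring

omit [DecidableEq X] in
/-- A kernel dominating `c ×` the block heat bath off the diagonal. -/
lemma dirf_ge_csv {s : Finset X} {κ : X → K} {P : X → X → ℝ} {c : ℝ}
    (hn : ∀ x ∈ s, ∀ y ∈ s, 0 ≤ P x y)
    (hc : ∀ x ∈ s, ∀ y ∈ s, κ y = κ x → y ≠ x → c / ((fib s κ x).card : ℝ) ≤ P x y)
    (f : X → ℝ) : c * csv s κ f ≤ dirf s P f := by
  rw [csv_pair]
  unfold dirf
  rw [← mul_div_assoc, Finset.mul_sum]
  refine div_le_div_of_nonneg_right (Finset.sum_le_sum fun x hx => ?_) (by norm_num)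
  rw [Finset.mul_sum]
  refine Finset.sum_le_sum fun y hy => ?_
  by_cases hxy : y = x
  · rw [hxy]; simp
  by_cases h : κ y = κ x
  · rw [if_pos h]
    calc c * (1 / ((fib s κ x).card : ℝ) * (f x - f y) ^ 2)
        = c / ((fib s κ x).card : ℝ) * (f x - f y) ^ 2 := by ring
      _ ≤ P x y * (f x - f y) ^ 2 :=
        mul_le_mul_of_nonneg_right (hc x hx y hy h hxy) (sq_nonneg _)
  · rw [if_neg h, zero_mul, mul_zero]
    exact mul_nonneg (hn x hx y hy) (sq_nonneg _)

/-! ### Tape form -/

open Crest.Agent.R309.Tape in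
/-- The transition probabilities of a randomised step. -/
noncomputable def ker (f : X → List Bool → X) (r : ℕ) (x y : X) : ℝ := pr r (fun t => f x t = y)

omit [DecidableEq X] in
open Crest.Agent.R309.Tape in
lemma markov_eq_kop {s : Finset X} {f : X → List Bool → X} {r : ℕ}
    (hs : ∀ x ∈ s, ∀ t : List Bool, t.length = r → f x t ∈ s) (φ : X → ℝ) {x : X} (hx : x ∈ s) :
    markov f r φ x = kop s (ker f r) φ x := by
  classical
  unfold markov kop ker pr
  simp_rw [← avg_mul_right]
  rw [← avg_sum]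
  refine avg_congr fun t ht => ?_
  rw [Finset.sum_eq_single (f x t)]
  · rw [ind_of rfl, one_mul]
  · intro y _ hy
    rw [ind_of_not (fun h => hy h.symm), zero_mul]
  · intro h; exact absurd (hs x hx t ht) h

omit [DecidableEq X] in
lemma kop_congr {s : Finset X} {P : X → X → ℝ} {φ ψ : X → ℝ} (h : ∀ y ∈ s, φ y = ψ y) (x : X) :
    kop s P φ x = kop s P ψ x :=
  Finset.sum_congr rfl fun y hy => by rw [h y hy]

omit [DecidableEq X] in
open Crest.Agent.R309.Tape in
lemma markov_iter_eq_kop {s : Finset X} {f : X → List Bool → X} {r : ℕ}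
    (hs : ∀ x ∈ s, ∀ t : List Bool, t.length = r → f x t ∈ s) (φ : X → ℝ) (n : ℕ) :
    ∀ x ∈ s, (markov f r)^[n] φ x = (kop s (ker f r))^[n] φ x := by
  induction n with
  | zero => intro x _; rfl
  | succ n ih =>
    intro x hx
    rw [Function.iterate_succ_apply', Function.iterate_succ_apply', markov_eq_kop hs _ hx]
    exact kop_congr ih x

omit [DecidableEq X] in
open Crest.Agent.R309.Tape in
lemma ker_sum_one {s : Finset X} {f : X → List Bool → X} {r : ℕ}
    (hs : ∀ x ∈ s, ∀ t : List Bool, t.length = r → f x t ∈ s) {x : X} (hx : x ∈ s) :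
    ∑ y ∈ s, ker f r x y = 1 := by
  have h := markov_eq_kop hs (fun _ => (1 : ℝ)) hx
  unfold kop at h
  simp only [mul_one] at h
  rw [← h]
  unfold markov
  simp

omit [DecidableEq X] in
open Crest.Agent.R309.Tape in
lemma symKer_ker {s : Finset X} {f : X → List Bool → X} {r : ℕ}
    (hs : ∀ x ∈ s, ∀ t : List Bool, t.length = r → f x t ∈ s)
    (hsym : ∀ x ∈ s, ∀ y ∈ s, x ≠ y → ker f r x y = ker f r y x) : SymKer s (ker f r) :=
  ⟨fun _ _ _ _ => pr_nonneg _ _, fun _ hx => ker_sum_one hs hx, fun x hx y hy => by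
    by_cases h : x = y
    · rw [h]
    · exact hsym x hx y hy h⟩

omit [DecidableEq X] in
open Crest.Agent.R309.Tape in
/-- **Tape version of exponential convergence.** -/
theorem tape_mixing {s : Finset X} {f : X → List Bool → X} {r : ℕ}
    (hs : ∀ x ∈ s, ∀ t : List Bool, t.length = r → f x t ∈ s)
    (hsym : ∀ x ∈ s, ∀ y ∈ s, x ≠ y → ker f r x y = ker f r y x)
    (hl : ∀ x ∈ s, 1 / 2 ≤ ker f r x x) {γ : ℝ} (hγ : γ ≤ 1)
    (hP : ∀ g : X → ℝ, γ * sv s g ≤ dirf s (ker f r) g)
    (φ : X → ℝ) (hφ : ∀ x ∈ s, |φ x| ≤ 1) (n : ℕ) {x : X} (hx : x ∈ s) :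
    |(markov f r)^[n] φ x - (∑ y ∈ s, φ y) / (s.card : ℝ)| ≤ (1 - γ) ^ n * √(s.card : ℝ) := by
  rw [markov_iter_eq_kop hs φ n x hx]
  refine (kop_mixing (symKer_ker hs hsym) hl hγ hP φ n hx).trans ?_
  exact mul_le_mul_of_nonneg_left (Real.sqrt_le_sqrt (sv_le_card s φ hφ))
    (pow_nonneg (sub_nonneg.mpr hγ) n)


/-! ### Lazy mixture over an index read from the tape -/

/-- Lazy block step: first bit `true` = stay; otherwise read an index string of length `q` and
run the inner step of that block on the rest of the tape. -/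
def lazyStep (inner : List Bool → X → List Bool → X) (q : ℕ) (x : X) : List Bool → X
  | [] => x
  | b :: t => if b then x else inner (t.take q) x (t.drop q)

omit [DecidableEq X] in
open Crest.Agent.R309.Tape in
lemma ker_lazyStep (inner : List Bool → X → List Bool → X) (q r : ℕ) (x y : X) :
    ker (lazyStep inner q) (q + r + 1) x y =
      (ind (x = y) + Tape.avg q (fun l => ker (inner l) r x y)) / 2 := by
  unfold ker pr
  rw [avg_succ]
  simp only [lazyStep, Bool.false_eq_true, if_false, if_true]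
  rw [avg_take_drop q r (fun l l' => ind (inner l x l' = y)), avg_const]
  ring

omit [DecidableEq X] in
open Crest.Agent.R309.Tape in
lemma lazyStep_mem {s : Finset X} {inner : List Bool → X → List Bool → X} {q r : ℕ}
    (hs : ∀ l : List Bool, l.length = q → ∀ x ∈ s, ∀ t : List Bool, t.length = r →
      inner l x t ∈ s) : ∀ x ∈ s, ∀ t : List Bool, t.length = q + r + 1 →
      lazyStep inner q x t ∈ s := by
  intro x hx t ht
  cases t with
  | nil => simp at ht
  | cons b t =>
    simp only [List.length_cons, add_left_inj] at ht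
    cases b
    · simp only [lazyStep, Bool.false_eq_true, if_false]
      exact hs _ (by simp; omega) x hx _ (by simp; omega)
    · simpa [lazyStep] using hx

omit [DecidableEq X] in
open Crest.Agent.R309.Tape in
lemma dirf_lazyStep (s : Finset X) (inner : List Bool → X → List Bool → X) (q r : ℕ)
    (f : X → ℝ) :
    dirf s (ker (lazyStep inner q) (q + r + 1)) f =
      Tape.avg q (fun l => dirf s (ker (inner l) r) f) / 2 := by
  have h1 : ∀ x ∈ s, ∀ y ∈ s, ker (lazyStep inner q) (q + r + 1) x y * (f x - f y) ^ 2 =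
      Tape.avg q (fun l => ker (inner l) r x y * (f x - f y) ^ 2) / 2 := by
    intro x _ y _
    rw [ker_lazyStep, avg_mul_right]
    by_cases h : x = y
    · rw [h]; simp
    · rw [ind_of_not h]; ring
  have h2 : Tape.avg q (fun l => dirf s (ker (inner l) r) f) =
      (∑ x ∈ s, ∑ y ∈ s, Tape.avg q (fun l => ker (inner l) r x y * (f x - f y) ^ 2)) / 2 := by
    unfold dirf
    simp_rw [div_eq_mul_inv]
    rw [avg_mul_right]
    congr 1
    rw [avg_sum]
    refine Finset.sum_congr rfl fun x _ => ?_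
    rw [avg_sum]
  rw [h2]
  unfold dirf
  rw [Finset.sum_congr rfl fun x hx => Finset.sum_congr rfl fun y hy => h1 x hx y hy]
  simp_rw [← Finset.sum_div]

omit [DecidableEq X] in
open Crest.Agent.R309.Tape in
/-- **Mixing of the lazy block chain on tapes.** `inner l` moves inside the blocks of the key
`κ l`, with symmetric transition probabilities at least `c / |block|` off the diagonal, and the
variance is controlled by the average of the block variances. -/
theorem tape_block_mixing {s : Finset X} {inner : List Bool → X → List Bool → X} {q r : ℕ}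
    {κ : List Bool → X → K} {c C : ℝ} (hc0 : 0 ≤ c) (hC0 : 0 < C) (hcC : c ≤ 2 * C)
    (hs : ∀ l : List Bool, l.length = q → ∀ x ∈ s, ∀ t : List Bool, t.length = r →
      inner l x t ∈ s)
    (hsym : ∀ l : List Bool, l.length = q → ∀ x ∈ s, ∀ y ∈ s, x ≠ y →
      ker (inner l) r x y = ker (inner l) r y x)
    (hlow : ∀ l : List Bool, l.length = q → ∀ x ∈ s, ∀ y ∈ s, κ l y = κ l x → y ≠ x →
      c / ((fib s (κ l) x).card : ℝ) ≤ ker (inner l) r x y)
    (hC : ∀ f : X → ℝ, sv s f ≤ C * Tape.avg q (fun l => csv s (κ l) f))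
    (φ : X → ℝ) (hφ : ∀ x ∈ s, |φ x| ≤ 1) (n : ℕ) {x : X} (hx : x ∈ s) :
    |(markov (lazyStep inner q) (q + r + 1))^[n] φ x - (∑ y ∈ s, φ y) / (s.card : ℝ)| ≤
      (1 - c / (2 * C)) ^ n * √(s.card : ℝ) := by
  refine tape_mixing (lazyStep_mem hs) ?_ ?_ ?_ ?_ φ hφ n hx
  · intro x hx y hy hxy
    rw [ker_lazyStep, ker_lazyStep, ind_of_not hxy, ind_of_not (fun h => hxy h.symm),
      avg_congr fun l hl => hsym l hl x hx y hy hxy]
  · intro x _
    rw [ker_lazyStep, ind_of rfl]
    have : 0 ≤ Tape.avg q (fun l => ker (inner l) r x x) := avg_nonneg fun l _ => pr_nonneg _ _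
    linarith
  · rw [div_le_one (by positivity)]; exact hcC
  · intro g
    rw [dirf_lazyStep]
    have h1 : Tape.avg q (fun l => c * csv s (κ l) g) ≤ Tape.avg q (fun l => dirf s (ker (inner l) r) g) :=
      avg_mono fun l hl => dirf_ge_csv (fun _ _ _ _ => pr_nonneg _ _) (hlow l hl) g
    rw [avg_mul_left] at h1
    have h2 := hC g
    have h3 : c / (2 * C) * sv s g ≤ c / (2 * C) * (C * Tape.avg q (fun l => csv s (κ l) g)) :=
      mul_le_mul_of_nonneg_left h2 (by positivity)
    have e : c / (2 * C) * (C * Tape.avg q (fun l => csv s (κ l) g)) =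
        (c * Tape.avg q (fun l => csv s (κ l) g)) / 2 := by field_simp
    rw [e] at h3
    linarith


/-! ### Uniform index and the final statement for the outer chain -/

open Crest.Agent.R309.Tape in
/-- Average over a uniformly distributed index read from the tape. -/
lemma avg_uniform_idx {ι : Type*} {I : Finset ι} {q : ℕ} {idx : List Bool → ι}
    (hI : ∀ l : List Bool, l.length = q → idx l ∈ I)
    (hu : ∀ i ∈ I, pr q (fun l => idx l = i) = 1 / (I.card : ℝ)) (g : ι → ℝ) :
    Tape.avg q (fun l => g (idx l)) = (∑ i ∈ I, g i) / (I.card : ℝ) := by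
  classical
  have h1 : Tape.avg q (fun l => g (idx l)) =
      Tape.avg q (fun l => ∑ i ∈ I, ind (idx l = i) * g i) := by
    refine avg_congr fun l hl => ?_
    rw [Finset.sum_eq_single (idx l)]
    · rw [ind_of rfl, one_mul]
    · intro i _ hi
      rw [ind_of_not (fun h => hi h.symm), zero_mul]
    · intro h; exact absurd (hI l hl) h
  rw [h1, avg_sum, Finset.sum_div]
  refine Finset.sum_congr rfl fun i hi => ?_
  rw [avg_mul_right]
  have := hu i hi
  unfold pr at this
  rw [this]
  ring



/-! ### Explicit number of steps -/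

/-- Numerical corollary: `(1-γ)^(m τ) √N ≤ 2^(-m)` for `m ≥ 1`, `τ ≥ (b+1)/γ`, `N ≤ 2^b`. -/
lemma pow_mul_sqrt_le {γ : ℝ} (hγ0 : 0 < γ) (hγ1 : γ ≤ 1) {N b m τ : ℕ} (hN : N ≤ 2 ^ b)
    (hm : 1 ≤ m) (hτ : ((b : ℝ) + 1) / γ ≤ τ) :
    (1 - γ) ^ (m * τ) * √(N : ℝ) ≤ (1 / 2 : ℝ) ^ m := by
  have h1 : (1 - γ) ^ (m * τ) ≤ Real.exp (-(γ * (m * τ : ℕ))) := by
    have : 1 - γ ≤ Real.exp (-γ) := by linarith [Real.add_one_le_exp (-γ)]
    calc (1 - γ) ^ (m * τ) ≤ Real.exp (-γ) ^ (m * τ) :=
          pow_le_pow_left₀ (sub_nonneg.mpr hγ1) this _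
      _ = Real.exp (-(γ * (m * τ : ℕ))) := by
          rw [← Real.exp_nat_mul]; congr 1; ring
  have hτ' : (b : ℝ) + 1 ≤ γ * τ := by
    rw [div_le_iff₀ hγ0] at hτ; linarith
  have hmr : (1 : ℝ) ≤ m := by exact_mod_cast hm
  have h2 : Real.exp (-(γ * (m * τ : ℕ))) ≤ Real.exp (-(m * ((b : ℝ) + 1))) := by
    refine Real.exp_le_exp.mpr ?_
    push_cast
    nlinarith
  have h3 : √(N : ℝ) ≤ Real.exp (m * b) := by
    have hN1 : (N : ℝ) ≤ Real.exp 1 ^ b := by
      calc (N : ℝ) ≤ (2 : ℝ) ^ b := by exact_mod_cast hN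
        _ ≤ Real.exp 1 ^ b := pow_le_pow_left₀ (by norm_num) (by
            have := Real.add_one_le_exp (1 : ℝ); linarith) _
    have hN2 : (N : ℝ) ≤ Real.exp b := by
      rw [← Real.exp_nat_mul, mul_one] at hN1; exact hN1
    have hb : (b : ℝ) ≤ m * b := by nlinarith [Nat.cast_nonneg (α := ℝ) b]
    rw [Real.sqrt_le_left (Real.exp_pos _).le]
    calc (N : ℝ) ≤ Real.exp b := hN2
      _ ≤ Real.exp (m * b) := Real.exp_le_exp.mpr hb
      _ ≤ Real.exp (m * b) ^ 2 := by
        have : 1 ≤ Real.exp (m * b) := Real.one_le_exp (by positivity)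
        nlinarith
  have h4 : Real.exp (-(m * ((b : ℝ) + 1))) * Real.exp (m * b) = Real.exp (-1) ^ m := by
    rw [← Real.exp_add, ← Real.exp_nat_mul]; congr 1; ring
  have h5 : Real.exp (-1) ≤ 1 / 2 := by
    rw [Real.exp_neg, one_div]
    refine inv_anti₀ (by norm_num) ?_
    have := Real.add_one_le_exp (1 : ℝ); linarith
  calc (1 - γ) ^ (m * τ) * √(N : ℝ)
      ≤ Real.exp (-(m * ((b : ℝ) + 1))) * Real.exp (m * b) :=
        mul_le_mul (h1.trans h2) h3 (Real.sqrt_nonneg _) (Real.exp_pos _).le
    _ = Real.exp (-1) ^ m := h4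
    _ ≤ (1 / 2) ^ m := pow_le_pow_left₀ (Real.exp_pos _).le h5 _

omit [DecidableEq X] in
open Crest.Agent.R309.Tape in
/-- For `[0,1]`-valued functions the distance of `markov^n` from the average is at most one. -/
lemma markov_iter_abs_le_one {s : Finset X} {f : X → List Bool → X} {r : ℕ}
    (hs : ∀ x ∈ s, ∀ t : List Bool, t.length = r → f x t ∈ s) (φ : X → ℝ)
    (hφ : ∀ x ∈ s, 0 ≤ φ x ∧ φ x ≤ 1) (n : ℕ) {x : X} (hx : x ∈ s) :
    |(markov f r)^[n] φ x - (∑ y ∈ s, φ y) / (s.card : ℝ)| ≤ 1 := by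
  have h1 : ∀ m : ℕ, ∀ x ∈ s, 0 ≤ (markov f r)^[m] φ x ∧ (markov f r)^[m] φ x ≤ 1 := by
    intro m
    induction m with
    | zero => exact hφ
    | succ m ih =>
      intro x hx
      rw [Function.iterate_succ_apply']
      exact ⟨avg_nonneg fun t ht => (ih _ (hs x hx t ht)).1,
        avg_le_const fun t ht => (ih _ (hs x hx t ht)).2⟩
  have hc : (0 : ℝ) < (s.card : ℝ) := by exact_mod_cast Finset.card_pos.mpr ⟨x, hx⟩
  have h2 : 0 ≤ (∑ y ∈ s, φ y) / (s.card : ℝ) :=
    div_nonneg (Finset.sum_nonneg fun y hy => (hφ y hy).1) hc.le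
  have h3 : (∑ y ∈ s, φ y) / (s.card : ℝ) ≤ 1 := by
    rw [div_le_one hc]
    calc ∑ y ∈ s, φ y ≤ ∑ _y ∈ s, (1 : ℝ) := Finset.sum_le_sum fun y hy => (hφ y hy).2
      _ = (s.card : ℝ) := by simp
  have h4 := h1 n x hx
  rw [abs_le]
  constructor <;> linarith



end Crest.Agent.R309.Blocks
private theorem rz_2c074eb8eb : type_of% @_root_.Crest.Agent.R309.Blocks.lazyStep.eq_1 := @_root_.Crest.Agent.R309.Blocks.lazyStep.eq_1 -- L366
end

-- ▼ part R309/Outer926D
section

/-!
# Row 309, outer sampler, part D (helper926): the outer chain on `tabs I` mixes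

`parityNear` (from helper550's `near_res`), the number of tables, and `tabs_mixing`:
the lazy block chain driven by a tape is within `2^(-m)` of uniform after `m * τ` steps.
-/

set_option autoImplicit false
set_option linter.unusedSectionVars false

namespace Crest.Agent.R309.Outer926

open Finset Crest.Agent.R309.Stab Crest.Agent.R309.Blocks Crest.Agent.R309.Iface
  Crest.Agent.R309.Conv Crest.Agent.R309.Tape

theorem parityNear {E V : Type} [Fintype E] [DecidableEq E] [Fintype V] [DecidableEq V]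
    (s t : E → V) (hst : ∀ e, s e ≠ t e) : ParityNear s t (6 * Fintype.card E + 1) := by
  intro lo hi β a ha b hb
  have key : ∀ c : E → ℤ, (sys s t lo hi β).filter (fun Y => rkey 1 Y = rkey 1 c) =
      res s t lo hi β (rkey 1 c) := by
    intro c
    ext Y
    rw [Finset.mem_filter, res, Finset.mem_filter]
    refine and_congr_right fun _ => ?_
    rw [funext_iff]
    simp [rkey]
  rw [key, key]
  have hA : (res s t lo hi β (rkey 1 a)).Nonempty := ⟨a, by rw [← key]; simp [ha]⟩
  have hB : (res s t lo hi β (rkey 1 b)).Nonempty := ⟨b, by rw [← key]; simp [hb]⟩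
  have h := near_res s t hst lo hi β _ _ hA hB
  push_cast at h ⊢
  exact h

/-- the number of tables of an instance with bounds `< 2^J` -/
theorem card_tabs_le (I : Inst) (J : ℕ) (hb : ∀ row ∈ I.2.2, ∀ b ∈ row, b < 2 ^ J) :
    (tabs I).card ≤ 2 ^ (J * (I.1.length * I.2.1.length)) := by
  classical
  by_cases hS : Shaped I
  · have hI := inst_of_shaped hS
    have hbb : ∀ i k, bdsF I i k < 2 ^ J := by
      intro i k
      have hi : i.val < I.2.2.length := by rw [hS.1]; exact i.2
      have h1 : I.2.2[i.val] ∈ I.2.2 := List.getElem_mem hi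
      have h2 := hS.2 _ h1
      have hk : k.val < (I.2.2[i.val]).length := by rw [h2]; exact k.2
      have e1 : bdsF I i k = (I.2.2[i.val])[k.val] := by
        unfold bdsF ofL
        rw [List.getD_eq_getElem _ _ hi, List.getD_eq_getElem _ _ hk]
      rw [e1]
      exact hb _ h1 _ (List.getElem_mem hk)
    rw [← hI, tabs_inst, Finset.card_image_of_injective _ toL_injective]
    calc (ftabs (rowsF I) (colsF I) (bdsF I)).card
        ≤ (Fintype.piFinset fun _ : Fin I.1.length => Fintype.piFinset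
            fun _ : Fin I.2.1.length => Finset.range (2 ^ J)).card := by
          apply Finset.card_le_card
          intro X hX
          have hX' := mem_ftabs.mp hX
          rw [Fintype.mem_piFinset]
          intro i
          rw [Fintype.mem_piFinset]
          intro k
          rw [Finset.mem_range]
          exact lt_of_le_of_lt (hX'.1 i k) (hbb i k)
      _ = 2 ^ (J * (I.1.length * I.2.1.length)) := by
          rw [Fintype.card_piFinset]
          simp only [Fintype.card_piFinset, Finset.card_range, Finset.prod_const, Finset.card_univ,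
            Fintype.card_fin]
          rw [← pow_mul, ← pow_mul]
          congr 1
          ring
      _ = _ := by simp
  · have hemp : tabs I = ∅ := by
      rw [Finset.eq_empty_iff_forall_notMem]
      intro X hX
      exact hS (IsTab.shaped (mem_tabs.mp hX))
    rw [hemp]
    simp

/-- **The outer chain mixes.** `idx` reads a uniform pair (level, shift) from `q` bits, `inner i` is a
tape-driven step inside the blocks of `tkey L i.1 i.2`, exactly symmetric, with off-diagonal kernel at
least `c / |block|`. -/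
theorem tabs_mixing (I : Inst) (J : ℕ) (hJ : 2 ≤ J)
    (hb : ∀ row ∈ I.2.2, ∀ b ∈ row, b < 2 ^ J) (L : ℕ) (hL : 0 < L)
    (hLJ : 2 * (I.1.length * I.2.1.length * (6 * (I.1.length * I.2.1.length) + 1)) * J ^ 2 ≤ L)
    {q r : ℕ} {idx : List Bool → ℕ × ℕ}
    (hidx : ∀ l : List Bool, l.length = q → idx l ∈ Finset.range J ×ˢ Finset.range L)
    (huni : ∀ i ∈ Finset.range J ×ˢ Finset.range L,
      pr q (fun l => idx l = i) = 1 / ((Finset.range J ×ˢ Finset.range L).card : ℝ))
    {inner : ℕ × ℕ → Tab → List Bool → Tab} {c : ℝ} (hc0 : 0 < c) (hc1 : c ≤ 1)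
    (hs : ∀ i ∈ Finset.range J ×ˢ Finset.range L, ∀ X, IsTab I X → ∀ t : List Bool, t.length = r →
      IsTab I (inner i X t))
    (hsym : ∀ i ∈ Finset.range J ×ˢ Finset.range L, ∀ X, IsTab I X → ∀ Y, IsTab I Y → X ≠ Y →
      ker (inner i) r X Y = ker (inner i) r Y X)
    (hlow : ∀ i ∈ Finset.range J ×ˢ Finset.range L, ∀ X, IsTab I X → ∀ Y, IsTab I Y →
      tkey L i.1 i.2 Y = tkey L i.1 i.2 X → Y ≠ X →
      c / ((fib (tabs I) (tkey L i.1 i.2) X).card : ℝ) ≤ ker (inner i) r X Y)
    {τ : ℕ} (hτ : 8 * (J : ℝ) * ((J * (I.1.length * I.2.1.length) : ℕ) + 1) / c ≤ τ)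
    (φ : Tab → ℝ) (hφ : ∀ Y, 0 ≤ φ Y ∧ φ Y ≤ 1) (m : ℕ) {X : Tab} (hX : IsTab I X) :
    |(markov (lazyStep (fun l => inner (idx l)) q) (q + r + 1))^[m * τ] φ X - unif I φ| ≤
      (1 / 2 : ℝ) ^ m := by
  classical
  have hJr : (2 : ℝ) ≤ (J : ℝ) := by exact_mod_cast hJ
  have hX' : X ∈ tabs I := mem_tabs.mpr hX
  have hst : ∀ l : List Bool, l.length = q → ∀ x ∈ tabs I, ∀ t : List Bool, t.length = r →
      inner (idx l) x t ∈ tabs I := fun l hl x hx t ht =>
    mem_tabs.mpr (hs _ (hidx l hl) x (mem_tabs.mp hx) t ht)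
  rcases Nat.eq_zero_or_pos m with hm | hm
  · subst hm
    rw [pow_zero]
    exact markov_iter_abs_le_one (lazyStep_mem hst) φ (fun y _ => hφ y) _ hX'
  have hcardP : (0 : ℝ) < ((Finset.range J ×ˢ Finset.range L).card : ℝ) := by
    have : 0 < (Finset.range J ×ˢ Finset.range L).card :=
      Finset.card_pos.mpr (Finset.Nonempty.product ⟨0, by simp; omega⟩ ⟨0, by simpa using hL⟩)
    exact_mod_cast this
  have hN := parityNear (cs : Fin I.1.length × Fin I.2.1.length → _) ct cs_ne_ct
  have hPoinc : ∀ f : Tab → ℝ, sv (tabs I) f ≤ (4 * (J : ℝ)) * Tape.avg q (fun l =>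
      csv (tabs I) (tkey L (idx l).1 (idx l).2) f) := by
    intro f
    have h1 := tabs_block_poincare I hN J hJ hb L hL (by simpa [Fintype.card_prod] using hLJ) f
    rw [avg_uniform_idx hidx huni (fun p => csv (tabs I) (tkey L p.1 p.2) f), ← mul_div_assoc,
      le_div_iff₀ hcardP]
    exact h1
  have hmix := tape_block_mixing (κ := fun l => tkey L (idx l).1 (idx l).2) hc0.le
    (by positivity : (0 : ℝ) < 4 * (J : ℝ)) (by linarith) hst
    (fun l hl x hx y hy => hsym _ (hidx l hl) x (mem_tabs.mp hx) y (mem_tabs.mp hy))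
    (fun l hl x hx y hy => hlow _ (hidx l hl) x (mem_tabs.mp hx) y (mem_tabs.mp hy))
    hPoinc φ (fun y _ => by rw [abs_of_nonneg (hφ y).1]; exact (hφ y).2) (m * τ) hX'
  have h8 : (2 : ℝ) * (4 * J) = 8 * J := by ring
  rw [h8] at hmix
  refine hmix.trans ?_
  refine pow_mul_sqrt_le (by positivity) ?_ (card_tabs_le I J hb) hm ?_
  · rw [div_le_one (by positivity)]; linarith
  · refine le_trans (le_of_eq ?_) hτ
    field_simp

end Crest.Agent.R309.Outer926
end

-- ▼ part R309/OuterAlg2

/-!
# Row 309, the outer step, part 2 (helper122): `chainSpec_of : InnerSpec → ChainSpec`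
-/

set_option autoImplicit false

namespace Crest.Agent.R309.OuterAlg

open Crest.Agent.Lib.PT Crest.Agent.R309.Tape Crest.Agent.R309.Iface Crest.Agent.R309.Blocks
  Crest.Agent.R309.Outer926 Crest.Agent.R309.PTX Crest.Agent.Lib.PT.Arith

/-! ### parameters -/

/-- number of bits of the level -/
def jb (I : Inst) : ℕ := (sz I.2.2 + 2).size
/-- number of levels -/
def JJ (I : Inst) : ℕ := 2 ^ jb I
/-- lower bound of the window length -/
def WW (I : Inst) : ℕ :=
  2 * (I.1.length * I.2.1.length * (6 * (I.1.length * I.2.1.length) + 1)) * JJ I ^ 2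
/-- number of bits of the shift -/
def lb (I : Inst) : ℕ := (WW I).size
/-- window length -/
def LL (I : Inst) : ℕ := 2 ^ lb I
/-- unary size of the block instances -/
def KK (I : Inst) : ℕ := LL I + I.1.length + I.2.1.length
/-- relaxation time -/
def TT (I : Inst) : ℕ := 64 * JJ I * (JJ I * (I.1.length * I.2.1.length) + 1)

theorem two_pow_size_le (n : ℕ) : 2 ^ n.size ≤ 2 * n + 1 := by
  rcases Nat.eq_zero_or_pos n with h | h
  · subst h; simp
  · have h1 : 0 < n.size := Nat.size_pos.2 h
    obtain ⟨k, hk⟩ : ∃ k, n.size = k + 1 := ⟨n.size - 1, by omega⟩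
    have h2 : 2 ^ k ≤ n := by
      by_contra hc
      have := Nat.size_le.2 (not_le.1 hc)
      omega
    rw [hk, pow_succ]
    omega

theorem ptu_jb : PTU jb := by
  unfold jb
  exact PTF.natSizeUn (PTU.toPTF (PTU.add (PTF.szU (by fun_prop)) (PTU.const 2)))

theorem ptu_two_pow_size {α : Type} [PTCode α] {f : α → ℕ} (hf : PTU f) :
    PTU (fun a => 2 ^ (f a).size) := by
  refine PTF.toPTU (PTF.natTwoPow (PTF.natSizeUn (PTU.toPTF hf))) ?_
  have h : PB (fun a => 2 * f a + 1) := by have := hf.pb; fun_prop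
  exact h.mono (fun a => two_pow_size_le _)

theorem ptu_JJ : PTU JJ := by
  unfold JJ jb
  exact ptu_two_pow_size (PTU.add (PTF.szU (by fun_prop)) (PTU.const 2))

theorem ptu_WW : PTU WW := by
  unfold WW
  have h1 : PTU (fun I : Inst => I.1.length) := PTU.length (by fun_prop)
  have h2 : PTU (fun I : Inst => I.2.1.length) := PTU.length (by fun_prop)
  have h3 := ptu_JJ
  exact PTU.mul (PTU.mul (PTU.const 2) (PTU.mul (PTU.mul h1 h2)
    (PTU.add (PTU.mul (PTU.const 6) (PTU.mul h1 h2)) (PTU.const 1)))) (PTU.pow h3 2)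

theorem ptu_lb : PTU lb := by
  unfold lb
  exact PTF.natSizeUn (PTU.toPTF ptu_WW)

theorem ptu_LL : PTU LL := by
  unfold LL lb
  exact ptu_two_pow_size ptu_WW

theorem ptu_KK : PTU KK := by
  unfold KK
  exact PTU.add (PTU.add ptu_LL (PTU.length (by fun_prop))) (PTU.length (by fun_prop))

theorem ptu_TT : PTU TT := by
  unfold TT
  exact PTU.mul (PTU.mul (PTU.const 64) ptu_JJ)
    (PTU.add (PTU.mul ptu_JJ (PTU.mul (PTU.length (by fun_prop)) (PTU.length (by fun_prop))))
      (PTU.const 1))

theorem two_le_JJ (I : Inst) : 2 ≤ JJ I := by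
  unfold JJ jb
  have h1 : 0 < (sz I.2.2 + 2).size := Nat.size_pos.2 (by omega)
  calc 2 = 2 ^ 1 := rfl
    _ ≤ 2 ^ (sz I.2.2 + 2).size := Nat.pow_le_pow_right (by norm_num) h1

theorem bound_lt (I : Inst) : ∀ row ∈ I.2.2, ∀ b ∈ row, b < 2 ^ JJ I := by
  intro row hrow b hb
  have h1 : b.size ≤ sz I.2.2 := by
    rw [← sz_nat]
    exact (sz_mem_le hb).trans (sz_mem_le hrow)
  have h2 : sz I.2.2 + 2 < 2 ^ (sz I.2.2 + 2).size := Nat.lt_size_self _
  have h3 : b < 2 ^ b.size := Nat.lt_size_self _
  refine lt_of_lt_of_le h3 (Nat.pow_le_pow_right (by norm_num) ?_)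
  unfold JJ jb
  omega

theorem LL_pos (I : Inst) : 0 < LL I := by unfold LL; positivity

theorem WW_le_LL (I : Inst) : WW I ≤ LL I := by
  unfold LL lb
  exact (Nat.lt_size_self _).le

/-! ### the step -/

/-- level and shift from the index bits -/
def idx (I : Inst) (l : List Bool) : ℕ × ℕ := (msb (l.take (jb I)), msb ((l.drop (jb I)).take (lb I)))

/-- the outer step -/
def ostep (E : (Inst × Un) × Tab → List Bool → Tab) (q : Inst × Tab) (t : List Bool) : Tab :=
  lazyStep (fun l X t => bstep E (KK q.1) (2 ^ (idx q.1 l).1) (LL q.1) (idx q.1 l).2 q.1 X t)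
    (jb q.1 + lb q.1) q.2 t

theorem idx_mem (I : Inst) (l : List Bool) (_ : l.length = jb I + lb I) :
    idx I l ∈ Finset.range (JJ I) ×ˢ Finset.range (LL I) := by
  rw [Finset.mem_product, Finset.mem_range, Finset.mem_range]
  unfold idx JJ LL
  constructor
  · refine (msb_lt _).trans_le (Nat.pow_le_pow_right (by norm_num) ?_)
    simp
  · refine (msb_lt _).trans_le (Nat.pow_le_pow_right (by norm_num) ?_)
    simp

theorem pr_idx (I : Inst) (i : ℕ × ℕ) (hi : i ∈ Finset.range (JJ I) ×ˢ Finset.range (LL I)) :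
    pr (jb I + lb I) (fun l => idx I l = i) =
      1 / ((Finset.range (JJ I) ×ˢ Finset.range (LL I)).card : ℝ) := by
  rw [Finset.mem_product, Finset.mem_range, Finset.mem_range] at hi
  have hmsb : ∀ (q k : ℕ), k < 2 ^ q → avg q (fun l => ind (msb l = k)) = 1 / 2 ^ q := by
    intro q k hk
    rw [MC.avg_msb q (fun i => ind (i = k))]
    congr 1
    rw [Finset.sum_eq_single k]
    · exact ind_of rfl
    · intro b _ hb; exact ind_of_not hb
    · intro h; exact absurd (Finset.mem_range.2 hk) h
  unfold pr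
  have h1 : avg (jb I + lb I) (fun l => ind (idx I l = i)) =
      avg (jb I + lb I) (fun l => (fun l l' => ind (msb l = i.1) * ind (msb l' = i.2))
        (l.take (jb I)) (l.drop (jb I))) := by
    refine avg_congr fun l hl => ?_
    have h2 : (l.drop (jb I)).take (lb I) = l.drop (jb I) :=
      List.take_of_length_le (by rw [List.length_drop]; omega)
    unfold idx
    rw [h2]
    beta_reduce
    by_cases ha : msb (l.take (jb I)) = i.1
    · by_cases hb : msb (l.drop (jb I)) = i.2
      · rw [ind_of (by rw [ha, hb]), ind_of ha, ind_of hb]; norm_num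
      · rw [ind_of_not (fun h => hb (by rw [← h])), ind_of_not hb, mul_zero]
    · rw [ind_of_not (fun h => ha (by rw [← h])), ind_of_not ha, zero_mul]
  rw [h1, avg_take_drop (jb I) (lb I) (fun l l' => ind (msb l = i.1) * ind (msb l' = i.2))]
  simp_rw [avg_mul_left, avg_mul_right]
  rw [hmsb _ _ hi.1, hmsb _ _ hi.2]
  rw [Finset.card_product, Finset.card_range, Finset.card_range]
  unfold JJ LL
  push_cast
  field_simp

theorem map_pair_iff {α β γ : Type} (f : α → β) (g : α → γ) (X Y : List (List α)) :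
    Y.map (List.map fun x => (f x, g x)) = X.map (List.map fun x => (f x, g x)) ↔
      (Y.map (List.map f), Y.map (List.map g)) = (X.map (List.map f), X.map (List.map g)) := by
  constructor
  · intro h
    have h1 := congrArg (List.map (List.map Prod.fst)) h
    have h2 := congrArg (List.map (List.map Prod.snd)) h
    simp only [List.map_map] at h1 h2
    have e1 : List.map Prod.fst ∘ List.map (fun x => (f x, g x)) = List.map f := by
      funext l; simp
    have e2 : List.map Prod.snd ∘ List.map (fun x => (f x, g x)) = List.map g := by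
      funext l; simp
    rw [e1] at h1
    rw [e2] at h2
    rw [h1, h2]
  · intro h
    rw [Prod.mk.injEq] at h
    have key : ∀ Z : List (List α), Z.map (List.map fun x => (f x, g x)) =
        List.zipWith (List.zipWith Prod.mk) (Z.map (List.map f)) (Z.map (List.map g)) := by
      intro Z
      induction Z with
      | nil => rfl
      | cons a Z ih =>
        rw [List.map_cons, List.map_cons, List.map_cons, List.zipWith_cons_cons, ← ih]
        congr 1
        clear ih
        induction a with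
        | nil => rfl
        | cons b a iha => rw [List.map_cons, List.map_cons, List.map_cons, List.zipWith_cons_cons, ← iha]
    rw [key, key, h.1, h.2]

theorem key_iff_tkey (L j u : ℕ) (X Y : Tab) :
    key (2 ^ j) L u Y = key (2 ^ j) L u X ↔ tkey L j u Y = tkey L j u X :=
  map_pair_iff (fun x => x % 2 ^ j) (fun x => (x / 2 ^ j + u) / L) X Y

theorem fib_eq_filter (L j u : ℕ) (I : Inst) (X : Tab) :
    fib (tabs I) (tkey L j u) X =
      (tabs I).filter fun Y => key (2 ^ j) L u Y = key (2 ^ j) L u X := by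
  ext Y
  rw [mem_fib, Finset.mem_filter, key_iff_tkey]

theorem outer_ok {E : (Inst × Un) × Tab → List Bool → Tab} {len : ℕ → ℕ} (H : InnerOK E len)
    (I : Inst) (X : Tab) (hX : IsTab I X) :
    (∀ t : List Bool, t.length = jb I + lb I + len (KK I) + 1 → IsTab I (ostep E (I, X) t)) ∧
      ∀ (m : ℕ) (φ : Tab → ℝ), (∀ Y, 0 ≤ φ Y ∧ φ Y ≤ 1) →
        |(markov (fun Y t => ostep E (I, Y) t) (jb I + lb I + len (KK I) + 1))^[m * TT I] φ X
          - unif I φ| ≤ (1 / 2 : ℝ) ^ m := by
  have hL := LL_pos I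
  have hsmall : ∀ (p u : ℕ) (Y : Tab), IsTab I Y → Small (blk p (LL I) u I Y) (KK I) :=
    fun p u Y hY => small_blk hL u hY (by unfold KK; omega) (by unfold KK; omega)
      (by unfold KK; omega)
  set inner : ℕ × ℕ → Tab → List Bool → Tab :=
    fun i Y t => bstep E (KK I) (2 ^ i.1) (LL I) i.2 I Y t with hinner
  have hst : ∀ i : ℕ × ℕ, ∀ Y, IsTab I Y → ∀ t : List Bool, t.length = len (KK I) →
      IsTab I (inner i Y t) := fun i Y hY t ht =>
    (bstep_mem H (by positivity) hL i.2 hY (hsmall _ _ Y hY) ht).1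
  constructor
  · intro t ht
    cases t with
    | nil => simp at ht
    | cons b t =>
      simp only [ostep, lazyStep]
      split_ifs with h
      · exact hX
      · refine hst (idx I (t.take (jb I + lb I))) X hX _ ?_
        rw [List.length_drop]
        simp only [List.length_cons] at ht
        omega
  · intro m φ hφ
    refine tabs_mixing I (JJ I) (two_le_JJ I) (bound_lt I) (LL I) hL (WW_le_LL I)
      (q := jb I + lb I) (r := len (KK I)) (idx := idx I) (idx_mem I) (pr_idx I)
      (inner := inner) (c := 1 / 8) (by norm_num) (by norm_num)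
      (fun i _ => hst i) ?_ ?_ (τ := TT I) ?_ φ hφ m hX
    · intro i _ Y hY Z hZ _
      exact pr_bstep_symm H (by positivity) hL i.2 hY hZ (hsmall _ _ Y hY) (hsmall _ _ Z hZ)
    · intro i _ Y hY Z hZ hk hne
      rw [← key_iff_tkey] at hk
      have h1 := pr_bstep_ge H (by positivity) hL i.2 hY hZ (hsmall _ _ Y hY) hk
        (fun h => hne h.symm)
      rw [fib_eq_filter]
      refine le_trans (le_of_eq ?_) h1
      rw [div_div]
    · unfold TT
      push_cast
      rw [div_le_iff₀ (by norm_num)]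
      ring_nf
      rfl

/-! ### poly-time -/

theorem ostep_eq (E : (Inst × Un) × Tab → List Bool → Tab) (q : Inst × Tab) (t : List Bool) :
    ostep E q t = bif t.head?.getD true then q.2 else
      dec (2 ^ (idx q.1 (t.tail.take (jb q.1 + lb q.1))).1)
        (tA (2 ^ (idx q.1 (t.tail.take (jb q.1 + lb q.1))).1) (LL q.1)
          (idx q.1 (t.tail.take (jb q.1 + lb q.1))).2 q.2)
        (E ((blk (2 ^ (idx q.1 (t.tail.take (jb q.1 + lb q.1))).1) (LL q.1)
              (idx q.1 (t.tail.take (jb q.1 + lb q.1))).2 q.1 q.2, ⟨KK q.1⟩),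
            tZ (2 ^ (idx q.1 (t.tail.take (jb q.1 + lb q.1))).1) (LL q.1)
              (idx q.1 (t.tail.take (jb q.1 + lb q.1))).2 q.2)
          (t.tail.drop (jb q.1 + lb q.1))) := by
  cases t with
  | nil => rfl
  | cons b t =>
    cases b
    · rfl
    · rfl

section ptf

variable {γ : Type} [PTCode γ]

theorem ptf_tA {p L u : γ → ℕ} {X : γ → Tab} (hp : PTF p) (hL : PTF L) (hu : PTF u) (hX : PTF X) :
    PTF (fun c => tA (p c) (L c) (u c) (X c)) := by
  unfold tA cA
  pt_solve

theorem ptf_tZ {p L u : γ → ℕ} {X : γ → Tab} (hp : PTF p) (hL : PTF L) (hu : PTF u) (hX : PTF X) :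
    PTF (fun c => tZ (p c) (L c) (u c) (X c)) := by
  unfold tZ cZ
  pt_solve

theorem ptf_tH {p L u : γ → ℕ} {B X : γ → Tab} (hp : PTF p) (hL : PTF L) (hu : PTF u) (hB : PTF B)
    (hX : PTF X) : PTF (fun c => tH (p c) (L c) (u c) (B c) (X c)) := by
  unfold tH cH
  pt_solve

theorem ptf_dec {p : γ → ℕ} {A Z : γ → Tab} (hp : PTF p) (hA : PTF A) (hZ : PTF Z) :
    PTF (fun c => dec (p c) (A c) (Z c)) := by
  unfold dec rdec
  pt_solve

theorem ptf_colSum {X : γ → Tab} {j : γ → ℕ} (hX : PTF X) (hj : PTF j) :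
    PTF (fun c => colSum (X c) (j c)) := by
  unfold colSum
  pt_solve

theorem ptf_blk {p L u : γ → ℕ} {I : γ → Inst} {X : γ → Tab} (hp : PTF p) (hL : PTF L)
    (hu : PTF u) (hI : PTF I) (hX : PTF X) :
    PTF (fun c => blk (p c) (L c) (u c) (I c) (X c)) := by
  unfold blk
  have hZ := ptf_tZ hp hL hu hX
  refine PTF.prodMk ?_ (PTF.prodMk ?_ ?_)
  · exact PTF.map hZ (by pt_solve)
  · refine PTF.map (PTF.range (PTU.length ?_)) ?_
    · exact PTF.comp (g := fun J : Inst => J.2.1) (by fun_prop) hI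
    · exact ptf_colSum (PTF.comp hZ PTF.fst) (by fun_prop)
  · refine ptf_tH hp hL hu ?_ hX
    exact PTF.comp (g := fun J : Inst => J.2.2) (by fun_prop) hI

theorem ptf_idx_snd {I : γ → Inst} {l : γ → List Bool} (hI : PTF I) (hl : PTF l) :
    PTF (fun c => (idx (I c) (l c)).2) := by
  unfold idx
  refine PTF.comp (g := msb) ptf_msb (ptf_take' ?_ (ptf_drop' ?_ hl))
  · exact PTF.comp (PTU.toPTF ptu_lb) hI
  · exact PTF.comp (PTU.toPTF ptu_jb) hI

theorem ptf_idx_fst {I : γ → Inst} {l : γ → List Bool} (hI : PTF I) (hl : PTF l) :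
    PTF (fun c => 2 ^ (idx (I c) (l c)).1) := by
  refine PTF.natTwoPow (PTF.toPTU ?_ ?_)
  · unfold idx
    refine PTF.comp (g := msb) ptf_msb (ptf_take' ?_ hl)
    exact PTF.comp (PTU.toPTF ptu_jb) hI
  · have h1 : PTU (fun c => JJ (I c)) := PTU.comp ptu_JJ hI
    refine h1.pb.mono fun c => ?_
    unfold idx JJ
    refine ((msb_lt _).trans_le (Nat.pow_le_pow_right (by norm_num) ?_)).le
    simp

end ptf

theorem ptf_ostep {E : (Inst × Un) × Tab → List Bool → Tab}
    (hE : PTF (fun p : ((Inst × Un) × Tab) × List Bool => E p.1 p.2)) :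
    PTF (fun p : (Inst × Tab) × List Bool => ostep E p.1 p.2) := by
  have hI : PTF (fun p : (Inst × Tab) × List Bool => p.1.1) := by fun_prop
  have hX : PTF (fun p : (Inst × Tab) × List Bool => p.1.2) := by fun_prop
  have ht : PTF (fun p : (Inst × Tab) × List Bool => p.2.tail) := by pt_solve
  have hq : PTF (fun p : (Inst × Tab) × List Bool => jb p.1.1 + lb p.1.1) :=
    PTF.natAdd (PTF.comp (PTU.toPTF ptu_jb) hI) (PTF.comp (PTU.toPTF ptu_lb) hI)
  have hl : PTF (fun p : (Inst × Tab) × List Bool => p.2.tail.take (jb p.1.1 + lb p.1.1)) :=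
    ptf_take' hq ht
  have hp := ptf_idx_fst hI hl
  have hu := ptf_idx_snd hI hl
  have hL : PTF (fun p : (Inst × Tab) × List Bool => LL p.1.1) :=
    PTF.comp (PTU.toPTF ptu_LL) hI
  have hK : PTU (fun p : (Inst × Tab) × List Bool => KK p.1.1) := PTU.comp ptu_KK hI
  have hA := ptf_tA hp hL hu hX
  have hZ := ptf_tZ hp hL hu hX
  have hB := ptf_blk hp hL hu hI hX
  have hr : PTF (fun p : (Inst × Tab) × List Bool => p.2.tail.drop (jb p.1.1 + lb p.1.1)) :=
    ptf_drop' hq ht
  have hE' := PTF.comp (g := fun p : ((Inst × Un) × Tab) × List Bool => E p.1 p.2) hE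
    (PTF.prodMk (PTF.prodMk (PTF.prodMk hB hK) hZ) hr)
  have hd := ptf_dec hp hA hE'
  refine PTF.of_eq (PTF.cond (c := fun p : (Inst × Tab) × List Bool => p.2.head?.getD true)
    ?_ hX hd) (fun p => (ostep_eq E p.1 p.2).symm)
  exact PTF.optionGetD (PTF.head? PTF.snd) (PTF.const true)

/-- **The outer chain**: everything about the chain follows from the inner step. -/
theorem chainSpec_of (h : InnerSpec) : ChainSpec := by
  obtain ⟨E, len, hE, hlen, H⟩ := h
  refine ⟨ostep E, fun I => jb I + lb I + len (KK I) + 1, TT, ptf_ostep hE, ?_, ptu_TT, ?_⟩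
  · refine PTU.add (PTU.add (PTU.add ptu_jb ptu_lb) ?_) (PTU.const 1)
    exact PTU.comp (n := fun u : Un => len u.val) hlen ptu_KK
  · intro I X hX
    exact outer_ok H I X hX

end Crest.Agent.R309.OuterAlg
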