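import Crest.Agent.R309.RAMMachine
import Crest.Prelude.Def_WordRAMProb

/-!
# Averages over random words and random bits; the machine reads its random words in order
-/

set_option autoImplicit false

namespace Crest.Agent.R309.RAM

open Crest.WordRAM
open Function
open scoped ENNReal

/-- the stream `a, y 0, y 1, ...` -/
def scons (a : ℕ) (y : ℕ → ℕ) : ℕ → ℕ
  | 0 => a
  | i + 1 => y i

/-- the stream `x` followed by `y` -/
def sapp : List ℕ → (ℕ → ℕ) → ℕ → ℕ
  | [], y => y
  | a :: x, y => scons a (sapp x y)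

/-- average over the first `n` words of a stream -/
noncomputable def A (w : ℕ) : ℕ → ((ℕ → ℕ) → ℝ≥0∞) → ℝ≥0∞
  | 0, F => F (fun _ => 0)
  | n + 1, F => (∑ a : Fin (2 ^ w), A w n (fun y => F (scons a y))) / 2 ^ w

/-- average over `n` fair bits -/
noncomputable def B : ℕ → (List Bool → ℝ≥0∞) → ℝ≥0∞
  | 0, G => G []
  | n + 1, G => (B n (fun τ => G (false :: τ)) + B n (fun τ => G (true :: τ))) / 2

theorem A_mono {w n : ℕ} {F F' : (ℕ → ℕ) → ℝ≥0∞} (h : ∀ y, F y ≤ F' y) : A w n F ≤ A w n F' := by
  induction n generalizing F F' with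
  | zero => exact h _
  | succ n ih =>
    exact ENNReal.div_le_div_right (Finset.sum_le_sum fun a _ => ih fun y => h _) _

theorem B_mono {n : ℕ} {G G' : List Bool → ℝ≥0∞} (h : ∀ τ, τ.length = n → G τ ≤ G' τ) :
    B n G ≤ B n G' := by
  induction n generalizing G G' with
  | zero => exact h _ rfl
  | succ n ih =>
    exact ENNReal.div_le_div_right (add_le_add (ih fun τ hτ => h _ (by simp [hτ]))
      (ih fun τ hτ => h _ (by simp [hτ]))) _

theorem A_add {w n : ℕ} (F F' : (ℕ → ℕ) → ℝ≥0∞) :
    A w n (fun y => F y + F' y) = A w n F + A w n F' := by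
  induction n generalizing F F' with
  | zero => rfl
  | succ n ih =>
    simp only [A, ih, Finset.sum_add_distrib, ENNReal.add_div]

theorem B_add {n : ℕ} (G G' : List Bool → ℝ≥0∞) :
    B n (fun τ => G τ + G' τ) = B n G + B n G' := by
  induction n generalizing G G' with
  | zero => rfl
  | succ n ih =>
    simp only [B, ih]
    rw [← ENNReal.add_div]
    congr 1
    ring

theorem two_pow_ne_zero' (w : ℕ) : (2 ^ w : ℝ≥0∞) ≠ 0 := by positivity

theorem two_pow_ne_top' (w : ℕ) : (2 ^ w : ℝ≥0∞) ≠ ⊤ := ENNReal.pow_ne_top (by simp)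

theorem A_const {w n : ℕ} (c : ℝ≥0∞) : A w n (fun _ => c) = c := by
  induction n with
  | zero => rfl
  | succ n ih =>
    simp only [A, ih, Finset.sum_const, Finset.card_univ, Fintype.card_fin, nsmul_eq_mul]
    push_cast
    rw [mul_comm, mul_div_assoc, ENNReal.div_self (two_pow_ne_zero' w) (two_pow_ne_top' w), mul_one]

theorem B_const {n : ℕ} (c : ℝ≥0∞) : B n (fun _ => c) = c := by
  induction n with
  | zero => rfl
  | succ n ih =>
    simp only [B, ih]
    rw [← two_mul, mul_comm, mul_div_assoc, ENNReal.div_self (by simp) (by simp), mul_one]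

/-- `F` depends only on the first `n` entries -/
def Loc (n : ℕ) (F : (ℕ → ℕ) → ℝ≥0∞) : Prop := ∀ y y', (∀ i, i < n → y i = y' i) → F y = F y'

theorem Loc.mono {n m : ℕ} {F : (ℕ → ℕ) → ℝ≥0∞} (h : Loc n F) (hm : n ≤ m) : Loc m F :=
  fun y y' hy => h y y' fun i hi => hy i (by omega)

theorem Loc.scons {n : ℕ} {F : (ℕ → ℕ) → ℝ≥0∞} (h : Loc (n + 1) F) (a : ℕ) :
    Loc n (fun y => F (RAM.scons a y)) := by
  intro y y' hy
  apply h
  intro i hi
  cases i with
  | zero => rfl
  | succ i => exact hy i (by omega)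

theorem A_loc {w n m : ℕ} (hm : n ≤ m) {F : (ℕ → ℕ) → ℝ≥0∞} (h : Loc n F) : A w m F = A w n F := by
  induction n generalizing m F with
  | zero =>
    have : F = fun _ => F (fun _ => 0) := by
      funext y
      exact h _ _ (fun i hi => by omega)
    rw [this, A_const]
    rfl
  | succ n ih =>
    obtain ⟨m, rfl⟩ : ∃ m', m = m' + 1 := ⟨m - 1, by omega⟩
    simp only [A]
    congr 1
    refine Finset.sum_congr rfl fun a _ => ?_
    exact ih (by omega) (h.scons a)

/-- the bits of a list of words -/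
def bits (w : ℕ) (x : List ℕ) : List Bool := x.map fun a => decide (a % 2 ^ w % 2 = 1)

/-- averaging a function of the low bit of a word -/
theorem avg_bit {w : ℕ} (hw : 1 ≤ w) (Φ : Bool → ℝ≥0∞) :
    (∑ a : Fin (2 ^ w), Φ (decide ((a : ℕ) % 2 ^ w % 2 = 1))) / 2 ^ w =
      (Φ false + Φ true) / 2 := by
  have h1 : ∀ n : ℕ, ∑ a ∈ Finset.range (2 * n), Φ (decide (a % 2 = 1)) =
      n * (Φ false + Φ true) := by
    intro n
    induction n with
    | zero => simp
    | succ n ih =>
      rw [show 2 * (n + 1) = 2 * n + 1 + 1 by ring, Finset.sum_range_succ, Finset.sum_range_succ, ih]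
      have e1 : (2 * n) % 2 = 0 := by omega
      have e2 : (2 * n + 1) % 2 = 1 := by omega
      rw [e1, e2]
      push_cast
      simp only [decide_false, decide_true]
      ring
  have h2 : ∑ a : Fin (2 ^ w), Φ (decide ((a : ℕ) % 2 ^ w % 2 = 1)) =
      ∑ a ∈ Finset.range (2 ^ w), Φ (decide (a % 2 = 1)) := by
    rw [Finset.sum_range]
    refine Finset.sum_congr rfl fun a _ => ?_
    rw [Nat.mod_eq_of_lt a.2]
  obtain ⟨v, rfl⟩ := Nat.exists_eq_add_of_le hw
  rw [h2, pow_add, pow_one, h1, pow_add, pow_one]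
  push_cast
  rw [show ((2 : ℝ≥0∞) * 2 ^ v) = 2 ^ v * 2 by ring,
    ENNReal.mul_div_mul_left _ _ (two_pow_ne_zero' v) (two_pow_ne_top' v)]

/-- comparing an average over words with an average over bits, upper bound -/
theorem A_le_B {w : ℕ} (hw : 1 ≤ w) (m : ℕ) : ∀ (n : ℕ) (F : (ℕ → ℕ) → ℝ≥0∞)
    (G : List Bool → ℝ≥0∞),
    (∀ x : List ℕ, x.length = n → A w m (fun y => F (sapp x y)) ≤ G (bits w x)) →
    A w (n + m) F ≤ B n G := by
  intro n
  induction n with
  | zero =>
    intro F G h
    rw [zero_add]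
    exact h [] rfl
  | succ n ih =>
    intro F G h
    rw [show n + 1 + m = n + m + 1 by omega]
    simp only [A, B]
    refine le_trans ?_ (avg_bit hw (fun b => B n (fun τ => G (b :: τ)))).le
    refine ENNReal.div_le_div_right (Finset.sum_le_sum fun a _ => ?_) _
    exact ih (fun y => F (scons a y)) _ fun x hx => h (a :: x) (by simp [hx])

/-- comparing an average over words with an average over bits, lower bound -/
theorem B_le_A {w : ℕ} (hw : 1 ≤ w) (m : ℕ) : ∀ (n : ℕ) (F : (ℕ → ℕ) → ℝ≥0∞)
    (G : List Bool → ℝ≥0∞),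
    (∀ x : List ℕ, x.length = n → G (bits w x) ≤ A w m (fun y => F (sapp x y))) →
    B n G ≤ A w (n + m) F := by
  intro n
  induction n with
  | zero =>
    intro F G h
    rw [zero_add]
    exact h [] rfl
  | succ n ih =>
    intro F G h
    rw [show n + 1 + m = n + m + 1 by omega]
    simp only [A, B]
    refine le_trans (avg_bit hw (fun b => B n (fun τ => G (b :: τ)))).ge ?_
    refine ENNReal.div_le_div_right (Finset.sum_le_sum fun a _ => ?_) _
    exact ih (fun y => F (scons a y)) _ fun x hx => h (a :: x) (by simp [hx])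

theorem streamOf_cons {T m : ℕ} (a : Fin m) (tab : Fin T → Fin m) :
    streamOf (Fin.cons a tab : Fin (T + 1) → Fin m) = scons a (streamOf tab) := by
  funext i
  cases i with
  | zero =>
    simp [streamOf, scons]
  | succ i =>
    unfold streamOf scons
    by_cases hi : i < T
    · rw [dif_pos (show i + 1 < T + 1 by omega)]
      simp only [dif_pos hi]
      rfl
    · rw [dif_neg (show ¬ i + 1 < T + 1 by omega)]
      simp only [dif_neg hi]

/-- averages over tables -/
theorem A_eq_sum {w : ℕ} (n : ℕ) (F : (ℕ → ℕ) → ℝ≥0∞) :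
    A w n F = (∑ tab : Fin n → Fin (2 ^ w), F (streamOf tab)) / (2 ^ w) ^ n := by
  induction n generalizing F with
  | zero =>
    simp only [A, pow_zero, div_one, Finset.univ_unique, Finset.sum_singleton]
    congr 1
  | succ n ih =>
    simp only [A, ih]
    rw [← Fin.consEquiv (fun _ => Fin (2 ^ w)) |>.sum_comp, Fintype.sum_prod_type]
    have hc : ∀ (a : Fin (2 ^ w)) (tab : Fin n → Fin (2 ^ w)),
        streamOf ((Fin.consEquiv (fun _ => Fin (2 ^ w))) (a, tab)) = scons a (streamOf tab) :=
      fun a tab => streamOf_cons a tab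
    simp only [hc]
    rw [pow_succ, ENNReal.div_eq_inv_mul, ENNReal.div_eq_inv_mul, ENNReal.mul_inv, Finset.mul_sum,
      Finset.mul_sum]
    · refine Finset.sum_congr rfl fun a _ => ?_
      rw [ENNReal.div_eq_inv_mul]
      ring
    · left; exact pow_ne_zero _ (two_pow_ne_zero' w)
    · left; exact ENNReal.pow_ne_top (two_pow_ne_top' w)

open Classical in
/-- indicator -/
noncomputable def ind (p : Prop) : ℝ≥0∞ := if p then 1 else 0

theorem ind_true {p : Prop} (h : p) : ind p = 1 := by
  unfold ind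
  rw [if_pos h]

theorem ind_false {p : Prop} (h : ¬ p) : ind p = 0 := by
  unfold ind
  rw [if_neg h]

theorem ind_le_one (p : Prop) : ind p ≤ 1 := by
  by_cases h : p
  · rw [ind_true h]
  · rw [ind_false h]; simp

/-- the probability of an event as an average -/
theorem ofReal_probAfter (P : Program) (w : ℕ) (input : List ℕ) (T : ℕ)
    (E : Cfg P.numRegs → Prop) :
    ENNReal.ofReal (probAfter P w input T E) =
      A w T (fun y => ind (E (run P w y input T))) := by
  classical
  rw [A_eq_sum]
  unfold probAfter Crest.FinProb.uniformProb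
  rw [ENNReal.ofReal_div_of_pos (by positivity)]
  congr 1
  · rw [ENNReal.ofReal_natCast]
    unfold ind
    rw [Finset.sum_boole]
    congr 2
  · rw [Fintype.card_fun, Fintype.card_fin, Fintype.card_fin, ENNReal.ofReal_natCast]
    push_cast
    rfl

end Crest.Agent.R309.RAM
private theorem rz_f476ee6192 : type_of% @_root_.Crest.Agent.R309.RAM.A.eq_def := @_root_.Crest.Agent.R309.RAM.A.eq_def -- L27
private theorem rz_39ce515b34 : type_of% @_root_.Crest.Agent.R309.RAM.A.eq_1 := @_root_.Crest.Agent.R309.RAM.A.eq_1 -- L27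
private theorem rz_16b6a949dc : type_of% @_root_.Crest.Agent.R309.RAM.B.eq_def := @_root_.Crest.Agent.R309.RAM.B.eq_def -- L32
private theorem rz_5343b917dd : type_of% @_root_.Crest.Agent.R309.RAM.B.eq_1 := @_root_.Crest.Agent.R309.RAM.B.eq_1 -- L32
private theorem rz_8465ec0c77 : type_of% @_root_.Crest.Agent.R309.RAM.sapp.eq_def := @_root_.Crest.Agent.R309.RAM.sapp.eq_def -- L22
private theorem rz_f022245958 : type_of% @_root_.Crest.Agent.R309.RAM.sapp.eq_1 := @_root_.Crest.Agent.R309.RAM.sapp.eq_1 -- L22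
private theorem rz_4192a69bfb : type_of% @_root_.Crest.Agent.R309.RAM.scons.eq_1 := @_root_.Crest.Agent.R309.RAM.scons.eq_1 -- L17
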