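import Crest.Agent.R309.RAMCmd
import Crest.Agent.Lib.PT.Typed

-- ▼ part R309/RAMDraw
section

/-!
# Random bits and one round of the bit-tape process on the word RAM
-/

set_option autoImplicit false

namespace Crest.Agent.R309.RAM

open Crest.WordRAM hiding init
open Crest.Agent.Lib.PT Function

/-- push the content of register `r` on stack `k` -/
def pushB (k r : ℕ) : List Op := [.add (12 + k) (12 + k) 6, .store r (12 + k)]

/-- remove the top of stack `k` -/
def popB (k : ℕ) : List Op := [.sub (12 + k) (12 + k) 6]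

section macros

variable {w K : ℕ} {S : Store} {σ : St} {ρ : ℕ → ℕ}

theorem effs_append (l l' : List Op) (σ : St) :
    effs w ρ (l ++ l') σ = effs w ρ l' (effs w ρ l σ) := by
  unfold effs
  rw [List.foldl_append]

theorem pushB_regs {k r j : ℕ} (hj : j ≠ 12 + k) :
    (effs w ρ (pushB k r) σ).regs j = σ.regs j := by
  simp only [pushB, effs_cons, effs_nil, Op.eff]
  rw [update_of_ne hj]

theorem pushB_drawn {k r : ℕ} : (effs w ρ (pushB k r) σ).drawn = σ.drawn := rfl

theorem Rep.pushB_mem (h : Rep w K S σ) {k : ℕ} (hk : k < K)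
    (room : adr w K k ((S k).length + 1) < 2 ^ w) {r a : ℕ} (ha : a < 2 ^ (w - 1)) :
    (effs w ρ (RAM.pushB k r) σ).mem a = σ.mem a := by
  simp only [RAM.pushB, effs_cons, effs_nil, Op.eff, update_self]
  rw [h.sp k hk, h.str, ← adr_succ, Nat.mod_eq_of_lt room, update_of_ne]
  have := le_adr w K k ((S k).length + 1)
  omega

theorem Rep.pushB (h : Rep w K S σ) {k : ℕ} (hk : k < K)
    (room : adr w K k ((S k).length + 1) < 2 ^ w) {r : ℕ} (hr : r ≠ 12 + k) {b : Bool}
    (hb : σ.regs r = b.toNat) :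
    Rep w K (update S k (b :: S k)) (effs w ρ (RAM.pushB k r) σ) := by
  simp only [RAM.pushB, effs_cons, effs_nil, Op.eff, update_self]
  have e1 : (σ.regs (12 + k) + σ.regs 6) % 2 ^ w = adr w K k ((S k).length + 1) := by
    rw [h.sp k hk, h.str, ← adr_succ]
    exact Nat.mod_eq_of_lt room
  exact h.push hk b e1 (by rw [update_of_ne hr, hb])

theorem popB_regs {k j : ℕ} (hj : j ≠ 12 + k) :
    (effs w ρ (popB k) σ).regs j = σ.regs j := by
  simp only [popB, effs_cons, effs_nil, Op.eff]
  rw [update_of_ne hj]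

theorem popB_mem {k a : ℕ} : (effs w ρ (popB k) σ).mem a = σ.mem a := rfl

theorem popB_drawn {k : ℕ} : (effs w ρ (popB k) σ).drawn = σ.drawn := rfl

theorem Rep.popB (h : Rep w K S σ) {k : ℕ} (hk : k < K) {b : Bool} {l : List Bool}
    (hS : S k = b :: l) : Rep w K (update S k l) (effs w ρ (RAM.popB k) σ) := by
  simp only [RAM.popB, effs_cons, effs_nil, Op.eff]
  exact h.pop hk hS (by rw [h.str])

theorem ld_regs {k j : ℕ} (hj : j ≠ 2) : (ld k σ).regs j = σ.regs j := by
  simp only [ld]
  rw [update_of_ne hj]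

theorem ld_mem {k a : ℕ} : (ld k σ).mem a = σ.mem a := rfl

theorem ld_drawn {k : ℕ} : (ld k σ).drawn = σ.drawn := rfl

end macros

/-- the random bit number `d` -/
def bitAt (w : ℕ) (ρ : ℕ → ℕ) (d : ℕ) : Bool := decide (ρ d % 2 ^ w % 2 = 1)

theorem bitAt_toNat (w : ℕ) (ρ : ℕ → ℕ) (d : ℕ) : (bitAt w ρ d).toNat = ρ d % 2 ^ w % 2 := by
  unfold bitAt
  rcases Nat.mod_two_eq_zero_or_one (ρ d % 2 ^ w) with h | h <;> simp [h]

/-- the random bits number `d, ..., d + n - 1` -/
def rbits (w : ℕ) (ρ : ℕ → ℕ) : ℕ → ℕ → List Bool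
  | _, 0 => []
  | d, n + 1 => bitAt w ρ d :: rbits w ρ (d + 1) n

theorem rbits_length (w : ℕ) (ρ : ℕ → ℕ) (d n : ℕ) : (rbits w ρ d n).length = n := by
  induction n generalizing d with
  | zero => rfl
  | succ n ih => simp [rbits, ih]

/-- move a bit from stack `0` to stack `1` and push a random bit on stack `2` -/
def drawBody : Prog :=
  .blk (pushB 1 2 ++ [.rand 8, .rem 8 8 5] ++ pushB 2 8 ++ popB 0 ++ [.load 2 (12 + 0)])

/-- reverse stack `0` onto stack `1` and as many random bits onto stack `2` -/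
def drawP : Prog := .seq (.blk [.load 2 (12 + 0)]) (.loop (.eq 2 5) drawBody)

theorem draw_loop {w K H : ℕ} (ρ : ℕ → ℕ) (hw : 1 ≤ w) (hH : K * (H + 1) ≤ 2 ^ (w - 1))
    (hK : 2 < K) : ∀ (n : ℕ) (S : Store) (σ : St), (S 0).length = n → n + (S 1).length ≤ H →
      n + (S 2).length ≤ H → Rep w K S σ →
      ∃ σ' t, Ex w ρ (.loop (.eq 2 5) drawBody) (ld 0 σ) σ' t ∧ t ≤ 1 + 10 * n ∧
        Rep w K (update (update (update S 0 []) 1 ((S 0).reverse ++ S 1)) 2
          ((rbits w ρ σ.drawn n).reverse ++ S 2)) σ' ∧ σ'.drawn = σ.drawn + n := by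
  intro n
  induction n with
  | zero =>
    intro S σ h0 _ _ hσ
    have h0' : S 0 = [] := List.length_eq_zero_iff.1 h0
    refine ⟨ld 0 σ, 1, Ex.loop_done ((hσ.ld_eval5 (by omega)).2 h0'), by omega, ?_, rfl⟩
    have : update (update (update S 0 []) 1 ((S 0).reverse ++ S 1)) 2
        ((rbits w ρ σ.drawn 0).reverse ++ S 2) = S := by
      funext j
      simp only [rbits, List.reverse_nil, List.nil_append, h0']
      by_cases hj2 : j = 2
      · subst hj2; simp
      · rw [update_of_ne hj2]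
        by_cases hj1 : j = 1
        · subst hj1; simp
        · rw [update_of_ne hj1]
          by_cases hj0 : j = 0
          · subst hj0; simp [h0']
          · rw [update_of_ne hj0]
    rw [this]
    exact hσ.ld 0
  | succ n ih =>
    intro S σ h0 h1 h2 hσ
    obtain ⟨b, l, hbl⟩ : ∃ b l, S 0 = b :: l :=
      List.exists_cons_of_ne_nil (by intro h; rw [h] at h0; simp at h0)
    have hl : l.length = n := by rw [hbl] at h0; simpa using h0
    -- step by step
    have r0 := hσ.ld 0
    have b0 : (ld 0 σ).regs 2 = b.toNat := by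
      rw [hσ.ld_reg (by omega), hbl]; rfl
    have r1 := r0.pushB (ρ := ρ) (k := 1) (by omega) (adr_lt hw hH (by omega) (by omega)) (r := 2)
      (by omega) b0
    set σ1 := effs w ρ (pushB 1 2) (ld 0 σ) with hσ1
    have r2 : Rep w K (update S 1 (b :: S 1)) (effs w ρ [.rand 8, .rem 8 8 5] σ1) := by
      simp only [effs_cons, effs_nil, Op.eff]
      exact ((r1.scratch _ (by omega)).drawn _).scratch _ (by omega)
    have b2 : (effs w ρ [.rand 8, .rem 8 8 5] σ1).regs 8 = (bitAt w ρ σ.drawn).toNat := by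
      simp only [effs_cons, effs_nil, Op.eff, update_self]
      rw [update_of_ne (show (5 : ℕ) ≠ 8 by omega), r1.two, bitAt_toNat]
      rfl
    have d2 : (effs w ρ [.rand 8, .rem 8 8 5] σ1).drawn = σ.drawn + 1 := rfl
    set σ2 := effs w ρ [.rand 8, .rem 8 8 5] σ1 with hσ2
    have r3 := r2.pushB (ρ := ρ) (k := 2) (by omega) (adr_lt hw hH (by omega) (by
      rw [update_of_ne (by omega)]; omega)) (r := 8) (by omega) b2
    rw [update_of_ne (show (2 : ℕ) ≠ 1 by omega)] at r3
    set σ3 := effs w ρ (pushB 2 8) σ2 with hσ3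
    have d3 : σ3.drawn = σ.drawn + 1 := d2
    have r4 := r3.popB (ρ := ρ) (k := 0) (by omega) (b := b) (l := l) (by
      rw [update_of_ne (by omega), update_of_ne (by omega), hbl])
    set σ4 := effs w ρ (popB 0) σ3 with hσ4
    have d4 : σ4.drawn = σ.drawn + 1 := d3
    obtain ⟨σ', t, e, ht, r, d⟩ := ih _ σ4 (by rw [update_self]; exact hl)
      (by rw [update_of_ne (by omega), update_of_ne (by omega), update_self, List.length_cons]; omega)
      (by rw [update_of_ne (by omega), update_self, List.length_cons]; omega) r4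
    have heff : effs w ρ (pushB 1 2 ++ [.rand 8, .rem 8 8 5] ++ pushB 2 8 ++ popB 0 ++
        [.load 2 (12 + 0)]) (ld 0 σ) = ld 0 σ4 := by
      rw [effs_append, effs_append, effs_append, effs_append]
      rfl
    have hbody : Ex w ρ drawBody (ld 0 σ) (ld 0 σ4) 8 := by
      rw [← heff]
      exact Ex.blk _ _
    refine ⟨σ', _, Ex.loop_step ?_ hbody e, by omega, ?_, by rw [d, d4]; omega⟩
    · intro h'
      have := (hσ.ld_eval5 (by omega)).1 h'
      rw [hbl] at this
      simp at this
    · convert r using 1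
      funext j
      rw [d4, hbl]
      simp only [rbits, List.reverse_cons, List.append_assoc, List.singleton_append]
      by_cases hj2 : j = 2
      · subst hj2
        simp
      · by_cases hj1 : j = 1
        · subst hj1
          simp
        · by_cases hj0 : j = 0
          · subst hj0
            simp
          · simp [hj2, hj1, hj0]

theorem draw_run {w K H : ℕ} (ρ : ℕ → ℕ) (hw : 1 ≤ w) (hH : K * (H + 1) ≤ 2 ^ (w - 1))
    (hK : 2 < K) (s : List Bool) (hs : s.length ≤ H) (σ : St) (hσ : Rep w K (init s) σ) :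
    ∃ σ' t, Ex w ρ drawP σ σ' t ∧ t ≤ 2 + 10 * s.length ∧
      Rep w K (update (update (init []) 1 s.reverse) 2 (rbits w ρ σ.drawn s.length).reverse) σ' ∧
      σ'.drawn = σ.drawn + s.length := by
  obtain ⟨σ', t, e, ht, r, d⟩ := draw_loop ρ hw hH hK s.length (init s) σ rfl (by simpa using hs)
    (by simpa using hs) hσ
  refine ⟨σ', 1 + t, Ex.seq (Ex.blk _ _) e, by omega, ?_, d⟩
  convert r using 1
  funext j
  by_cases hj2 : j = 2
  · subst hj2; simp [init]
  · by_cases hj1 : j = 1
    · subst hj1; simp [init]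
    · by_cases hj0 : j = 0
      · subst hj0; simp [init]
      · simp [hj2, hj1, hj0, init]

/-- the deterministic part of a round: build the pair of state and random bits, then run `c` -/
def roundC (c : Cmd) : Cmd :=
  .seq (mv 2 0) (.seq (.push 0 false) (.seq (mvMap 1 0 (fun b => [true, b])) c))

theorem roundC_run {c : Cmd} {s τ y : List Bool} {n : ℕ}
    (h : Run c (init (pair s τ)) (init y) n) :
    Run (roundC c) (update (update (init []) 1 s.reverse) 2 τ.reverse) (init y)
      (4 * τ.length + 8 * s.length + 3 + n) := by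
  have h1 := run_mv (a := 2) (b := 0) (by omega)
    (update (update (init []) 1 s.reverse) 2 τ.reverse)
  have e1 : update (update (update (update (init []) 1 s.reverse) 2 τ.reverse) 0
      (((update (update (init []) 1 s.reverse) 2 τ.reverse) 2).reverse ++
        (update (update (init []) 1 s.reverse) 2 τ.reverse) 0)) 2 [] =
      update (init τ) 1 s.reverse := by
    funext j
    by_cases hj2 : j = 2
    · subst hj2; simp [init]
    · by_cases hj1 : j = 1
      · subst hj1; simp
      · by_cases hj0 : j = 0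
        · subst hj0; simp [init]
        · simp [hj2, hj1, hj0, init]
  rw [e1] at h1
  have h2 := run_push 0 false (update (init τ) 1 s.reverse)
  have e2 : update (update (init τ) 1 s.reverse) 0 (false :: (update (init τ) 1 s.reverse) 0) =
      update (init (false :: τ)) 1 s.reverse := by
    funext j
    by_cases hj1 : j = 1
    · subst hj1; simp
    · by_cases hj0 : j = 0
      · subst hj0; simp [init]
      · simp [hj1, hj0, init]
  rw [e2] at h2
  have h3 := run_mvMap (a := 1) (b := 0) (by omega) (fun b => [true, b])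
    (update (init (false :: τ)) 1 s.reverse)
  have e3 : update (update (update (init (false :: τ)) 1 s.reverse) 0
      (((update (init (false :: τ)) 1 s.reverse) 1).reverse.flatMap (fun b => [true, b]) ++
        (update (init (false :: τ)) 1 s.reverse) 0)) 1 [] = init (pair s τ) := by
    funext j
    by_cases hj1 : j = 1
    · subst hj1; simp [init]
    · by_cases hj0 : j = 0
      · subst hj0; simp [init, pair]
      · simp [hj1, hj0, init]
  rw [e3] at h3
  refine (h1.seq (h2.seq (h3.seq h))).mono ?_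
  simp only [update_self, List.length_reverse,
    List.length_cons, List.length_nil]
  omega

/-- one round -/
def roundP (c : Cmd) : Prog := .seq drawP (tr (roundC c))

theorem roundP_run {w K H n : ℕ} (ρ : ℕ → ℕ) (hw : 1 ≤ w) (hH : K * (H + 1) ≤ 2 ^ (w - 1))
    (hK : 2 < K) {c : Cmd} (hc : c.maxVar < K) {s y : List Bool} {σ : St}
    (hσ : Rep w K (init s) σ)
    (h : Run c (init (pair s (rbits w ρ σ.drawn s.length))) (init y) n)
    (hn : 13 * s.length + 3 + n ≤ H) :
    ∃ σ' t, Ex w ρ (roundP c) σ σ' t ∧ t ≤ 2 + 10 * s.length + 5 * (12 * s.length + 3 + n) ∧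
      Rep w K (init y) σ' ∧ σ'.drawn = σ.drawn + s.length := by
  obtain ⟨σ1, t1, e1, b1, r1, d1⟩ := draw_run ρ hw hH hK s (by omega) σ hσ
  obtain ⟨t2, b2, e2⟩ := roundC_run h
  rw [rbits_length] at b2
  obtain ⟨σ2, t3, e3, b3, r3, d3⟩ := exec_tr ρ hw hH e2 (by
    simp only [roundC, Cmd.maxVar, mv, mvMap, pushAll]
    omega) (by
    intro k
    have : ((update (update (init []) 1 s.reverse) 2
        (rbits w ρ σ.drawn s.length).reverse : Store) k).length ≤ s.length := by
      by_cases hk2 : k = 2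
      · subst hk2; simp [rbits_length]
      · by_cases hk1 : k = 1
        · subst hk1; simp
        · by_cases hk0 : k = 0
          · subst hk0; simp
          · simp [hk2, hk1, init]
    omega) σ1 r1
  exact ⟨σ2, t1 + t3, Ex.seq e1 e3, by omega, r3, by rw [d3, d1]⟩

end Crest.Agent.R309.RAM
private theorem rz_1d5fec7019 : type_of% @_root_.Crest.Agent.R309.RAM.rbits.eq_def := @_root_.Crest.Agent.R309.RAM.rbits.eq_def -- L86
private theorem rz_bc190b4a94 : type_of% @_root_.Crest.Agent.R309.RAM.rbits.eq_1 := @_root_.Crest.Agent.R309.RAM.rbits.eq_1 -- L86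
end

-- ▼ part R309/RAMIO
section

/-!
# Boot, input encoding and output decoding on the word RAM
-/

set_option autoImplicit false

namespace Crest.Agent.R309.RAM

open Crest.WordRAM hiding init
open Crest.Agent.Lib.PT Function

/-! ### boot -/

/-- set up the constants -/
def boot1 : Prog :=
  .seq (.blk [.const 4 1, .const 5 2, .const 7 1, .add 8 7 7])
    (.loop (.zero 8) (.blk [.copy 7 8, .add 8 7 7]))

/-- sentinel of stack `k` -/
def sentinel (k : ℕ) : List Op := [.const 8 k, .add (12 + k) 7 8, .store 5 (12 + k)]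

/-- set up the stacks -/
def boot2 (K : ℕ) : Prog := .blk (.const 6 K :: (List.range K).flatMap sentinel)

/-- boot -/
def boot (K : ℕ) : Prog := .seq boot1 (boot2 K)

theorem boot1_loop {w : ℕ} (ρ : ℕ → ℕ) : ∀ (i : ℕ) (σ : St), i < w →
    σ.regs 7 = 2 ^ (w - 1 - i) → σ.regs 8 = 2 ^ (w - i) % 2 ^ w →
    ∃ σ' t, Ex w ρ (.loop (.zero 8) (.blk [.copy 7 8, .add 8 7 7])) σ σ' t ∧ t ≤ 1 + 4 * i ∧
      σ'.regs 7 = 2 ^ (w - 1) ∧ (∀ j, j ≠ 7 → j ≠ 8 → σ'.regs j = σ.regs j) ∧ σ'.mem = σ.mem ∧
      σ'.drawn = σ.drawn := by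
  intro i
  induction i with
  | zero =>
    intro σ hi h7 h8
    refine ⟨σ, 1, Ex.loop_done ?_, by omega, by simpa using h7, fun _ _ _ => rfl, rfl, rfl⟩
    show σ.regs 8 = 0
    rw [h8]
    simp
  | succ i ih =>
    intro σ hi h7 h8
    have h8' : σ.regs 8 = 2 ^ (w - (i + 1)) := by
      rw [h8]
      exact Nat.mod_eq_of_lt (Nat.pow_lt_pow_right (by omega) (by omega))
    set σ1 := effs w ρ [.copy 7 8, .add 8 7 7] σ with hσ1
    have a7 : σ1.regs 7 = σ.regs 8 := by simp [hσ1, Op.eff]
    have a8 : σ1.regs 8 = (σ.regs 8 + σ.regs 8) % 2 ^ w := by simp [hσ1, Op.eff]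
    have aj : ∀ j, j ≠ 7 → j ≠ 8 → σ1.regs j = σ.regs j := by
      intro j h1 h2
      simp [hσ1, Op.eff, h1, h2]
    obtain ⟨σ', t, e, ht, c7, cj, cm, cd⟩ := ih σ1 (by omega) (by
      rw [a7, h8']
      congr 1
      omega) (by
      rw [a8, h8', ← two_mul, ← pow_succ']
      congr 2
      omega)
    refine ⟨σ', _, Ex.loop_step ?_ (Ex.blk _ _) e, ?_, c7, ?_, ?_, ?_⟩
    · show ¬ σ.regs 8 = 0
      rw [h8']
      positivity
    · simp only [List.length_cons, List.length_nil]
      omega
    · intro j h1 h2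
      rw [cj j h1 h2, aj j h1 h2]
    · rw [cm]; rfl
    · rw [cd]; rfl

theorem boot2_stacks {w : ℕ} (ρ : ℕ → ℕ) (K : ℕ) (hK : 2 * K < 2 ^ (w - 1)) (hw : 1 ≤ w) (σ : St)
    (h5 : σ.regs 5 = 2) (h7 : σ.regs 7 = 2 ^ (w - 1)) :
    (∀ k, k < K → (effs w ρ ((List.range K).flatMap sentinel) σ).regs (12 + k) = 2 ^ (w - 1) + k) ∧
    (∀ k, k < K → (effs w ρ ((List.range K).flatMap sentinel) σ).mem (2 ^ (w - 1) + k) = 2) ∧
    (∀ j, j ≠ 8 → j < 12 → (effs w ρ ((List.range K).flatMap sentinel) σ).regs j = σ.regs j) ∧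
    (∀ a, a < 2 ^ (w - 1) → (effs w ρ ((List.range K).flatMap sentinel) σ).mem a = σ.mem a) ∧
    (effs w ρ ((List.range K).flatMap sentinel) σ).drawn = σ.drawn := by
  have hB := two_pow_half hw
  induction K with
  | zero => simp
  | succ K ih =>
    obtain ⟨i1, i2, i3, i4, i5⟩ := ih (by omega)
    rw [List.range_succ, List.flatMap_append, effs_append, List.flatMap_singleton]
    set σ1 := effs w ρ ((List.range K).flatMap sentinel) σ
    have e : effs w ρ (sentinel K) σ1 =
        { regs := update (update σ1.regs 8 K) (12 + K) (2 ^ (w - 1) + K)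
          mem := update σ1.mem (2 ^ (w - 1) + K) 2
          drawn := σ1.drawn } := by
      have g5 : σ1.regs 5 = 2 := by rw [i3 5 (by omega) (by omega), h5]
      have g7 : σ1.regs 7 = 2 ^ (w - 1) := by rw [i3 7 (by omega) (by omega), h7]
      simp only [sentinel, effs_cons, effs_nil, Op.eff]
      rw [update_of_ne (show (7 : ℕ) ≠ 8 by omega), update_self, g7,
        Nat.mod_eq_of_lt (show K < 2 ^ w by omega), update_self,
        update_of_ne (show (5 : ℕ) ≠ 12 + K by omega), update_of_ne (show (5 : ℕ) ≠ 8 by omega), g5,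
        Nat.mod_eq_of_lt (show 2 ^ (w - 1) + K < 2 ^ w by omega)]
    rw [e]
    refine ⟨?_, ?_, ?_, ?_, i5⟩
    · intro k hk
      show update _ _ _ _ = _
      by_cases hkK : k = K
      · subst hkK; rw [update_self]
      · rw [update_of_ne (by omega), update_of_ne (by omega)]
        exact i1 k (by omega)
    · intro k hk
      show update _ _ _ _ = _
      by_cases hkK : k = K
      · subst hkK; rw [update_self]
      · rw [update_of_ne (by omega)]
        exact i2 k (by omega)
    · intro j h1 h2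
      show update _ _ _ _ = _
      rw [update_of_ne (by omega), update_of_ne (by omega)]
      exact i3 j h1 h2
    · intro a ha
      show update _ _ _ _ = _
      rw [update_of_ne (by omega)]
      exact i4 a ha

theorem boot_run {w K : ℕ} (ρ : ℕ → ℕ) (hw : 2 ≤ w) (hK : 2 * K < 2 ^ (w - 1)) (σ : St)
    (h3 : σ.regs 3 = 0) :
    ∃ σ' t, Ex w ρ (boot K) σ σ' t ∧ t ≤ 4 * w + 3 * K + 6 ∧ Rep w K (init []) σ' ∧
      σ'.regs 0 = σ.regs 0 ∧ (∀ a, a < 2 ^ (w - 1) → σ'.mem a = σ.mem a) ∧ σ'.drawn = σ.drawn := by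
  have hB := two_pow_half (show 1 ≤ w by omega)
  have hp : 2 ^ 2 ≤ 2 ^ w := Nat.pow_le_pow_right (by omega) hw
  set σ1 := effs w ρ [.const 4 1, .const 5 2, .const 7 1, .add 8 7 7] σ with hσ1
  have m1 : 1 % 2 ^ w = 1 := Nat.mod_eq_of_lt (by omega)
  have m2 : 2 % 2 ^ w = 2 := Nat.mod_eq_of_lt (by omega)
  have a4 : σ1.regs 4 = 1 := by simp [hσ1, Op.eff, m1]
  have a5 : σ1.regs 5 = 2 := by simp [hσ1, Op.eff, m2]
  have a7 : σ1.regs 7 = 1 := by simp [hσ1, Op.eff, m1]
  have a8 : σ1.regs 8 = 2 := by simp [hσ1, Op.eff, m1, m2]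
  have a3 : σ1.regs 3 = 0 := by simp [hσ1, Op.eff, h3]
  have a0 : σ1.regs 0 = σ.regs 0 := by simp [hσ1, Op.eff]
  obtain ⟨σ2, t, e, ht, c7, cj, cm, cd⟩ := boot1_loop (w := w) ρ (w - 1) σ1 (by omega)
    (by rw [a7]; simp) (by
      rw [a8, show w - (w - 1) = 1 by omega]
      simpa using m2.symm)
  set σ3 := effs w ρ [.const 6 K] σ2 with hσ3
  have b6 : σ3.regs 6 = K := by
    simp only [hσ3, effs_cons, effs_nil, Op.eff, update_self]
    exact Nat.mod_eq_of_lt (by omega)
  have bj : ∀ j, j ≠ 6 → σ3.regs j = σ2.regs j := by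
    intro j hj
    simp [hσ3, Op.eff, hj]
  obtain ⟨s1, s2, s3, s4, s5⟩ := boot2_stacks ρ K hK (by omega) σ3
    (by rw [bj 5 (by omega), cj 5 (by omega) (by omega), a5])
    (by rw [bj 7 (by omega), c7])
  refine ⟨effs w ρ (.const 6 K :: (List.range K).flatMap sentinel) σ2, _,
    Ex.seq (Ex.seq (Ex.blk _ _) e) (Ex.blk _ _), ?_, ?_, ?_, ?_, ?_⟩
  · have hlen : ((List.range K).flatMap sentinel).length = 3 * K := by
      clear s1 s2 s3 s4 s5 hK b6 bj hσ3 σ3
      induction K with
      | zero => simp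
      | succ K ih =>
        rw [List.range_succ, List.flatMap_append, List.length_append, ih, List.flatMap_singleton]
        simp [sentinel]
        omega
    simp only [List.length_cons, List.length_nil, hlen]
    omega
  · rw [effs_cons]
    change Rep w K (init []) (effs w ρ ((List.range K).flatMap sentinel) σ3)
    constructor
    · rw [s3 3 (by omega) (by omega), bj 3 (by omega), cj 3 (by omega) (by omega), a3]
    · rw [s3 4 (by omega) (by omega), bj 4 (by omega), cj 4 (by omega) (by omega), a4]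
    · rw [s3 5 (by omega) (by omega), bj 5 (by omega), cj 5 (by omega) (by omega), a5]
    · rw [s3 6 (by omega) (by omega), b6]
    · rw [s3 7 (by omega) (by omega), bj 7 (by omega), c7]
    · intro k hk
      rw [s1 k hk]
      have : (init [] : Store) k = [] := by unfold init; split <;> rfl
      rw [this]
      simp [adr]
    · intro k hk
      have : (init [] : Store) k = [] := by unfold init; split <;> rfl
      rw [this]
      show _ = 2
      rw [← s2 k hk]
      simp [adr]
  · rw [effs_cons]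
    change (effs w ρ ((List.range K).flatMap sentinel) σ3).regs 0 = σ.regs 0
    rw [s3 0 (by omega) (by omega), bj 0 (by omega), cj 0 (by omega) (by omega), a0]
  · intro a ha
    rw [effs_cons]
    change (effs w ρ ((List.range K).flatMap sentinel) σ3).mem a = σ.mem a
    rw [s4 a ha]
    change σ2.mem a = σ.mem a
    rw [cm]
    rfl
  · rw [effs_cons]
    change (effs w ρ ((List.range K).flatMap sentinel) σ3).drawn = σ.drawn
    rw [s5]
    change σ2.drawn = σ.drawn
    rw [cd]
    rfl

end Crest.Agent.R309.RAM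
end

-- ▼ part R309/RAMEnc
section

/-!
# Encoding the input words as a bit string on stack `0`
-/

set_option autoImplicit false

namespace Crest.Agent.R309.RAM

open Crest.WordRAM hiding init
open Crest.Agent.Lib.PT Function

/-- find the leading bit of register `8` -/
def encNum1 : Prog := .loop (.lt 10 11) (.blk [.quot 10 10 5])

/-- push the bits -/
def encNum2 : Prog := .loop (.zero 10)
  (.blk ([.quot 2 8 10, .rem 2 2 5] ++ pushB 0 2 ++ pushB 0 4 ++ [.quot 10 10 5]))

/-- push the code of the number in register `8` -/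
def encNum : Prog :=
  .seq (.blk ([.add 11 8 4, .copy 10 7] ++ pushB 0 3)) (.seq encNum1 encNum2)

theorem encNum1_run {w a : ℕ} (ρ : ℕ → ℕ) : ∀ (i : ℕ) (σ : St),
    σ.regs 10 = 2 ^ (a.size + i) / 2 → σ.regs 5 = 2 → σ.regs 11 = a + 1 →
    ∃ t, Ex w ρ encNum1 σ { σ with regs := update σ.regs 10 (2 ^ a.size / 2) } t ∧
      t ≤ 1 + 3 * i := by
  intro i
  induction i with
  | zero =>
    intro σ h10 h5 h11
    have e : ({ σ with regs := update σ.regs 10 (2 ^ a.size / 2) } : St) = σ := by
      rw [add_zero] at h10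
      rw [← h10, update_eq_self]
    rw [e]
    refine ⟨1, Ex.loop_done ?_, by omega⟩
    show σ.regs 10 < σ.regs 11
    rw [h10, h11, add_zero]
    rcases Nat.eq_zero_or_pos a.size with h | h
    · rw [h]; simp
    · have h1 : 2 ^ (a.size - 1) ≤ a := Nat.lt_size.1 (by omega)
      have h2 : 2 ^ a.size = 2 * 2 ^ (a.size - 1) := by
        rw [← pow_succ']
        congr 1
        omega
      omega
  | succ i ih =>
    intro σ h10 h5 h11
    set σ1 := effs w ρ [.quot 10 10 5] σ with hσ1
    have a10 : σ1.regs 10 = 2 ^ (a.size + i) / 2 := by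
      simp only [hσ1, effs_cons, effs_nil, Op.eff, update_self]
      rw [h10, h5, ← add_assoc, pow_succ]
      omega
    have aj : ∀ j, j ≠ 10 → σ1.regs j = σ.regs j := by
      intro j hj
      simp [hσ1, Op.eff, hj]
    obtain ⟨t, e, ht⟩ := ih σ1 a10 (by rw [aj 5 (by omega), h5]) (by rw [aj 11 (by omega), h11])
    have e2 : ({ σ1 with regs := update σ1.regs 10 (2 ^ a.size / 2) } : St) =
        { σ with regs := update σ.regs 10 (2 ^ a.size / 2) } := by
      simp only [hσ1, effs_cons, effs_nil, Op.eff, update_idem]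
    rw [e2] at e
    refine ⟨_, Ex.loop_step ?_ (Ex.blk _ _) e, ?_⟩
    · show ¬ σ.regs 10 < σ.regs 11
      rw [h10, h11, ← add_assoc, pow_succ]
      have h1 : a < 2 ^ a.size := Nat.lt_size_self a
      have h2 : 2 ^ a.size ≤ 2 ^ (a.size + i) := Nat.pow_le_pow_right (by omega) (by omega)
      omega
    · simp only [List.length_cons, List.length_nil]
      omega

theorem encNum2_run {w K H a : ℕ} (ρ : ℕ → ℕ) (hw : 1 ≤ w) (hH : K * (H + 1) ≤ 2 ^ (w - 1))
    (hK : 0 < K) (X : List Bool) : ∀ (i : ℕ) (S : Store) (σ : St), i ≤ a.size → Rep w K S σ →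
    σ.regs 8 = a → σ.regs 10 = 2 ^ i / 2 →
    S 0 = (a / 2 ^ i).bits.flatMap (fun b => [true, b]) ++ X → (S 0).length + 2 * i ≤ H →
    ∃ σ' t, Ex w ρ encNum2 σ σ' t ∧ t ≤ 1 + 9 * i ∧
      Rep w K (update S 0 (a.bits.flatMap (fun b => [true, b]) ++ X)) σ' ∧
      (∀ j, j ≠ 2 → j ≠ 10 → j < 12 → σ'.regs j = σ.regs j) ∧
      (∀ c, c < 2 ^ (w - 1) → σ'.mem c = σ.mem c) ∧ σ'.drawn = σ.drawn := by
  intro i
  induction i with
  | zero =>
    intro S σ _ hσ h8 h10 h0 _
    refine ⟨σ, 1, Ex.loop_done ?_, by omega, ?_, fun _ _ _ _ => rfl, fun _ _ => rfl, rfl⟩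
    · show σ.regs 10 = 0
      rw [h10]; simp
    · rw [pow_zero, Nat.div_one] at h0
      rw [← h0, update_eq_self]
      exact hσ
  | succ i ih =>
    intro S σ hi hσ h8 h10 h0 hroom
    have hdiv : a / 2 ^ (i + 1) = (a / 2 ^ i).div2 := by
      rw [Nat.div2_val, Nat.div_div_eq_div_mul, pow_succ]
    have hne : a / 2 ^ i ≠ 0 := by
      have h1 : 2 ^ i ≤ a := Nat.lt_size.1 (by omega)
      have := (Nat.div_pos h1 (by positivity))
      omega
    have hbits : (a / 2 ^ i).bits = (a / 2 ^ i).bodd :: (a / 2 ^ (i + 1)).bits := by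
      rw [hdiv]
      have h1 : (a / 2 ^ i).bits ≠ [] := by
        intro h
        have := congrArg List.length h
        rw [Nat.size_eq_bits_len] at this
        exact hne (Nat.size_eq_zero.1 (by simpa using this))
      rw [Nat.div2_bits_eq_tail, Nat.bodd_eq_bits_head]
      cases h2 : (a / 2 ^ i).bits with
      | nil => exact absurd h2 h1
      | cons x l => rfl
    set σ1 := effs w ρ [.quot 2 8 10, .rem 2 2 5] σ with hσ1
    have h10' : σ.regs 10 = 2 ^ i := by
      rw [h10, pow_succ]; omega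
    have r1 : Rep w K S σ1 := by
      simp only [hσ1, effs_cons, effs_nil, Op.eff]
      exact (hσ.scratch _ (by omega)).scratch _ (by omega)
    have a2 : σ1.regs 2 = ((a / 2 ^ i).bodd).toNat := by
      simp only [hσ1, effs_cons, effs_nil, Op.eff, update_self]
      rw [update_of_ne (show (5 : ℕ) ≠ 2 by omega), hσ.two, h8, h10', Nat.mod_two_of_bodd]
    have aj : ∀ j, j ≠ 2 → σ1.regs j = σ.regs j := by
      intro j hj
      simp [hσ1, Op.eff, hj]
    have r2 := r1.pushB (ρ := ρ) (k := 0) hK (adr_lt hw hH hK (by omega)) (r := 2) (by omega) a2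
    have m2 := fun c hc => r1.pushB_mem (ρ := ρ) (k := 0) hK (adr_lt hw hH hK (by omega)) (r := 2)
      (a := c) hc
    set σ2 := effs w ρ (pushB 0 2) σ1 with hσ2
    have bj : ∀ j, j ≠ 2 → j < 12 → σ2.regs j = σ.regs j := by
      intro j hj hj'
      rw [hσ2, pushB_regs (by omega), aj j hj]
    have room2 : adr w K 0 ((update S 0 ((a / 2 ^ i).bodd :: S 0) 0).length + 1) < 2 ^ w := by
      rw [update_self, List.length_cons]
      exact adr_lt hw hH hK (by omega)
    have r3 := r2.pushB (ρ := ρ) (k := 0) hK room2 (r := 4) (b := true) (by omega) r2.one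
    have m3 := fun c hc => r2.pushB_mem (ρ := ρ) (k := 0) hK room2 (r := 4) (a := c) hc
    set σ3 := effs w ρ (pushB 0 4) σ2 with hσ3
    have cj : ∀ j, j ≠ 2 → j < 12 → σ3.regs j = σ.regs j := by
      intro j hj hj'
      rw [hσ3, pushB_regs (by omega), bj j hj hj']
    set σ4 := effs w ρ [.quot 10 10 5] σ3 with hσ4
    have r4 : Rep w K (update S 0 (true :: (a / 2 ^ i).bodd :: S 0)) σ4 := by
      simp only [hσ4, effs_cons, effs_nil, Op.eff]
      have := r3.scratch (d := 10) (σ3.regs 10 / σ3.regs 5) (by omega)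
      rw [update_idem, update_self] at this
      exact this
    have d10 : σ4.regs 10 = 2 ^ i / 2 := by
      simp only [hσ4, effs_cons, effs_nil, Op.eff, update_self]
      rw [cj 10 (by omega) (by omega), h10', r3.two]
    have dj : ∀ j, j ≠ 2 → j ≠ 10 → j < 12 → σ4.regs j = σ.regs j := by
      intro j hj hj' hj''
      have : σ4.regs j = σ3.regs j := by simp [hσ4, Op.eff, hj']
      rw [this, cj j hj hj'']
    obtain ⟨σ', t, e, ht, r, fj, fm, fd⟩ := ih (update S 0 (true :: (a / 2 ^ i).bodd :: S 0)) σ4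
      (by omega) r4 (by rw [dj 8 (by omega) (by omega) (by omega), h8]) d10 (by
        rw [update_self, h0, hbits]
        simp) (by
        rw [update_self, List.length_cons, List.length_cons]
        omega)
    have heff : effs w ρ ([.quot 2 8 10, .rem 2 2 5] ++ pushB 0 2 ++ pushB 0 4 ++ [.quot 10 10 5]) σ
        = σ4 := by
      rw [effs_append, effs_append, effs_append]
    have hbody : Ex w ρ (.blk ([.quot 2 8 10, .rem 2 2 5] ++ pushB 0 2 ++ pushB 0 4 ++
        [.quot 10 10 5])) σ σ4 7 := by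
      conv => arg 5; rw [← heff]
      exact Ex.blk _ _
    refine ⟨σ', _, Ex.loop_step ?_ hbody e, by omega, ?_, ?_, ?_, ?_⟩
    · show ¬ σ.regs 10 = 0
      rw [h10']
      positivity
    · rw [update_idem] at r
      exact r
    · intro j h1 h2 h3
      rw [fj j h1 h2 h3, dj j h1 h2 h3]
    · intro c hc
      rw [fm c hc]
      change σ3.mem c = σ.mem c
      rw [m3 c hc, m2 c hc]
      rfl
    · rw [fd]
      rfl

theorem encNum_run {w K H a : ℕ} (ρ : ℕ → ℕ) (hw : 1 ≤ w) (hH : K * (H + 1) ≤ 2 ^ (w - 1))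
    (hK : 0 < K) (ha : a + 1 < 2 ^ w) (X : List Bool) (S : Store) (σ : St) (hσ : Rep w K S σ)
    (h8 : σ.regs 8 = a) (hX : S 0 = X) (hroom : X.length + 1 + 2 * a.size ≤ H) :
    ∃ σ' t, Ex w ρ encNum σ σ' t ∧ t ≤ 6 + 12 * w ∧
      Rep w K (update S 0 (pair a.bits X)) σ' ∧
      (∀ j, j < 10 → j ≠ 2 → σ'.regs j = σ.regs j) ∧
      (∀ c, c < 2 ^ (w - 1) → σ'.mem c = σ.mem c) ∧ σ'.drawn = σ.drawn := by
  have hsz : a.size ≤ w := Nat.size_le.2 (by omega)
  set σ1 := effs w ρ [.add 11 8 4, .copy 10 7] σ with hσ1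
  have r1 : Rep w K S σ1 := by
    simp only [hσ1, effs_cons, effs_nil, Op.eff]
    exact (hσ.scratch _ (by omega)).scratch _ (by omega)
  have a11 : σ1.regs 11 = a + 1 := by
    simp only [hσ1, effs_cons, effs_nil, Op.eff]
    rw [update_of_ne (show (11 : ℕ) ≠ 10 by omega), update_self, h8, hσ.one, Nat.mod_eq_of_lt ha]
  have a10 : σ1.regs 10 = 2 ^ (w - 1) := by
    simp only [hσ1, effs_cons, effs_nil, Op.eff, update_self]
    rw [update_of_ne (show (7 : ℕ) ≠ 11 by omega), hσ.base]
  have aj : ∀ j, j < 10 → σ1.regs j = σ.regs j := by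
    intro j hj
    simp only [hσ1, effs_cons, effs_nil, Op.eff]
    rw [update_of_ne (by omega), update_of_ne (by omega)]
  have room : adr w K 0 ((S 0).length + 1) < 2 ^ w := adr_lt hw hH hK (by rw [hX]; omega)
  have r2 := r1.pushB (ρ := ρ) (k := 0) hK room (r := 3) (b := false) (by omega) r1.zero
  have m2 := fun c hc => r1.pushB_mem (ρ := ρ) (k := 0) hK room (r := 3) (a := c) hc
  set σ2 := effs w ρ (pushB 0 3) σ1 with hσ2
  have bj : ∀ j, j < 12 → σ2.regs j = σ1.regs j := by
    intro j hj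
    rw [hσ2, pushB_regs (by omega)]
  obtain ⟨t3, e3, b3⟩ := encNum1_run (w := w) (a := a) ρ (w - a.size) σ2 (by
      rw [bj 10 (by omega), a10, show a.size + (w - a.size) = w by omega]
      obtain ⟨v, rfl⟩ := Nat.exists_eq_add_of_le hw
      rw [Nat.add_sub_cancel_left, pow_add]
      omega) r2.two (by rw [bj 11 (by omega), a11])
  set σ3 : St := { σ2 with regs := update σ2.regs 10 (2 ^ a.size / 2) } with hσ3
  have r3 : Rep w K (update S 0 (false :: S 0)) σ3 := r2.scratch _ (by omega)
  have cj : ∀ j, j < 10 → σ3.regs j = σ.regs j := by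
    intro j hj
    show update σ2.regs 10 _ j = _
    rw [update_of_ne (by omega), bj j (by omega), aj j hj]
  have c10 : σ3.regs 10 = 2 ^ a.size / 2 := by
    simp [hσ3]
  obtain ⟨σ', t4, e4, b4, r4, fj, fm, fd⟩ := encNum2_run (a := a) ρ hw hH hK (false :: X) a.size
    (update S 0 (false :: S 0)) σ3 le_rfl r3 (by rw [cj 8 (by omega), h8]) c10 (by
      rw [update_self, Nat.div_eq_of_lt (Nat.lt_size_self a), hX]
      simp) (by
      rw [update_self, List.length_cons, hX]
      omega)
  have heff : effs w ρ ([.add 11 8 4, .copy 10 7] ++ pushB 0 3) σ = σ2 := by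
    rw [effs_append]
  have hb : Ex w ρ (.blk ([.add 11 8 4, .copy 10 7] ++ pushB 0 3)) σ σ2 4 := by
    conv => arg 5; rw [← heff]
    exact Ex.blk _ _
  refine ⟨σ', _, Ex.seq hb (Ex.seq e3 e4), ?_, ?_, ?_, ?_, ?_⟩
  · omega
  · rw [update_idem] at r4
    exact r4
  · intro j hj hj2
    rw [fj j hj2 (by omega) (by omega), cj j hj]
  · intro c hc
    rw [fm c hc]
    change σ2.mem c = σ.mem c
    rw [m2 c hc]
    rfl
  · rw [fd]
    rfl

/-- encode all the input words -/
def encP : Prog :=
  .seq (.blk [.copy 9 0]) (.seq (.loop (.zero 9) (.seq (.blk [.sub 9 9 4, .load 8 9]) encNum))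
    (.blk (pushB 0 3)))

theorem enc_loop {w K H : ℕ} (ρ : ℕ → ℕ) (hw : 1 ≤ w) (hH : K * (H + 1) ≤ 2 ^ (w - 1))
    (hK : 0 < K) (L : List ℕ) (hL : ∀ a ∈ L, a + 1 < 2 ^ w) (hlen : L.length ≤ 2 ^ (w - 1))
    (hroom : (enc L).length ≤ H) : ∀ (i : ℕ) (σ : St), i ≤ L.length →
    Rep w K (init (enc (L.drop i))) σ → σ.regs 9 = i →
    (∀ j (hj : j < L.length), σ.mem j = L[j]) →
    ∃ σ' t, Ex w ρ (.loop (.zero 9) (.seq (.blk [.sub 9 9 4, .load 8 9]) encNum)) σ σ' t ∧
      t ≤ 1 + (10 + 12 * w) * i ∧ Rep w K (init (enc L)) σ' ∧ σ'.drawn = σ.drawn := by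
  have hsuf : ∀ i, (enc (L.drop i)).length ≤ (enc L).length := by
    intro i
    have h1 := congrArg (fun l : List ℕ => (enc l).length) (List.take_append_drop i L)
    have h2 : ∀ l l' : List ℕ, (enc (l ++ l')).length = (enc l).length + (enc l').length := by
      intro l l'
      induction l with
      | nil => simp [show enc ([] : List ℕ) = [] from rfl]
      | cons x l ih =>
        have e1 : enc (x :: l ++ l') = pair (enc x) (enc (l ++ l')) := rfl
        have e2 : enc (x :: l) = pair (enc x) (enc l) := rfl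
        rw [e1, e2, core_length_pair, core_length_pair, ih]
        omega
    simp only [h2] at h1
    omega
  intro i
  induction i with
  | zero =>
    intro σ _ hσ h9 _
    exact ⟨σ, 1, Ex.loop_done h9, by omega, hσ, rfl⟩
  | succ i ih =>
    intro σ hi hσ h9 hmem
    set a := L[i]'(by omega) with ha
    have hdrop : enc (L.drop i) = pair a.bits (enc (L.drop (i + 1))) := by
      rw [List.drop_eq_getElem_cons (by omega)]
      rfl
    set σ1 := effs w ρ [.sub 9 9 4, .load 8 9] σ with hσ1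
    have r1 : Rep w K (init (enc (L.drop (i + 1)))) σ1 := by
      simp only [hσ1, effs_cons, effs_nil, Op.eff]
      exact (hσ.scratch _ (by omega)).scratch _ (by omega)
    have a9 : σ1.regs 9 = i := by
      simp only [hσ1, effs_cons, effs_nil, Op.eff]
      rw [update_of_ne (show (9 : ℕ) ≠ 8 by omega), update_self, h9, hσ.one]
      rfl
    have a8 : σ1.regs 8 = a := by
      simp only [hσ1, effs_cons, effs_nil, Op.eff, update_self]
      rw [h9, hσ.one, Nat.add_sub_cancel, hmem i (by omega)]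
    have hlen2 : (enc (L.drop i)).length = (enc (L.drop (i + 1))).length + 1 + 2 * a.size := by
      rw [hdrop, core_length_pair, Nat.size_eq_bits_len]
      omega
    have hs := hsuf i
    obtain ⟨σ2, t2, e2, b2, r2, cj, cm, cd⟩ := encNum_run (a := a) ρ hw hH hK
      (hL a (List.getElem_mem _)) (enc (L.drop (i + 1))) (init (enc (L.drop (i + 1)))) σ1 r1 a8 rfl
      (by omega)
    have einit : update (init (enc (L.drop (i + 1)))) 0 (pair a.bits (enc (L.drop (i + 1)))) =
        init (enc (L.drop i)) := by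
      rw [← hdrop]
      funext j
      by_cases hj : j = 0
      · subst hj; simp
      · rw [update_of_ne hj]; simp [init, hj]
    rw [einit] at r2
    obtain ⟨σ', t3, e3, b3, r3, d3⟩ := ih σ2 (by omega) r2 (by rw [cj 9 (by omega) (by omega), a9])
      (by
        intro j hj
        rw [cm j (by omega)]
        exact hmem j hj)
    refine ⟨σ', _, Ex.loop_step ?_ (Ex.seq (Ex.blk _ _) e2) e3, ?_, r3, ?_⟩
    · show ¬ σ.regs 9 = 0
      rw [h9]
      omega
    · simp only [List.length_cons, List.length_nil]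
      rw [Nat.mul_succ]
      omega
    · rw [d3, cd]
      rfl

theorem encP_run {w K H : ℕ} (ρ : ℕ → ℕ) (hw : 1 ≤ w) (hH : K * (H + 1) ≤ 2 ^ (w - 1))
    (hK : 0 < K) (L : List ℕ) (hL : ∀ a ∈ L, a + 1 < 2 ^ w) (hlen : L.length ≤ 2 ^ (w - 1))
    (hroom : (enc L).length + 1 ≤ H) (σ : St) (hσ : Rep w K (init []) σ)
    (h0 : σ.regs 0 = L.length) (hmem : ∀ j (hj : j < L.length), σ.mem j = L[j]) :
    ∃ σ' t, Ex w ρ encP σ σ' t ∧ t ≤ 4 + (10 + 12 * w) * L.length ∧
      Rep w K (init (false :: enc L)) σ' ∧ σ'.drawn = σ.drawn := by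
  set σ1 := effs w ρ [.copy 9 0] σ with hσ1
  have r1 : Rep w K (init (enc (L.drop L.length))) σ1 := by
    rw [List.drop_length]
    simp only [hσ1, effs_cons, effs_nil, Op.eff]
    exact hσ.scratch _ (by omega)
  have a9 : σ1.regs 9 = L.length := by
    simp only [hσ1, effs_cons, effs_nil, Op.eff, update_self]
    exact h0
  obtain ⟨σ2, t2, e2, b2, r2, d2⟩ := enc_loop ρ hw hH hK L hL hlen (by omega) L.length σ1 le_rfl r1
    a9 hmem
  have room : adr w K 0 ((init (enc L) 0).length + 1) < 2 ^ w := by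
    rw [init_zero]
    exact adr_lt hw hH hK (by omega)
  have r3 := r2.pushB (ρ := ρ) (k := 0) hK room (r := 3) (b := false) (by omega) r2.zero
  refine ⟨_, _, Ex.seq (Ex.blk _ _) (Ex.seq e2 (Ex.blk _ _)), ?_, ?_, ?_⟩
  · simp only [List.length_cons, List.length_nil, pushB]
    omega
  · convert r3 using 1
    funext j
    by_cases hj : j = 0
    · subst hj; simp
    · rw [update_of_ne hj]; simp [init, hj]
  · rw [pushB_drawn, d2]
    rfl

end Crest.Agent.R309.RAM
end

-- ▼ part R309/RAMDec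

/-!
# Decoding the output from stack `0`
-/

set_option autoImplicit false

namespace Crest.Agent.R309.RAM

open Crest.WordRAM hiding init
open Crest.Agent.Lib.PT Function

/-- value of a list of bits, least significant first -/
def val : List Bool → ℕ
  | [] => 0
  | b :: l => b.toNat + 2 * val l

theorem val_bits (n : ℕ) : val n.bits = n := by
  induction n using Nat.strong_induction_on with
  | _ n ih =>
    by_cases hn : n = 0
    · subst hn; simp [val]
    · have h1 : n.bits = n.bodd :: n.div2.bits := by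
        have h1 : n.bits ≠ [] := by
          intro h
          have := congrArg List.length h
          rw [Nat.size_eq_bits_len] at this
          exact hn (Nat.size_eq_zero.1 (by simpa using this))
        rw [Nat.div2_bits_eq_tail, Nat.bodd_eq_bits_head]
        cases h2 : n.bits with
        | nil => exact absurd h2 h1
        | cons x l => rfl
      have h2 : n.div2 < n := by
        rw [Nat.div2_val]
        omega
      rw [h1, val, ih _ h2]
      have := Nat.mod_two_of_bodd n
      rw [← this, Nat.div2_val]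
      omega

/-- read the bits of a number; registers `8` (value) and `9` (power of two) -/
def decBits : Prog := .loop (.zero 2)
  (.blk (popB 0 ++ [.load 2 (12 + 0), .mul 2 2 9, .add 8 8 2, .add 9 9 9] ++ popB 0 ++
    [.load 2 (12 + 0)]))

/-- read a number and store it -/
def decNum : Prog :=
  .seq (.blk [.const 8 0, .const 9 1])
    (.seq decBits (.blk ([.store 8 0, .add 0 0 4] ++ popB 0 ++ [.load 2 (12 + 0)])))

/-- read all numbers -/
def decP : Prog :=
  .seq (.blk (popB 0 ++ [.const 0 0, .const 1 0, .load 2 (12 + 0)])) (.loop (.eq 2 5) decNum)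

theorem decBits_run {w K : ℕ} (ρ : ℕ → ℕ) (hK : 0 < K) (X : List Bool) :
    ∀ (bs : List Bool) (S : Store) (σ : St) (A P : ℕ), Rep w K S σ →
    S 0 = bs.flatMap (fun b => [true, b]) ++ false :: X → σ.regs 8 = A % 2 ^ w →
    σ.regs 9 = P % 2 ^ w →
    ∃ σ' t, Ex w ρ decBits (ld 0 σ) (ld 0 σ') t ∧ t ≤ 1 + 9 * bs.length ∧
      Rep w K (update S 0 (false :: X)) σ' ∧ σ'.regs 8 = (A + P * val bs) % 2 ^ w ∧
      σ'.regs 0 = σ.regs 0 ∧ σ'.regs 1 = σ.regs 1 ∧ σ'.mem = σ.mem ∧ σ'.drawn = σ.drawn := by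
  intro bs
  induction bs with
  | nil =>
    intro S σ A P hσ h0 h8 h9
    refine ⟨σ, 1, Ex.loop_done ?_, by omega, ?_, by simpa [val] using h8, rfl, rfl, rfl, rfl⟩
    · show (ld 0 σ).regs 2 = 0
      rw [hσ.ld_reg hK, h0]
      rfl
    · have h0' : S 0 = false :: X := h0
      rw [← h0', update_eq_self]
      exact hσ
  | cons b bs ih =>
    intro S σ A P hσ h0 h8 h9
    have h0' : S 0 = true :: b :: (bs.flatMap (fun b => [true, b]) ++ false :: X) := by
      rw [h0]; simp
    have r0 := hσ.ld 0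
    have r1 := r0.popB (ρ := ρ) hK h0'
    set σ1 := effs w ρ (popB 0) (ld 0 σ) with hσ1
    have a2 : (ld 0 σ1).regs 2 = b.toNat := by
      rw [r1.ld_reg hK, update_self]
      rfl
    have a9 : (ld 0 σ1).regs 9 = P % 2 ^ w := by
      rw [ld_regs (by omega), hσ1, popB_regs (by omega), ld_regs (by omega), h9]
    have a8 : (ld 0 σ1).regs 8 = A % 2 ^ w := by
      rw [ld_regs (by omega), hσ1, popB_regs (by omega), ld_regs (by omega), h8]
    set σ2 := effs w ρ [.mul 2 2 9, .add 8 8 2, .add 9 9 9] (ld 0 σ1) with hσ2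
    have r2 : Rep w K (update S 0 (b :: (bs.flatMap (fun b => [true, b]) ++ false :: X))) σ2 := by
      simp only [hσ2, effs_cons, effs_nil, Op.eff]
      exact (((r1.ld 0).scratch _ (by omega)).scratch _ (by omega)).scratch _ (by omega)
    have b8 : σ2.regs 8 = (A + P * b.toNat) % 2 ^ w := by
      simp only [hσ2, effs_cons, effs_nil, Op.eff]
      rw [update_of_ne (show (8 : ℕ) ≠ 9 by omega), update_self,
        update_of_ne (show (8 : ℕ) ≠ 2 by omega), update_self, a2, a9, a8]
      rw [mul_comm P]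
      simp [Nat.add_mod, Nat.mul_mod]
    have b9 : σ2.regs 9 = (2 * P) % 2 ^ w := by
      simp only [hσ2, effs_cons, effs_nil, Op.eff]
      rw [update_self, update_of_ne (show (9 : ℕ) ≠ 8 by omega),
        update_of_ne (show (9 : ℕ) ≠ 2 by omega), a9]
      rw [two_mul]
      simp [Nat.add_mod]
    have bj : ∀ j, j < 2 → σ2.regs j = σ.regs j := by
      intro j hj
      simp only [hσ2, effs_cons, effs_nil, Op.eff]
      rw [update_of_ne (by omega), update_of_ne (by omega), update_of_ne (by omega),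
        ld_regs (by omega), hσ1, popB_regs (by omega), ld_regs (by omega)]
    have r3 := r2.popB (ρ := ρ) hK (b := b) (l := bs.flatMap (fun b => [true, b]) ++ false :: X)
      (by rw [update_self])
    set σ3 := effs w ρ (popB 0) σ2 with hσ3
    obtain ⟨σ', t, e, ht, r, c8, c0, c1, cm, cd⟩ := ih _ σ3 (A + P * b.toNat) (2 * P) r3
      (by rw [update_self]) (by rw [hσ3, popB_regs (by omega), b8])
      (by rw [hσ3, popB_regs (by omega), b9])
    have heff : effs w ρ (popB 0 ++ [.load 2 (12 + 0), .mul 2 2 9, .add 8 8 2, .add 9 9 9] ++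
        popB 0 ++ [.load 2 (12 + 0)]) (ld 0 σ) = ld 0 σ3 := by
      rw [effs_append, effs_append, effs_append]
      rfl
    have hb : Ex w ρ (.blk (popB 0 ++ [.load 2 (12 + 0), .mul 2 2 9, .add 8 8 2, .add 9 9 9] ++
        popB 0 ++ [.load 2 (12 + 0)])) (ld 0 σ) (ld 0 σ3) 7 := by
      rw [← heff]
      exact Ex.blk _ _
    refine ⟨σ', _, Ex.loop_step ?_ hb e, ?_, ?_, ?_, ?_, ?_, ?_, ?_⟩
    · show ¬ (ld 0 σ).regs 2 = 0
      rw [hσ.ld_reg hK, h0']
      simp [top]
    · simp only [List.length_cons]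
      omega
    · rw [update_idem, update_idem] at r
      exact r
    · rw [c8, val]
      congr 1
      ring
    · rw [c0, hσ3, popB_regs (by omega), bj 0 (by omega)]
    · rw [c1, hσ3, popB_regs (by omega), bj 1 (by omega)]
    · rw [cm]; rfl
    · rw [cd]; rfl

theorem decNum_run {w K : ℕ} (ρ : ℕ → ℕ) (hw : 1 ≤ w) (hK : 0 < K) {a : ℕ} (ha : a < 2 ^ w)
    (X : List Bool) (S : Store) (σ : St) (hσ : Rep w K S σ) (h0 : S 0 = pair a.bits X)
    (hc : σ.regs 0 < 2 ^ (w - 1)) :
    ∃ σ' t, Ex w ρ decNum (ld 0 σ) (ld 0 σ') t ∧ t ≤ 7 + 9 * a.size ∧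
      Rep w K (update S 0 X) σ' ∧ σ'.mem = update σ.mem (σ.regs 0) a ∧
      σ'.regs 0 = σ.regs 0 + 1 ∧ σ'.regs 1 = σ.regs 1 ∧ σ'.drawn = σ.drawn := by
  have hB := two_pow_half hw
  set σ1 : St := { σ with regs := update (update σ.regs 8 (0 % 2 ^ w)) 9 (1 % 2 ^ w) } with hσ1
  have r1 : Rep w K S σ1 := (hσ.scratch _ (by omega)).scratch _ (by omega)
  have e1 : effs w ρ [.const 8 0, .const 9 1] (ld 0 σ) = ld 0 σ1 := by
    simp only [effs_cons, effs_nil, Op.eff, ld, hσ1]
    congr 1
    funext j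
    by_cases h2 : j = 2
    · subst h2; simp
    · by_cases h9 : j = 9
      · subst h9; simp
      · by_cases h8 : j = 8
        · subst h8; simp
        · simp [h2, h8, h9]
  have h0' : S 0 = a.bits.flatMap (fun b => [true, b]) ++ false :: X := h0
  obtain ⟨σ2, t2, e2, b2, r2, c8, c0, c1, cm, cd⟩ := decBits_run ρ hK X a.bits S σ1 0 1 r1 h0'
    (by simp [hσ1]) (by simp [hσ1])
  rw [val_bits, one_mul, zero_add, Nat.mod_eq_of_lt ha] at c8
  have g0 : σ2.regs 0 = σ.regs 0 := by rw [c0]; simp [hσ1]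
  have g1 : σ2.regs 1 = σ.regs 1 := by rw [c1]; simp [hσ1]
  have gm : σ2.mem = σ.mem := by rw [cm]
  set σ3 := effs w ρ [.store 8 0, .add 0 0 4] (ld 0 σ2) with hσ3
  have r3 : Rep w K (update S 0 (false :: X)) σ3 := by
    refine (r2.ld 0).congr ?_ ?_ ?_ ?_ ?_ ?_ ?_
    · simp [hσ3, Op.eff]
    · simp [hσ3, Op.eff]
    · simp [hσ3, Op.eff]
    · simp [hσ3, Op.eff]
    · simp [hσ3, Op.eff]
    · intro k hk
      simp only [hσ3, effs_cons, effs_nil, Op.eff]
      rw [update_of_ne (by omega)]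
    · intro c hc'
      simp only [hσ3, effs_cons, effs_nil, Op.eff]
      rw [ld_regs (show (0 : ℕ) ≠ 2 by omega), update_of_ne (by omega)]
  have a0 : σ3.regs 0 = σ.regs 0 + 1 := by
    simp only [hσ3, effs_cons, effs_nil, Op.eff, update_self]
    rw [ld_regs (show (0 : ℕ) ≠ 2 by omega), ld_regs (show (4 : ℕ) ≠ 2 by omega), g0, r2.one,
      Nat.mod_eq_of_lt (by omega)]
  have a1 : σ3.regs 1 = σ.regs 1 := by
    simp only [hσ3, effs_cons, effs_nil, Op.eff]
    rw [update_of_ne (by omega), ld_regs (show (1 : ℕ) ≠ 2 by omega), g1]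
  have am : σ3.mem = update σ.mem (σ.regs 0) a := by
    simp only [hσ3, effs_cons, effs_nil, Op.eff]
    rw [ld_regs (show (0 : ℕ) ≠ 2 by omega), ld_regs (show (8 : ℕ) ≠ 2 by omega), g0, c8]
    show update σ2.mem _ _ = _
    rw [gm]
  have r4 := r3.popB (ρ := ρ) hK (b := false) (l := X) (by rw [update_self])
  set σ4 := effs w ρ (popB 0) σ3 with hσ4
  have heff : effs w ρ ([.store 8 0, .add 0 0 4] ++ popB 0 ++ [.load 2 (12 + 0)]) (ld 0 σ2) =
      ld 0 σ4 := by
    rw [effs_append, effs_append]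
    rfl
  have hb : Ex w ρ (.blk ([.store 8 0, .add 0 0 4] ++ popB 0 ++ [.load 2 (12 + 0)])) (ld 0 σ2)
      (ld 0 σ4) 4 := by
    rw [← heff]
    exact Ex.blk _ _
  have ha1 : Ex w ρ (.blk [.const 8 0, .const 9 1]) (ld 0 σ) (ld 0 σ1) 2 := by
    rw [← e1]
    exact Ex.blk _ _
  refine ⟨σ4, _, Ex.seq ha1 (Ex.seq e2 hb), ?_, ?_, ?_, ?_, ?_, ?_⟩
  · rw [Nat.size_eq_bits_len] at b2
    omega
  · rw [update_idem] at r4
    exact r4
  · rw [← am]; rfl
  · rw [hσ4, popB_regs (by omega), a0]
  · rw [hσ4, popB_regs (by omega), a1]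
  · change σ2.drawn = σ.drawn
    rw [cd]

theorem dec_loop {w K : ℕ} (ρ : ℕ → ℕ) (hw : 1 ≤ w) (hK : 0 < K) :
    ∀ (out : List ℕ) (σ : St), Rep w K (init (enc out)) σ → (∀ a ∈ out, a < 2 ^ w) →
    σ.regs 0 + out.length ≤ 2 ^ (w - 1) →
    ∃ σ' t, Ex w ρ (.loop (.eq 2 5) decNum) (ld 0 σ) σ' t ∧ t ≤ 1 + 9 * (enc out).length ∧
      σ'.regs 0 = σ.regs 0 + out.length ∧ σ'.regs 1 = σ.regs 1 ∧
      (∀ i (h : i < out.length), σ'.mem (σ.regs 0 + i) = out[i]) ∧
      (∀ c, c < σ.regs 0 → σ'.mem c = σ.mem c) ∧ σ'.drawn = σ.drawn := by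
  intro out
  induction out with
  | nil =>
    intro σ hσ _ _
    refine ⟨ld 0 σ, 1, Ex.loop_done ?_, by omega, ?_, ?_, ?_, fun _ _ => rfl, rfl⟩
    · exact (hσ.ld_eval5 hK).2 rfl
    · rw [ld_regs (by omega)]; rfl
    · rw [ld_regs (by omega)]
    · intro i h
      simp at h
  | cons a out ih =>
    intro σ hσ hout hc
    rw [List.length_cons] at hc
    have henc : enc (a :: out) = pair a.bits (enc out) := rfl
    obtain ⟨σ1, t1, e1, b1, r1, cm, c0, c1, cd⟩ := decNum_run ρ hw hK (hout a (by simp)) (enc out)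
      (init (enc (a :: out))) σ hσ henc (by omega)
    have einit : update (init (enc (a :: out))) 0 (enc out) = init (enc out) := by
      funext j
      by_cases hj : j = 0
      · subst hj; simp
      · rw [update_of_ne hj]; simp [init, hj]
    rw [einit] at r1
    obtain ⟨σ', t2, e2, b2, d0, d1, dm, dl, dd⟩ := ih σ1 r1 (fun x hx => hout x (by simp [hx]))
      (by rw [c0]; omega)
    refine ⟨σ', _, Ex.loop_step ?_ e1 e2, ?_, ?_, ?_, ?_, ?_, ?_⟩
    · intro h'
      have := (hσ.ld_eval5 hK).1 h'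
      rw [init_zero, henc] at this
      exact pair_ne_nil _ _ this
    · rw [henc, core_length_pair, Nat.size_eq_bits_len]
      omega
    · rw [d0, c0, List.length_cons]
      omega
    · rw [d1, c1]
    · intro i hi
      cases i with
      | zero =>
        rw [add_zero, dl _ (by omega), cm, update_self]
        rfl
      | succ i =>
        rw [List.length_cons] at hi
        have := dm i (by omega)
        rw [c0] at this
        rw [show σ.regs 0 + (i + 1) = σ.regs 0 + 1 + i by omega, this]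
        rfl
    · intro c hc'
      rw [dl c (by omega), cm, update_of_ne (by omega)]
    · rw [dd, cd]

theorem decP_run {w K : ℕ} (ρ : ℕ → ℕ) (hw : 1 ≤ w) (hK : 0 < K) (out : List ℕ) (σ : St)
    (hσ : Rep w K (init (true :: enc out)) σ) (hout : ∀ a ∈ out, a < 2 ^ w)
    (hlen : out.length ≤ 2 ^ (w - 1)) :
    ∃ σ' t, Ex w ρ decP (ld 0 σ) σ' t ∧ t ≤ 5 + 9 * (enc out).length ∧
      σ'.regs 0 = out.length ∧ σ'.regs 1 = 0 ∧
      (∀ i (h : i < out.length), σ'.mem i = out[i]) ∧ σ'.drawn = σ.drawn := by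
  have r1 := (hσ.ld 0).popB (ρ := ρ) hK (b := true) (l := enc out) rfl
  have einit : update (init (true :: enc out)) 0 (enc out) = init (enc out) := by
    funext j
    by_cases hj : j = 0
    · subst hj; simp
    · rw [update_of_ne hj]; simp [init, hj]
  rw [einit] at r1
  set σ1 := effs w ρ (popB 0) (ld 0 σ) with hσ1
  set σ2 : St := { σ1 with regs := update (update σ1.regs 0 (0 % 2 ^ w)) 1 (0 % 2 ^ w) } with hσ2
  have r2 : Rep w K (init (enc out)) σ2 := (r1.scratch _ (by omega)).scratch _ (by omega)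
  have a0 : σ2.regs 0 = 0 := by simp [hσ2]
  have a1 : σ2.regs 1 = 0 := by simp [hσ2]
  obtain ⟨σ', t, e, ht, d0, d1, dm, _, dd⟩ := dec_loop ρ hw hK out σ2 r2 hout (by rw [a0]; omega)
  have heff : effs w ρ (popB 0 ++ [.const 0 0, .const 1 0, .load 2 (12 + 0)]) (ld 0 σ) =
      ld 0 σ2 := by
    rw [effs_append]
    rfl
  have hb : Ex w ρ (.blk (popB 0 ++ [.const 0 0, .const 1 0, .load 2 (12 + 0)])) (ld 0 σ)
      (ld 0 σ2) 4 := by
    rw [← heff]
    exact Ex.blk _ _
  refine ⟨σ', _, Ex.seq hb e, by omega, ?_, ?_, ?_, ?_⟩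
  · rw [d0, a0, zero_add]
  · rw [d1, a1]
  · intro i hi
    have := dm i hi
    rwa [a0, zero_add] at this
  · rw [dd]
    rfl

end Crest.Agent.R309.RAM
private theorem rz_b22a951d38 : type_of% @_root_.Crest.Agent.R309.RAM.val.eq_def := @_root_.Crest.Agent.R309.RAM.val.eq_def -- L15
private theorem rz_b1b3741773 : type_of% @_root_.Crest.Agent.R309.RAM.val.eq_1 := @_root_.Crest.Agent.R309.RAM.val.eq_1 -- L15
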