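import Mathlib
import Crest.Agent.Lib.PT.ArithMore
import Crest.Agent.Lib.PT.ListFns2
import Crest.Prelude.Def_Tables
import Crest.Agent.R309.Iface
import Crest.Agent.R309.Parse
import Crest.Agent.R309.PTExtra
import Crest.Prelude.Def_Randomized

-- ▼ part R309/NW
section

/-!
# R309: the north-west corner table

For margins `rs`, `cs` with the same total, `nw rs cs` is a table with these margins, given by a
closed formula.
-/

set_option autoImplicit false

namespace Crest.Agent.R309.NW

open Crest.Agent.Lib.PT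

/-- clamp `x` to the interval `[a, b]` -/
def clamp (a b x : ℕ) : ℕ := min b (max a x)

/-- prefix sum -/
def pre (l : List ℕ) (i : ℕ) : ℕ := (l.take i).sum

/-- an entry of the north-west corner table -/
def ent (rs cs : List ℕ) (i j : ℕ) : ℕ :=
  clamp (pre rs i) (pre rs (i + 1)) (pre cs (j + 1)) - clamp (pre rs i) (pre rs (i + 1)) (pre cs j)

/-- the north-west corner table -/
def nw (rs cs : List ℕ) : List (List ℕ) :=
  (List.range rs.length).map fun i => (List.range cs.length).map fun j => ent rs cs i j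

theorem clamp_mono (a b : ℕ) : Monotone (clamp a b) := fun _ _ h =>
  min_le_min_left _ (max_le_max_left _ h)

theorem pre_zero (l : List ℕ) : pre l 0 = 0 := by simp [pre]

theorem pre_length (l : List ℕ) : pre l l.length = l.sum := by simp [pre]

theorem pre_succ (l : List ℕ) (i : ℕ) : pre l (i + 1) = pre l i + l.getD i 0 := by
  unfold pre
  rw [List.take_add_one, List.sum_append]
  congr 1
  rcases h : l[i]? with _ | a
  · simp [List.getD, h]
  · simp [List.getD, h]

theorem pre_mono (l : List ℕ) : Monotone (pre l) :=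
  monotone_nat_of_le_succ fun i => by rw [pre_succ]; omega

theorem pre_le_sum (l : List ℕ) (i : ℕ) : pre l i ≤ l.sum := by
  rcases le_total i l.length with h | h
  · rw [← pre_length]; exact pre_mono l h
  · unfold pre; rw [List.take_of_length_le h]





theorem sum_range_ent_row (rs cs : List ℕ) (i n : ℕ) :
    ∑ j ∈ Finset.range n, ent rs cs i j =
      clamp (pre rs i) (pre rs (i + 1)) (pre cs n) - clamp (pre rs i) (pre rs (i + 1)) (pre cs 0) := by
  unfold ent
  exact Finset.sum_range_tsub (f := fun j => clamp (pre rs i) (pre rs (i + 1)) (pre cs j))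
    (fun a b h => clamp_mono _ _ (pre_mono cs h)) n

theorem sum_row (rs cs : List ℕ) (h : rs.sum = cs.sum) (i : ℕ) :
    ∑ j ∈ Finset.range cs.length, ent rs cs i j = rs.getD i 0 := by
  rw [sum_range_ent_row, pre_length, pre_zero, ← h]
  have h1 := pre_le_sum rs (i + 1)
  have h2 := pre_mono rs (Nat.le_succ i)
  have h3 := pre_succ rs i
  unfold clamp
  simp only [Nat.succ_eq_add_one] at h2
  omega

theorem ent_eq (rs cs : List ℕ) (i j : ℕ) :
    (ent rs cs i j : ℤ) = ((min (pre rs (i + 1)) (pre cs (j + 1)) : ℕ) - (min (pre rs (i + 1)) (pre cs j) : ℕ))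
      - ((min (pre rs i) (pre cs (j + 1)) : ℕ) - (min (pre rs i) (pre cs j) : ℕ)) := by
  have h1 := pre_mono rs (Nat.le_succ i)
  have h2 := pre_mono cs (Nat.le_succ j)
  unfold ent clamp
  simp only [Nat.succ_eq_add_one] at h1 h2
  omega

theorem sum_col (rs cs : List ℕ) (h : rs.sum = cs.sum) (j : ℕ) :
    ∑ i ∈ Finset.range rs.length, ent rs cs i j = cs.getD j 0 := by
  have key : ∀ n, ((∑ i ∈ Finset.range n, ent rs cs i j : ℕ) : ℤ) =
      (min (pre rs n) (pre cs (j + 1)) : ℕ) - (min (pre rs n) (pre cs j) : ℕ) := by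
    intro n
    induction n with
    | zero => simp [pre_zero]
    | succ n ih =>
      rw [Finset.sum_range_succ, Nat.cast_add, ih, ent_eq]
      ring
  have h1 := key rs.length
  rw [pre_length] at h1
  have h2 := pre_le_sum cs (j + 1)
  have h3 := pre_le_sum cs j
  have h4 := pre_succ cs j
  rw [h] at h1
  rw [min_eq_right h2, min_eq_right h3] at h1
  omega




/-- the north-west corner table of functions is a table -/
theorem isTable_ent {m n : ℕ} (rs : Fin m → ℕ) (cs : Fin n → ℕ) (h : ∑ i, rs i = ∑ j, cs j) :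
    Crest.Tables.IsTable rs cs (fun i j => ent (List.ofFn rs) (List.ofFn cs) i j) := by
  have h' : (List.ofFn rs).sum = (List.ofFn cs).sum := by simpa [List.sum_ofFn] using h
  constructor
  · intro i
    have := sum_row (List.ofFn rs) (List.ofFn cs) h' i
    rw [List.length_ofFn, Finset.sum_range] at this
    rw [this]
    simp [List.getD]
  · intro j
    have := sum_col (List.ofFn rs) (List.ofFn cs) h' j
    rw [List.length_ofFn, Finset.sum_range] at this
    rw [this]
    simp [List.getD]

theorem nw_ofFn {m n : ℕ} (rs : Fin m → ℕ) (cs : Fin n → ℕ) :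
    nw (List.ofFn rs) (List.ofFn cs) =
      List.ofFn fun i : Fin m => List.ofFn fun j : Fin n =>
        ent (List.ofFn rs) (List.ofFn cs) i j := by
  unfold nw
  rw [List.length_ofFn, List.length_ofFn]
  apply List.ext_getElem (by simp)
  intro i h1 h2
  simp only [List.getElem_map, List.getElem_range, List.getElem_ofFn]
  apply List.ext_getElem (by simp)
  intro j h3 h4
  simp

theorem ptf_pre : PTF (fun p : List ℕ × ℕ => pre p.1 p.2) := by
  have h : PTF (fun p : List ℕ × ℕ => (p.1.take (min p.2 p.1.length)).sum) := by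
    have h1 : PTU (fun p : List ℕ × ℕ => min p.2 p.1.length) :=
      PTF.natMinUn PTF.snd (PTU.length PTF.fst)
    exact PTF.natSum (PTF.take h1 PTF.fst)
  refine PTF.of_eq h fun p => ?_
  unfold pre
  congr 1
  rcases le_total p.2 p.1.length with h | h
  · rw [min_eq_left h]
  · rw [min_eq_right h, List.take_of_length_le le_rfl, List.take_of_length_le h]

theorem ptf_clamp {α : Type} [PTCode α] {a b x : α → ℕ} (ha : PTF a) (hb : PTF b) (hx : PTF x) :
    PTF (fun c => clamp (a c) (b c) (x c)) :=
  PTF.natMin hb (PTF.natMax ha hx)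

theorem ptf_ent : PTF (fun p : (List ℕ × List ℕ) × ℕ × ℕ => ent p.1.1 p.1.2 p.2.1 p.2.2) := by
  have hp : ∀ {f : (List ℕ × List ℕ) × ℕ × ℕ → List ℕ} {g : (List ℕ × List ℕ) × ℕ × ℕ → ℕ},
      PTF f → PTF g → PTF (fun p => pre (f p) (g p)) := fun hf hg =>
    PTF.comp (g := fun p : List ℕ × ℕ => pre p.1 p.2) ptf_pre (PTF.prodMk hf hg)
  have hR : PTF (fun p : (List ℕ × List ℕ) × ℕ × ℕ => pre p.1.1 p.2.1) := hp (by fun_prop) (by fun_prop)
  have hR' : PTF (fun p : (List ℕ × List ℕ) × ℕ × ℕ => pre p.1.1 (p.2.1 + 1)) :=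
    hp (by fun_prop) (by fun_prop)
  have hC : PTF (fun p : (List ℕ × List ℕ) × ℕ × ℕ => pre p.1.2 p.2.2) := hp (by fun_prop) (by fun_prop)
  have hC' : PTF (fun p : (List ℕ × List ℕ) × ℕ × ℕ => pre p.1.2 (p.2.2 + 1)) :=
    hp (by fun_prop) (by fun_prop)
  exact PTF.natSub (ptf_clamp hR hR' hC') (ptf_clamp hR hR' hC)

theorem ptf_nw : PTF (fun p : List ℕ × List ℕ => nw p.1 p.2) := by
  unfold nw
  refine PTF.tabulate (n := fun p : List ℕ × List ℕ => p.1.length)
    (f := fun p i => (List.range p.2.length).map fun j => ent p.1 p.2 i j) (by fun_prop) ?_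
  refine PTF.tabulate (n := fun q : (List ℕ × List ℕ) × ℕ => q.1.2.length)
    (f := fun q j => ent q.1.1 q.1.2 q.2 j) (by fun_prop) ?_
  exact PTF.comp (g := fun p : (List ℕ × List ℕ) × ℕ × ℕ => ent p.1.1 p.1.2 p.2.1 p.2.2)
    (f := fun q : ((List ℕ × List ℕ) × ℕ) × ℕ => (q.1.1, q.1.2, q.2)) ptf_ent (by fun_prop)

end Crest.Agent.R309.NW
end

-- ▼ part R309/S0480Of

/-!
# R309: the almost-uniform sampler (S0480) from the chain interface
-/

set_option autoImplicit false

namespace Crest.Agent.R309.S0480Of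

open Finset Crest.Agent.Lib.PT Crest.Agent.R309.Tape Crest.Agent.R309.Iface Crest.Agent.R309.Feas
open Crest.Agent.R309.Parse Crest.Agent.R309.NW Crest.Agent.R309.PTX Crest.Tables Crest.Enc
open Crest.FinProb Crest.Randomized

/-! ### list tables and function tables -/

theorem forall₂_ofFn_le {n : ℕ} (f g : Fin n → ℕ) :
    List.Forall₂ (· ≤ ·) (List.ofFn f) (List.ofFn g) ↔ ∀ i, f i ≤ g i := by
  rw [List.forall₂_iff_get]
  simp only [List.length_ofFn, List.get_ofFn, true_and]
  constructor
  · intro h i; simpa using h i i.2 i.2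
  · intro h i h1 h2; exact h ⟨i, h1⟩

theorem forall₂_ofFn2_le {m n : ℕ} (X b : Fin m → Fin n → ℕ) :
    List.Forall₂ (List.Forall₂ (· ≤ ·)) (ofFn2 X) (ofFn2 b) ↔ ∀ i j, X i j ≤ b i j := by
  unfold ofFn2
  rw [List.forall₂_iff_get]
  simp only [List.length_ofFn, List.get_ofFn, true_and]
  constructor
  · intro h i; exact (forall₂_ofFn_le _ _).1 (h i i.2 i.2)
  · intro h i h1 h2; exact (forall₂_ofFn_le _ _).2 (h ⟨i, h1⟩)

theorem colSum_ofFn2 {m n : ℕ} (X : Fin m → Fin n → ℕ) (j : Fin n) :
    colSum (ofFn2 X) j = ∑ i, X i j := by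
  unfold colSum ofFn2
  rw [List.map_ofFn, List.sum_ofFn]
  refine Finset.sum_congr rfl fun i _ => ?_
  simp only [Function.comp_apply]
  exact getD_ofFn (X i) j 0

theorem isTab_ofFn2 {m n : ℕ} (rs : Fin m → ℕ) (cs : Fin n → ℕ) (b X : Fin m → Fin n → ℕ) :
    IsTab (mkInst rs cs b) (ofFn2 X) ↔ IsBTable rs cs b X := by
  constructor
  · rintro ⟨h1, h2, h3, h4⟩
    refine ⟨(forall₂_ofFn2_le X b).1 h4, fun i => ?_, fun j => ?_⟩
    · have h1' : (ofFn2 X).map List.sum = List.ofFn rs := h1
      unfold ofFn2 at h1'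
      rw [List.map_ofFn] at h1'
      have := congrFun (List.ofFn_injective h1') i
      simpa [List.sum_ofFn] using this
    · have := h3 j (by simp [mkInst])
      rw [colSum_ofFn2] at this
      rw [this]
      exact getD_ofFn cs j 0
  · rintro ⟨h1, h2, h3⟩
    refine ⟨?_, ?_, ?_, (forall₂_ofFn2_le X b).2 h1⟩
    · show (ofFn2 X).map List.sum = List.ofFn rs
      unfold ofFn2
      rw [List.map_ofFn]
      congr 1
      funext i
      simpa [List.sum_ofFn] using h2 i
    · intro r hr
      unfold ofFn2 at hr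
      obtain ⟨i, rfl⟩ := (List.mem_ofFn' _ _).1 hr
      simp [mkInst]
    · intro j hj
      have hj' : j < n := by simpa [mkInst] using hj
      have := colSum_ofFn2 X ⟨j, hj'⟩
      simp only at this
      rw [this, h3 ⟨j, hj'⟩]
      exact (getD_ofFn cs ⟨j, hj'⟩ 0).symm

theorem exists_ofFn2_of_shape {m n : ℕ} {X B : List (List ℕ)} {b : Fin m → Fin n → ℕ}
    (hB : B = ofFn2 b) (h : List.Forall₂ (List.Forall₂ (· ≤ ·)) X B) :
    ∃ Y : Fin m → Fin n → ℕ, X = ofFn2 Y := by
  subst hB
  have hlen : X.length = m := by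
    have := h.length_eq
    rw [this]
    simp [ofFn2]
  have hrow : ∀ (i : ℕ) (hi : i < X.length), (X[i]).length = n := by
    intro i hi
    have := (List.forall₂_iff_get.1 h).2 i hi (by simpa [ofFn2, hlen] using hi)
    have := this.length_eq
    simpa [ofFn2] using this
  have hi' : ∀ i : Fin m, (i : ℕ) < X.length := fun i => lt_of_lt_of_eq i.2 hlen.symm
  refine ⟨fun i j => (X[(i : ℕ)]'(hi' i))[(j : ℕ)]'(lt_of_lt_of_eq j.2 (hrow i (hi' i)).symm), ?_⟩
  unfold ofFn2
  apply List.ext_getElem
  · simp [hlen]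
  · intro i h1 h2
    simp only [List.getElem_ofFn]
    apply List.ext_getElem
    · simp [hrow]
    · intro j h3 h4
      simp

theorem isTab_iff {m n : ℕ} (rs : Fin m → ℕ) (cs : Fin n → ℕ) (b : Fin m → Fin n → ℕ) (X : Tab) :
    IsTab (mkInst rs cs b) X ↔ ∃ Y : Fin m → Fin n → ℕ, X = ofFn2 Y ∧ IsBTable rs cs b Y := by
  constructor
  · intro h
    obtain ⟨Y, hY⟩ := exists_ofFn2_of_shape (b := b) rfl h.bds
    exact ⟨Y, hY, (isTab_ofFn2 rs cs b Y).1 (hY ▸ h)⟩
  · rintro ⟨Y, rfl, hY⟩
    exact (isTab_ofFn2 rs cs b Y).2 hY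

theorem card_tabs {m n : ℕ} (rs : Fin m → ℕ) (cs : Fin n → ℕ) (b : Fin m → Fin n → ℕ) :
    (tabs (mkInst rs cs b)).card = numBoundedTables rs cs b := by
  classical
  unfold numBoundedTables
  rw [Fintype.card_subtype]
  refine (Finset.card_bij (fun (X : (i : Fin m) → (j : Fin n) → Fin (b i j + 1)) _ =>
    ofFn2 (fun i j => (X i j : ℕ))) ?_ ?_ ?_).symm
  · intro X hX
    rw [Finset.mem_filter] at hX
    rw [mem_tabs, isTab_ofFn2]
    exact ⟨fun i j => Nat.lt_succ_iff.1 (X i j).2, hX.2.1, hX.2.2⟩
  · intro X _ Y _ h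
    have := ofFn2_inj h
    funext i j
    exact Fin.ext (congrFun (congrFun this i) j)
  · intro Z hZ
    rw [mem_tabs, isTab_iff] at hZ
    obtain ⟨Y, rfl, hY⟩ := hZ
    refine ⟨fun i j => ⟨Y i j, Nat.lt_succ_iff.2 (hY.1 i j)⟩, ?_, rfl⟩
    rw [Finset.mem_filter]
    exact ⟨Finset.mem_univ _, hY.2.1, hY.2.2⟩

theorem matrixCode_injective {m n : ℕ} {X Y : Fin m → Fin n → ℕ} (h : matrixCode X = matrixCode Y) :
    X = Y := by
  apply ofFn2_inj
  rw [matrixCode_eq, matrixCode_eq, List.append_cancel_left_eq] at h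
  have h1 := readK_code ((ofFn2 X).flatten) []
  have h2 := readK_code ((ofFn2 Y).flatten) []
  rw [length_flatten_ofFn2] at h1 h2
  rw [h, h2] at h1
  have h3 : (ofFn2 Y).flatten = (ofFn2 X).flatten := (Prod.ext_iff.1 h1).1
  rw [← rowsOf_flatten X, ← rowsOf_flatten Y, h3]

/-! ### the total variation bound -/

/-- If all expectations of `[0,1]`-valued test functions are within `δ`, the sum of the absolute
differences is at most `2 δ`. -/
theorem sum_abs_le {ι : Type*} (s : Finset ι) (p w : ι → ℝ) (δ : ℝ)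
    (h : ∀ E ⊆ s, |∑ i ∈ E, p i - ∑ i ∈ E, w i| ≤ δ) : ∑ i ∈ s, |p i - w i| ≤ 2 * δ := by
  classical
  have h1 := h (s.filter fun i => w i ≤ p i) (Finset.filter_subset _ _)
  have h2 := h (s.filter fun i => ¬ w i ≤ p i) (Finset.filter_subset _ _)
  rw [← Finset.sum_filter_add_sum_filter_not s (fun i => w i ≤ p i)]
  have e1 : ∑ i ∈ s.filter (fun i => w i ≤ p i), |p i - w i| =
      ∑ i ∈ s.filter (fun i => w i ≤ p i), p i - ∑ i ∈ s.filter (fun i => w i ≤ p i), w i := by
    rw [← Finset.sum_sub_distrib]
    refine Finset.sum_congr rfl fun i hi => abs_of_nonneg ?_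
    have := (Finset.mem_filter.1 hi).2
    linarith
  have e2 : ∑ i ∈ s.filter (fun i => ¬ w i ≤ p i), |p i - w i| =
      -(∑ i ∈ s.filter (fun i => ¬ w i ≤ p i), p i - ∑ i ∈ s.filter (fun i => ¬ w i ≤ p i), w i) := by
    rw [← Finset.sum_sub_distrib, ← Finset.sum_neg_distrib]
    refine Finset.sum_congr rfl fun i hi => abs_of_nonpos ?_
    have := (Finset.mem_filter.1 hi).2
    linarith
  rw [e1, e2]
  have := abs_le.1 h1
  have := abs_le.1 h2
  linarith

/-! ### running the chain -/

theorem runSteps_take {S : Type*} (f : S → List Bool → S) (r k : ℕ) (s : S) (t : List Bool) :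
    runSteps f r k s (t.take (k * r)) = runSteps f r k s t := by
  induction k generalizing s t with
  | zero => rfl
  | succ k ih =>
    simp only [runSteps]
    rw [List.take_take, List.drop_take]
    have e1 : min r ((k + 1) * r) = r := by
      apply min_eq_left; nlinarith [Nat.zero_le (k * r)]
    have e2 : (k + 1) * r - r = k * r := by
      rw [Nat.add_mul]; omega
    rw [e1, e2, ih]

/-- `runSteps` inside a set that is preserved and on which the guard passes -/
theorem runSteps_guard_eq {S : Type} [PTCode S] (Q : S → Prop) (B : ℕ) (f : S → List Bool → S) (r : ℕ)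
    (hQ : ∀ s, Q s → ∀ l : List Bool, l.length = r → Q (f s l)) (hB : ∀ s, Q s → sz s ≤ B)
    (k : ℕ) (s : S) (hs : Q s) (t : List Bool) (ht : k * r ≤ t.length) :
    runSteps (PTX.guard B f) r k s t = runSteps f r k s t ∧ Q (runSteps f r k s t) := by
  induction k generalizing s t with
  | zero => exact ⟨rfl, hs⟩
  | succ k ih =>
    have e : (k + 1) * r = k * r + r := by ring
    have h1 : (t.take r).length = r := by rw [List.length_take]; omega
    have h2 := hQ s hs _ h1
    have h3 : PTX.guard B f s (t.take r) = f s (t.take r) := by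
      unfold PTX.guard
      rw [if_pos (hB _ h2)]
    simp only [runSteps]
    rw [h3]
    exact ih (f s (t.take r)) h2 (t.drop r) (by rw [List.length_drop]; omega)

theorem sz_forall₂_le {l l' : List ℕ} (h : List.Forall₂ (· ≤ ·) l l') : sz l ≤ sz l' := by
  induction h with
  | nil => exact le_rfl
  | cons h1 _ ih =>
    simp only [sz_cons, sz_nat]
    have := Nat.size_le_size h1
    omega

theorem sz_forall₂₂_le {l l' : List (List ℕ)} (h : List.Forall₂ (List.Forall₂ (· ≤ ·)) l l') :
    sz l ≤ sz l' := by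
  induction h with
  | nil => exact le_rfl
  | cons h1 _ ih =>
    simp only [sz_cons]
    have := sz_forall₂_le h1
    omega

/-! ### the sampler -/

/-- the unbounded instance: every cell is bounded by the total -/
def inst (rs cs : List ℕ) : Iface.Inst :=
  (rs, cs, List.replicate rs.length (List.replicate cs.length rs.sum))

theorem inst_eq {m n : ℕ} (rs : Fin m → ℕ) (cs : Fin n → ℕ) :
    inst (List.ofFn rs) (List.ofFn cs) = mkInst rs cs (fun _ _ => ∑ i, rs i) := by
  unfold inst mkInst
  simp only [List.length_ofFn, List.sum_ofFn, List.ofFn_const]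

theorem ptf_inst {γ : Type} [PTCode γ] {rs cs : γ → List ℕ} (hr : PTF rs) (hc : PTF cs) :
    PTF (fun c => inst (rs c) (cs c)) := by
  unfold inst
  exact PTF.prodMk hr (PTF.prodMk hc (PTF.replicate (PTU.length hr)
    (PTF.replicate (PTU.length hc) (PTF.natSum hr))))

/-- the final table of the sampler -/
def fin (step : Iface.Inst × Tab → List Bool → Tab) (len tau : Iface.Inst → ℕ)
    (rs cs : List ℕ) (k : ℕ) (t : List Bool) : Tab :=
  runSteps (PTX.guard (sz (inst rs cs)) (fun Y l => step (inst rs cs, Y) l)) (len (inst rs cs))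
    (k * tau (inst rs cs)) (nw rs cs) t

theorem ptf_fin {step : Iface.Inst × Tab → List Bool → Tab} {len tau : Iface.Inst → ℕ}
    (hstep : PTF (fun p : (Iface.Inst × Tab) × List Bool => step p.1 p.2)) (hlen : PTU len)
    (htau : PTU tau) : PTF (fun p : ((List ℕ × List ℕ) × List Bool) × List Bool =>
      fin step len tau p.1.1.1 p.1.1.2 p.1.2.length p.2) := by
  have hI : PTF (fun p : ((List ℕ × List ℕ) × List Bool) × List Bool => inst p.1.1.1 p.1.1.2) :=
    ptf_inst (by fun_prop) (by fun_prop)
  unfold fin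
  refine ptf_runSteps_guard
    (f := fun (p : ((List ℕ × List ℕ) × List Bool) × List Bool) Y l => step (inst p.1.1.1 p.1.1.2, Y) l)
    ?_ (PTU.toPTF (PTU.comp hlen hI)) (PTU.mul (PTU.length (by fun_prop)) (PTU.comp htau hI))
    (PTF.comp (g := fun p : List ℕ × List ℕ => nw p.1 p.2)
      (f := fun p : ((List ℕ × List ℕ) × List Bool) × List Bool => p.1.1) ptf_nw (by fun_prop))
    (by fun_prop) (PTF.szU hI)
  refine PTF.comp (g := fun p : (Iface.Inst × Tab) × List Bool => step p.1 p.2)
    (f := fun q : (((List ℕ × List ℕ) × List Bool) × List Bool) × Tab × List Bool =>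
      ((inst q.1.1.1.1 q.1.1.1.2, q.2.1), q.2.2)) hstep ?_
  exact PTF.prodMk (PTF.prodMk (PTF.comp
    (g := fun p : ((List ℕ × List ℕ) × List Bool) × List Bool => inst p.1.1.1 p.1.1.2) hI PTF.fst)
    (by fun_prop)) (by fun_prop)

/-- the sampler after parsing -/
def out (step : Iface.Inst × Tab → List Bool → Tab) (len tau : Iface.Inst → ℕ)
    (q : ((List ℕ × List ℕ) × List Bool) × List Bool) : List Bool :=
  matCode q.1.1.1.length q.1.1.2.length (fin step len tau q.1.1.1 q.1.1.2 q.1.2.length q.2)

theorem ptf_out {step : Iface.Inst × Tab → List Bool → Tab} {len tau : Iface.Inst → ℕ}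
    (hstep : PTF (fun p : (Iface.Inst × Tab) × List Bool => step p.1 p.2)) (hlen : PTU len)
    (htau : PTU tau) : PTF (out step len tau) := by
  unfold out
  exact ptf_matCode (PTU.toPTF (PTU.length (by fun_prop))) (PTU.toPTF (PTU.length (by fun_prop)))
    (ptf_fin hstep hlen htau)

/-- parsing -/
def prs (p : List Bool × List Bool) : ((List ℕ × List ℕ) × List Bool) × List Bool :=
  (parseM p.1, p.2)

theorem ptf_prs : PTF prs := PTF.prodMk (ptf_parseM PTF.fst) PTF.snd

/-- the sampler -/
def alg (step : Iface.Inst × Tab → List Bool → Tab) (len tau : Iface.Inst → ℕ)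
    (p : List Bool × List Bool) : List Bool := out step len tau (prs p)

theorem ptf_alg {step : Iface.Inst × Tab → List Bool → Tab} {len tau : Iface.Inst → ℕ}
    (hstep : PTF (fun p : (Iface.Inst × Tab) × List Bool => step p.1 p.2)) (hlen : PTU len)
    (htau : PTU tau) : PTF (alg step len tau) :=
  PTF.comp (g := out step len tau) (f := prs) (ptf_out hstep hlen htau) ptf_prs

/-- the number of random bits, after parsing -/
def bits' (len tau : Iface.Inst → ℕ) (q : (List ℕ × List ℕ) × List Bool) : ℕ :=
  (q.2.length * tau (inst q.1.1 q.1.2)) * len (inst q.1.1 q.1.2)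

/-- the number of random bits -/
def bits (len tau : Iface.Inst → ℕ) (w : List Bool) : ℕ := bits' len tau (parseM w)

theorem pb_bits {len tau : Iface.Inst → ℕ} (hlen : PTU len) (htau : PTU tau) :
    PB (bits len tau) := by
  have h : PTU (bits' len tau) := by
    have hI : PTF (fun p : (List ℕ × List ℕ) × List Bool => inst p.1.1 p.1.2) :=
      ptf_inst (by fun_prop) (by fun_prop)
    exact PTU.mul (PTU.mul (PTU.length (by fun_prop)) (PTU.comp htau hI)) (PTU.comp hlen hI)
  exact PTU.pb (PTU.comp (n := bits' len tau) (f := fun w => parseM w) h (ptf_parseM PTF.id))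

/-- **S0480 from the chain.** -/
theorem S0480_of (H : ChainSpec) :
    ∃ (A : List Bool × List Bool → List Bool) (r : Polynomial ℕ), RandPolyTime A ∧
      ∀ (m n : ℕ) (rs : Fin m → ℕ) (cs : Fin n → ℕ) (k : ℕ), 1 ≤ k → ∑ i, rs i = ∑ j, cs j →
        (∀ ω : Fin (r.eval (marginsCode rs cs ++ List.replicate k true).length) → Bool,
          ∃ X : Fin m → Fin n → ℕ, IsTable rs cs X ∧
            A (marginsCode rs cs ++ List.replicate k true, List.ofFn ω) = matrixCode X) ∧
        (∑ X : (i : Fin m) → (j : Fin n) → Fin (∑ i, rs i + 1),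
            |uniformProb {ω : Fin (r.eval (marginsCode rs cs ++ List.replicate k true).length) → Bool |
                A (marginsCode rs cs ++ List.replicate k true, List.ofFn ω) =
                  matrixCode (fun i j => (X i j : ℕ))} -
              uniformTableWeight rs cs (fun i j => (X i j : ℕ))|) / 2
          ≤ (2 : ℝ)⁻¹ ^ k := by
  classical
  obtain ⟨step, len, tau, hstep, hlen, htau, hch⟩ := H
  obtain ⟨r, hr⟩ := (pb_bits hlen htau).exists_length
  refine ⟨alg step len tau, r, (ptf_alg hstep hlen htau).polyTimeComputable_pairEnc, ?_⟩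
  intro m n rs cs k _ hsum
  set w := marginsCode rs cs ++ List.replicate k true with hw
  have hparse : parseM w = ((List.ofFn rs, List.ofFn cs), List.replicate k true) :=
    parseM_code rs cs _
  set I : Iface.Inst := mkInst rs cs (fun _ _ => ∑ i, rs i) with hI
  have hinst : inst (List.ofFn rs) (List.ofFn cs) = I := inst_eq rs cs
  have hbits : k * tau I * len I ≤ r.eval w.length := by
    have := hr w
    unfold bits bits' at this
    rw [hparse] at this
    simpa only [hinst, List.length_replicate] using this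
  -- the start table
  set X0 : Fin m → Fin n → ℕ := fun i j => ent (List.ofFn rs) (List.ofFn cs) i j with hX0
  have htab0 : IsTable rs cs X0 := isTable_ent rs cs hsum
  have hle_of_table : ∀ X : Fin m → Fin n → ℕ, IsTable rs cs X → ∀ i j, X i j ≤ ∑ i, rs i := by
    intro X hX i j
    calc X i j ≤ ∑ j, X i j := Finset.single_le_sum (f := fun j => X i j) (fun _ _ => Nat.zero_le _)
          (Finset.mem_univ j)
      _ = rs i := hX.1 i
      _ ≤ ∑ i, rs i := Finset.single_le_sum (fun _ _ => Nat.zero_le _) (Finset.mem_univ i)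
  have hbt : ∀ X : Fin m → Fin n → ℕ, IsTable rs cs X ↔ IsBTable rs cs (fun _ _ => ∑ i, rs i) X :=
    fun X => ⟨fun h => ⟨hle_of_table X h, h.1, h.2⟩, fun h => ⟨h.2.1, h.2.2⟩⟩
  have hnw : nw (List.ofFn rs) (List.ofFn cs) = ofFn2 X0 := nw_ofFn rs cs
  have hT0 : IsTab I (ofFn2 X0) := (isTab_ofFn2 rs cs _ X0).2 ((hbt X0).1 htab0)
  -- the unguarded run
  set f : Tab → List Bool → Tab := fun Y l => step (I, Y) l with hf
  set K := k * tau I with hK
  have hQ : ∀ Y, IsTab I Y → ∀ l : List Bool, l.length = len I → IsTab I (f Y l) :=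
    fun Y hY l hl => (hch I Y hY).1 l hl
  have hB : ∀ Y, IsTab I Y → sz Y ≤ sz I := by
    intro Y hY
    have h1 := sz_forall₂₂_le hY.bds
    have h2 : sz I = 2 * sz I.1 + 1 + (2 * sz I.2.1 + 1 + sz I.2.2) := by
      rw [sz_prod, sz_prod]
    omega
  have hrun : ∀ t : List Bool, K * len I ≤ t.length →
      alg step len tau (w, t) = matCode m n (runSteps f (len I) K (ofFn2 X0) t) ∧
        IsTab I (runSteps f (len I) K (ofFn2 X0) t) := by
    intro t ht
    have h1 := runSteps_guard_eq (IsTab I) (sz I) f (len I) hQ hB K (ofFn2 X0) hT0 t ht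
    refine ⟨?_, h1.2⟩
    unfold alg out prs fin
    simp only [hparse, hinst, hnw, List.length_ofFn, List.length_replicate]
    rw [← h1.1]
  have hlenω : ∀ ω : Fin (r.eval w.length) → Bool, K * len I ≤ (List.ofFn ω).length := by
    intro ω; rw [List.length_ofFn]; exact hbits
  constructor
  · intro ω
    obtain ⟨h1, h2⟩ := hrun (List.ofFn ω) (hlenω ω)
    rw [isTab_iff] at h2
    obtain ⟨Y, hY, hY'⟩ := h2
    refine ⟨Y, (hbt Y).2 hY', ?_⟩
    rw [h1, hY, matCode_eq]
  · -- the total variation bound
    have hp : ∀ X : Fin m → Fin n → ℕ,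
        uniformProb {ω : Fin (r.eval w.length) → Bool |
          alg step len tau (w, List.ofFn ω) = matrixCode X} =
        avg (K * len I) (fun t => ind (runSteps f (len I) K (ofFn2 X0) t = ofFn2 X)) := by
      intro X
      rw [uniformProb_eq_pr (r.eval w.length) (fun t => alg step len tau (w, t) = matrixCode X)]
      have h1 : pr (r.eval w.length) (fun t => alg step len tau (w, t) = matrixCode X) =
          pr (r.eval w.length) (fun t =>
            runSteps f (len I) K (ofFn2 X0) (t.take (K * len I)) = ofFn2 X) := by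
        refine pr_congr fun t ht => ?_
        obtain ⟨h1, h2⟩ := hrun t (by rw [ht]; exact hbits)
        rw [isTab_iff] at h2
        obtain ⟨Y, hY, hY'⟩ := h2
        rw [runSteps_take, h1, hY, matCode_eq]
        constructor
        · intro h; rw [matrixCode_injective h]
        · intro h; rw [ofFn2_inj h]
      rw [h1, pr_take hbits (fun t => runSteps f (len I) K (ofFn2 X0) t = ofFn2 X)]
      rfl
    have hw' : ∀ X : Fin m → Fin n → ℕ, uniformTableWeight rs cs X =
        unif I (fun Z => ind (Z = ofFn2 X)) := by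
      intro X
      unfold uniformTableWeight unif
      rw [card_tabs]
      split_ifs with h
      · have hX : ofFn2 X ∈ tabs I := by
          rw [mem_tabs, isTab_ofFn2]; exact (hbt X).1 h
        congr 1
        rw [Finset.sum_eq_single (ofFn2 X)]
        · rw [ind_of rfl]
        · intro Z _ hZ; exact ind_of_not hZ
        · intro h; exact absurd hX h
      · rw [Finset.sum_eq_zero, zero_div]
        intro Z hZ
        refine ind_of_not ?_
        rintro rfl
        rw [mem_tabs, isTab_ofFn2] at hZ
        exact h ((hbt X).2 hZ)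
    have hmain := sum_abs_le (Finset.univ : Finset ((i : Fin m) → (j : Fin n) → Fin (∑ i, rs i + 1)))
      (fun X => uniformProb {ω : Fin (r.eval w.length) → Bool |
          alg step len tau (w, List.ofFn ω) = matrixCode (fun i j => (X i j : ℕ))})
      (fun X => uniformTableWeight rs cs (fun i j => (X i j : ℕ))) ((1 / 2 : ℝ) ^ k) (by
        intro E _
        have h1 : ∑ X ∈ E, uniformProb {ω : Fin (r.eval w.length) → Bool |
              alg step len tau (w, List.ofFn ω) = matrixCode (fun i j => (X i j : ℕ))} =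
            avg (K * len I) (fun t => ∑ X ∈ E,
              ind (runSteps f (len I) K (ofFn2 X0) t = ofFn2 (fun i j => (X i j : ℕ)))) := by
          rw [avg_sum]
          exact Finset.sum_congr rfl fun X _ => hp _
        have h2 : ∑ X ∈ E, uniformTableWeight rs cs (fun i j => (X i j : ℕ)) =
            unif I (fun Z => ∑ X ∈ E, ind (Z = ofFn2 (fun i j => (X i j : ℕ)))) := by
          unfold unif
          rw [Finset.sum_comm, Finset.sum_div]
          exact Finset.sum_congr rfl fun X _ => by rw [hw']; rfl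
        rw [h1, h2, avg_runSteps f (len I) K
          (fun Z => ∑ X ∈ E, ind (Z = ofFn2 (fun i j => (X i j : ℕ)))) (ofFn2 X0)]
        refine (hch I (ofFn2 X0) hT0).2 k _ ?_
        intro Z
        refine ⟨Finset.sum_nonneg fun X _ => ind_nonneg _, ?_⟩
        by_cases hZ : ∃ X ∈ E, Z = ofFn2 (fun i j => (X i j : ℕ))
        · obtain ⟨X, hX, rfl⟩ := hZ
          rw [Finset.sum_eq_single X]
          · exact ind_le_one _
          · intro Y _ hYX
            refine ind_of_not fun h => hYX ?_
            have := ofFn2_inj h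
            funext i j
            exact Fin.ext (congrFun (congrFun this i) j).symm
          · intro h; exact absurd hX h
        · rw [Finset.sum_eq_zero]
          · exact zero_le_one
          · intro X hX
            exact ind_of_not fun h => hZ ⟨X, hX, h⟩)
    have e : ((2 : ℝ)⁻¹) ^ k = (1 / 2 : ℝ) ^ k := by norm_num
    rw [e]
    linarith

end Crest.Agent.R309.S0480Of
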