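import Crest.Agent.R309.Exact9Typed
import Crest.Agent.R309.S0480Of
import Crest.Agent.R309.PTSolve
import Mathlib

-- ▼ part R309/Exact9Enum
section

/-!
# R309, exactness layer (S0481), part 7: enumeration of all tables
-/

set_option autoImplicit false

namespace Crest.Agent.R309.Exact9

open Crest.Agent.R309.Tape Crest.Agent.Lib.PT Crest.Agent.R309.Iface Crest.Agent.R309.PTX

/-- margin test -/
def isT (rs cs : List ℕ) (X : Tab) : Prop :=
  X.map List.sum = rs ∧ (∀ r ∈ X, r.length = cs.length) ∧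
    ∀ j ∈ List.range cs.length, colSum X j = cs.getD j 0

instance (rs cs : List ℕ) (X : Tab) : Decidable (isT rs cs X) := by
  unfold isT; infer_instance

/-- all tables with margins `rs`, `cs` (complete once `pad` is large) -/
def enumT (rs cs : List ℕ) (pad : ℕ) : List Tab :=
  (listsOf (listsOf (List.range (min (rs.sum + 1) pad)) pad cs.length) pad rs.length).filter
    (fun X => decide (isT rs cs X))

theorem ptf_enumT : PTF (fun p : Iface.Inst × Un => enumT p.1.1 p.1.2.1 p.2.val) := by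
  have hcand : PTF (fun p : Iface.Inst × Un => List.range (min (p.1.1.sum + 1) p.2.val)) :=
    PTF.range (PTF.natMinUn (PTF.natAdd (PTF.natListSum (by fun_prop)) (PTF.const _))
      (PTU.val PTF.snd))
  have hrows : PTF (fun p : Iface.Inst × Un =>
      listsOf (List.range (min (p.1.1.sum + 1) p.2.val)) p.2.val p.1.2.1.length) :=
    ptf_listsOf hcand (PTU.val PTF.snd) (PTU.length (by fun_prop))
  have hmats : PTF (fun p : Iface.Inst × Un =>
      listsOf (listsOf (List.range (min (p.1.1.sum + 1) p.2.val)) p.2.val p.1.2.1.length)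
        p.2.val p.1.1.length) :=
    ptf_listsOf hrows (PTU.val PTF.snd) (PTU.length (by fun_prop))
  refine PTF.filter (p := fun (p : Iface.Inst × Un) X => decide (isT p.1.1 p.1.2.1 X)) hmats ?_
  refine PTPred.toPTF ?_
  unfold isT
  refine PTPred.and ?_ (PTPred.and ?_ ?_)
  · refine PTPred.eq (PTF.map (f := fun _ r => List.sum r) (by fun_prop) ?_) (by fun_prop)
    exact PTF.natListSum (by fun_prop)
  · refine PTPred.forall_mem (l := fun q : (Iface.Inst × Un) × Tab => q.2)
      (p := fun q r => r.length = q.1.1.2.1.length) (by fun_prop) ?_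
    exact PTU.eq (PTU.length (by fun_prop)) (PTU.length (by fun_prop))
  · refine PTPred.forall_mem (l := fun q : (Iface.Inst × Un) × Tab => List.range q.1.1.2.1.length)
      (p := fun q j => colSum q.2 j = q.1.1.2.1.getD j 0) (PTF.range (PTU.length (by fun_prop))) ?_
    refine PTPred.natEq ?_ ?_
    · unfold colSum
      refine PTF.natListSum (PTF.map (f := fun (q : ((Iface.Inst × Un) × Tab) × ℕ) (r : List ℕ) =>
        r.getD q.2 0) (by fun_prop) ?_)
      exact ptf_getD' (by fun_prop) (by fun_prop) (by fun_prop)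
    · exact ptf_getD' (by fun_prop) (by fun_prop) (by fun_prop)

theorem isTab_inst_iff' (rs cs : List ℕ) (X : Tab) :
    IsTab (S0480Of.inst rs cs) X ↔ isT rs cs X ∧
      X ∈ listsFull (listsFull (List.range (rs.sum + 1)) cs.length) rs.length := by
  constructor
  · rintro ⟨h1, h2, h3, h4⟩
    refine ⟨⟨h1, h2, fun j hj => h3 j (List.mem_range.1 hj)⟩, ?_⟩
    rw [mem_listsFull]
    refine ⟨?_, fun r hr => ?_⟩
    · have := congrArg List.length h1
      rw [List.length_map] at this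
      exact this
    · rw [mem_listsFull]
      refine ⟨h2 r hr, fun a ha => ?_⟩
      rw [List.mem_range, Nat.lt_succ_iff]
      have e1 : a ≤ r.sum := List.le_sum_of_mem ha
      have e2 : r.sum ≤ rs.sum := by
        refine List.le_sum_of_mem ?_
        have : X.map List.sum = rs := h1
        rw [← this]
        exact List.mem_map_of_mem hr
      exact e1.trans e2
  · rintro ⟨⟨h1, h2, h3⟩, h4⟩
    rw [mem_listsFull] at h4
    refine ⟨h1, h2, fun j hj => h3 j (List.mem_range.2 hj), ?_⟩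
    show List.Forall₂ (List.Forall₂ (· ≤ ·)) X
      (List.replicate rs.length (List.replicate cs.length rs.sum))
    rw [← h4.1, List.forall₂_iff_get]
    refine ⟨by simp, fun i hi hi' => ?_⟩
    simp only [List.get_eq_getElem, List.getElem_replicate]
    have h5 := h4.2 X[i] (List.getElem_mem hi)
    rw [mem_listsFull] at h5
    rw [← h5.1, List.forall₂_iff_get]
    refine ⟨by simp, fun j hj hj' => ?_⟩
    simp only [List.get_eq_getElem, List.getElem_replicate]
    have h6 := h5.2 _ (List.getElem_mem hj)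
    exact Nat.lt_succ_iff.1 (List.mem_range.1 h6)

/-- number of bits of the number of tables -/
def lgN (rs cs : List ℕ) : ℕ := (rs.sum + 1).size * cs.length * rs.length

/-- number of doublings needed for the enumeration -/
def lgE (rs cs : List ℕ) : ℕ := (rs.sum + 1).size * (cs.length + 1) * (rs.length + 1)

theorem pow_pow_eq (s n m : ℕ) : ((2 ^ s) ^ n) ^ m = 2 ^ (s * n * m) := by
  rw [← pow_mul, ← pow_mul, Nat.mul_assoc]

theorem enumT_eq {rs cs : List ℕ} {pad : ℕ} (h : 2 ^ lgE rs cs ≤ pad) :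
    enumT rs cs pad = (listsFull (listsFull (List.range (rs.sum + 1)) cs.length) rs.length).filter
      (fun X => decide (isT rs cs X)) := by
  have hS : rs.sum + 1 ≤ 2 ^ (rs.sum + 1).size := (Nat.lt_size_self _).le
  have hs1 : 1 ≤ (rs.sum + 1).size := by
    rw [Nat.one_le_iff_ne_zero]
    intro h0
    have := Nat.size_eq_zero.1 h0
    omega
  have h0 : rs.sum + 1 ≤ pad := by
    refine hS.trans ((Nat.pow_le_pow_right (by norm_num) ?_).trans h)
    unfold lgE
    nlinarith [Nat.zero_le (cs.length * rs.length), Nat.zero_le cs.length, Nat.zero_le rs.length,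
      Nat.mul_le_mul hs1 (Nat.one_le_iff_ne_zero.2 (show (cs.length + 1) * (rs.length + 1) ≠ 0 by positivity))]
  have h1 : (rs.sum + 1) ^ cs.length ≤ pad := by
    refine (Nat.pow_le_pow_left hS _).trans ?_
    rw [← pow_mul]
    refine (Nat.pow_le_pow_right (by norm_num) ?_).trans h
    unfold lgE
    calc (rs.sum + 1).size * cs.length ≤ (rs.sum + 1).size * (cs.length + 1) :=
          Nat.mul_le_mul_left _ (Nat.le_succ _)
      _ ≤ (rs.sum + 1).size * (cs.length + 1) * (rs.length + 1) :=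
          Nat.le_mul_of_pos_right _ (Nat.succ_pos _)
  have h2 : ((rs.sum + 1) ^ cs.length) ^ rs.length ≤ pad := by
    refine (Nat.pow_le_pow_left (Nat.pow_le_pow_left hS _) _).trans ?_
    rw [pow_pow_eq]
    refine (Nat.pow_le_pow_right (by norm_num) ?_).trans h
    unfold lgE
    have e1 : (rs.sum + 1).size * cs.length ≤ (rs.sum + 1).size * (cs.length + 1) :=
      Nat.mul_le_mul_left _ (Nat.le_succ _)
    exact Nat.mul_le_mul e1 (Nat.le_succ _)
  have e1 : listsOf (List.range (rs.sum + 1)) pad cs.length =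
      listsFull (List.range (rs.sum + 1)) cs.length :=
    listsOf_eq (by simp) (by simpa using h1)
  have e2 : listsOf (listsFull (List.range (rs.sum + 1)) cs.length) pad rs.length =
      listsFull (listsFull (List.range (rs.sum + 1)) cs.length) rs.length := by
    refine listsOf_eq ?_ ?_
    · rw [length_listsFull]
      exact Nat.one_le_pow _ _ (by simp)
    · rw [length_listsFull, List.length_range]
      exact h2
  unfold enumT
  rw [min_eq_left h0, e1, e2]

theorem mem_enumT {rs cs : List ℕ} {pad : ℕ} (h : 2 ^ lgE rs cs ≤ pad) (X : Tab) :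
    X ∈ enumT rs cs pad ↔ IsTab (S0480Of.inst rs cs) X := by
  rw [enumT_eq h, isTab_inst_iff', List.mem_filter, decide_eq_true_eq, and_comm]

theorem nodup_enumT {rs cs : List ℕ} {pad : ℕ} (h : 2 ^ lgE rs cs ≤ pad) :
    (enumT rs cs pad).Nodup := by
  rw [enumT_eq h]
  exact (nodup_listsFull (nodup_listsFull List.nodup_range _) _).filter _

theorem length_enumT_le {rs cs : List ℕ} {pad : ℕ} (h : 2 ^ lgE rs cs ≤ pad) :
    (enumT rs cs pad).length ≤ 2 ^ lgN rs cs := by
  rw [enumT_eq h]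
  refine (List.length_filter_le _ _).trans ?_
  rw [length_listsFull, length_listsFull, List.length_range]
  have hS : rs.sum + 1 ≤ 2 ^ (rs.sum + 1).size := (Nat.lt_size_self _).le
  refine (Nat.pow_le_pow_left (Nat.pow_le_pow_left hS cs.length) rs.length).trans ?_
  rw [pow_pow_eq]
  exact le_rfl

theorem toFinset_enumT {rs cs : List ℕ} {pad : ℕ} (h : 2 ^ lgE rs cs ≤ pad) :
    (enumT rs cs pad).toFinset = tabs (S0480Of.inst rs cs) := by
  ext X
  rw [List.mem_toFinset, mem_enumT h, mem_tabs]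

end Crest.Agent.R309.Exact9
end

-- ▼ part R309/Exact9Par
section

/-!
# R309, exactness layer (S0481), part 8: numerical lemmas about the parameters
-/

set_option autoImplicit false

namespace Crest.Agent.R309.Exact9

open Polynomial

theorem poly_le_pow (q : Polynomial ℕ) : ∃ k, ∀ x, q.eval x ≤ (x + 2) ^ k := by
  induction q using Polynomial.induction_on' with
  | add p q hp hq =>
    obtain ⟨k, hk⟩ := hp
    obtain ⟨l, hl⟩ := hq
    refine ⟨k + l + 1, fun x => ?_⟩
    rw [eval_add]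
    have h1 : (x + 2) ^ k ≤ (x + 2) ^ (k + l) := Nat.pow_le_pow_right (by omega) (by omega)
    have h2 : (x + 2) ^ l ≤ (x + 2) ^ (k + l) := Nat.pow_le_pow_right (by omega) (by omega)
    have h3 := hk x
    have h4 := hl x
    rw [pow_succ]
    nlinarith [Nat.zero_le ((x + 2) ^ (k + l) * x)]
  | monomial n a =>
    refine ⟨a + n, fun x => ?_⟩
    rw [eval_monomial, pow_add]
    refine Nat.mul_le_mul ?_ (Nat.pow_le_pow_left (by omega) _)
    calc a ≤ 2 ^ a := Nat.lt_two_pow_self.le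
      _ ≤ (x + 2) ^ a := Nat.pow_le_pow_left (by omega) _

theorem poly_le_mul_pow (q : Polynomial ℕ) : ∃ c d, ∀ x, 1 ≤ x → q.eval x ≤ c * x ^ d := by
  induction q using Polynomial.induction_on' with
  | add p q hp hq =>
    obtain ⟨c, d, hk⟩ := hp
    obtain ⟨c', d', hl⟩ := hq
    refine ⟨c + c', d + d', fun x hx => ?_⟩
    rw [eval_add, Nat.add_mul]
    refine Nat.add_le_add ((hk x hx).trans (Nat.mul_le_mul_left _ ?_))
      ((hl x hx).trans (Nat.mul_le_mul_left _ ?_))
    · exact Nat.pow_le_pow_right hx (by omega)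
    · exact Nat.pow_le_pow_right hx (by omega)
  | monomial n a =>
    refine ⟨a, n, fun x _ => ?_⟩
    rw [eval_monomial]

theorem exists_exp (k : ℕ) : ∃ a, 2 + k * (9 + a) ≤ 2 ^ a := by
  refine ⟨3 * (k + 10), ?_⟩
  have h1 : k + 10 + 1 ≤ 2 ^ (k + 10) := Nat.lt_two_pow_self
  have h2 : (k + 10 + 1) ^ 3 ≤ 2 ^ (3 * (k + 10)) := by
    rw [Nat.mul_comm, pow_mul]
    exact Nat.pow_le_pow_left h1 3
  refine le_trans ?_ h2
  nlinarith [sq_nonneg k, Nat.zero_le k, Nat.zero_le (k ^ 3)]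

theorem two_y (y : ℕ) (hy : 1 ≤ y) : 2 * y + 2 ≤ 2 ^ (2 * y) := by
  induction y, hy using Nat.le_induction with
  | base => norm_num
  | succ y hy ih =>
    rw [show 2 * (y + 1) = 2 * y + 2 by ring, pow_add]
    have : 1 ≤ 2 ^ (2 * y) := Nat.one_le_two_pow
    omega

theorem key_exp (k a y : ℕ) (hy : 1 ≤ y) (ha : 2 + k * (9 + a) ≤ 2 ^ a) :
    (2 * y + 2) * (2 ^ (6 + a + 3 * y)) ^ k ≤ 2 ^ (2 ^ a * y) := by
  have h1 := two_y y hy
  calc (2 * y + 2) * (2 ^ (6 + a + 3 * y)) ^ k
      ≤ 2 ^ (2 * y) * (2 ^ (6 + a + 3 * y)) ^ k := Nat.mul_le_mul_right _ h1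
    _ = 2 ^ (2 * y + (6 + a + 3 * y) * k) := by rw [← pow_mul, ← pow_add]
    _ ≤ 2 ^ (2 ^ a * y) := by
        refine Nat.pow_le_pow_right (by norm_num) ?_
        calc 2 * y + (6 + a + 3 * y) * k ≤ (2 + k * (9 + a)) * y := by
              have : (6 + a) * k ≤ (6 + a) * k * y := Nat.le_mul_of_pos_right _ hy
              nlinarith
          _ ≤ 2 ^ a * y := Nat.mul_le_mul_right _ ha

/-- all numerical parameters of one instance -/
structure Par where
  R : ℕ
  tau : ℕ
  lN : ℕ
  lE : ℕ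
  sI : ℕ
  y : ℕ
  a : ℕ
  hy : 1 ≤ y
  hR : R ≤ y
  htau : tau ≤ y
  hlN : lN ≤ y
  hlE : lE ≤ y
  hsI : sI ≤ y

namespace Par

variable (p : Par)

/-- switch exponent -/
def K : ℕ := 2 ^ p.a * p.y
/-- number of steps -/
def T : ℕ := (p.K + p.lN) * p.tau
/-- doublings -/
def D : ℕ := p.lE + p.R
/-- bit reserve -/
def L : ℕ := p.R * p.T + p.lN + p.K + p.R + 1
/-- size of the environment -/
def se : ℕ := 2 * p.sI + 1 + (2 * p.R + 1 + (2 * p.K + 1 + (2 * p.T + 1 + (2 * p.D + 1 + p.L))))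
/-- size of phase A states -/
def LA : ℕ := 2 * p.se + 3 + 2 * p.sI + p.T
/-- size of all states -/
def LL : ℕ := p.LA + 2 * 2 ^ p.D + p.D

theorem y_le_cube : p.y ≤ p.y ^ 3 := by
  calc p.y = p.y ^ 1 := (pow_one _).symm
    _ ≤ p.y ^ 3 := Nat.pow_le_pow_right p.hy (by norm_num)

theorem T_le : p.T ≤ 2 * 2 ^ p.a * p.y ^ 2 := by
  unfold T K
  have h1 : 1 ≤ 2 ^ p.a := Nat.one_le_two_pow
  have h2 : p.lN ≤ 2 ^ p.a * p.y := p.hlN.trans (Nat.le_mul_of_pos_left _ h1)
  calc (2 ^ p.a * p.y + p.lN) * p.tau ≤ (2 ^ p.a * p.y + 2 ^ p.a * p.y) * p.y :=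
        Nat.mul_le_mul (by omega) p.htau
    _ = 2 * 2 ^ p.a * p.y ^ 2 := by ring

theorem LA_le : p.LA ≤ 57 * 2 ^ p.a * p.y ^ 3 := by
  have hT := p.T_le
  have h1 : 1 ≤ 2 ^ p.a := Nat.one_le_two_pow
  have hy := p.hy
  have h3 := p.y_le_cube
  have h2 : p.y ^ 2 ≤ p.y ^ 3 := Nat.pow_le_pow_right p.hy (by norm_num)
  have h4 : 1 ≤ p.y ^ 3 := Nat.one_le_pow _ _ hy
  set z := 2 ^ p.a * p.y ^ 3 with hz
  have z1 : p.y ≤ z := h3.trans (Nat.le_mul_of_pos_left _ h1)
  have z2 : 2 ^ p.a * p.y ≤ z := Nat.mul_le_mul_left _ h3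
  have z3 : 2 ^ p.a * p.y ^ 2 ≤ z := Nat.mul_le_mul_left _ h2
  have z4 : 1 ≤ z := hy.trans z1
  have hK : p.K ≤ z := z2
  have hT2 : p.T ≤ 2 * z := by rw [Nat.mul_assoc] at hT; omega
  have hRT : p.R * p.T ≤ 2 * z := by
    calc p.R * p.T ≤ p.y * (2 * 2 ^ p.a * p.y ^ 2) := Nat.mul_le_mul p.hR hT
      _ = 2 * z := by rw [hz]; ring
  have hR := p.hR.trans z1
  have hlN := p.hlN.trans z1
  have hlE := p.hlE.trans z1
  have hsI := p.hsI.trans z1
  have e : 57 * 2 ^ p.a * p.y ^ 3 = 57 * z := by rw [hz]; ring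
  rw [e]
  unfold LA se L D
  omega

theorem LL_le : p.LL + 2 ≤ 2 ^ (6 + p.a + 3 * p.y) := by
  have h := p.LA_le
  have h1 : 1 ≤ 2 ^ p.a := Nat.one_le_two_pow
  have hD : p.D ≤ 2 * p.y := by
    unfold D
    have := p.hR
    have := p.hlE
    omega
  have h2 : 2 ^ p.D ≤ 2 ^ (3 * p.y) := Nat.pow_le_pow_right (by norm_num) (by omega)
  have h3 : p.y ^ 3 ≤ 2 ^ (3 * p.y) := by
    rw [Nat.mul_comm 3, pow_mul]
    exact Nat.pow_le_pow_left Nat.lt_two_pow_self.le 3
  have h4 : 2 * p.y + 2 ≤ 2 ^ (3 * p.y) :=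
    (two_y _ p.hy).trans (Nat.pow_le_pow_right (by norm_num) (by omega))
  set W := 2 ^ (3 * p.y) with hW
  have h5 : 57 * 2 ^ p.a * p.y ^ 3 ≤ 57 * (2 ^ p.a * W) := by
    rw [Nat.mul_assoc]
    exact Nat.mul_le_mul_left _ (Nat.mul_le_mul_left _ h3)
  have h6 : W ≤ 2 ^ p.a * W := Nat.le_mul_of_pos_left _ h1
  have e : 2 ^ (6 + p.a + 3 * p.y) = 64 * (2 ^ p.a * W) := by
    rw [pow_add, pow_add, hW]
    norm_num [Nat.mul_assoc]
  rw [e]
  unfold LL
  omega

/-- the switch exponent beats the cost of phase B -/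
theorem cost_le (k : ℕ) (q : ℕ) (ha : 2 + k * (9 + p.a) ≤ 2 ^ p.a) (hq : q ≤ (p.LL + 2) ^ k) :
    (p.D + 2) * q ≤ 2 ^ p.K := by
  have hD : p.D ≤ 2 * p.y := by
    unfold D
    have := p.hR
    have := p.hlE
    omega
  calc (p.D + 2) * q ≤ (2 * p.y + 2) * (2 ^ (6 + p.a + 3 * p.y)) ^ k :=
        Nat.mul_le_mul (by omega) (hq.trans (Nat.pow_le_pow_left p.LL_le k))
    _ ≤ 2 ^ p.K := key_exp k p.a p.y p.hy ha

end Par

end Crest.Agent.R309.Exact9
end

-- ▼ part R309/Exact9Start
section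

/-!
# R309, exactness layer (S0481), part 9: the start function and the environment
-/

set_option autoImplicit false

namespace Crest.Agent.R309.Exact9

open Crest.Agent.R309.Tape Crest.Agent.Lib.PT Crest.Agent.R309.Iface Crest.Agent.R309.PTX
open Crest.Agent.R309.NW Crest.Agent.R309.S0480Of

section

variable (step : Iface.Inst × Tab → List Bool → Tab) (len tau : Iface.Inst → ℕ)

/-- the data of the exact table sampler -/
def tdata : Data Iface.Inst Tab where
  stp := fun I X τ => step (I, X) τ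
  start := fun I => nw I.1 I.2.1
  enum := fun I pad => enumT I.1 I.2.1 pad
  out := fun _ X => X.flatten

variable {step len tau}

theorem tdata_poly (hstep : PTF (fun p : (Iface.Inst × Tab) × List Bool => step p.1 p.2)) :
    (tdata step).Poly where
  stp := PTF.comp (g := fun p : (Iface.Inst × Tab) × List Bool => step p.1 p.2)
    (f := fun p : Iface.Inst × Tab × List Bool => ((p.1, p.2.1), p.2.2)) hstep (by fun_prop)
  start := PTF.comp (g := fun p : List ℕ × List ℕ => nw p.1 p.2)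
    (f := fun I : Iface.Inst => (I.1, I.2.1)) ptf_nw (by fun_prop)
  enum := ptf_enumT
  out := PTF.flatten (l := fun p : Iface.Inst × Tab => p.2) (by fun_prop)

variable (len tau)

/-- the master parameter -/
def yy (I : Iface.Inst) : ℕ := len I + tau I + lgN I.1 I.2.1 + lgE I.1 I.2.1 + sz I + 1

/-- the parameters of an instance -/
def par (a : ℕ) (I : Iface.Inst) : Par where
  R := len I
  tau := tau I
  lN := lgN I.1 I.2.1
  lE := lgE I.1 I.2.1
  sI := sz I
  y := yy len tau I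
  a := a
  hy := by unfold yy; omega
  hR := by unfold yy; omega
  htau := by unfold yy; omega
  hlN := by unfold yy; omega
  hlE := by unfold yy; omega
  hsI := by unfold yy; omega

/-- the environment of an instance -/
def env (a : ℕ) (I : Iface.Inst) : Env Iface.Inst :=
  (I, ⟨(par len tau a I).R⟩, ⟨(par len tau a I).K⟩, ⟨(par len tau a I).T⟩,
    ⟨(par len tau a I).D⟩, ⟨(par len tau a I).L⟩)

variable {len tau}

theorem ptu_lgN : PTU (fun I : Iface.Inst => lgN I.1 I.2.1) := by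
  unfold lgN
  have h : PTU (fun I : Iface.Inst => (I.1.sum + 1).size) :=
    PTF.natSizeUn (PTF.natAdd (PTF.natListSum (by fun_prop)) (PTF.const _))
  have h2 : PTU (fun I : Iface.Inst => I.2.1.length) := PTU.length (by fun_prop)
  have h3 : PTU (fun I : Iface.Inst => I.1.length) := PTU.length (by fun_prop)
  exact PTU.mul (PTU.mul h h2) h3

theorem ptu_lgE : PTU (fun I : Iface.Inst => lgE I.1 I.2.1) := by
  unfold lgE
  have h : PTU (fun I : Iface.Inst => (I.1.sum + 1).size) :=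
    PTF.natSizeUn (PTF.natAdd (PTF.natListSum (by fun_prop)) (PTF.const _))
  have h2 : PTU (fun I : Iface.Inst => I.2.1.length + 1) := PTU.add (PTU.length (by fun_prop)) (PTU.const 1)
  have h3 : PTU (fun I : Iface.Inst => I.1.length + 1) := PTU.add (PTU.length (by fun_prop)) (PTU.const 1)
  exact PTU.mul (PTU.mul h h2) h3

theorem ptu_yy (hlen : PTU len) (htau : PTU tau) : PTU (yy len tau) := by
  unfold yy
  have h1 : PTU (fun I : Iface.Inst => lgN I.1 I.2.1) := ptu_lgN
  have h2 : PTU (fun I : Iface.Inst => lgE I.1 I.2.1) := ptu_lgE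
  have h3 : PTU (fun I : Iface.Inst => sz I) := PTU.sz
  exact PTU.add (PTU.add (PTU.add (PTU.add (PTU.add hlen htau) h1) h2) h3) (PTU.const 1)

theorem ptf_env (hlen : PTU len) (htau : PTU tau) (a : ℕ) : PTF (env len tau a) := by
  have hy := ptu_yy hlen htau
  have hK : PTU (fun I => (par len tau a I).K) := PTU.mul (PTU.const (2 ^ a)) hy
  have hT : PTU (fun I => (par len tau a I).T) := PTU.mul (PTU.add hK ptu_lgN) htau
  have hD : PTU (fun I => (par len tau a I).D) := PTU.add ptu_lgE hlen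
  have hL : PTU (fun I => (par len tau a I).L) :=
    PTU.add (PTU.add (PTU.add (PTU.add (PTU.mul hlen hT) ptu_lgN) hK) hlen) (PTU.const 1)
  exact PTF.prodMk PTF.id (PTF.prodMk hlen (PTF.prodMk hK (PTF.prodMk hT (PTF.prodMk hD hL))))

/-- parse the input words -/
def parseW (l : List ℕ) : List ℕ × List ℕ :=
  ((l.drop 2).take (l.getD 0 0), (l.drop 2).drop (l.getD 0 0))

theorem ptf_parseW : PTF parseW := by
  have h0 : PTF (fun l : List ℕ => l.getD 0 0) :=
    PTF.getD (PTU.const 0) PTF.id (PTF.const 0)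
  have h2 : PTF (fun l : List ℕ => l.drop 2) := PTF.drop (PTU.const 2) PTF.id
  exact PTF.prodMk (ptf_take' h0 h2) (ptf_drop' h0 h2)

theorem parseW_eq {m n : ℕ} (rs : Fin m → ℕ) (cs : Fin n → ℕ) :
    parseW (m :: n :: (List.ofFn rs ++ List.ofFn cs)) = (List.ofFn rs, List.ofFn cs) := by
  unfold parseW
  simp only [List.getD_cons_zero, List.drop_succ_cons, List.drop_zero, Prod.mk.injEq]
  constructor
  · exact List.take_left' (by simp)
  · exact List.drop_left' (by simp)

/-- the start configuration -/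
def startC (a : ℕ) (l : List ℕ) : Conf Iface.Inst Tab :=
  (env len tau a (inst (parseW l).1 (parseW l).2),
    Sum.inl (nw (parseW l).1 (parseW l).2,
      ⟨(par len tau a (inst (parseW l).1 (parseW l).2)).T⟩))

theorem ptf_startC (hlen : PTU len) (htau : PTU tau) (a : ℕ) :
    PTF (startC (len := len) (tau := tau) a) := by
  have h1 : PTF (fun l => (parseW l).1) := PTF.comp (g := fun p : List ℕ × List ℕ => p.1) PTF.fst
    ptf_parseW
  have h2 : PTF (fun l => (parseW l).2) := PTF.comp (g := fun p : List ℕ × List ℕ => p.2) PTF.snd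
    ptf_parseW
  have hI : PTF (fun l => inst (parseW l).1 (parseW l).2) := ptf_inst h1 h2
  have hy := ptu_yy hlen htau
  have hK : PTU (fun I => (par len tau a I).K) := PTU.mul (PTU.const (2 ^ a)) hy
  have hT : PTU (fun I => (par len tau a I).T) := PTU.mul (PTU.add hK ptu_lgN) htau
  refine PTF.prodMk (PTF.comp (g := env len tau a) (ptf_env hlen htau a) hI)
    (PTF.inl (PTF.prodMk (PTF.comp (g := fun p : List ℕ × List ℕ => nw p.1 p.2) ptf_nw ptf_parseW)
      (PTU.comp (n := fun I => (par len tau a I).T) hT hI)))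

/-- the environment of a feasible unbounded instance is good -/
theorem good_env {rs cs : List ℕ} (a : ℕ)
    (hnw : IsTab (inst rs cs) (nw rs cs))
    (hcl : ∀ X, IsTab (inst rs cs) X → ∀ t : List Bool, t.length = len (inst rs cs) →
      IsTab (inst rs cs) (step (inst rs cs, X) t))
    (hmix : ∀ (m : ℕ) (φ : Tab → ℝ), (∀ Y, 0 ≤ φ Y ∧ φ Y ≤ 1) →
      |(markov (fun Y t => step (inst rs cs, Y) t) (len (inst rs cs)))^[m * tau (inst rs cs)] φ
        (nw rs cs) - unif (inst rs cs) φ| ≤ (1 / 2 : ℝ) ^ m) :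
    Good (tdata step) (env len tau a (inst rs cs))
      (enumT rs cs (2 ^ (par len tau a (inst rs cs)).D)) := by
  set I := inst rs cs with hI
  set p := par len tau a I with hp
  set tb := enumT rs cs (2 ^ p.D) with htb
  have hD : 2 ^ lgE rs cs ≤ 2 ^ p.D := by
    refine Nat.pow_le_pow_right (by norm_num) ?_
    show lgE rs cs ≤ lgE I.1 I.2.1 + len I
    exact Nat.le_add_right _ _
  have hmem : ∀ X, X ∈ tb ↔ IsTab I X := fun X => mem_enumT hD X
  have hlen : tb.length ≤ 2 ^ p.lN := length_enumT_le hD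
  have hnd : tb.Nodup := nodup_enumT hD
  have hst : nw rs cs ∈ tb := (hmem _).2 hnw
  have hcl' : ∀ x ∈ tb, ∀ l : List Bool, l.length = len I → step (I, x) l ∈ tb := fun x hx l hl =>
    (hmem _).2 (hcl x ((hmem x).1 hx) l hl)
  have hpos : 0 < tb.length := List.length_pos_of_mem hst
  refine ⟨hnd, hst, hcl', rfl, ?_, ?_, ?_, ?_, ?_⟩
  · show len I ≤ lgE I.1 I.2.1 + len I
    exact Nat.le_add_left _ _
  · intro y hy
    show tb.length * (2 ^ p.K - 1) * law (fun X τ => step (I, X) τ) (len I) tb (nw rs cs) p.T y ≤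
      2 ^ p.K * 2 ^ (len I * p.T)
    set lw := law (fun X τ => step (I, X) τ) (len I) tb (nw rs cs) p.T y with hlw
    -- the law as a probability
    have h1 := iterate_markov_eq_law (stp := fun X τ => step (I, X) τ) (R := len I) hnd hst hcl' p.T
      (fun z => ind (z = y))
    have h2 : ∑ z ∈ tb.toFinset, (law (fun X τ => step (I, X) τ) (len I) tb (nw rs cs) p.T z : ℝ) /
        2 ^ (len I * p.T) * ind (z = y) = (lw : ℝ) / 2 ^ (len I * p.T) := by
      rw [Finset.sum_eq_single y]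
      · rw [ind_of rfl, mul_one]
      · intro z _ hz
        rw [ind_of_not hz, mul_zero]
      · intro h
        exact absurd (by simpa using hy) h
    rw [h2] at h1
    have h3 := hmix (p.K + p.lN) (fun z => ind (z = y)) (fun z => ⟨ind_nonneg _, ind_le_one _⟩)
    have h4 : (p.K + p.lN) * tau I = p.T := rfl
    rw [h4, h1] at h3
    have h5 : unif I (fun z => ind (z = y)) = 1 / tb.length := by
      unfold unif
      have hfs : tabs I = tb.toFinset := (toFinset_enumT hD).symm
      rw [hfs, List.toFinset_card_of_nodup hnd, Finset.sum_eq_single y]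
      · rw [ind_of rfl]
      · intro z _ hz
        exact ind_of_not hz
      · intro h
        exact absurd (by simpa using hy) h
    rw [h5] at h3
    have h6 := (abs_le.1 h3).2
    have hN : (0 : ℝ) < tb.length := by exact_mod_cast hpos
    have hNle : (tb.length : ℝ) ≤ 2 ^ p.lN := by exact_mod_cast hlen
    have hM : (0 : ℝ) < 2 ^ (len I * p.T) := by positivity
    have hKpos : (1 : ℝ) ≤ 2 ^ p.K := one_le_pow₀ (by norm_num)
    have h7 : (tb.length : ℝ) * (lw / 2 ^ (len I * p.T)) ≤ 1 + 1 / 2 ^ p.K := by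
      have h8 : (lw : ℝ) / 2 ^ (len I * p.T) ≤ 1 / tb.length + (1 / 2) ^ (p.K + p.lN) := by
        linarith
      calc (tb.length : ℝ) * (lw / 2 ^ (len I * p.T))
          ≤ tb.length * (1 / tb.length + (1 / 2) ^ (p.K + p.lN)) :=
            mul_le_mul_of_nonneg_left h8 hN.le
        _ = 1 + tb.length * (1 / 2) ^ (p.K + p.lN) := by
            field_simp
        _ ≤ 1 + 2 ^ p.lN * (1 / 2) ^ (p.K + p.lN) := by
            gcongr
        _ = 1 + 1 / 2 ^ p.K := by
            rw [pow_add, one_div_pow, one_div_pow]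
            field_simp
    have h9 : ((tb.length : ℝ) * (2 ^ p.K - 1)) * lw ≤ 2 ^ p.K * 2 ^ (len I * p.T) := by
      have h10 : ((tb.length : ℝ) * (2 ^ p.K - 1)) * lw =
          (2 ^ p.K - 1) * (tb.length * (lw / 2 ^ (len I * p.T))) * 2 ^ (len I * p.T) := by
        field_simp
      rw [h10]
      refine mul_le_mul_of_nonneg_right ?_ hM.le
      calc ((2 : ℝ) ^ p.K - 1) * ((tb.length : ℝ) * ((lw : ℝ) / 2 ^ (len I * p.T)))
          ≤ ((2 : ℝ) ^ p.K - 1) * (1 + 1 / 2 ^ p.K) :=
            mul_le_mul_of_nonneg_left h7 (by linarith)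
        _ = (2 : ℝ) ^ p.K - 1 / 2 ^ p.K := by
            field_simp
            ring
        _ ≤ (2 : ℝ) ^ p.K := by
            have : (0 : ℝ) ≤ 1 / 2 ^ p.K := by positivity
            linarith
    have h11 : ((tb.length * (2 ^ p.K - 1) * lw : ℕ) : ℝ) ≤
        ((2 ^ p.K * 2 ^ (len I * p.T) : ℕ) : ℝ) := by
      push_cast
      rw [Nat.cast_sub Nat.one_le_two_pow]
      push_cast
      exact h9
    exact_mod_cast h11
  · show len I ≤ len I * p.T + p.lN + p.K + len I + 1
    omega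
  · show p.K ≤ len I * p.T + p.lN + p.K + len I + 1
    omega
  · show (tb.length * 2 ^ (len I * p.T)).size ≤ len I * p.T + p.lN + p.K + len I + 1
    rw [Nat.size_le]
    calc tb.length * 2 ^ (len I * p.T) ≤ 2 ^ p.lN * 2 ^ (len I * p.T) := Nat.mul_le_mul_right _ hlen
      _ = 2 ^ (len I * p.T + p.lN) := by rw [← pow_add, Nat.add_comm]
      _ < 2 ^ (len I * p.T + p.lN + p.K + len I + 1) := Nat.pow_lt_pow_right (by norm_num) (by omega)

end

end Crest.Agent.R309.Exact9
end

-- ▼ part R309/Exact9Main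
section

/-!
# R309, exactness layer (S0481), part 10: the exact sampler on the word RAM
-/

set_option autoImplicit false

namespace Crest.Agent.R309.Exact9

open Crest.Agent.R309.Tape Crest.Agent.Lib.PT Crest.Agent.R309.Iface Crest.Agent.R309.PTX
open Crest.Agent.R309.NW Crest.Agent.R309.S0480Of Crest.Agent.R309.Feas Crest.Agent.R309.Parse
open Crest.WordRAM Crest.Tables

/-- the cost polynomial of a round with cost polynomial `qf` -/
noncomputable def qone (qf : Polynomial ℕ) : Polynomial ℕ :=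
  Polynomial.C 300 + Polynomial.C 70 * Polynomial.X + Polynomial.C 5 * qf

theorem eval_qone (qf : Polynomial ℕ) (x : ℕ) :
    (qone qf).eval x = 300 + 70 * x + 5 * qf.eval x := by
  unfold qone
  simp

theorem rcost_qone (qf : Polynomial ℕ) (x : ℕ) : rcost (x + 4) (qf.eval x) = (qone qf).eval x := by
  rw [eval_qone]
  unfold rcost
  ring

theorem sz_mk {α β : Type} [PTCode α] [PTCode β] (a : α) (b : β) :
    sz (a, b) = 2 * sz a + 1 + sz b := sz_prod (a, b)

theorem sz_env' {J : Type} [PTCode J] (i : J) (a b c d e : ℕ) :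
    sz (i, ((⟨a⟩ : Un), (⟨b⟩ : Un), (⟨c⟩ : Un), (⟨d⟩ : Un), (⟨e⟩ : Un))) =
      2 * sz i + 1 + (2 * a + 1 + (2 * b + 1 + (2 * c + 1 + (2 * d + 1 + e)))) := by
  rw [sz_mk, sz_mk, sz_mk, sz_mk, sz_mk, sz_un, sz_un, sz_un, sz_un, sz_un]

theorem sz_inl' {E X : Type} [PTCode E] [PTCode X] (e : E) (x : X) (u : Un) :
    sz ((e, Sum.inl (x, u)) : E × ((X × Un) ⊕ (Un × Un))) =
      2 * sz e + 1 + (2 * sz x + 1 + u.val + 1) := by
  rw [sz_mk, sz_inl, sz_mk, sz_un]

theorem sz_inr' {E X : Type} [PTCode E] [PTCode X] (e : E) (p k : Un) :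
    sz ((e, Sum.inr (p, k)) : E × ((X × Un) ⊕ (Un × Un))) =
      2 * sz e + 1 + (2 * p.val + 1 + k.val + 1) := by
  rw [sz_mk, sz_inr, sz_mk, sz_un, sz_un]

section sizes

variable {step : Iface.Inst × Tab → List Bool → Tab} {len tau : Iface.Inst → ℕ}

theorem sz_env (a : ℕ) (I : Iface.Inst) : sz (env len tau a I) = (par len tau a I).se := by
  exact sz_env' _ _ _ _ _ _

/-- sizes of the states that satisfy the invariant -/
theorem sz_inv {a : ℕ} {I : Iface.Inst} {tabs : List Tab} (ht : ∀ X ∈ tabs, sz X ≤ sz I)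
    {s : Conf Iface.Inst Tab} (hs : Inv (env len tau a I) tabs s) :
    sz s ≤ (par len tau a I).LL ∧
      ((∃ xu, s.2 = Sum.inl xu) → sz s ≤ (par len tau a I).LA) := by
  obtain ⟨e', m⟩ := s
  obtain ⟨he, hm⟩ := hs
  simp only at he
  subst he
  have hse := sz_env (len := len) (tau := tau) a I
  rcases m with ⟨x, u⟩ | ⟨p, k⟩
  · simp only at hm
    have h1 := ht x hm.1
    have h2 : u.val ≤ (par len tau a I).T := hm.2
    have h3 : sz ((env len tau a I, Sum.inl (x, u)) : Conf Iface.Inst Tab) ≤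
        (par len tau a I).LA := by
      rw [sz_inl', hse]
      unfold Par.LA
      have : (par len tau a I).sI = sz I := rfl
      omega
    refine ⟨h3.trans ?_, fun _ => h3⟩
    unfold Par.LL
    omega
  · simp only at hm
    have h1 : p.val ≤ 2 ^ (par len tau a I).D := by
      have h2 : p.val * 2 ^ k.val = 2 ^ (par len tau a I).D := hm.1
      rw [← h2]
      exact Nat.le_mul_of_pos_right _ (by positivity)
    have h2 : k.val ≤ (par len tau a I).D := hm.2
    refine ⟨?_, fun h => ?_⟩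
    · rw [sz_inr', hse]
      unfold Par.LL Par.LA
      omega
    · obtain ⟨xu, h⟩ := h
      simp at h

end sizes

section input

variable {m n : ℕ}

/-- the size parameter of the statement -/
def SS (m n N : ℕ) : ℕ := m + n + Nat.clog 2 (N + 2) + 1

/-- the input words -/
def inp (rs : Fin m → ℕ) (cs : Fin n → ℕ) : List ℕ := m :: n :: (List.ofFn rs ++ List.ofFn cs)

theorem clog_pos' (N : ℕ) : 1 ≤ Nat.clog 2 (N + 2) := by
  have : 0 < Nat.clog 2 (N + 2) := Nat.clog_pos (by norm_num) (by omega)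
  exact this

theorem lt_two_pow_SS (m n N : ℕ) : N + 2 ≤ 2 ^ SS m n N := by
  have h1 : N + 2 ≤ 2 ^ Nat.clog 2 (N + 2) := Nat.le_pow_clog (by norm_num) _
  refine h1.trans (Nat.pow_le_pow_right (by norm_num) ?_)
  unfold SS
  omega

theorem le_two_pow_SS (m n N : ℕ) : m + n + 2 ≤ SS m n N ∧ SS m n N < 2 ^ SS m n N := by
  have := clog_pos' N
  refine ⟨?_, Nat.lt_two_pow_self⟩
  unfold SS
  omega

theorem length_inp (rs : Fin m → ℕ) (cs : Fin n → ℕ) : (inp rs cs).length = m + n + 2 := by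
  simp [inp]

theorem entry_le {k : ℕ} (f : Fin k → ℕ) {a : ℕ} (ha : a ∈ List.ofFn f) : a ≤ ∑ i, f i := by
  obtain ⟨i, rfl⟩ := (List.mem_ofFn' _ _).1 ha
  exact Finset.single_le_sum (fun _ _ => Nat.zero_le _) (Finset.mem_univ i)

theorem mem_inp {rs : Fin m → ℕ} {cs : Fin n → ℕ} (h : ∑ i, rs i = ∑ j, cs j) {a : ℕ}
    (ha : a ∈ inp rs cs) : a + 1 < 2 ^ SS m n (∑ i, rs i) := by
  obtain ⟨h1, h2⟩ := le_two_pow_SS m n (∑ i, rs i)
  have h3 := lt_two_pow_SS m n (∑ i, rs i)
  unfold inp at ha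
  simp only [List.mem_cons, List.mem_append] at ha
  rcases ha with rfl | rfl | ha | ha
  · omega
  · omega
  · have := entry_le rs ha; omega
  · have := entry_le cs ha; omega

theorem size_le_of_lt {a S : ℕ} (h : a < 2 ^ S) : sz a ≤ S := by
  rw [sz_nat]; exact Nat.size_le.2 h

theorem sz_list_le' {l : List ℕ} {S k : ℕ} (h : ∀ a ∈ l, a < 2 ^ S) (hk : l.length ≤ k) :
    sz l ≤ k * (2 * S + 1) :=
  (sz_list_le (m := S) fun a ha => size_le_of_lt (h a ha)).trans (Nat.mul_le_mul_right _ hk)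

theorem sz_inp_le {rs : Fin m → ℕ} {cs : Fin n → ℕ} (h : ∑ i, rs i = ∑ j, cs j) :
    sz (inp rs cs) ≤ 3 * SS m n (∑ i, rs i) ^ 2 := by
  set S := SS m n (∑ i, rs i) with hS
  obtain ⟨h1, _⟩ := le_two_pow_SS m n (∑ i, rs i)
  have h2 := sz_list_le' (l := inp rs cs) (S := S) (k := S)
    (fun a ha => by have := mem_inp h ha; rw [← hS] at this; omega) (by rw [length_inp]; exact h1)
  refine h2.trans ?_
  have : 1 ≤ S := by omega
  nlinarith

theorem sz_inst_le {rs : Fin m → ℕ} {cs : Fin n → ℕ} (h : ∑ i, rs i = ∑ j, cs j) :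
    sz (inst (List.ofFn rs) (List.ofFn cs)) ≤ 21 * SS m n (∑ i, rs i) ^ 3 := by
  set S := SS m n (∑ i, rs i) with hS
  obtain ⟨h1, _⟩ := le_two_pow_SS m n (∑ i, rs i)
  have h3 := lt_two_pow_SS m n (∑ i, rs i)
  rw [← hS] at h1 h3
  have hr : sz (List.ofFn rs) ≤ S * (2 * S + 1) :=
    sz_list_le' (fun a ha => by have := entry_le rs ha; omega) (by rw [List.length_ofFn]; omega)
  have hc : sz (List.ofFn cs) ≤ S * (2 * S + 1) :=
    sz_list_le' (fun a ha => by have := entry_le cs ha; omega) (by rw [List.length_ofFn]; omega)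
  have hb0 : sz (List.replicate (List.ofFn cs).length (List.ofFn rs).sum) ≤ S * (2 * S + 1) := by
    refine sz_list_le' (fun a ha => ?_) ?_
    · rw [List.eq_of_mem_replicate ha, List.sum_ofFn]
      omega
    · rw [List.length_replicate, List.length_ofFn]; omega
  have hb : sz (List.replicate (List.ofFn rs).length
      (List.replicate (List.ofFn cs).length (List.ofFn rs).sum)) ≤
      S * (2 * (S * (2 * S + 1)) + 1) := by
    refine (sz_list_le (m := S * (2 * S + 1)) fun a ha => ?_).trans (Nat.mul_le_mul_right _ ?_)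
    · rw [List.eq_of_mem_replicate ha]; exact hb0
    · rw [List.length_replicate, List.length_ofFn]; omega
  unfold inst
  rw [sz_mk, sz_mk]
  have hS1 : 1 ≤ S := by omega
  have e1 : S * (2 * S + 1) ≤ 3 * S ^ 2 := by nlinarith
  have e2 : S ^ 2 ≤ S ^ 3 := Nat.pow_le_pow_right hS1 (by norm_num)
  have e3 : 1 ≤ S ^ 3 := Nat.one_le_pow _ _ hS1
  have e5 : S ≤ S ^ 3 := by
    calc S = S ^ 1 := (pow_one _).symm
      _ ≤ S ^ 3 := Nat.pow_le_pow_right hS1 (by norm_num)
  have e4 : S * (2 * (S * (2 * S + 1)) + 1) ≤ 7 * S ^ 3 := by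
    calc S * (2 * (S * (2 * S + 1)) + 1) ≤ S * (2 * (3 * S ^ 2) + 1) :=
          Nat.mul_le_mul_left _ (by omega)
      _ = 6 * S ^ 3 + S := by ring
      _ ≤ 7 * S ^ 3 := by omega
  omega

end input

end Crest.Agent.R309.Exact9
end

-- ▼ part R309/Exact9Final
section

/-!
# R309, exactness layer (S0481), part 11: the final theorem
-/

set_option autoImplicit false

namespace Crest.Agent.R309.Exact9

open Crest.Agent.R309.Tape Crest.Agent.Lib.PT Crest.Agent.R309.Iface Crest.Agent.R309.PTX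
open Crest.Agent.R309.NW Crest.Agent.R309.S0480Of Crest.Agent.R309.Feas Crest.Agent.R309.Parse
open Crest.WordRAM Crest.Tables

/-! ### polynomially bounded functions -/

/-- `F x ≤ c x ^ d` for `x ≥ 1` -/
def PolyB (F : ℕ → ℕ) : Prop := ∃ c d : ℕ, ∀ x, 1 ≤ x → F x ≤ c * x ^ d

theorem PolyB.const (a : ℕ) : PolyB (fun _ => a) := ⟨a, 0, fun x _ => by simp⟩

theorem PolyB.id : PolyB (fun x => x) := ⟨1, 1, fun x _ => by simp⟩

theorem PolyB.add {F G : ℕ → ℕ} (hF : PolyB F) (hG : PolyB G) : PolyB (fun x => F x + G x) := by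
  obtain ⟨c, d, h⟩ := hF
  obtain ⟨c', d', h'⟩ := hG
  refine ⟨c + c', d + d', fun x hx => ?_⟩
  rw [Nat.add_mul]
  refine Nat.add_le_add ((h x hx).trans (Nat.mul_le_mul_left _ ?_))
    ((h' x hx).trans (Nat.mul_le_mul_left _ ?_))
  · exact Nat.pow_le_pow_right hx (by omega)
  · exact Nat.pow_le_pow_right hx (by omega)

theorem PolyB.mul {F G : ℕ → ℕ} (hF : PolyB F) (hG : PolyB G) : PolyB (fun x => F x * G x) := by
  obtain ⟨c, d, h⟩ := hF
  obtain ⟨c', d', h'⟩ := hG
  refine ⟨c * c', d + d', fun x hx => (Nat.mul_le_mul (h x hx) (h' x hx)).trans (le_of_eq ?_)⟩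
  rw [pow_add]; ring

theorem PolyB.pow {F : ℕ → ℕ} (hF : PolyB F) (k : ℕ) : PolyB (fun x => F x ^ k) := by
  induction k with
  | zero => simpa using PolyB.const 1
  | succ k ih => simpa [pow_succ] using PolyB.mul ih hF

theorem PolyB.eval {F : ℕ → ℕ} (hF : PolyB F) (q : Polynomial ℕ) :
    PolyB (fun x => q.eval (F x)) := by
  obtain ⟨c, d, h⟩ := hF
  obtain ⟨c', d', h'⟩ := poly_le_mul_pow q
  refine ⟨c' * (c + 1) ^ d', d * d', fun x hx => ?_⟩
  have h1 : F x ≤ (c + 1) * x ^ d := (h x hx).trans (Nat.mul_le_mul_right _ (Nat.le_succ _))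
  have h2 : 1 ≤ (c + 1) * x ^ d := Nat.mul_pos (Nat.succ_pos _) (Nat.pow_pos hx)
  calc q.eval (F x) ≤ q.eval ((c + 1) * x ^ d) := polyEval_mono q h1
    _ ≤ c' * ((c + 1) * x ^ d) ^ d' := h' _ h2
    _ = c' * (c + 1) ^ d' * x ^ (d * d') := by rw [mul_pow, pow_mul]; ring

/-! ### small facts -/

theorem sz_flatten_le {α : Type} [PTCode α] (l : List (List α)) : sz l.flatten ≤ sz l := by
  induction l with
  | nil => simp
  | cons a l ih => simp [sz_append]; omega

theorem iterate_markov_mem {X : Type} (stp : X → List Bool → X) (R u : ℕ) (φ : X → ℝ)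
    (h : ∀ y, 0 ≤ φ y ∧ φ y ≤ 1) (x : X) :
    0 ≤ (markov stp R)^[u] φ x ∧ (markov stp R)^[u] φ x ≤ 1 := by
  induction u generalizing x with
  | zero => exact h x
  | succ u ih =>
    rw [Function.iterate_succ_apply']
    exact ⟨avg_nonneg fun l _ => (ih _).1, avg_le_const fun l _ => (ih _).2⟩

theorem Hf_mem {I X : Type} [DecidableEq X] {D : Data I X} {e : Env I} {tabs : List X}
    (h : Good D e tabs) {G : List ℕ → ℝ} (hG : ∀ o, 0 ≤ G o ∧ G o ≤ 1) (s : Conf I X) :
    0 ≤ Hf D e tabs G s ∧ Hf D e tabs G s ≤ 1 := by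
  have hN : (0 : ℝ) < (tabs.length : ℝ) * 2 ^ (eR e * eT e) := by
    have := h.length_pos
    positivity
  have hr : 0 ≤ resid D e tabs G ∧ resid D e tabs G ≤ 1 := by
    unfold resid
    constructor
    · refine div_nonneg (List.sum_nonneg ?_) hN.le
      intro x hx
      obtain ⟨y, _, rfl⟩ := List.mem_map.1 hx
      exact mul_nonneg (Nat.cast_nonneg _) (hG _).1
    · rw [div_le_one hN]
      have h1 : (tabs.map (fun y => (wt D e tabs y : ℝ) * G (D.out e.1 y))).sum ≤
          (tabs.map (fun y => (wt D e tabs y : ℝ))).sum := by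
        refine List.sum_le_sum fun y _ => ?_
        exact mul_le_of_le_one_right (Nat.cast_nonneg _) (hG _).2
      refine h1.trans (le_of_eq ?_)
      have h2 := h.sum_wt
      have h3 : (((tabs.map (wt D e tabs)).sum : ℕ) : ℝ) =
          (tabs.map (fun y => (wt D e tabs y : ℝ))).sum := by
        rw [Nat.cast_list_sum, List.map_map]
        rfl
      rw [← h3, h2]
      push_cast
      ring
  unfold Hf
  rcases s.2 with xu | pk
  · have hm := iterate_markov_mem (D.stp e.1) (eR e) xu.2.val (fun y => G (D.out e.1 y))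
      (fun y => hG _) xu.1
    have hθ0 : (0 : ℝ) ≤ (2 : ℝ)⁻¹ ^ eK e := by positivity
    have hθ1 : (2 : ℝ)⁻¹ ^ eK e ≤ 1 := pow_le_one₀ (by norm_num) (by norm_num)
    simp only
    constructor
    · have := mul_nonneg (sub_nonneg.2 hθ1) hm.1
      have := mul_nonneg hθ0 hr.1
      linarith
    · have h1 := mul_le_mul_of_nonneg_left hm.2 (sub_nonneg.2 hθ1)
      have h2 := mul_le_mul_of_nonneg_left hr.2 hθ0
      linarith
  · exact hr


section table

variable {m n : ℕ} {rs : Fin m → ℕ} {cs : Fin n → ℕ}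

theorem isTable_iff_bt (X : Fin m → Fin n → ℕ) :
    IsTable rs cs X ↔ Feas.IsBTable rs cs (fun _ _ => ∑ i, rs i) X := by
  refine ⟨fun h => ⟨fun i j => ?_, h.1, h.2⟩, fun h => ⟨h.2.1, h.2.2⟩⟩
  calc X i j ≤ ∑ j, X i j := Finset.single_le_sum (f := fun j => X i j) (fun _ _ => Nat.zero_le _)
        (Finset.mem_univ j)
    _ = rs i := h.1 i
    _ ≤ ∑ i, rs i := Finset.single_le_sum (fun _ _ => Nat.zero_le _) (Finset.mem_univ i)

theorem isTab_iff_table (Z : Tab) :
    IsTab (inst (List.ofFn rs) (List.ofFn cs)) Z ↔ ∃ X : Fin m → Fin n → ℕ,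
      Z = ofFn2 X ∧ IsTable rs cs X := by
  rw [inst_eq, isTab_iff]
  constructor
  · rintro ⟨Y, h1, h2⟩; exact ⟨Y, h1, (isTable_iff_bt Y).2 h2⟩
  · rintro ⟨Y, h1, h2⟩; exact ⟨Y, h1, (isTable_iff_bt Y).1 h2⟩

theorem isTab_nw (hsum : ∑ i, rs i = ∑ j, cs j) :
    IsTab (inst (List.ofFn rs) (List.ofFn cs)) (nw (List.ofFn rs) (List.ofFn cs)) := by
  rw [isTab_iff_table]
  exact ⟨fun i j => ent (List.ofFn rs) (List.ofFn cs) i j, nw_ofFn rs cs, isTable_ent rs cs hsum⟩

theorem sz_tab_le {I : Iface.Inst} {Y : Tab} (hY : IsTab I Y) : sz Y ≤ sz I := by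
  have h1 := sz_forall₂₂_le hY.bds
  have h2 : sz I = 2 * sz I.1 + 1 + (2 * sz I.2.1 + 1 + sz I.2.2) := by
    rw [sz_prod, sz_prod]
  omega

theorem flat_inj {X Y : Fin m → Fin n → ℕ} (h : (ofFn2 X).flatten = (ofFn2 Y).flatten) :
    ofFn2 X = ofFn2 Y := by
  rw [← rowsOf_flatten X, ← rowsOf_flatten Y, h]

end table

end Crest.Agent.R309.Exact9
end

-- ▼ part R309/S0481Of

/-!
# R309: the exact uniform sampler (S0481) from the chain and the RAM process theorem
-/

set_option autoImplicit false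

namespace Crest.Agent.R309.Exact9

open Crest.Agent.R309.Tape Crest.Agent.Lib.PT Crest.Agent.R309.Iface Crest.Agent.R309.PTX
open Crest.Agent.R309.NW Crest.Agent.R309.S0480Of Crest.Agent.R309.Feas Crest.Agent.R309.Parse
open Crest.WordRAM Crest.Tables

/-- **S0481 from the chain and the process theorem.** -/
theorem S0481_of (HP : ProcessSpec) (HC : ChainSpec) :
    ∃ (P : Crest.WordRAM.Program) (c₀ c₁ C d : ℕ),
      ∀ (m n : ℕ) (rs : Fin m → ℕ) (cs : Fin n → ℕ), ∑ i, rs i = ∑ j, cs j →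
        Crest.WordRAM.expectedTime P (c₀ * (m + n + Nat.clog 2 (∑ i, rs i + 2) + 1) ^ c₁)
            (m :: n :: (List.ofFn rs ++ List.ofFn cs))
          ≤ ((C * (m + n + Nat.clog 2 (∑ i, rs i + 2) + 1) ^ d : ℕ) : ENNReal) ∧
        (∀ (ρ : ℕ → ℕ) (T : ℕ) (out : List ℕ),
          Crest.WordRAM.HaltsWithin P (c₀ * (m + n + Nat.clog 2 (∑ i, rs i + 2) + 1) ^ c₁) ρ
            (m :: n :: (List.ofFn rs ++ List.ofFn cs)) T out →
          ∃ X : Fin m → Fin n → ℕ, IsTable rs cs X ∧ out = (List.ofFn fun i => List.ofFn (X i)).flatten) ∧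
        ∀ X : Fin m → Fin n → ℕ, IsTable rs cs X →
          Crest.WordRAM.probHaltsWith P (c₀ * (m + n + Nat.clog 2 (∑ i, rs i + 2) + 1) ^ c₁)
              (m :: n :: (List.ofFn rs ++ List.ofFn cs))
              (fun out => out = (List.ofFn fun i => List.ofFn (X i)).flatten)
            = 1 / (numBoundedTables rs cs (fun _ _ => ∑ i, rs i) : ℝ) := by
  -- (no classical)
  obtain ⟨step, len, tau, hstep, hlen, htau, hch⟩ := HC
  -- the round function
  have hD : (tdata step).Poly := tdata_poly hstep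
  have hf : PTF (fun p : Conf Iface.Inst Tab × Bits => rnd (tdata step) p.1 p.2.val) :=
    PTF.comp (g := fun p : Conf Iface.Inst Tab × List Bool => rnd (tdata step) p.1 p.2)
      (f := fun p : Conf Iface.Inst Tab × Bits => (p.1, p.2.val)) (ptf_rnd hD) (by fun_prop)
  obtain ⟨qf, hqf⟩ := typed_process HP hf
  obtain ⟨k, hk⟩ := poly_le_pow (qone qf)
  obtain ⟨a, ha⟩ := exists_exp k
  obtain ⟨P, Kp, qg, hP⟩ := hqf (startC (len := len) (tau := tau) a) (ptf_startC hlen htau a)
  obtain ⟨py, hpy⟩ := (ptu_yy hlen htau).pb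
  -- bounds in terms of the size parameter `S`
  let YS : ℕ → ℕ := fun S => py.eval (21 * S ^ 3)
  have bI : PolyB (fun S => 21 * S ^ 3) := (PolyB.const 21).mul (PolyB.id.pow 3)
  have bY : PolyB YS := bI.eval py
  let LS : ℕ → ℕ := fun S => 3 * S ^ 2
  have bL : PolyB LS := (PolyB.const 3).mul (PolyB.id.pow 2)
  let E1 : ℕ → ℕ := fun S => (LS S + 2) + (13 * (LS S + 1) + 3 + qg.eval (LS S))
  have bE : PolyB E1 := (bL.add (PolyB.const 2)).add
    ((((PolyB.const 13).mul (bL.add (PolyB.const 1))).add (PolyB.const 3)).add (bL.eval qg))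
  let WS : ℕ → ℕ := fun S => E1 S + (6 + a + 3 * YS S) * k + (Kp + 5) + 2 * S
  have bW : PolyB WS := ((bE.add (((PolyB.const (6 + a)).add ((PolyB.const 3).mul bY)).mul
    (PolyB.const k))).add (PolyB.const (Kp + 5))).add ((PolyB.const 2).mul PolyB.id)
  obtain ⟨c₀, c₁, hW⟩ := bW
  let wS : ℕ → ℕ := fun S => c₀ * S ^ c₁
  have bw : PolyB wS := ⟨c₀, c₁, fun x _ => le_rfl⟩
  let TS : ℕ → ℕ := fun S => (4 * wS S + 3 * Kp + 11 + (10 + 12 * wS S) * S) +
    (20 + 70 * (LS S + 1) + 5 * qg.eval (LS S)) +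
    ((2 * 2 ^ a * YS S ^ 2 + 1) * (qone qf).eval (57 * 2 ^ a * YS S ^ 3) + 1) +
    (7 + 9 * (21 * S ^ 3 + 1))
  have bT : PolyB TS := by
    refine PolyB.add (PolyB.add (PolyB.add ?_ ?_) ?_) ?_
    · exact ((((PolyB.const 4).mul bw).add (PolyB.const (3 * Kp))).add (PolyB.const 11)).add
        (((PolyB.const 10).add ((PolyB.const 12).mul bw)).mul PolyB.id)
    · exact ((PolyB.const 20).add ((PolyB.const 70).mul (bL.add (PolyB.const 1)))).add
        ((PolyB.const 5).mul (bL.eval qg))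
    · exact (((((PolyB.const (2 * 2 ^ a)).mul (bY.pow 2)).add (PolyB.const 1)).mul
        (PolyB.eval ((PolyB.const (57 * 2 ^ a)).mul (bY.pow 3)) (qone qf))).add (PolyB.const 1))
    · exact (PolyB.const 7).add ((PolyB.const 9).mul (bI.add (PolyB.const 1)))
  obtain ⟨C, d, hTS⟩ := bT
  refine ⟨P, c₀, c₁, C, d, fun m n rs cs hsum => ?_⟩
  -- the instance
  obtain ⟨N, hN⟩ : ∃ N, N = ∑ i, rs i := ⟨_, rfl⟩
  obtain ⟨S, hS⟩ : ∃ S, S = SS m n (∑ i, rs i) := ⟨_, rfl⟩
  have hSS : m + n + Nat.clog 2 (∑ i, rs i + 2) + 1 = S := hS.symm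
  rw [hSS]
  obtain ⟨L, hL⟩ : ∃ L, L = inp rs cs := ⟨_, rfl⟩
  have hLL : (m :: n :: (List.ofFn rs ++ List.ofFn cs)) = L := hL.symm
  rw [hLL]
  obtain ⟨I, hI⟩ : ∃ I, I = inst (List.ofFn rs) (List.ofFn cs) := ⟨_, rfl⟩
  obtain ⟨p, hp⟩ : ∃ p, p = par len tau a I := ⟨_, rfl⟩
  set e := env len tau a I with he
  set tb := enumT (List.ofFn rs) (List.ofFn cs) (2 ^ p.D) with htb
  have hS2 := le_two_pow_SS m n (∑ i, rs i)
  have hSN := lt_two_pow_SS m n (∑ i, rs i)
  rw [← hS] at hS2 hSN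
  obtain ⟨hS2, hSlt⟩ := hS2
  have hS1 : 1 ≤ S := by omega
  have hnw : IsTab I (nw (List.ofFn rs) (List.ofFn cs)) := hI ▸ isTab_nw hsum
  have hgood : Good (tdata step) e tb := by
    rw [he, htb, hp, hI]
    refine good_env a (hI ▸ hnw) (fun X hX => (hch _ X hX).1) (fun m φ hφ => ?_)
    exact (hch _ _ (hI ▸ hnw)).2 m φ hφ
  have hDge : 2 ^ lgE (List.ofFn rs) (List.ofFn cs) ≤ 2 ^ p.D := by
    refine Nat.pow_le_pow_right (by norm_num) ?_
    rw [hp, hI]
    exact Nat.le_add_right _ _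
  have hmem : ∀ X, X ∈ tb ↔ IsTab I X := fun X => by rw [hI]; exact mem_enumT hDge X
  have hsz : ∀ X ∈ tb, sz X ≤ sz I := fun X hX => sz_tab_le ((hmem X).1 hX)
  have hszI : sz I ≤ 21 * S ^ 3 := by rw [hI, hS]; exact sz_inst_le hsum
  have hszL : sz L ≤ LS S := by rw [hL, hS]; exact sz_inp_le hsum
  have hlenL : L.length ≤ S := by rw [hL, length_inp]; omega
  have hy : p.y ≤ YS S := by
    have h1 : p.y = yy len tau I := by rw [hp]; rfl
    rw [h1]
    exact (hpy I).trans (polyEval_mono py hszI)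
  have hpa : p.a = a := by rw [hp]; rfl
  have hpD : p.D = (par len tau a I).D := by rw [hp]
  obtain ⟨w, hw⟩ : ∃ w, w = c₀ * S ^ c₁ := ⟨_, rfl⟩
  rw [← hw]
  have hWw : WS S ≤ w := by rw [hw]; exact hW S hS1
  have hst0 : (tdata step).start e.1 = nw (List.ofFn rs) (List.ofFn cs) := by
    show nw I.1 I.2.1 = _
    rw [hI]
    rfl
  have hstart : startC (len := len) (tau := tau) a L =
      (e, Sum.inl ((tdata step).start e.1, ⟨eT e⟩)) := by
    rw [hst0]
    unfold startC
    rw [hL]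
    unfold inp
    rw [parseW_eq]
    simp only
    rw [← hI]
    rfl
  have h2w : 2 ≤ w := by
    have : WS S = E1 S + (6 + a + 3 * YS S) * k + (Kp + 5) + 2 * S := rfl
    omega
  -- the space bound
  set H : ℕ := (sz L + 2) + (13 * (sz L + 1) + 3 + qg.eval (sz L)) +
    (13 * (p.LL + 4) + 3 + qf.eval p.LL) with hH
  have hq1 : (qone qf).eval p.LL ≤ (p.LL + 2) ^ k := hk _
  have hHw : Kp * (H + 1) ≤ 2 ^ (w - 1) := by
    have h1 : H + 1 ≤ 2 ^ (E1 S + (6 + a + 3 * YS S) * k + 2) := by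
      have h3 : (sz L + 2) + (13 * (sz L + 1) + 3 + qg.eval (sz L)) ≤ E1 S := by
        have := polyEval_mono qg hszL
        have e3 : E1 S = (LS S + 2) + (13 * (LS S + 1) + 3 + qg.eval (LS S)) := rfl
        omega
      have h4 : 13 * (p.LL + 4) + 3 + qf.eval p.LL ≤ 2 ^ ((6 + a + 3 * YS S) * k) := by
        have h5 : 13 * (p.LL + 4) + 3 + qf.eval p.LL ≤ (qone qf).eval p.LL := by
          rw [eval_qone]; omega
        refine h5.trans (hq1.trans ?_)
        rw [pow_mul]
        refine Nat.pow_le_pow_left (p.LL_le.trans (Nat.pow_le_pow_right (by norm_num) ?_)) k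
        rw [hpa]
        omega
      have h6 : E1 S < 2 ^ E1 S := Nat.lt_two_pow_self
      have h7 : 2 ^ E1 S ≤ 2 ^ (E1 S + (6 + a + 3 * YS S) * k) :=
        Nat.pow_le_pow_right (by norm_num) (by omega)
      have h8 : 2 ^ ((6 + a + 3 * YS S) * k) ≤ 2 ^ (E1 S + (6 + a + 3 * YS S) * k) :=
        Nat.pow_le_pow_right (by norm_num) (by omega)
      rw [pow_add _ _ 2]
      omega
    calc Kp * (H + 1) ≤ 2 ^ Kp * 2 ^ (E1 S + (6 + a + 3 * YS S) * k + 2) :=
          Nat.mul_le_mul Nat.lt_two_pow_self.le h1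
      _ = 2 ^ (Kp + (E1 S + (6 + a + 3 * YS S) * k + 2)) := (pow_add _ _ _).symm
      _ ≤ 2 ^ (w - 1) := by
          refine Nat.pow_le_pow_right (by norm_num) ?_
          have : WS S = E1 S + (6 + a + 3 * YS S) * k + (Kp + 5) + 2 * S := rfl
          omega
  have hSw : 2 * S + 1 ≤ w - 1 := by
    have : WS S = E1 S + (6 + a + 3 * YS S) * k + (Kp + 5) + 2 * S := rfl
    omega
  have hpow : 2 ^ S ≤ 2 ^ w := Nat.pow_le_pow_right (by norm_num) (by omega)
  have key := hP w H L (Inv e tb) (fun o => ∃ X, IsTab I X ∧ o = X.flatten)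
    (hcost (sz I + 1)) h2w hHw ?_ ?_ ?_ ?_ ?_ ?_
  rotate_left
  · intro x hx
    rw [hL] at hx
    have := mem_inp hsum hx
    rw [← hS] at this
    omega
  · show sz L + 2 ≤ H
    omega
  · omega
  · rw [hstart]
    exact ⟨rfl, hgood.start, le_rfl⟩
  · intro s hs
    have h1 := (sz_inv (len := len) (tau := tau) (a := a) (I := I) hsz hs).1
    rw [← hp] at h1
    refine ⟨?_, fun τ hτ => ?_⟩
    · have := polyEval_mono qf h1
      omega
    · obtain ⟨h2, h3⟩ := inv_rnd hgood hs τ (by rw [hτ]; exact (eL_le_sz s).trans (by omega))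
      refine ⟨h2, fun o ho => ?_⟩
      obtain ⟨y, hy, hy'⟩ := h3 o ho
      exact ⟨y, (hmem y).1 hy, hy'⟩
  · rintro o ⟨X, hX, rfl⟩
    have hX' := hX
    rw [hI, isTab_inst_iff', mem_listsFull] at hX'
    obtain ⟨_, h1, h2⟩ := hX'
    refine ⟨fun x hx => ?_, ?_, ?_⟩
    · obtain ⟨r, hr, hxr⟩ := List.mem_flatten.1 hx
      have h3 := (mem_listsFull.1 (h2 r hr)).2 x hxr
      rw [List.mem_range, List.sum_ofFn] at h3
      omega
    · rw [hI, isTab_iff_table] at hX
      obtain ⟨Y, rfl, _⟩ := hX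
      rw [length_flatten_ofFn2]
      have h3 : m ≤ 2 ^ S := by omega
      have h4 : n ≤ 2 ^ S := by omega
      calc m * n ≤ 2 ^ S * 2 ^ S := Nat.mul_le_mul h3 h4
        _ = 2 ^ (S + S) := (pow_add _ _ _).symm
        _ ≤ 2 ^ (w - 1) := Nat.pow_le_pow_right (by norm_num) (by omega)
    · have h3 := (sz_flatten_le X).trans (sz_tab_le hX)
      unfold hcost
      omega
  obtain ⟨k1, k2⟩ := key
  -- the potential
  obtain ⟨aC, haC⟩ : ∃ aC : ℝ, aC = (((qone qf).eval p.LA : ℕ) : ℝ) := ⟨_, rfl⟩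
  obtain ⟨bC, hbC⟩ : ∃ bC : ℝ, bC = (((qone qf).eval p.LL : ℕ) : ℝ) := ⟨_, rfl⟩
  have haC0 : 0 ≤ aC := by rw [haC]; exact Nat.cast_nonneg _
  have hbC0 : 0 ≤ bC := by rw [hbC]; exact Nat.cast_nonneg _
  obtain ⟨k3, k4⟩ := k2 (Vf e aC bC) (fun s _ => Vf_nonneg haC0 hbC0 s) (by
    intro s hs
    have h1 := sz_inv (len := len) (tau := tau) (a := a) (I := I) hsz hs
    rw [← hp] at h1
    have h2 := potential hgood haC0 hbC0 hs (rcost (sz s + 4) (qf.eval (sz s)) : ℝ)
      (fun hA => by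
        rw [rcost_qone, haC]
        exact_mod_cast polyEval_mono (qone qf) (h1.2 hA))
      (fun _ => by
        rw [rcost_qone, hbC]
        exact_mod_cast polyEval_mono (qone qf) h1.1)
      (ℓ := sz s + 4) ((eL_le_sz s).trans (by omega))
    refine le_trans (le_of_eq ?_) h2
    congr 1
    refine congrArg (avg (sz s + 4)) (funext fun τ => ?_)
    rcases hr : rnd (tdata step) s τ with s' | o
    · rfl
    · rfl)
  refine ⟨?_, ?_, ?_⟩
  · -- expected time
    refine k3.trans ?_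
    have hVstart : Vf e aC bC (startC (len := len) (tau := tau) a L) ≤ (p.T + 1) * aC + 1 := by
      rw [hstart]
      unfold Vf
      simp only
      have e1 : eT e = p.T := by rw [hp]; rfl
      have e2 : eD e = p.D := by rw [hp]; rfl
      have e3 : eK e = p.K := by rw [hp]; rfl
      rw [e1, e2, e3]
      have h1 : (p.D + 2) * (qone qf).eval p.LL ≤ 2 ^ p.K :=
        p.cost_le k _ (by rw [hpa]; exact ha) hq1
      have h2 : ((p.D : ℝ) + 2) * bC ≤ 2 ^ p.K := by
        rw [hbC]; exact_mod_cast h1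
      have h3 : (2 : ℝ)⁻¹ ^ p.K * (((p.D : ℝ) + 2) * bC) ≤ 1 := by
        rw [inv_pow]
        rw [inv_mul_le_iff₀ (by positivity), mul_one]
        exact h2
      linarith
    have hTle : p.T + 1 ≤ 2 * 2 ^ a * YS S ^ 2 + 1 := by
      have h1 := p.T_le
      rw [hpa] at h1
      have h2 : 2 * 2 ^ a * p.y ^ 2 ≤ 2 * 2 ^ a * YS S ^ 2 :=
        Nat.mul_le_mul_left _ (Nat.pow_le_pow_left hy 2)
      omega
    have hLAle : (qone qf).eval p.LA ≤ (qone qf).eval (57 * 2 ^ a * YS S ^ 3) := by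
      refine polyEval_mono _ ?_
      have h1 := p.LA_le
      rw [hpa] at h1
      exact h1.trans (Nat.mul_le_mul_left _ (Nat.pow_le_pow_left hy 3))
    have hA : (p.T + 1) * (qone qf).eval p.LA + 1 ≤
        (2 * 2 ^ a * YS S ^ 2 + 1) * (qone qf).eval (57 * 2 ^ a * YS S ^ 3) + 1 :=
      Nat.add_le_add_right (Nat.mul_le_mul hTle hLAle) 1
    have hB : scost w Kp L.length ≤ 4 * wS S + 3 * Kp + 11 + (10 + 12 * wS S) * S := by
      have : wS S = w := hw.symm
      rw [this]
      unfold scost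
      exact Nat.add_le_add_left (Nat.mul_le_mul_left _ hlenL) _
    have hCc : rcost (sz L + 1) (qg.eval (sz L)) ≤ 20 + 70 * (LS S + 1) + 5 * qg.eval (LS S) := by
      have := polyEval_mono qg hszL
      unfold rcost
      omega
    have hDc : hcost (sz I + 1) ≤ 7 + 9 * (21 * S ^ 3 + 1) := by
      unfold hcost
      omega
    have htot : scost w Kp L.length + rcost (sz L + 1) (qg.eval (sz L)) +
        ((p.T + 1) * (qone qf).eval p.LA + 1) + hcost (sz I + 1) ≤ C * S ^ d := by
      refine le_trans ?_ (hTS S hS1)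
      exact Nat.add_le_add (Nat.add_le_add (Nat.add_le_add hB hCc) hA) hDc
    rw [← ENNReal.ofReal_natCast (C * S ^ d)]
    refine ENNReal.ofReal_le_ofReal ?_
    have htot' : ((scost w Kp L.length + rcost (sz L + 1) (qg.eval (sz L)) +
        ((p.T + 1) * (qone qf).eval p.LA + 1) + hcost (sz I + 1) : ℕ) : ℝ) ≤
        ((C * S ^ d : ℕ) : ℝ) := by exact_mod_cast htot
    refine le_trans ?_ htot'
    push_cast
    rw [← haC]
    linarith
  · intro ρ T out hh
    obtain ⟨X, hX, hout⟩ := k1 ρ T out hh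
    rw [hI, isTab_iff_table] at hX
    obtain ⟨Y, rfl, hY⟩ := hX
    exact ⟨Y, hY, hout⟩
  · intro X hX
    have hXt : IsTab I (ofFn2 X) := by rw [hI, isTab_iff_table]; exact ⟨X, rfl, hX⟩
    set Gd : List ℕ → Prop := fun out => out = (List.ofFn fun i => List.ofFn (X i)).flatten with hGd
    have h1 := k4 Gd (Hf (tdata step) e tb (fun o => ind (Gd o)))
      (fun s _ => Hf_mem hgood (fun o => ⟨ind_nonneg _, ind_le_one _⟩) s) (by
        intro s hs
        have h2 := harmonic hgood hs (fun o => ind (Gd o)) (ℓ := sz s + 4)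
          ((eL_le_sz s).trans (by omega))
        refine h2.symm.trans ?_
        refine congrArg (avg (sz s + 4)) (funext fun τ => ?_)
        rcases hr : rnd (tdata step) s τ with s' | o
        · simp only [hr]; rfl
        · simp only [hr]; rfl)
    rw [h1, hstart, Hf_start hgood _ ⟨eT e⟩ rfl]
    have hnd : tb.Nodup := hgood.nodup
    have hfs : tb.toFinset = tabs I := by rw [hI]; exact toFinset_enumT hDge
    have hcard : tb.length = numBoundedTables rs cs (fun _ _ => ∑ i, rs i) := by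
      rw [← List.toFinset_card_of_nodup hnd, hfs, hI, inst_eq, card_tabs]
    rw [hcard, ← List.sum_toFinset _ hnd, hfs]
    congr 1
    rw [Finset.sum_eq_single (ofFn2 X)]
    · exact ind_of rfl
    · intro Z hZ hne
      refine ind_of_not fun h => hne ?_
      rw [mem_tabs, hI, isTab_iff_table] at hZ
      obtain ⟨Y, rfl, _⟩ := hZ
      exact flat_inj h
    · intro h
      exact absurd (mem_tabs.2 hXt) h

end Crest.Agent.R309.Exact9
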