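import Mathlib
import Crest.Agent.R309.MCBox
import Crest.Agent.R309.USInner
import Crest.Agent.R309.MCRev
import Crest.Agent.R309.USConv2

-- ▼ part R309/MCSoft
section

/-!
Row 309 (helper585): the exactly dyadic Metropolis chain for the weight `2^(-t D) * B^s`,
`B = 2^p / (2^p - 1)`, on a box; it is a tape program whose law converges to the weight as soon as
the weight satisfies a Poincaré inequality.
-/

set_option autoImplicit false
open Finset

namespace Crest.Agent.R309.MC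

open Crest.Agent.R309.Tape Crest.Agent.Lib.PT.Arith

section

variable {α : Type*} [Fintype α] [DecidableEq α]

omit [Fintype α] [DecidableEq α] in
theorem zpow_neg_mul_toNat {c : ℝ} (hc0 : 0 < c) (u v : ℤ) :
    c ^ (-u) * c ^ ((u - v).toNat) = c ^ (-(min u v)) := by
  rw [← zpow_natCast c, ← zpow_add₀ hc0.ne']
  congr 1
  rcases le_total u v with h | h
  · rw [Int.toNat_of_nonpos (by omega), min_eq_left h]; simp
  · rw [Int.toNat_of_nonneg (by omega), min_eq_right h]; ring

omit [Fintype α] [DecidableEq α] in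
theorem isAcc_zpow {c : ℝ} (hc0 : 0 < c) (hc1 : c ≤ 1) (u : α → ℤ) (S : α → α → ℝ) :
    IsAcc (fun x => c ^ (-(u x))) S (fun x y => c ^ ((u x - u y).toNat)) := by
  refine ⟨fun x y => by positivity, fun x y => pow_le_one₀ hc0.le hc1, fun x y _ => ?_⟩
  rw [zpow_neg_mul_toNat hc0, zpow_neg_mul_toNat hc0, min_comm]

/-- the weight `c₁ ^ D * c₂ ^ (-s)` -/
noncomputable def sw (c₁ c₂ : ℝ) (D s : α → ℤ) (x : α) : ℝ := c₁ ^ (-(-(D x))) * c₂ ^ (-(s x))

/-- the product acceptance -/
noncomputable def sa (c₁ c₂ : ℝ) (D s : α → ℤ) (x y : α) : ℝ :=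
  c₁ ^ ((-(D x) - -(D y)).toNat) * c₂ ^ ((s x - s y).toNat)


omit [Fintype α] [DecidableEq α] in
theorem isAcc_sa {c₁ c₂ : ℝ} (h1 : 0 < c₁) (h1' : c₁ ≤ 1) (h2 : 0 < c₂) (h2' : c₂ ≤ 1)
    (D s : α → ℤ) (S : α → α → ℝ) : IsAcc (sw c₁ c₂ D s) S (sa c₁ c₂ D s) :=
  (isAcc_zpow h1 h1' (fun x => -(D x)) S).mul (isAcc_zpow h2 h2' s S)

omit [Fintype α] [DecidableEq α] in
theorem sa_ge {c₁ c₂ : ℝ} (h1 : 0 < c₁) (h1' : c₁ ≤ 1) (h2 : 0 < c₂)
    (D s : α → ℤ) {x y : α} {d : ℕ} (hd : |D x - D y| ≤ d) :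
    c₁ ^ d * min (sw c₁ c₂ D s x) (sw c₁ c₂ D s y) ≤ sw c₁ c₂ D s x * sa c₁ c₂ D s x y := by
  have e : sw c₁ c₂ D s x * sa c₁ c₂ D s x y =
      c₁ ^ (-(min (-(D x)) (-(D y)))) * c₂ ^ (-(min (s x) (s y))) := by
    rw [← zpow_neg_mul_toNat h1, ← zpow_neg_mul_toNat h2]
    unfold sw sa
    ring
  rw [e]
  rw [abs_le] at hd
  have key : ∀ z : α, min (s x) (s y) = s z → D x ≤ D z + d → D y ≤ D z + d →
      c₁ ^ d * sw c₁ c₂ D s z ≤ c₁ ^ (-(min (-(D x)) (-(D y)))) * c₂ ^ (-(min (s x) (s y))) := by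
    intro z hz hx hy
    rw [hz]
    unfold sw
    rw [← mul_assoc]
    refine mul_le_mul_of_nonneg_right ?_ (by positivity)
    rw [← zpow_natCast c₁, ← zpow_add₀ h1.ne']
    refine zpow_le_zpow_right_of_le_one₀ h1 h1' ?_
    omega
  rcases le_total (s x) (s y) with h | h
  · exact (mul_le_mul_of_nonneg_left (min_le_left _ _) (by positivity)).trans
      (key x (min_eq_left h) (by omega) (by omega))
  · exact (mul_le_mul_of_nonneg_left (min_le_right _ _) (by positivity)).trans
      (key y (min_eq_right h) (by omega) (by omega))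

end

/-- the acceptance numerator for `c₁ = 2^-t`, `c₂ = (2^p - 1) / 2^p` -/
def snum {S : Type*} (t p m : ℕ) (D s : S → ℤ) (x y : S) : ℕ :=
  2 ^ (m - t * (D y - D x).toNat - p * (s x - s y).toNat) * (2 ^ p - 1) ^ (s x - s y).toNat

theorem snum_eq {S : Type*} {t p m d e : ℕ} (D s : S → ℤ) {x y : S}
    (hd : D y - D x ≤ d) (he : s x - s y ≤ e) (hm : t * d + p * e ≤ m) :
    (snum t p m D s x y : ℝ) =
      2 ^ m * (((1 / 2 : ℝ) ^ t) ^ ((-(D x) - -(D y)).toNat) *
        ((2 ^ p - 1) / 2 ^ p : ℝ) ^ ((s x - s y).toNat)) := by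
  unfold snum
  have e1 : (-(D x) - -(D y)) = D y - D x := by ring
  rw [e1]
  set A := (D y - D x).toNat with hA
  set E := (s x - s y).toNat with hE
  have hA' : A ≤ d := by omega
  have hE' : E ≤ e := by omega
  have h1 : t * A + p * E ≤ m := by
    have := Nat.mul_le_mul_left t hA'
    have := Nat.mul_le_mul_left p hE'
    omega
  obtain ⟨r, rfl⟩ := Nat.exists_eq_add_of_le h1
  rw [show t * A + p * E + r - t * A - p * E = r by omega]
  push_cast [Nat.cast_sub (Nat.one_le_two_pow (n := p))]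
  have e2 : (((1 : ℝ) / 2) ^ t) ^ A = 1 / 2 ^ (t * A) := by
    rw [← pow_mul, one_div_pow]
  have e3 : ((2 ^ p - 1) / 2 ^ p : ℝ) ^ E = (2 ^ p - 1) ^ E / 2 ^ (p * E) := by
    rw [div_pow, ← pow_mul]
  rw [e2, e3, pow_add, pow_add]
  field_simp

theorem snum_le {S : Type*} {t p m d e : ℕ} (D s : S → ℤ) {x y : S}
    (hd : D y - D x ≤ d) (he : s x - s y ≤ e) (hm : t * d + p * e ≤ m) :
    snum t p m D s x y ≤ 2 ^ m := by
  have h := snum_eq (t := t) (p := p) (m := m) D s hd he hm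
  have h1 : ((1 / 2 : ℝ) ^ t) ^ ((-(D x) - -(D y)).toNat) ≤ 1 :=
    pow_le_one₀ (by positivity) (pow_le_one₀ (by norm_num) (by norm_num))
  have hp : (1 : ℝ) ≤ 2 ^ p := one_le_pow₀ (by norm_num)
  have h2 : ((2 ^ p - 1) / 2 ^ p : ℝ) ^ ((s x - s y).toNat) ≤ 1 := by
    refine pow_le_one₀ (div_nonneg (by linarith) (by positivity)) ?_
    rw [div_le_one (by positivity)]; linarith
  have h3 : 0 ≤ ((2 ^ p - 1) / 2 ^ p : ℝ) ^ ((s x - s y).toNat) :=
    pow_nonneg (div_nonneg (by linarith) (by positivity)) _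
  have h4 : (snum t p m D s x y : ℝ) ≤ ((2 ^ m : ℕ) : ℝ) := by
    rw [h]
    push_cast
    calc (2 : ℝ) ^ m * (((1 / 2 : ℝ) ^ t) ^ ((-(D x) - -(D y)).toNat) *
        ((2 ^ p - 1) / 2 ^ p : ℝ) ^ ((s x - s y).toNat)) ≤ 2 ^ m * (1 * 1) := by gcongr
      _ = 2 ^ m := by ring
  exact_mod_cast h4

/-! ### the chain on the box -/

variable {M : ℕ} {b : Fin M → ℕ}



/-- data of a soft chain: `D`, `s` are functions on lists of naturals; `D` changes by at most `d`
and `s` by at most `e` in a single move. -/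
structure SoftData (b : Fin M → ℕ) (D s : List ℕ → ℤ) (d e : ℕ) : Prop where
  hD : ∀ (x : Box b) (i : Fin M), |D (enc (inc x i)) - D (enc x)| ≤ d
  hs : ∀ (x : Box b) (i : Fin M), |s (enc (inc x i)) - s (enc x)| ≤ e






/-- crude starting bound: if all weights are within a factor `R` then
`mass w / w x ≤ R * #configurations`. -/
theorem mass_div_le {α : Type*} [Fintype α] {w : α → ℝ} {x : α} (hx : 0 < w x) {R : ℝ}
    (h : ∀ y, w y ≤ R * w x) : mass w / w x ≤ R * Fintype.card α := by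
  rw [div_le_iff₀ hx]
  calc mass w ≤ ∑ _y : α, R * w x := sum_le_sum fun y _ => h y
    _ = R * Fintype.card α * w x := by rw [sum_const, nsmul_eq_mul, card_univ]; ring

theorem card_box (b : Fin M → ℕ) : Fintype.card (Box b) = ∏ e, (b e + 1) := by
  simp [Box, Fintype.card_pi]

end Crest.Agent.R309.MC
end

-- ▼ part R309/USStep585
section

/-!
# R309: mixing and exact reversibility of the soft single-cell chain `US.soft` (helper585)
-/

set_option autoImplicit false

namespace Crest.Agent.R309.US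

open Finset Tape Lib.PT.Arith MC

/-! ### moves -/

theorem getD_set_self' {x : List ℕ} {j : ℕ} (h : j < x.length) (a : ℕ) :
    (x.set j a).getD j 0 = a := by
  rw [List.getD_eq_getElem?_getD, List.getElem?_set_self h]; rfl

theorem set_getD_self' (x : List ℕ) (j : ℕ) : x.set j (x.getD j 0) = x := by
  induction x generalizing j with
  | nil => simp
  | cons a x ih =>
    cases j with
    | zero => simp
    | succ j => simpa using ih j

theorem mv_flip {R : List UCell} {x y : List ℕ} {i : ℕ} (hx : x ∈ box R) (h : mv R x i = some y) :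
    mv R y (flipIdx i) = some x := by
  have hl : x.length = R.length := length_of_mem_box hx
  have hb := (mem_box_iff.1 hx).2
  unfold mv at h
  split_ifs at h with h1 h2 h3 h3
  · obtain rfl := Option.some.inj h
    have e1 : flipIdx i = i - 1 := by simp [flipIdx, h2]
    have e2 : (i - 1) / 2 = i / 2 := by omega
    have e3 : (i - 1) % 2 = 0 := by omega
    rw [e1]
    unfold mv
    rw [e2, e3, if_pos h1, if_neg (by norm_num), getD_set_self' (by omega)]
    rw [if_pos (by omega)]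
    simp only [Nat.add_sub_cancel, List.set_set]
    rw [set_getD_self']
  · obtain rfl := Option.some.inj h
    have h4 : i % 2 = 0 := by omega
    have e1 : flipIdx i = i + 1 := by simp [flipIdx, h4]
    have e2 : (i + 1) / 2 = i / 2 := by omega
    have e3 : (i + 1) % 2 = 1 := by omega
    rw [e1]
    unfold mv
    rw [e2, e3, if_pos h1, if_pos rfl, getD_set_self' (by omega)]
    have h5 := hb (i / 2) h1
    rw [if_pos (by omega)]
    simp only [List.set_set]
    rw [Nat.sub_add_cancel (by omega), set_getD_self']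

theorem mv_none {R : List UCell} {x : List ℕ} {i : ℕ} (h : 2 * R.length ≤ i) : mv R x i = none := by
  unfold mv
  rw [if_neg (by omega)]

/-- the moves on the subtype -/
def mvS (I : Inst) (x : {y // y ∈ box I.1}) (i : ℕ) : Option {y // y ∈ box I.1} :=
  match h : mv I.1 x.1 i with
  | none => none
  | some z => some ⟨z, mv_mem_box x.2 h⟩

theorem mvS_map (I : Inst) (x : {y // y ∈ box I.1}) (i : ℕ) :
    mv I.1 x.1 i = (mvS I x i).map Subtype.val := by
  unfold mvS
  split
  · next h => rw [h]; rfl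
  · next z h => exact h

theorem mvS_some {I : Inst} {x y : {y // y ∈ box I.1}} {i : ℕ} :
    mvS I x i = some y ↔ mv I.1 x.1 i = some y.1 := by
  rw [mvS_map]
  constructor
  · intro h; rw [h]; rfl
  · intro h
    rw [Option.map_eq_some_iff] at h
    obtain ⟨z, h1, h2⟩ := h
    rw [h1, Subtype.ext h2]

theorem isProp_mvS {I : Inst} {q : ℕ} (hq : 4 * I.1.length ≤ 2 ^ q) (hq1 : 1 ≤ q) :
    IsProp (MC.prop q (mvS I)) := by
  classical
  refine isProp_prop flipIdx ?_ flipIdx_flipIdx (fun x y i _ h => ?_) ?_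
  · intro i hi
    unfold flipIdx
    obtain ⟨r, rfl⟩ : ∃ r, q = r + 1 := ⟨q - 1, by omega⟩
    rw [pow_succ] at hi ⊢
    split_ifs <;> omega
  · rw [mvS_some] at h ⊢
    exact mv_flip x.2 h
  · intro x
    have h1 : (range (2 ^ q)).filter (fun i => mvS I x i ≠ none) ⊆ range (2 * I.1.length) := by
      intro i hi
      rw [mem_filter] at hi
      rw [mem_range]
      by_contra h
      apply hi.2
      have h2 := mvS_map I x i
      rw [mv_none (by omega)] at h2
      exact (Option.map_eq_none_iff.1 h2.symm)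
    have h2 := card_le_card h1
    rw [card_range] at h2
    omega

/-! ### how loads and defects change -/

/-- unit change of the load of `v` -/
def dl (c : UCell) (v : ℕ) : ℤ := (if c.1 = v then 1 else 0) - (if c.2.1 = v then 1 else 0)

theorem contrib_succ (c : UCell) (a v : ℕ) : contrib c (a + 1) v = contrib c a v + dl c v := by
  unfold contrib dl
  split_ifs <;> push_cast <;> ring

theorem load_set {R : List UCell} {y : List ℕ} {i : ℕ} (hi : i < R.length)
    (hy : y.length = R.length) (a v : ℕ) :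
    load R (y.set i a) v = load R y v +
      (contrib (R.getD i (0, 0, 0)) a v - contrib (R.getD i (0, 0, 0)) (y.getD i 0) v) := by
  induction R generalizing y i with
  | nil => simp at hi
  | cons c R ih =>
    cases y with
    | nil => simp at hy
    | cons b y =>
      cases i with
      | zero =>
        simp only [load, List.set_cons_zero, List.zipWith_cons_cons, List.sum_cons,
          List.getD_cons_zero]
        ring
      | succ i =>
        have := ih (y := y) (i := i) (by simpa using hi) (by simpa using hy)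
        simp only [load, List.set_cons_succ, List.zipWith_cons_cons, List.sum_cons,
          List.getD_cons_succ] at this ⊢
        rw [this]; ring

/-- defect at `v` -/
def tv (I : Inst) (y : List ℕ) (v : ℕ) : ℤ := I.2.getD v 0 - load I.1 y v

theorem sum_map_range {M : Type*} [AddCommMonoid M] (f : ℕ → M) (n : ℕ) :
    ((List.range n).map f).sum = ∑ v ∈ range n, f v := by
  induction n with
  | zero => simp
  | succ n ih =>
    rw [List.range_succ, List.map_append, List.sum_append, ih, sum_range_succ]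
    simp

theorem norm1_tau (I : Inst) (y : List ℕ) :
    norm1 (tau I y) = ∑ v ∈ range I.2.length, (tv I y v).natAbs := by
  unfold norm1 tau
  rw [List.map_map, sum_map_range]
  rfl

theorem dot_map_range (k : List ℤ) (f : ℕ → ℤ) (n : ℕ) (hk : k.length = n) :
    dot k ((List.range n).map f) = ∑ v ∈ range n, k.getD v 0 * f v := by
  unfold dot
  induction n generalizing k f with
  | zero => simp
  | succ n ih =>
    cases k with
    | nil => simp at hk
    | cons a k =>
      rw [List.range_succ_eq_map, List.map_cons, List.zipWith_cons_cons, List.sum_cons,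
        List.map_map, ih k (f ∘ Nat.succ) (by simpa using hk), sum_range_succ']
      simp only [List.getD_cons_succ, List.getD_cons_zero, Function.comp]
      rw [add_comm]

theorem dot_tau (I : Inst) {k : List ℤ} (hk : k.length = I.2.length) (y : List ℕ) :
    dot k (tau I y) = ∑ v ∈ range I.2.length, k.getD v 0 * tv I y v :=
  dot_map_range k _ _ hk

theorem tv_set_succ {I : Inst} {y : List ℕ} {i : ℕ} (hi : i < I.1.length)
    (hy : y.length = I.1.length) (v : ℕ) :
    tv I (y.set i (y.getD i 0 + 1)) v = tv I y v - dl (I.1.getD i (0, 0, 0)) v := by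
  unfold tv
  rw [load_set hi hy, contrib_succ]
  ring

theorem sum_abs_dl_le (c : UCell) (n : ℕ) : ∑ v ∈ range n, (dl c v).natAbs ≤ 2 := by
  have h1 : ∀ v ∈ range n, (dl c v).natAbs ≤ (if c.1 = v then 1 else 0) + (if c.2.1 = v then 1 else 0) := by
    intro v _
    unfold dl
    split_ifs <;> simp
  refine (sum_le_sum h1).trans ?_
  rw [sum_add_distrib, sum_ite_eq, sum_ite_eq]
  split_ifs <;> simp

theorem norm1_set_le {I : Inst} {y : List ℕ} {i : ℕ} (hi : i < I.1.length)
    (hy : y.length = I.1.length) :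
    |(norm1 (tau I (y.set i (y.getD i 0 + 1))) : ℤ) - norm1 (tau I y)| ≤ 2 := by
  have h := sum_abs_dl_le (I.1.getD i (0, 0, 0)) I.2.length
  rw [norm1_tau, norm1_tau]
  push_cast
  rw [← sum_sub_distrib]
  refine (abs_sum_le_sum_abs _ _).trans ?_
  have h2 : ∑ v ∈ range I.2.length, |(|tv I (y.set i (y.getD i 0 + 1)) v| - |tv I y v|)| ≤
      ∑ v ∈ range I.2.length, ((dl (I.1.getD i (0, 0, 0)) v).natAbs : ℤ) := by
    refine sum_le_sum fun v _ => ?_
    rw [tv_set_succ hi hy]
    refine (abs_abs_sub_abs_le _ _).trans ?_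
    rw [show tv I y v - dl (I.1.getD i (0, 0, 0)) v - tv I y v = - dl (I.1.getD i (0, 0, 0)) v by ring,
      abs_neg, Int.natCast_natAbs]
  refine h2.trans ?_
  exact_mod_cast h

theorem dot_set_le {I : Inst} {k : List ℤ} {A : ℕ} (hk : GB I.2.length A k) {y : List ℕ} {i : ℕ}
    (hi : i < I.1.length) (hy : y.length = I.1.length) :
    |dot k (tau I (y.set i (y.getD i 0 + 1))) - dot k (tau I y)| ≤ ((2 * A : ℕ) : ℤ) := by
  have h := sum_abs_dl_le (I.1.getD i (0, 0, 0)) I.2.length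
  rw [dot_tau I hk.1, dot_tau I hk.1, ← sum_sub_distrib]
  refine (abs_sum_le_sum_abs _ _).trans ?_
  have h2 : ∑ v ∈ range I.2.length,
      |k.getD v 0 * tv I (y.set i (y.getD i 0 + 1)) v - k.getD v 0 * tv I y v| ≤
      ∑ v ∈ range I.2.length, (A : ℤ) * ((dl (I.1.getD i (0, 0, 0)) v).natAbs : ℤ) := by
    refine sum_le_sum fun v hv => ?_
    rw [tv_set_succ hi hy, ← mul_sub, abs_mul,
      show tv I y v - dl (I.1.getD i (0, 0, 0)) v - tv I y v = - dl (I.1.getD i (0, 0, 0)) v by ring,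
      abs_neg, Int.natCast_natAbs]
    refine mul_le_mul_of_nonneg_right ?_ (abs_nonneg _)
    have hv' : v < k.length := by rw [hk.1]; exact mem_range.1 hv
    rw [List.getD_eq_getElem _ _ hv']
    have := hk.2 _ (List.getElem_mem hv')
    rw [← Int.natCast_natAbs]
    exact_mod_cast this
  refine h2.trans ?_
  rw [← mul_sum]
  have h3 : (∑ v ∈ range I.2.length, ((dl (I.1.getD i (0, 0, 0)) v).natAbs : ℤ)) ≤ 2 := by
    exact_mod_cast h
  push_cast
  nlinarith [Int.natCast_nonneg A]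

/-- neighbours -/
theorem mv_nbr {R : List UCell} {x y : List ℕ} {i : ℕ} (hx : x ∈ box R) (h : mv R x i = some y) :
    i / 2 < R.length ∧
      (y = x.set (i / 2) (x.getD (i / 2) 0 + 1) ∨ x = y.set (i / 2) (y.getD (i / 2) 0 + 1)) := by
  have hl : x.length = R.length := length_of_mem_box hx
  unfold mv at h
  split_ifs at h with h1 h2 h3 h3
  · exact ⟨h1, Or.inl (Option.some.inj h).symm⟩
  · refine ⟨h1, Or.inr ?_⟩
    obtain rfl := Option.some.inj h
    rw [getD_set_self' (by omega), List.set_set, Nat.sub_add_cancel (by omega), set_getD_self']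

theorem nbr_norm1 {I : Inst} {x y : List ℕ} {i : ℕ} (hx : x ∈ box I.1) (h : mv I.1 x i = some y) :
    |(norm1 (tau I x) : ℤ) - norm1 (tau I y)| ≤ 2 := by
  have hy := mv_mem_box hx h
  obtain ⟨hi, h1 | h1⟩ := mv_nbr hx h
  · rw [h1, abs_sub_comm]; exact norm1_set_le hi (length_of_mem_box hx)
  · rw [h1]
    exact norm1_set_le hi (length_of_mem_box hy)

theorem nbr_dot {I : Inst} {k : List ℤ} {A : ℕ} (hk : GB I.2.length A k) {x y : List ℕ} {i : ℕ}
    (hx : x ∈ box I.1) (h : mv I.1 x i = some y) :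
    |dot k (tau I x) - dot k (tau I y)| ≤ ((2 * A : ℕ) : ℤ) := by
  have hy := mv_mem_box hx h
  obtain ⟨hi, h1 | h1⟩ := mv_nbr hx h
  · rw [h1, abs_sub_comm]; exact dot_set_le hk hi (length_of_mem_box hx)
  · rw [h1]
    exact dot_set_le hk hi (length_of_mem_box hy)

/-! ### the weight, the acceptance, the kernel -/

/-- state space -/
abbrev St (I : Inst) : Type := {y // y ∈ box I.1}

/-- `c₂ = 1 - 2^(-p)` -/
noncomputable def c2 (p : ℕ) : ℝ := (2 ^ p - 1) / 2 ^ p

theorem c2_pos {p : ℕ} (hp : 1 ≤ p) : 0 < c2 p := by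
  have h2p : (2 : ℝ) ≤ 2 ^ p := by
    calc (2 : ℝ) = 2 ^ 1 := by norm_num
      _ ≤ 2 ^ p := pow_le_pow_right₀ (by norm_num) hp
  exact div_pos (by linarith) (by positivity)

theorem c2_le_one (p : ℕ) : c2 p ≤ 1 := by
  unfold c2
  rw [div_le_one (by positivity)]; linarith

theorem half_le_c2 {p : ℕ} (hp : 1 ≤ p) : 1 / 2 ≤ c2 p := by
  have h2p : (2 : ℝ) ≤ 2 ^ p := by
    calc (2 : ℝ) = 2 ^ 1 := by norm_num
      _ ≤ 2 ^ p := pow_le_pow_right₀ (by norm_num) hp
  unfold c2
  rw [div_le_div_iff₀ (by norm_num) (by positivity)]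
  linarith

theorem Bp_eq (p : ℕ) : Bp p = (c2 p)⁻¹ := by
  unfold Bp c2
  congr 1
  rw [one_div_pow]
  field_simp

/-- the weight as a product of two exponentials -/
theorem wt_eq_sw (I : Inst) (t p : ℕ) (k : List ℤ) (x : St I) :
    wt I t p k x.1 = sw ((1 / 2 : ℝ) ^ t) (c2 p) (fun x : St I => (norm1 (tau I x.1) : ℤ))
      (fun x : St I => dot k (tau I x.1)) x := by
  unfold wt sw
  rw [neg_neg, zpow_natCast, ← pow_mul, Bp_eq, inv_zpow, zpow_neg]

theorem wt_pos {I : Inst} {t p : ℕ} (hp : 1 ≤ p) (k : List ℤ) (y : List ℕ) : 0 < wt I t p k y := by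
  unfold wt
  rw [Bp_eq]
  have := c2_pos hp
  positivity

/-- acceptance probability -/
noncomputable def accS (I : Inst) (t p : ℕ) (k : List ℤ) : St I → St I → ℝ :=
  sa ((1 / 2 : ℝ) ^ t) (c2 p) (fun x : St I => (norm1 (tau I x.1) : ℤ))
      (fun x : St I => dot k (tau I x.1))

theorem num_eq_snum {I : Inst} {t p m A : ℕ} {k : List ℤ} (ht : 1 ≤ t) (hp : 1 ≤ p)
    (hm : t * 2 + p * (2 * A) ≤ m) {y z : List ℕ}
    (h1 : (norm1 (tau I z) : ℤ) - norm1 (tau I y) ≤ 2)
    (h2 : dot k (tau I y) - dot k (tau I z) ≤ ((2 * A : ℕ) : ℤ)) :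
    num I t p m k y z = snum t p m (fun y => (norm1 (tau I y) : ℤ)) (fun y => dot k (tau I y)) y z := by
  have hle := snum_le (t := t) (p := p) (m := m) (d := 2) (e := 2 * A)
    (fun y => (norm1 (tau I y) : ℤ)) (fun y => dot k (tau I y)) (x := y) (y := z)
    (by simpa using h1) h2 hm
  have hpA : 2 * A ≤ p * (2 * A) := Nat.le_mul_of_pos_left _ hp
  have i1 : incr I y z ≤ m := by unfold incr; omega
  have i2 : decrK I k y z ≤ m := by unfold decrK; omega
  unfold num
  rw [min_eq_left i1, min_eq_left i2]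
  have e1 : ((norm1 (tau I z) : ℤ) - norm1 (tau I y)).toNat = incr I y z := by
    unfold incr; omega
  have e3 : snum t p m (fun y => (norm1 (tau I y) : ℤ)) (fun y => dot k (tau I y)) y z =
      2 ^ (m - (t * incr I y z + p * decrK I k y z)) * (2 ^ p - 1) ^ decrK I k y z := by
    unfold snum
    rw [e1, Nat.sub_sub]
    rfl
  rw [← e3]
  exact min_eq_right hle

/-- the kernel of one step -/
noncomputable def KS (I : Inst) (q t p : ℕ) (k : List ℤ) : St I → St I → ℝ :=
  metro (MC.prop q (mvS I)) (accS I t p k)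

theorem impl_step {I : Inst} {q t p m A : ℕ} {k : List ℤ} (ht : 1 ≤ t) (hp : 1 ≤ p)
    (hm : t * 2 + p * (2 * A) ≤ m) (hk : GB I.2.length A k) :
    Impl (step I q t p m k) (q + m) (Subtype.val : St I → List ℕ) (KS I q t p k) := by
  refine impl_mstep (fun x i _ => mvS_map I x i) ?_ ?_
  · intro x y i _ hxy
    unfold num
    exact min_le_left _ _
  · intro x y i _ hxy
    rw [mvS_some] at hxy
    have h1 := (abs_le.mp (nbr_norm1 x.2 hxy)).1
    have h2 := (abs_le.mp (nbr_dot hk x.2 hxy)).2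
    rw [num_eq_snum ht hp hm (by omega) h2]
    exact snum_eq _ _ (by push_cast; omega) h2 hm

theorem isAcc_accS {I : Inst} {t p : ℕ} (hp : 1 ≤ p) (k : List ℤ) (S : St I → St I → ℝ) :
    IsAcc (fun x : St I => wt I t p k x.1) S (accS I t p k) := by
  have h := isAcc_sa (c₁ := (1 / 2 : ℝ) ^ t) (c₂ := c2 p) (by positivity)
    (pow_le_one₀ (by norm_num) (by norm_num)) (c2_pos hp) (c2_le_one p)
    (fun x : St I => (norm1 (tau I x.1) : ℤ)) (fun x : St I => dot k (tau I x.1)) S
  have e : (fun x : St I => wt I t p k x.1) =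
      sw ((1 / 2 : ℝ) ^ t) (c2 p) (fun x : St I => (norm1 (tau I x.1) : ℤ))
        (fun x : St I => dot k (tau I x.1)) := funext fun x => wt_eq_sw I t p k x
  rw [e]
  exact h

theorem accS_ge {I : Inst} {q t p : ℕ} (hp : 1 ≤ p) (k : List ℤ) (x y : St I)
    (hxy : MC.prop q (mvS I) x y ≠ 0) :
    (1 / 2 : ℝ) ^ (t * 2) * min (wt I t p k x.1) (wt I t p k y.1) ≤
      wt I t p k x.1 * accS I t p k x y := by
  have hex : ∃ i < 2 ^ q, mvS I x i = some y := by
    unfold MC.prop at hxy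
    by_contra hcon
    push Not at hcon
    apply hxy
    have : (range (2 ^ q)).filter (fun i => mvS I x i = some y) = ∅ := by
      rw [filter_eq_empty_iff]
      intro i hi
      exact hcon i (mem_range.mp hi)
    rw [this]; simp
  obtain ⟨i, _, hi⟩ := hex
  rw [mvS_some] at hi
  rw [wt_eq_sw, wt_eq_sw, pow_mul]
  exact sa_ge (by positivity) (pow_le_one₀ (by norm_num) (by norm_num)) (c2_pos hp) _ _
    (by simpa using nbr_norm1 x.2 hi)

theorem rev_KS {I : Inst} {q t p : ℕ} (hp : 1 ≤ p) (hq : 4 * I.1.length ≤ 2 ^ q) (hq1 : 1 ≤ q)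
    (k : List ℤ) : Rev (fun x : St I => wt I t p k x.1) (KS I q t p k) :=
  metro_rev_gen (isProp_mvS hq hq1) (isAcc_accS hp k _)

theorem isKer_KS {I : Inst} {q t p : ℕ} (hp : 1 ≤ p) (hq : 4 * I.1.length ≤ 2 ^ q) (hq1 : 1 ≤ q)
    (k : List ℤ) : IsKer (KS I q t p k) :=
  metro_isKer (isProp_mvS hq hq1) (isAcc_accS (t := t) hp k (MC.prop q (mvS I))).nonneg
    (isAcc_accS (t := t) hp k (MC.prop q (mvS I))).le_one

theorem PN_eq_law {I : Inst} {q t p m A N : ℕ} {k : List ℤ} (ht : 1 ≤ t) (hp : 1 ≤ p)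
    (hm : t * 2 + p * (2 * A) ≤ m) (hk : GB I.2.length A k) (X Y : St I) :
    PN I q t p m N k X.1 Y.1 = law (KS I q t p k) (pt X) N Y := by
  unfold PN soft
  rw [(impl_step (q := q) ht hp hm hk).pr_runSteps X N (fun s => s = Y.1)]
  rw [sum_eq_single_of_mem Y (by simp)]
  intro y hy hne
  rw [mem_filter] at hy
  exact absurd (Subtype.ext hy.2) hne

/-- **Symmetry** of the transition probabilities between tables. -/
theorem PN_symm {I : Inst} {q t p m A N : ℕ} {k : List ℤ} (ht : 1 ≤ t) (hp : 1 ≤ p)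
    (hm : t * 2 + p * (2 * A) ≤ m) (hq : 4 * I.1.length ≤ 2 ^ q) (hq1 : 1 ≤ q)
    (hk : GB I.2.length A k) : ∀ X ∈ sols I, ∀ Y ∈ sols I,
      PN I q t p m N k X Y = PN I q t p m N k Y X := by
  intro X hX Y hY
  obtain ⟨hX1, hX2⟩ := mem_sols.1 hX
  obtain ⟨hY1, hY2⟩ := mem_sols.1 hY
  have h := law_rev (rev_KS (t := t) hp hq hq1 k) N ⟨X, hX1⟩ ⟨Y, hY1⟩
  rw [← PN_eq_law ht hp hm hk, ← PN_eq_law ht hp hm hk] at h
  simp only [wt_of_sol hX2, wt_of_sol hY2, one_mul] at h
  exact h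

/-! ### mixing -/

/-- the unnormalised Dirichlet form on the box -/
noncomputable def usDir (R : List UCell) (w f : List ℕ → ℝ) : ℝ :=
  ∑ y ∈ box R, ∑ i ∈ range R.length,
    if y.getD i 0 < (R.getD i (0, 0, 0)).2.2 then
      min (w y) (w (y.set i (y.getD i 0 + 1))) * (f (y.set i (y.getD i 0 + 1)) - f y) ^ 2
    else 0

theorem dir_ge_usDir {I : Inst} {q : ℕ} (hq : 2 * I.1.length ≤ 2 ^ q) (w : List ℕ → ℝ)
    (hw : ∀ y, 0 ≤ w y) (f : List ℕ → ℝ) :
    usDir I.1 w f / 2 ^ (q + 1) ≤ (∑ x : St I, ∑ y : St I,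
      MC.prop q (mvS I) x y * min (w x.1) (w y.1) * (f x.1 - f y.1) ^ 2) / 2 := by
  have h1 : ∀ x : St I, (∑ i ∈ range I.1.length,
      if x.1.getD i 0 < (I.1.getD i (0, 0, 0)).2.2 then
        min (w x.1) (w (x.1.set i (x.1.getD i 0 + 1))) *
          (f (x.1.set i (x.1.getD i 0 + 1)) - f x.1) ^ 2
      else 0) / 2 ^ q ≤
      ∑ y : St I, MC.prop q (mvS I) x y * min (w x.1) (w y.1) * (f x.1 - f y.1) ^ 2 := by
    intro x
    have h2 := sum_prop_mul q (mvS I) x (fun y => min (w x.1) (w y.1) * (f x.1 - f y.1) ^ 2)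
    have h3 : ∑ y : St I, MC.prop q (mvS I) x y * min (w x.1) (w y.1) * (f x.1 - f y.1) ^ 2 =
        ∑ y : St I, MC.prop q (mvS I) x y * (min (w x.1) (w y.1) * (f x.1 - f y.1) ^ 2) :=
      sum_congr rfl fun y _ => by ring
    rw [h3, h2]
    refine div_le_div_of_nonneg_right ?_ (by positivity)
    have h4 : ∑ i ∈ range I.1.length,
        (mvS I x (2 * i + 1)).elim 0 (fun y => min (w x.1) (w y.1) * (f x.1 - f y.1) ^ 2) ≤
        ∑ j ∈ range (2 ^ q),
          (mvS I x j).elim 0 (fun y => min (w x.1) (w y.1) * (f x.1 - f y.1) ^ 2) := by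
      rw [← sum_image (s := range I.1.length) (g := fun i => 2 * i + 1)
        (f := fun j => (mvS I x j).elim 0 (fun y => min (w x.1) (w y.1) * (f x.1 - f y.1) ^ 2))
        (fun a _ b _ h => by simpa using h)]
      refine sum_le_sum_of_subset_of_nonneg ?_ ?_
      · intro j hj
        rw [mem_image] at hj
        obtain ⟨i, hi, rfl⟩ := hj
        rw [mem_range] at hi ⊢
        omega
      · intro j _ _
        cases mvS I x j with
        | none => exact le_rfl
        | some y => exact mul_nonneg (le_min (hw _) (hw _)) (sq_nonneg _)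
    refine le_trans (le_of_eq ?_) h4
    refine sum_congr rfl fun i hi => ?_
    have hi' := mem_range.mp hi
    have e1 : (2 * i + 1) / 2 = i := by omega
    have e2 : mv I.1 x.1 (2 * i + 1) = if x.1.getD i 0 < (I.1.getD i (0, 0, 0)).2.2 then
        some (x.1.set i (x.1.getD i 0 + 1)) else none := by
      unfold mv
      rw [e1, if_pos hi', if_pos (by omega)]
    have e3 := mvS_map I x (2 * i + 1)
    rw [e2] at e3
    split_ifs at e3 with h5
    · rw [if_pos h5]
      obtain ⟨z, hz1, hz2⟩ := Option.map_eq_some_iff.1 e3.symm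
      rw [hz1, ← hz2]
      simp only [Option.elim_some]
      ring
    · rw [if_neg h5]
      rw [Option.map_eq_none_iff.1 e3.symm]
      rfl
  have h5 : usDir I.1 w f = ∑ x : St I, ∑ i ∈ range I.1.length,
      if x.1.getD i 0 < (I.1.getD i (0, 0, 0)).2.2 then
        min (w x.1) (w (x.1.set i (x.1.getD i 0 + 1))) *
          (f (x.1.set i (x.1.getD i 0 + 1)) - f x.1) ^ 2
      else 0 := by
    unfold usDir
    rw [← sum_coe_sort (box I.1)]
  rw [h5, pow_succ, ← div_div, sum_div]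
  exact div_le_div_of_nonneg_right (sum_le_sum fun x _ => h1 x) (by norm_num)

/-- The Poincaré inequality on the box, in the form given by the gap theorem. -/
def BoxPoinc (R : List UCell) (w : List ℕ → ℝ) (C : ℝ) : Prop :=
  ∀ f : List ℕ → ℝ, ∑ y ∈ box R, w y * f y ^ 2 - (∑ y ∈ box R, w y * f y) ^ 2 / ∑ y ∈ box R, w y ≤
    C * usDir R w f

theorem varU_le_of_boxPoinc {I : Inst} {w : List ℕ → ℝ} (hw : ∀ y, 0 < w y) {C : ℝ} (hC : 0 ≤ C)
    (h : BoxPoinc I.1 w C) {q : ℕ} (hq : 2 * I.1.length ≤ 2 ^ q) (g : St I → ℝ) :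
    varU (fun x : St I => w x.1) g ≤ C * 2 ^ (q + 1) * ((∑ x : St I, ∑ y : St I,
      MC.prop q (mvS I) x y * min (w x.1) (w y.1) * (g x - g y) ^ 2) / 2) := by
  classical
  set f : List ℕ → ℝ := fun y => if h : y ∈ box I.1 then g ⟨y, h⟩ else 0 with hf
  have hfg : ∀ x : St I, f x.1 = g x := fun x => by simp [hf]
  have h1 := h f
  have h2 := dir_ge_usDir hq w (fun y => (hw y).le) f
  have hne : (Finset.univ : Finset (St I)).Nonempty :=
    ⟨⟨_, zero_mem_box I.1⟩, mem_univ _⟩
  have hm : 0 < mass (fun x : St I => w x.1) := sum_pos (fun y _ => hw _) hne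
  rw [varU_eq hm.ne']
  have e1 : ∑ x : St I, w x.1 * g x ^ 2 = ∑ y ∈ box I.1, w y * f y ^ 2 := by
    rw [← sum_coe_sort (box I.1)]
    exact sum_congr rfl fun x _ => by rw [hfg]
  have e2 : mass (fun x : St I => w x.1) = ∑ y ∈ box I.1, w y := by
    rw [← sum_coe_sort (box I.1)]; rfl
  have e3 : ∑ x : St I, w x.1 * g x = ∑ y ∈ box I.1, w y * f y := by
    rw [← sum_coe_sort (box I.1)]
    exact sum_congr rfl fun x _ => by rw [hfg]
  have e4 : mass (fun x : St I => w x.1) * mean (fun x : St I => w x.1) g ^ 2 =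
      (∑ y ∈ box I.1, w y * f y) ^ 2 / ∑ y ∈ box I.1, w y := by
    unfold mean
    rw [e3, ← e2]
    field_simp
  rw [e1, e4]
  refine h1.trans ?_
  simp only [hfg] at h2
  calc C * usDir I.1 w f = C * 2 ^ (q + 1) * (usDir I.1 w f / 2 ^ (q + 1)) := by
        field_simp
    _ ≤ _ := by gcongr

/-- crude bound for the ratio of two weights -/
theorem wt_ratio {I : Inst} {t p A D : ℕ} (hp : 1 ≤ p) {k : List ℤ} (hk : GB I.2.length A k)
    (hD : ∀ y ∈ box I.1, ∀ a ∈ tau I y, a.natAbs ≤ D) {x y : List ℕ} (hx : x ∈ box I.1)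
    (hy : y ∈ box I.1) :
    wt I t p k y ≤ 2 ^ (t * (I.2.length * D) + 2 * (I.2.length * (A * D))) * wt I t p k x := by
  have hn : ∀ z ∈ box I.1, norm1 (tau I z) ≤ I.2.length * D := by
    intro z hz
    rw [norm1_tau]
    have : ∀ v ∈ range I.2.length, (tv I z v).natAbs ≤ D := by
      intro v hv
      refine hD z hz _ ?_
      unfold tau
      rw [List.mem_map]
      exact ⟨v, List.mem_range.2 (mem_range.1 hv), rfl⟩
    refine (sum_le_sum this).trans ?_
    simp
  have hd : ∀ z ∈ box I.1, |dot k (tau I z)| ≤ ((I.2.length * (A * D) : ℕ) : ℤ) := by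
    intro z hz
    rw [dot_tau I hk.1]
    refine (abs_sum_le_sum_abs _ _).trans ?_
    have : ∀ v ∈ range I.2.length, |k.getD v 0 * tv I z v| ≤ ((A * D : ℕ) : ℤ) := by
      intro v hv
      rw [abs_mul, ← Int.natCast_natAbs, ← Int.natCast_natAbs]
      have h1 : (tv I z v).natAbs ≤ D := by
        refine hD z hz _ ?_
        unfold tau
        rw [List.mem_map]
        exact ⟨v, List.mem_range.2 (mem_range.1 hv), rfl⟩
      have hv' : v < k.length := by rw [hk.1]; exact mem_range.1 hv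
      have h2 : (k.getD v 0).natAbs ≤ A := by
        rw [List.getD_eq_getElem _ _ hv']
        exact hk.2 _ (List.getElem_mem hv')
      exact_mod_cast Nat.mul_le_mul h2 h1
    refine (sum_le_sum this).trans ?_
    simp
  have hc2 := c2_pos hp
  have hB1 : 1 ≤ Bp p := by
    rw [Bp_eq]
    exact (one_le_inv₀ hc2).2 (c2_le_one p)
  have hB2 : Bp p ≤ 2 := by
    rw [Bp_eq, inv_le_comm₀ hc2 (by norm_num)]
    have := half_le_c2 hp
    linarith
  have hB0 : 0 < Bp p := by linarith
  have h1 := hn x hx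
  have h2 := abs_le.mp (hd x hx)
  have h3 := abs_le.mp (hd y hy)
  unfold wt
  have hA1 : (1 / 2 : ℝ) ^ (t * norm1 (tau I y)) ≤ 1 := pow_le_one₀ (by norm_num) (by norm_num)
  have hA2 : (1 : ℝ) ≤ 2 ^ (t * (I.2.length * D)) * (1 / 2 : ℝ) ^ (t * norm1 (tau I x)) := by
    have h4 : (1 / 2 : ℝ) ^ (t * (I.2.length * D)) ≤ (1 / 2 : ℝ) ^ (t * norm1 (tau I x)) :=
      pow_le_pow_of_le_one (by norm_num) (by norm_num) (Nat.mul_le_mul_left t h1)
    calc (1 : ℝ) = 2 ^ (t * (I.2.length * D)) * (1 / 2 : ℝ) ^ (t * (I.2.length * D)) := by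
          rw [← mul_pow]; norm_num
      _ ≤ _ := by gcongr
  have hB3 : Bp p ^ dot k (tau I y) ≤ 2 ^ (2 * (I.2.length * (A * D))) * Bp p ^ dot k (tau I x) := by
    have h5 : Bp p ^ (dot k (tau I y) - dot k (tau I x)) ≤ 2 ^ (2 * (I.2.length * (A * D))) := by
      calc Bp p ^ (dot k (tau I y) - dot k (tau I x)) ≤
          Bp p ^ (((2 * (I.2.length * (A * D)) : ℕ) : ℤ)) :=
            zpow_le_zpow_right₀ hB1 (by push_cast at h2 h3 ⊢; linarith [h2.1, h3.2])
        _ = Bp p ^ (2 * (I.2.length * (A * D))) := zpow_natCast _ _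
        _ ≤ _ := pow_le_pow_left₀ hB0.le hB2 _
    rw [zpow_sub₀ hB0.ne', div_le_iff₀ (by positivity)] at h5
    exact h5
  calc (1 / 2 : ℝ) ^ (t * norm1 (tau I y)) * Bp p ^ dot k (tau I y)
      ≤ 1 * (2 ^ (2 * (I.2.length * (A * D))) * Bp p ^ dot k (tau I x)) := by
        gcongr
    _ ≤ (2 ^ (t * (I.2.length * D)) * (1 / 2 : ℝ) ^ (t * norm1 (tau I x))) *
        (2 ^ (2 * (I.2.length * (A * D))) * Bp p ^ dot k (tau I x)) := by
        gcongr
    _ = _ := by rw [pow_add]; ring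

theorem card_box_le (R : List UCell) (B : ℕ) (hB : ∀ c ∈ R, c.2.2 ≤ B) :
    (box R).card ≤ 2 ^ (B * R.length) := by
  induction R with
  | nil => simp [box]
  | cons c R ih =>
    have h1 : (box (c :: R)).card = ∑ y ∈ box (c :: R), 1 := by simp
    rw [h1, sum_box_cons]
    simp only [sum_const, smul_eq_mul, mul_one, card_range]
    have h2 := ih (fun c hc => hB c (List.mem_cons_of_mem _ hc))
    have h3 : c.2.2 + 1 ≤ 2 ^ B := by
      have := hB c List.mem_cons_self
      have h4 : B + 1 ≤ 2 ^ B := Nat.lt_two_pow_self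
      omega
    calc (c.2.2 + 1) * (box R).card ≤ 2 ^ B * 2 ^ (B * R.length) := Nat.mul_le_mul h3 h2
      _ = 2 ^ (B * (c :: R).length) := by
        rw [← pow_add, List.length_cons]
        congr 1
        ring

/-- exponent of the crude starting bound -/
def Lst (I : Inst) (t A D B : ℕ) : ℕ :=
  t * (I.2.length * D) + 2 * (I.2.length * (A * D)) + B * I.1.length

/-- **Mixing of the soft chain** (total variation form). -/
theorem soft_tv {I : Inst} {q t p A D B N κ : ℕ} {k : List ℤ} (hp : 1 ≤ p)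
    (hq : 4 * I.1.length ≤ 2 ^ q) (hq1 : 1 ≤ q)
    (hk : GB I.2.length A k) (hD : ∀ y ∈ box I.1, ∀ a ∈ tau I y, a.natAbs ≤ D)
    (hB : ∀ c ∈ I.1, c.2.2 ≤ B) {C : ℝ} (hC : 1 ≤ C)
    (hP : BoxPoinc I.1 (wt I t p k) C)
    (hN : C * 2 ^ (q + 1) * 4 ^ t * ((Lst I t A D B + κ : ℕ) : ℝ) ≤ N) (x : St I) :
    MC.tv (law (KS I q t p k) (pt x) N)
      (fun y => wt I t p k y.1 / mass (fun x : St I => wt I t p k x.1)) ≤ (1 / 2) ^ κ := by
  have hw : ∀ x : St I, 0 < wt I t p k x.1 := fun x => wt_pos hp k x.1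
  have hC2 : (1 : ℝ) ≤ C * 2 ^ (q + 1) := by
    have : (1 : ℝ) ≤ 2 ^ (q + 1) := one_le_pow₀ (by norm_num)
    nlinarith
  have hL : mass (fun x : St I => wt I t p k x.1) / wt I t p k x.1 ≤
      Real.exp (2 * (Lst I t A D B : ℝ)) := by
    refine (mass_div_le (w := fun x : St I => wt I t p k x.1) (hw x)
      (fun y => wt_ratio hp hk hD x.2 y.2)).trans ?_
    rw [Fintype.card_coe]
    have h1 : ((box I.1).card : ℝ) ≤ 2 ^ (B * I.1.length) := by exact_mod_cast card_box_le _ B hB
    calc (2 : ℝ) ^ (t * (I.2.length * D) + 2 * (I.2.length * (A * D))) * ((box I.1).card : ℝ)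
        ≤ 2 ^ (t * (I.2.length * D) + 2 * (I.2.length * (A * D))) * 2 ^ (B * I.1.length) := by
          gcongr
      _ = 2 ^ (Lst I t A D B) := by rw [← pow_add]; rfl
      _ ≤ (Real.exp 1) ^ (Lst I t A D B) := by
          refine pow_le_pow_left₀ (by norm_num) ?_ _
          have := Real.add_one_le_exp (1 : ℝ)
          linarith
      _ = Real.exp ((Lst I t A D B : ℝ)) := by rw [← Real.exp_nat_mul]; ring_nf
      _ ≤ _ := Real.exp_le_exp.mpr (by
          have : (0 : ℝ) ≤ (Lst I t A D B : ℝ) := Nat.cast_nonneg _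
          linarith)
  have hlog : Real.log (1 / (1 / 2) ^ κ) ≤ κ := by
    rw [one_div_pow, one_div_one_div, Real.log_pow]
    have h1 : Real.log 2 ≤ 1 := by
      have := Real.log_two_lt_d9
      linarith
    have h2 : (0 : ℝ) ≤ κ := Nat.cast_nonneg _
    nlinarith
  refine tv_metro_exact hw (isProp_mvS hq hq1) (isAcc_accS hp k _) (c₀ := (1 / 2 : ℝ) ^ (t * 2))
    (by positivity) (pow_le_one₀ (by norm_num) (by norm_num))
    (fun x y hxy => accS_ge hp k x y hxy) hC2
    (fun f => varU_le_of_boxPoinc (wt_pos hp k) (by linarith) hP (by omega) f) x N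
    (by positivity) hL ?_
  refine le_trans ?_ hN
  have e : C * 2 ^ (q + 1) / (1 / 2 : ℝ) ^ (t * 2) = C * 2 ^ (q + 1) * 4 ^ t := by
    rw [mul_comm t 2, pow_mul, div_eq_mul_inv, ← inv_pow]
    norm_num
  rw [e]
  push_cast
  have h3 : (0 : ℝ) ≤ C * 2 ^ (q + 1) * 4 ^ t := by positivity
  exact mul_le_mul_of_nonneg_left (by linarith) h3

theorem mass_eq_Zk (I : Inst) (t p : ℕ) (k : List ℤ) :
    mass (fun x : St I => wt I t p k x.1) = Zk I t p k := by
  unfold mass Zk
  rw [← sum_coe_sort (box I.1)]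

theorem Zk_pos {I : Inst} {t p : ℕ} (hp : 1 ≤ p) (k : List ℤ) : 0 < Zk I t p k := by
  rw [← mass_eq_Zk]
  exact sum_pos (fun y _ => wt_pos hp k _) ⟨⟨_, zero_mem_box I.1⟩, mem_univ _⟩

/-- **(C2)**: transition probabilities to tables. -/
theorem PN_close {I : Inst} {q t p m A D B N κ : ℕ} {k : List ℤ} (ht : 1 ≤ t) (hp : 1 ≤ p)
    (hm : t * 2 + p * (2 * A) ≤ m) (hq : 4 * I.1.length ≤ 2 ^ q) (hq1 : 1 ≤ q)
    (hk : GB I.2.length A k) (hD : ∀ y ∈ box I.1, ∀ a ∈ tau I y, a.natAbs ≤ D)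
    (hB : ∀ c ∈ I.1, c.2.2 ≤ B) {C : ℝ} (hC : 1 ≤ C)
    (hP : BoxPoinc I.1 (wt I t p k) C)
    (hN : C * 2 ^ (q + 1) * 4 ^ t * ((Lst I t A D B + κ : ℕ) : ℝ) ≤ N)
    {X Y : List ℕ} (hX : X ∈ box I.1) (hY : Y ∈ box I.1) :
    |PN I q t p m N k X Y - wt I t p k Y / Zk I t p k| ≤ (1 / 2) ^ κ := by
  have h := soft_tv hp hq hq1 hk hD hB hC hP hN ⟨X, hX⟩
  have h2 := abs_law_sub_le_of_tv (w := fun x : St I => wt I t p k x.1)
    (by rw [mass_eq_Zk]; exact (Zk_pos hp k).ne') (isKer_KS (t := t) hp hq hq1 k) ⟨X, hX⟩ N h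
    {⟨Y, hY⟩}
  rw [sum_singleton, sum_singleton, mass_eq_Zk] at h2
  rw [show PN I q t p m N k X Y = law (KS I q t p k) (pt ⟨X, hX⟩) N ⟨Y, hY⟩ from
    PN_eq_law ht hp hm hk ⟨X, hX⟩ ⟨Y, hY⟩]
  exact h2

/-- **(C1)**: averages of test functions. -/
theorem soft_close {I : Inst} {q t p m A D B N κ : ℕ} {k : List ℤ} (ht : 1 ≤ t) (hp : 1 ≤ p)
    (hm : t * 2 + p * (2 * A) ≤ m) (hq : 4 * I.1.length ≤ 2 ^ q) (hq1 : 1 ≤ q)
    (hk : GB I.2.length A k) (hD : ∀ y ∈ box I.1, ∀ a ∈ tau I y, a.natAbs ≤ D)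
    (hB : ∀ c ∈ I.1, c.2.2 ≤ B) {C : ℝ} (hC : 1 ≤ C)
    (hP : BoxPoinc I.1 (wt I t p k) C)
    (hN : C * 2 ^ (q + 1) * 4 ^ t * ((Lst I t A D B + κ : ℕ) : ℝ) ≤ N)
    {X : List ℕ} (hX : X ∈ box I.1) {φ : List ℕ → ℝ} (h0 : ∀ y, 0 ≤ φ y) (h1 : ∀ y, φ y ≤ 1) :
    |avg (N * (q + m)) (fun l => φ (soft I q t p m N k X l)) -
      (∑ y ∈ box I.1, wt I t p k y * φ y) / Zk I t p k| ≤ (1 / 2) ^ κ := by
  have h := soft_tv hp hq hq1 hk hD hB hC hP hN ⟨X, hX⟩
  have e1 : avg (N * (q + m)) (fun l => φ (soft I q t p m N k X l)) =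
      ∑ y : St I, law (KS I q t p k) (pt ⟨X, hX⟩) N y * φ y.1 :=
    (impl_step (q := q) ht hp hm hk).avg_runSteps ⟨X, hX⟩ N φ
  have e2 : (∑ y ∈ box I.1, wt I t p k y * φ y) / Zk I t p k =
      ∑ y : St I, wt I t p k y.1 / mass (fun x : St I => wt I t p k x.1) * φ y.1 := by
    rw [← sum_coe_sort (box I.1), sum_div, mass_eq_Zk]
    exact sum_congr rfl fun y _ => by ring
  rw [e1, e2]
  refine (abs_sum_mul_sub_le_tv ?_ (fun y => h0 y.1) (fun y => h1 y.1)).trans h
  rw [law_sum (isKer_KS (t := t) hp hq hq1 k), pt_sum, ← sum_div]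
  refine (div_self ?_).symm
  have h3 := (Zk_pos (I := I) (t := t) hp k).ne'
  rw [← mass_eq_Zk] at h3
  exact h3

end Crest.Agent.R309.US
end

-- ▼ part R309/USParam
section

/-!
# R309: parameters of the inner step and elementary size bounds (helper305)
-/

set_option autoImplicit false

namespace Crest.Agent.R309.USP

open Finset Crest.Agent.R309.US

/-! ### the parameters, as functions of the unary parameter `K` -/

/-- shifted parameter, positive -/
def sK (K : ℕ) : ℕ := K + 1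
/-- number of bits for the move index -/
def qK (K : ℕ) : ℕ := (4 * sK K ^ 2).size
/-- exponent of `θ = 2^(-t)` -/
def tK (K : ℕ) : ℕ := (8 * sK K ^ 2).size
/-- exponent of the field base -/
def pK (K : ℕ) : ℕ := (8 * sK K ^ 5).size
/-- logarithm of the number of configurations -/
def LamK (K : ℕ) : ℕ := sK K ^ 3
/-- logarithm of the number of gradient rounds -/
def lTK (K : ℕ) : ℕ := (64 * sK K ^ 12).size
/-- bound of the gauges -/
def AK (K : ℕ) : ℕ := 128 * sK K ^ 14
/-- number of bits of the acceptance test -/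
def mK (K : ℕ) : ℕ := 2 * tK K + 2 * AK K * pK K
/-- logarithmic mass ratio -/
def EK (K : ℕ) : ℕ := LamK K + 2 * (2 * sK K * (AK K * sK K ^ 2)) + tK K * (2 * sK K * sK K ^ 2)
/-- logarithm of the inverse accuracy -/
def eK (K : ℕ) : ℕ := lTK K + LamK K + 4
/-- number of steps of the soft chain -/
def NK (K : ℕ) : ℕ :=
  (sK K ^ 4 + 2) * sK K ^ 4 * (16 * sK K ^ 2) ^ 4 * (16 * sK K ^ 2) * (16 * sK K ^ 2) ^ 2 *
    (EK K + eK K)

theorem lt_two_pow_size (n : ℕ) : n < 2 ^ n.size := Nat.lt_size_self n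

theorem two_pow_size_le {n : ℕ} (h : 0 < n) : 2 ^ n.size ≤ 2 * n := by
  have h1 : 0 < n.size := Nat.size_pos.2 h
  obtain ⟨k, hk⟩ := Nat.exists_eq_succ_of_ne_zero h1.ne'
  have h2 : 2 ^ k ≤ n := by
    by_contra h3
    have := Nat.size_le.2 (not_le.1 h3)
    omega
  rw [hk, pow_succ]; omega

theorem sK_pos (K : ℕ) : 0 < sK K := Nat.succ_pos K

theorem four_mul_le (K : ℕ) : 4 * sK K ^ 2 ≤ 2 ^ qK K := (lt_two_pow_size _).le

theorem two_pow_qK (K : ℕ) : 2 ^ qK K ≤ 8 * sK K ^ 2 := by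
  have h := two_pow_size_le (n := 4 * sK K ^ 2) (by have := sK_pos K; positivity)
  unfold qK; omega

theorem one_le_qK (K : ℕ) : 1 ≤ qK K := Nat.size_pos.2 (by have := sK_pos K; positivity)

theorem one_le_tK (K : ℕ) : 1 ≤ tK K := Nat.size_pos.2 (by have := sK_pos K; positivity)

theorem one_le_pK (K : ℕ) : 1 ≤ pK K := Nat.size_pos.2 (by have := sK_pos K; positivity)

theorem eight_sq_le (K : ℕ) : 8 * sK K ^ 2 ≤ 2 ^ tK K := (lt_two_pow_size _).le

theorem two_pow_tK (K : ℕ) : 2 ^ tK K ≤ 16 * sK K ^ 2 := by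
  have h := two_pow_size_le (n := 8 * sK K ^ 2) (by have := sK_pos K; positivity)
  unfold tK; omega

theorem eight_five_le (K : ℕ) : 8 * sK K ^ 5 ≤ 2 ^ pK K := (lt_two_pow_size _).le

theorem two_pow_pK (K : ℕ) : 2 ^ pK K ≤ 16 * sK K ^ 5 := by
  have h := two_pow_size_le (n := 8 * sK K ^ 5) (by have := sK_pos K; positivity)
  unfold pK; omega

theorem sixtyfour_le (K : ℕ) : 64 * sK K ^ 12 ≤ 2 ^ lTK K := (lt_two_pow_size _).le

theorem two_pow_lTK (K : ℕ) : 2 ^ lTK K ≤ 128 * sK K ^ 12 := by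
  have h := two_pow_size_le (n := 64 * sK K ^ 12) (by have := sK_pos K; positivity)
  unfold lTK; omega

theorem two_pow_lTK_mul (K : ℕ) : 2 ^ lTK K * sK K ^ 2 ≤ AK K := by
  unfold AK
  calc 2 ^ lTK K * sK K ^ 2 ≤ 128 * sK K ^ 12 * sK K ^ 2 := Nat.mul_le_mul_right _ (two_pow_lTK K)
    _ = 128 * sK K ^ 14 := by ring


variable {J : Inst} {K : ℕ}

theorem USmall.lam (h : USmall J K) : K * J.1.length ≤ LamK K := by
  unfold LamK sK
  calc K * J.1.length ≤ K * K ^ 2 := Nat.mul_le_mul_left _ h.cells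
    _ = K ^ 3 := by ring
    _ ≤ (K + 1) ^ 3 := Nat.pow_le_pow_left (by omega) _

theorem USmall.card_box (h : USmall J K) : (box J.1).card ≤ 2 ^ LamK K :=
  (card_box_le J.1 K h.bds).trans (Nat.pow_le_pow_right (by norm_num) (USmall.lam h))

theorem USmall.four_cells (h : USmall J K) : 4 * J.1.length ≤ 2 ^ qK K := by
  refine le_trans ?_ (four_mul_le K)
  refine Nat.mul_le_mul_left _ (h.cells.trans ?_)
  exact Nat.pow_le_pow_left (by unfold sK; omega) _

theorem USmall.verts' (h : USmall J K) : J.2.length ≤ 2 * sK K := h.verts.trans (by unfold sK; omega)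

theorem USmall.tau_le' (h : USmall J K) : ∀ y ∈ box J.1, ∀ a ∈ tau J y, a.natAbs ≤ sK K ^ 2 :=
  fun y hy a ha => (h.tau_le y hy a ha).trans (Nat.pow_le_pow_left (by unfold sK; omega) _)

theorem USmall.theta (h : USmall J K) : 2 * J.2.length ^ 2 ≤ 4 ^ tK K := by
  have h1 := USmall.verts' h
  have h2 : 2 ^ tK K ≤ 4 ^ tK K := Nat.pow_le_pow_left (by norm_num) _
  calc 2 * J.2.length ^ 2 ≤ 2 * (2 * sK K) ^ 2 := by gcongr
    _ = 8 * sK K ^ 2 := by ring
    _ ≤ 2 ^ tK K := eight_sq_le K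
    _ ≤ 4 ^ tK K := h2

theorem USmall.base (h : USmall J K) : 4 * (J.2.length * (sK K ^ 2) ^ 2) ≤ 2 ^ pK K := by
  have h1 := USmall.verts' h
  calc 4 * (J.2.length * (sK K ^ 2) ^ 2) ≤ 4 * (2 * sK K * (sK K ^ 2) ^ 2) := by gcongr
    _ = 8 * sK K ^ 5 := by ring
    _ ≤ 2 ^ pK K := eight_five_le K

theorem USmall.rounds (h : USmall J K) :
    2 * (J.2.length * LamK K ^ 2) * 2 ^ pK K ≤ 2 ^ lTK K := by
  have h1 := USmall.verts' h
  have h2 := two_pow_pK K
  calc 2 * (J.2.length * LamK K ^ 2) * 2 ^ pK K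
      ≤ 2 * (2 * sK K * LamK K ^ 2) * (16 * sK K ^ 5) := by gcongr
    _ = 64 * sK K ^ 12 := by unfold LamK; ring
    _ ≤ 2 ^ lTK K := sixtyfour_le K

theorem USmall.steps (h : USmall J K) :
    (((J.1.length : ℝ) ^ 2 + 2) * ((K : ℝ) + 1) ^ 4 * 2 ^ (4 * tK K)) * 2 ^ (qK K + 1) *
      4 ^ tK K * ((Lst J (tK K) (AK K) (sK K ^ 2) K + eK K : ℕ) : ℝ) ≤ NK K := by
  have h1 := USmall.verts' h
  have h2 : J.1.length ≤ sK K ^ 2 := h.cells.trans (Nat.pow_le_pow_left (by unfold sK; omega) _)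
  have h3 := two_pow_tK K
  have h4 := two_pow_qK K
  have h5 := USmall.lam h
  have e1 : (((J.1.length : ℝ) ^ 2 + 2) * ((K : ℝ) + 1) ^ 4 * 2 ^ (4 * tK K)) * 2 ^ (qK K + 1) *
      4 ^ tK K * ((Lst J (tK K) (AK K) (sK K ^ 2) K + eK K : ℕ) : ℝ) =
      (((J.1.length ^ 2 + 2) * sK K ^ 4 * (2 ^ tK K) ^ 4 * (2 ^ qK K * 2) * (2 ^ tK K) ^ 2 *
        (Lst J (tK K) (AK K) (sK K ^ 2) K + eK K) : ℕ) : ℝ) := by
    have e4 : (4 : ℝ) ^ tK K = (2 ^ tK K) ^ 2 := by
      rw [← pow_mul, mul_comm, pow_mul]; norm_num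
    rw [e4, mul_comm 4 (tK K), pow_mul, pow_succ]
    unfold sK
    push_cast
    ring
  rw [e1]
  refine Nat.cast_le.2 ?_
  unfold NK EK Lst
  have h6 : J.1.length ^ 2 + 2 ≤ sK K ^ 4 + 2 := by
    have := Nat.pow_le_pow_left h2 2
    calc J.1.length ^ 2 + 2 ≤ (sK K ^ 2) ^ 2 + 2 := by omega
      _ = sK K ^ 4 + 2 := by ring
  have h7 : 2 ^ qK K * 2 ≤ 16 * sK K ^ 2 := by omega
  have h8 : tK K * (J.2.length * sK K ^ 2) + 2 * (J.2.length * (AK K * sK K ^ 2)) + K * J.1.length + eK K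
      ≤ LamK K + 2 * (2 * sK K * (AK K * sK K ^ 2)) + tK K * (2 * sK K * sK K ^ 2) + eK K := by
    have a1 : tK K * (J.2.length * sK K ^ 2) ≤ tK K * (2 * sK K * sK K ^ 2) := by gcongr
    have a2 : 2 * (J.2.length * (AK K * sK K ^ 2)) ≤ 2 * (2 * sK K * (AK K * sK K ^ 2)) := by gcongr
    omega
  gcongr

end Crest.Agent.R309.USP
end

-- ▼ part R309/Gauge943
section

/-!
# R309: exchange inequality with constant one, and the explicit gauge

Box systems on a directed multigraph `s t : E → V`: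
`N lo hi p` is the number of integer points `x` of the box `[lo, hi]` with divergence `bd x = p`.

* `exch`: `N p * N q ≤ ∑_{c : p c < q c} N (p - e_a + e_c) * N (q + e_a - e_c)` whenever `q a < p a`
  (support statement by a token walk, constant one by the self-improvement trick
  `C → √C` over the slices `x + y = z`).
-/

set_option autoImplicit false

namespace Crest.Agent.R309.Gauge943

open Finset

variable {V E : Type*} [Fintype V] [DecidableEq V] [Fintype E] [DecidableEq E]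

/-- divergence of an integer vector on the edges -/
def bd (s t : E → V) (x : E → ℤ) : V → ℤ :=
  fun v => ∑ e, x e * ((if s e = v then 1 else 0) - (if t e = v then 1 else 0))

/-- unit vector -/
abbrev ev (a : V) : V → ℤ := Pi.single a 1

omit [Fintype V] [DecidableEq E] in
theorem bd_add (s t : E → V) (x y : E → ℤ) : bd s t (x + y) = bd s t x + bd s t y := by
  funext v; simp [bd, add_mul, Finset.sum_add_distrib]

omit [Fintype V] [DecidableEq E] in
theorem bd_sub (s t : E → V) (x y : E → ℤ) : bd s t (x - y) = bd s t x - bd s t y := by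
  funext v; simp [bd, sub_mul, Finset.sum_sub_distrib]

omit [Fintype V] in
theorem bd_single (s t : E → V) (e : E) :
    bd s t (Pi.single e 1) = ev (s e) - ev (t e) := by
  funext v
  unfold bd
  rw [Finset.sum_eq_single e]
  · simp [Pi.single_apply, eq_comm]
  · intro b _ hb; simp [hb]
  · simp

omit [DecidableEq E] in
theorem sum_bd (s t : E → V) (x : E → ℤ) : ∑ v, bd s t x v = 0 := by
  unfold bd
  rw [Finset.sum_comm]
  apply Finset.sum_eq_zero
  intro e _
  rw [← Finset.mul_sum, Finset.sum_sub_distrib]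
  simp

/-- `z` is coordinatewise between `x` and `y` -/
def Btw (x y z : E → ℤ) : Prop := ∀ e, (x e ≤ z e ∧ z e ≤ y e) ∨ (y e ≤ z e ∧ z e ≤ x e)

omit [Fintype V] [DecidableEq V] [Fintype E] [DecidableEq E] in
theorem Btw.trans {x y z w : E → ℤ} (h1 : Btw x y z) (h2 : Btw z y w) : Btw x y w := by
  intro e
  have a := h1 e
  have b := h2 e
  omega

omit [Fintype V] in
/-- token walk: a unit can be pushed from the token `p` towards `y` until it reaches a vertex
where `y` has more than `q0 + e_a`. -/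
theorem walk (s t : E → V) (y : E → ℤ) (q0 : V → ℤ) (a : V) (ha : bd s t y a < q0 a + 1) :
    ∀ (n : ℕ) (x : E → ℤ) (p : V), (∑ e, (x e - y e).natAbs) ≤ n → bd s t x = q0 + ev p →
      bd s t y p < bd s t x p →
      ∃ (c : V) (z : E → ℤ), Btw x y z ∧ bd s t z = q0 + ev c ∧ (q0 + ev a) c < bd s t y c := by
  intro n
  induction n with
  | zero =>
    intro x p hn hx hp
    have hxy : x = y := by
      funext e
      have : (x e - y e).natAbs = 0 := by
        have h := Finset.sum_eq_zero_iff.mp (Nat.le_zero.mp hn) e (Finset.mem_univ e)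
        exact h
      omega
    subst hxy
    exact absurd hp (lt_irrefl _)
  | succ n ih =>
    intro x p hn hx hp
    -- an edge at the token
    have hex : ∃ e, 0 < (x e - y e) * ((if s e = p then 1 else 0) - (if t e = p then 1 else 0)) := by
      by_contra hcon
      push Not at hcon
      have : bd s t x p - bd s t y p ≤ 0 := by
        have h : bd s t x p - bd s t y p
            = ∑ e, (x e - y e) * ((if s e = p then 1 else 0) - (if t e = p then 1 else 0)) := by
          simp only [bd, ← Finset.sum_sub_distrib, sub_mul]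
        rw [h]
        exact Finset.sum_nonpos (fun e _ => hcon e)
      omega
    obtain ⟨e, he⟩ := hex
    -- the step
    have step : ∀ (r : V) (x' : E → ℤ), Btw x y x' → bd s t x' = q0 + ev r →
        (∑ e, (x' e - y e).natAbs) ≤ n →
        ∃ (c : V) (z : E → ℤ), Btw x y z ∧ bd s t z = q0 + ev c ∧ (q0 + ev a) c < bd s t y c := by
      intro r x' hb hr hs
      by_cases hstop : (q0 + ev a) r < bd s t y r
      · exact ⟨r, x', hb, hr, hstop⟩
      · push Not at hstop
        have hlt : bd s t y r < bd s t x' r := by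
          rw [hr]
          simp only [Pi.add_apply, Pi.single_eq_same]
          by_cases hra : r = a
          · subst hra; exact ha
          · simp only [Pi.add_apply, Pi.single_apply, hra, if_false, add_zero] at hstop
            omega
        obtain ⟨c, z, h1, h2, h3⟩ := ih x' r hs hr hlt
        exact ⟨c, z, hb.trans h1, h2, h3⟩
    have hsum : ∀ (δ : ℤ), (x e + δ - y e).natAbs + 1 ≤ (x e - y e).natAbs →
        (∑ e', ((x + (Pi.single e δ : E → ℤ)) e' - y e').natAbs) ≤ n := by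
      intro δ hδ
      have h1 : ∑ e', ((x + (Pi.single e δ : E → ℤ)) e' - y e').natAbs
          = ((x + (Pi.single e δ : E → ℤ)) e - y e).natAbs
            + ∑ e' ∈ Finset.univ.erase e, ((x + (Pi.single e δ : E → ℤ)) e' - y e').natAbs :=
        (Finset.add_sum_erase _ _ (Finset.mem_univ e)).symm
      have h2 : ∑ e', (x e' - y e').natAbs
          = (x e - y e).natAbs + ∑ e' ∈ Finset.univ.erase e, (x e' - y e').natAbs :=
        (Finset.add_sum_erase _ _ (Finset.mem_univ e)).symm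
      have h3 : ∑ e' ∈ Finset.univ.erase e, ((x + (Pi.single e δ : E → ℤ)) e' - y e').natAbs
          = ∑ e' ∈ Finset.univ.erase e, (x e' - y e').natAbs := by
        apply Finset.sum_congr rfl
        intro e' he'
        have : e' ≠ e := Finset.ne_of_mem_erase he'
        simp [this]
      have h4 : ((x + (Pi.single e δ : E → ℤ)) e - y e).natAbs = (x e + δ - y e).natAbs := by
        simp
      rw [h1, h3, h4]
      rw [h2] at hn
      omega
    have hbt : ∀ (δ : ℤ), ((x e ≤ x e + δ ∧ x e + δ ≤ y e) ∨ (y e ≤ x e + δ ∧ x e + δ ≤ x e)) →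
        Btw x y (x + Pi.single e δ) := by
      intro δ hδ e'
      by_cases h : e' = e
      · subst h; simpa using hδ
      · simp [h]; omega
    by_cases hs : s e = p
    · by_cases ht : t e = p
      · simp [hs, ht] at he
      · -- decrease x e by one
        simp only [hs, ht, if_true, if_false, sub_zero, mul_one] at he
        refine step (t e) (x + Pi.single e (-1)) (hbt (-1) (by omega)) ?_ (hsum (-1) (by omega))
        have : (Pi.single e (-1) : E → ℤ) = 0 - Pi.single e 1 := by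
          rw [zero_sub, ← Pi.single_neg]
        rw [bd_add, this, bd_sub, bd_single, hx, hs]
        have h0 : bd s t (0 : E → ℤ) = 0 := by funext v; simp [bd]
        rw [h0]; abel
    · by_cases ht : t e = p
      · simp only [hs, ht, if_true, if_false, zero_sub, mul_neg, mul_one] at he
        refine step (s e) (x + Pi.single e 1) (hbt 1 (by omega)) ?_ (hsum 1 (by omega))
        rw [bd_add, bd_single, hx, ht]
        abel
      · simp [hs, ht] at he

/-- solutions in the box -/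
noncomputable def sol (s t : E → V) (lo hi : E → ℤ) (p : V → ℤ) : Finset (E → ℤ) :=
  (Finset.Icc lo hi).filter (fun x => bd s t x = p)

/-- number of solutions in the box -/
noncomputable def N (s t : E → V) (lo hi : E → ℤ) (p : V → ℤ) : ℕ := (sol s t lo hi p).card

theorem mem_sol {s t : E → V} {lo hi : E → ℤ} {p : V → ℤ} {x : E → ℤ} :
    x ∈ sol s t lo hi p ↔ (lo ≤ x ∧ x ≤ hi) ∧ bd s t x = p := by
  simp [sol]

/-- support form of the exchange property -/
theorem support_exch (s t : E → V) (lo hi : E → ℤ) (p q : V → ℤ) (a : V) (ha : q a < p a)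
    (hp : 0 < N s t lo hi p) (hq : 0 < N s t lo hi q) :
    ∃ c, p c < q c ∧ 0 < N s t lo hi (p - ev a + ev c) ∧ 0 < N s t lo hi (q + ev a - ev c) := by
  obtain ⟨x, hx⟩ := Finset.card_pos.mp hp
  obtain ⟨y, hy⟩ := Finset.card_pos.mp hq
  rw [mem_sol] at hx hy
  obtain ⟨⟨hx1, hx2⟩, hx3⟩ := hx
  obtain ⟨⟨hy1, hy2⟩, hy3⟩ := hy
  have hbase := walk s t y (p - ev a) a (by rw [hy3]; simp; exact ha)
    (∑ e, (x e - y e).natAbs) x a le_rfl (by rw [hx3]; abel) (by rw [hx3, hy3]; exact ha)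
  obtain ⟨c, z, hz1, hz2, hz3⟩ := hbase
  refine ⟨c, ?_, ?_, ?_⟩
  · rw [hy3] at hz3; simpa using hz3
  · apply Finset.card_pos.mpr
    refine ⟨z, mem_sol.mpr ⟨⟨?_, ?_⟩, hz2⟩⟩
    · intro e
      have h1 := hz1 e
      have h2 : lo e ≤ x e := hx1 e
      have h3 : lo e ≤ y e := hy1 e
      show lo e ≤ z e
      omega
    · intro e
      have h1 := hz1 e
      have h2 : x e ≤ hi e := hx2 e
      have h3 : y e ≤ hi e := hy2 e
      show z e ≤ hi e
      omega
  · apply Finset.card_pos.mpr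
    refine ⟨x + y - z, mem_sol.mpr ⟨⟨?_, ?_⟩, ?_⟩⟩
    · intro e
      have h1 := hz1 e
      have h2 : lo e ≤ x e := hx1 e
      have h3 : lo e ≤ y e := hy1 e
      show lo e ≤ x e + y e - z e
      omega
    · intro e
      have h1 := hz1 e
      have h2 : x e ≤ hi e := hx2 e
      have h3 : y e ≤ hi e := hy2 e
      show x e + y e - z e ≤ hi e
      omega
    · rw [bd_sub, bd_add, hx3, hy3, hz2]; abel

/-- the slice `x + y = z` of the pairs of points of the box, as a box for `x` -/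
def slo (lo hi z : E → ℤ) : E → ℤ := lo ⊔ (z - hi)

/-- upper end of the slice box -/
def shi (lo hi z : E → ℤ) : E → ℤ := hi ⊓ (z - lo)

theorem mem_slice {s t : E → V} {lo hi z : E → ℤ} {p : V → ℤ} {x : E → ℤ} :
    x ∈ sol s t (slo lo hi z) (shi lo hi z) p ↔
      (lo ≤ x ∧ x ≤ hi) ∧ (lo ≤ z - x ∧ z - x ≤ hi) ∧ bd s t x = p := by
  rw [mem_sol]
  simp only [slo, shi, sup_le_iff, le_inf_iff]
  constructor
  · rintro ⟨⟨⟨h1, h2⟩, h3, h4⟩, h5⟩
    refine ⟨⟨h1, h3⟩, ⟨?_, ?_⟩, h5⟩
    · intro e; have a1 := h4 e; simp only [Pi.sub_apply] at *; omega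
    · intro e; have a1 := h2 e; simp only [Pi.sub_apply] at *; omega
  · rintro ⟨⟨h1, h3⟩, ⟨h4, h2⟩, h5⟩
    refine ⟨⟨⟨h1, ?_⟩, h3, ?_⟩, h5⟩
    · intro e; have a1 := h2 e; simp only [Pi.sub_apply] at *; omega
    · intro e; have a1 := h4 e; simp only [Pi.sub_apply] at *; omega

/-- pairs of solutions, sliced by their sum -/
theorem mul_eq_sum_slices (s t : E → V) (lo hi : E → ℤ) (p q : V → ℤ) :
    N s t lo hi p * N s t lo hi q
      = ∑ z ∈ (Finset.Icc (lo + lo) (hi + hi)).filter (fun z => bd s t z = p + q),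
          N s t (slo lo hi z) (shi lo hi z) p := by
  unfold N
  rw [← Finset.card_product]
  have hmaps : ∀ a ∈ sol s t lo hi p ×ˢ sol s t lo hi q, a.1 + a.2 ∈
      (Finset.Icc (lo + lo) (hi + hi)).filter (fun z => bd s t z = p + q) := by
    rintro ⟨x, y⟩ h
    rw [Finset.mem_product, mem_sol, mem_sol] at h
    obtain ⟨⟨⟨h1, h2⟩, h3⟩, ⟨h4, h5⟩, h6⟩ := h
    simp only [Finset.mem_filter, Finset.mem_Icc]
    exact ⟨⟨add_le_add h1 h4, add_le_add h2 h5⟩, by rw [bd_add, h3, h6]⟩
  rw [Finset.card_eq_sum_card_fiberwise hmaps]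
  apply Finset.sum_congr rfl
  intro z hz
  simp only [Finset.mem_filter, Finset.mem_Icc] at hz
  apply Finset.card_nbij' (fun a => a.1) (fun x => (x, z - x))
  · rintro ⟨x, y⟩ h
    simp only [Finset.coe_filter, Set.mem_ofPred_eq, Finset.mem_product, mem_sol] at h
    obtain ⟨⟨⟨⟨h1, h2⟩, h3⟩, ⟨h4, h5⟩, h6⟩, h7⟩ := h
    have hy : z - x = y := by rw [← h7]; abel
    rw [Finset.mem_coe, mem_slice]
    exact ⟨⟨h1, h2⟩, by rw [hy]; exact ⟨h4, h5⟩, h3⟩
  · intro x h
    rw [Finset.mem_coe, mem_slice] at h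
    obtain ⟨⟨h1, h2⟩, ⟨h3, h4⟩, h5⟩ := h
    simp only [Finset.coe_filter, Set.mem_ofPred_eq, Finset.mem_product, mem_sol]
    refine ⟨⟨⟨⟨h1, h2⟩, h5⟩, ⟨h3, h4⟩, ?_⟩, by abel⟩
    rw [bd_sub, hz.2, h5]; abel
  · rintro ⟨x, y⟩ h
    simp only [Finset.coe_filter, Set.mem_ofPred_eq] at h
    have hy : z - x = y := by rw [← h.2]; abel
    simp [hy]
  · intro x _; rfl

/-- reflection of a slice -/
theorem slice_refl (s t : E → V) (lo hi z : E → ℤ) (p q : V → ℤ) (hz : bd s t z = p + q) :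
    N s t (slo lo hi z) (shi lo hi z) p = N s t (slo lo hi z) (shi lo hi z) q := by
  unfold N
  have key : ∀ p q : V → ℤ, bd s t z = p + q → ∀ x ∈ sol s t (slo lo hi z) (shi lo hi z) p,
      z - x ∈ sol s t (slo lo hi z) (shi lo hi z) q := by
    intro p q hz x h
    rw [mem_slice] at h ⊢
    obtain ⟨h1, h2, h3⟩ := h
    refine ⟨h2, by rw [sub_sub_cancel]; exact h1, ?_⟩
    rw [bd_sub, hz, h3]; abel
  apply Finset.card_nbij' (fun x => z - x) (fun x => z - x)
  · intro x h; exact key p q hz x h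
  · intro x h; exact key q p (by rw [hz]; abel) x h
  · intro x _; simp
  · intro x _; simp

/-- the exchange inequality with constant `C` -/
def ExC (s t : E → V) (B : ℕ) (C : ℝ) : Prop :=
  ∀ (lo hi : E → ℤ), (∀ e, hi e - lo e ≤ B) → ∀ (p q : V → ℤ) (a : V), q a < p a →
    (N s t lo hi p : ℝ) * N s t lo hi q ≤
      C * ∑ c ∈ univ.filter (fun c => p c < q c),
        (N s t lo hi (p - ev a + ev c) : ℝ) * N s t lo hi (q + ev a - ev c)

theorem N_le (s t : E → V) (B : ℕ) (lo hi : E → ℤ) (h : ∀ e, hi e - lo e ≤ B) (p : V → ℤ) :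
    N s t lo hi p ≤ (B + 1) ^ Fintype.card E := by
  unfold N sol
  calc _ ≤ (Finset.Icc lo hi).card := Finset.card_filter_le _ _
    _ = ∏ e, (Finset.Icc (lo e) (hi e)).card := Pi.card_Icc lo hi
    _ ≤ ∏ _e : E, (B + 1) := by
        apply Finset.prod_le_prod' 
        intro e _
        rw [Int.card_Icc]
        have := h e
        omega
    _ = (B + 1) ^ Fintype.card E := by simp

theorem exC_base (s t : E → V) (B : ℕ) :
    ExC s t B (((B + 1 : ℕ) : ℝ) ^ (2 * Fintype.card E)) := by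
  intro lo hi h p q a ha
  by_cases h0 : 0 < N s t lo hi p ∧ 0 < N s t lo hi q
  · obtain ⟨c, hc, h1, h2⟩ := support_exch s t lo hi p q a ha h0.1 h0.2
    have hL : (N s t lo hi p : ℝ) * N s t lo hi q ≤ ((B + 1 : ℕ) : ℝ) ^ (2 * Fintype.card E) := by
      rw [two_mul, pow_add]
      apply mul_le_mul
      · exact_mod_cast N_le s t B lo hi h p
      · exact_mod_cast N_le s t B lo hi h q
      · positivity
      · positivity
    have hR : (1 : ℝ) ≤ ∑ c ∈ univ.filter (fun c => p c < q c),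
        (N s t lo hi (p - ev a + ev c) : ℝ) * N s t lo hi (q + ev a - ev c) := by
      have hmem : c ∈ univ.filter (fun c => p c < q c) := by simp [hc]
      refine le_trans ?_ (Finset.single_le_sum (f := fun c => (N s t lo hi (p - ev a + ev c) : ℝ)
        * N s t lo hi (q + ev a - ev c)) (fun i _ => by positivity) hmem)
      have : 1 ≤ N s t lo hi (p - ev a + ev c) * N s t lo hi (q + ev a - ev c) :=
        Nat.one_le_iff_ne_zero.mpr (Nat.mul_ne_zero (by omega) (by omega))
      exact_mod_cast this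
    calc _ ≤ ((B + 1 : ℕ) : ℝ) ^ (2 * Fintype.card E) * 1 := by rw [mul_one]; exact hL
      _ ≤ _ := by apply mul_le_mul_of_nonneg_left hR; positivity
  · have : (N s t lo hi p : ℝ) * N s t lo hi q = 0 := by
      rcases not_and_or.mp h0 with h1 | h1
      · have : N s t lo hi p = 0 := by omega
        simp [this]
      · have : N s t lo hi q = 0 := by omega
        simp [this]
    rw [this]
    apply mul_nonneg
    · positivity
    · apply Finset.sum_nonneg
      intro c _
      exact mul_nonneg (Nat.cast_nonneg _) (Nat.cast_nonneg _)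

theorem sqrt_step (C x S : ℝ) (hC : 0 ≤ C) (hS : 0 ≤ S) (h : x * x ≤ C * S ^ 2) :
    x ≤ Real.sqrt C * S := by
  have h6 : x ^ 2 ≤ (Real.sqrt C * S) ^ 2 := by
    rw [mul_pow, Real.sq_sqrt hC, sq x]; exact h
  exact (abs_le_of_sq_le_sq' h6 (by positivity)).2

/-- the self-improvement step -/
theorem exC_sqrt (s t : E → V) (B : ℕ) (C : ℝ) (hC : 0 ≤ C) (h : ExC s t B C) :
    ExC s t B (Real.sqrt C) := by
  intro lo hi hB p q a ha
  set Zs := (Finset.Icc (lo + lo) (hi + hi)).filter (fun z => bd s t z = p + q) with hZs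
  have hL : (N s t lo hi p : ℝ) * N s t lo hi q
      = ∑ z ∈ Zs, (N s t (slo lo hi z) (shi lo hi z) p : ℝ) := by
    have := mul_eq_sum_slices s t lo hi p q
    exact_mod_cast this
  have hR : ∀ c, (N s t lo hi (p - ev a + ev c) : ℝ) * N s t lo hi (q + ev a - ev c)
      = ∑ z ∈ Zs, (N s t (slo lo hi z) (shi lo hi z) (p - ev a + ev c) : ℝ) := by
    intro c
    have := mul_eq_sum_slices s t lo hi (p - ev a + ev c) (q + ev a - ev c)
    have h2 : p - ev a + ev c + (q + ev a - ev c) = p + q := by abel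
    rw [h2] at this
    exact_mod_cast this
  rw [hL]
  simp_rw [hR]
  rw [Finset.sum_comm, Finset.mul_sum]
  apply Finset.sum_le_sum
  intro z hz
  have hbz : bd s t z = p + q := (Finset.mem_filter.mp hz).2
  have hside : ∀ e, shi lo hi z e - slo lo hi z e ≤ B := by
    intro e
    have := hB e
    simp only [shi, slo, Pi.inf_apply, Pi.sup_apply, Pi.sub_apply]
    have h1 : min (hi e) (z e - lo e) ≤ hi e := min_le_left _ _
    have h2 : lo e ≤ max (lo e) (z e - hi e) := le_max_left _ _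
    have h3 : hi e ⊓ (z e - lo e) ≤ hi e := inf_le_left
    have h4 : lo e ≤ lo e ⊔ (z e - hi e) := le_sup_left
    linarith
  have hmain := h (slo lo hi z) (shi lo hi z) hside p q a ha
  rw [← slice_refl s t lo hi z p q hbz] at hmain
  have hrefl : ∀ c, (N s t (slo lo hi z) (shi lo hi z) (q + ev a - ev c) : ℝ)
      = N s t (slo lo hi z) (shi lo hi z) (p - ev a + ev c) := by
    intro c
    have := slice_refl s t lo hi z (p - ev a + ev c) (q + ev a - ev c) (by rw [hbz]; abel)
    exact_mod_cast this.symm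
  simp_rw [hrefl] at hmain
  set x : ℝ := (N s t (slo lo hi z) (shi lo hi z) p : ℝ)
  set y : V → ℝ := fun c => (N s t (slo lo hi z) (shi lo hi z) (p - ev a + ev c) : ℝ)
  have hy : ∀ c, 0 ≤ y c := fun c => by positivity
  have hsq : ∑ c ∈ univ.filter (fun c => p c < q c), y c * y c
      ≤ (∑ c ∈ univ.filter (fun c => p c < q c), y c) ^ 2 := by
    rw [sq, Finset.sum_mul]
    apply Finset.sum_le_sum
    intro c hc
    apply mul_le_mul_of_nonneg_left _ (hy c)
    exact Finset.single_le_sum (fun i _ => hy i) hc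
  have hS : 0 ≤ ∑ c ∈ univ.filter (fun c => p c < q c), y c := Finset.sum_nonneg (fun c _ => hy c)
  exact sqrt_step C x _ hC hS (hmain.trans (mul_le_mul_of_nonneg_left hsq hC))

/-- **Exchange inequality with constant one.** -/
theorem exch (s t : E → V) (lo hi : E → ℤ) (p q : V → ℤ) (a : V) (ha : q a < p a) :
    (N s t lo hi p : ℝ) * N s t lo hi q ≤
      ∑ c ∈ univ.filter (fun c => p c < q c),
        (N s t lo hi (p - ev a + ev c) : ℝ) * N s t lo hi (q + ev a - ev c) := by
  -- a common bound for the sides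
  obtain ⟨B, hB⟩ : ∃ B : ℕ, ∀ e, hi e - lo e ≤ B := by
    refine ⟨∑ e, (hi e - lo e).toNat, fun e => ?_⟩
    have h1 : (hi e - lo e).toNat ≤ ∑ e, (hi e - lo e).toNat :=
      Finset.single_le_sum (f := fun e => (hi e - lo e).toNat) (fun _ _ => Nat.zero_le _)
        (Finset.mem_univ e)
    omega
  set C0 : ℝ := ((B + 1 : ℕ) : ℝ) ^ (2 * Fintype.card E) with hC0
  have hC0' : 1 ≤ C0 := by
    apply one_le_pow₀
    have : (1 : ℕ) ≤ B + 1 := by omega
    exact_mod_cast this
  have hiter : ∀ k : ℕ, ExC s t B ((fun C => Real.sqrt C)^[k] C0) := by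
    intro k
    induction k with
    | zero => exact exC_base s t B
    | succ k ih =>
      rw [Function.iterate_succ_apply']
      refine exC_sqrt s t B _ ?_ ih
      have : ∀ k : ℕ, 0 ≤ (fun C => Real.sqrt C)^[k] C0 := by
        intro k
        cases k with
        | zero => simp only [Function.iterate_zero, id]; linarith
        | succ k => rw [Function.iterate_succ_apply']; exact Real.sqrt_nonneg _
      exact this k
  -- the constants tend to one
  have hval : ∀ k : ℕ, (fun C => Real.sqrt C)^[k] C0 = C0 ^ ((1 / 2 : ℝ) ^ k) := by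
    intro k
    induction k with
    | zero => simp
    | succ k ih =>
      rw [Function.iterate_succ_apply', ih, Real.sqrt_eq_rpow, ← Real.rpow_mul (by linarith)]
      congr 1
  have hlim : Filter.Tendsto (fun k : ℕ => C0 ^ ((1 / 2 : ℝ) ^ k)) Filter.atTop (nhds 1) := by
    have h1 : Filter.Tendsto (fun k : ℕ => ((1 / 2 : ℝ) ^ k)) Filter.atTop (nhds 0) :=
      tendsto_pow_atTop_nhds_zero_of_lt_one (by norm_num) (by norm_num)
    have h2 : Filter.Tendsto (fun k : ℕ => C0 ^ ((1 / 2 : ℝ) ^ k)) Filter.atTop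
        (nhds (C0 ^ (0 : ℝ))) := by
      apply Filter.Tendsto.rpow tendsto_const_nhds h1
      left; linarith
    simpa using h2
  set S : ℝ := ∑ c ∈ univ.filter (fun c => p c < q c),
        (N s t lo hi (p - ev a + ev c) : ℝ) * N s t lo hi (q + ev a - ev c) with hS
  have hle : ∀ k : ℕ, (N s t lo hi p : ℝ) * N s t lo hi q ≤ C0 ^ ((1 / 2 : ℝ) ^ k) * S := by
    intro k
    have := hiter k lo hi hB p q a ha
    rw [hval k] at this
    exact this
  have hlim2 : Filter.Tendsto (fun k : ℕ => C0 ^ ((1 / 2 : ℝ) ^ k) * S) Filter.atTop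
      (nhds (1 * S)) := hlim.mul_const S
  rw [one_mul] at hlim2
  exact ge_of_tendsto' hlim2 hle

end Crest.Agent.R309.Gauge943
end

-- ▼ part R309/GaugeEx943
section

/-!
# R309: existence of a good gauge

For a box system with `0 < N β` there is a field `l : V → ℝ`, `|l v| ≤ log |box|`, such that the soft
partition function with defect weight `θ`, `θ² |V|² ≤ 1/2`, and field `l` is at most `2 N β`.
-/

set_option autoImplicit false

namespace Crest.Agent.R309.GaugeEx943

open Finset Crest.Agent.R309.Gauge943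

variable {V E : Type*} [Fintype V] [DecidableEq V] [Fintype E] [DecidableEq E]

/-- triangle inequality with constant one -/
theorem tri (s t : E → V) (lo hi : E → ℤ) (β : V → ℤ) (a c d : V) :
    (N s t lo hi (β + ev a - ev c) : ℝ) * N s t lo hi (β + ev c - ev d) ≤
      N s t lo hi β * N s t lo hi (β + ev a - ev d) := by
  by_cases hac : a = c
  · subst hac
    have : β + ev a - ev a = β := by abel
    rw [this]
  · have hca : ¬ c = a := fun h => hac h.symm
    have hlt : (β + ev c - ev d) a < (β + ev a - ev c) a := by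
      simp only [Pi.sub_apply, Pi.add_apply, Pi.single_apply, hac, if_false, if_true]
      by_cases had : a = d
      · simp [had]
      · simp [had]
    refine (exch s t lo hi (β + ev a - ev c) (β + ev c - ev d) a hlt).trans ?_
    have hsub : univ.filter (fun c' => (β + ev a - ev c) c' < (β + ev c - ev d) c') ⊆ {c} := by
      intro c' hc'
      simp only [Finset.mem_filter, Finset.mem_univ, true_and, Pi.sub_apply, Pi.add_apply,
        Pi.single_apply] at hc'
      simp only [Finset.mem_singleton]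
      by_contra hne
      simp only [hne, if_false] at hc'
      split_ifs at hc' <;> omega
    refine (Finset.sum_le_sum_of_subset_of_nonneg hsub (fun _ _ _ => by positivity)).trans ?_
    rw [Finset.sum_singleton]
    have e1 : β + ev a - ev c - ev a + ev c = β := by abel
    have e2 : β + ev c - ev d + ev a - ev c = β + ev a - ev d := by abel
    rw [e1, e2]

/-- existence of the gauge: pointwise form -/
theorem gauge_exists (s t : E → V) (lo hi : E → ℤ) (β : V → ℤ) (hβ : 0 < N s t lo hi β) :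
    ∃ l : V → ℝ, (∀ v, |l v| ≤ Real.log (Icc lo hi).card) ∧
      ∀ a c, Real.exp (l a - l c) * N s t lo hi (β + ev a - ev c) ≤ N s t lo hi β := by
  classical
  have hle : ∀ p, N s t lo hi p ≤ (Icc lo hi).card := by
    intro p
    unfold N sol
    exact Finset.card_le_card (Finset.filter_subset _ _)
  have hex : ∀ a : V, ∃ c : V, ∀ c', N s t lo hi (β + ev a - ev c') ≤ N s t lo hi (β + ev a - ev c) := by
    intro a
    obtain ⟨c, -, hc⟩ := Finset.exists_max_image univ
      (fun c => N s t lo hi (β + ev a - ev c)) ⟨a, Finset.mem_univ a⟩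
    exact ⟨c, fun c' => hc c' (Finset.mem_univ c')⟩
  choose f hf using hex
  have haa : ∀ a, β + ev a - ev a = β := fun a => by abel
  have hM : ∀ a, N s t lo hi β ≤ N s t lo hi (β + ev a - ev (f a)) := by
    intro a
    have := hf a a
    rwa [haa] at this
  have hN0 : (0 : ℝ) < N s t lo hi β := by exact_mod_cast hβ
  have hM0 : ∀ a, (0 : ℝ) < N s t lo hi (β + ev a - ev (f a)) := by
    intro a
    have h := hM a
    have : 0 < N s t lo hi (β + ev a - ev (f a)) := lt_of_lt_of_le hβ h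
    exact_mod_cast this
  refine ⟨fun a => Real.log (N s t lo hi β) - Real.log (N s t lo hi (β + ev a - ev (f a))), ?_, ?_⟩
  · intro v
    have h1 : Real.log (N s t lo hi β) ≤ Real.log (N s t lo hi (β + ev v - ev (f v))) :=
      Real.log_le_log hN0 (by exact_mod_cast hM v)
    have h2 : Real.log (N s t lo hi (β + ev v - ev (f v))) ≤ Real.log (Icc lo hi).card :=
      Real.log_le_log (hM0 v) (by exact_mod_cast hle _)
    have h3 : 0 ≤ Real.log (N s t lo hi β) := by
      apply Real.log_nonneg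
      exact_mod_cast hβ
    rw [abs_le]
    constructor <;> linarith
  · intro a c
    have h1 := tri s t lo hi β a c (f c)
    have h2 : (N s t lo hi (β + ev a - ev (f c)) : ℝ) ≤ N s t lo hi (β + ev a - ev (f a)) := by
      exact_mod_cast hf a (f c)
    have h3 : Real.exp ((Real.log (N s t lo hi β) - Real.log (N s t lo hi (β + ev a - ev (f a)))) -
        (Real.log (N s t lo hi β) - Real.log (N s t lo hi (β + ev c - ev (f c)))))
        = N s t lo hi (β + ev c - ev (f c)) / N s t lo hi (β + ev a - ev (f a)) := by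
      rw [show (Real.log (N s t lo hi β) - Real.log (N s t lo hi (β + ev a - ev (f a)))) -
        (Real.log (N s t lo hi β) - Real.log (N s t lo hi (β + ev c - ev (f c))))
        = Real.log (N s t lo hi (β + ev c - ev (f c))) - Real.log (N s t lo hi (β + ev a - ev (f a))) by ring,
        Real.exp_sub, Real.exp_log (hM0 c), Real.exp_log (hM0 a)]
    simp only
    rw [h3, div_mul_eq_mul_div, div_le_iff₀ (hM0 a)]
    calc (N s t lo hi (β + ev c - ev (f c)) : ℝ) * N s t lo hi (β + ev a - ev c)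
        = N s t lo hi (β + ev a - ev c) * N s t lo hi (β + ev c - ev (f c)) := by ring
      _ ≤ N s t lo hi β * N s t lo hi (β + ev a - ev (f c)) := h1
      _ ≤ N s t lo hi β * N s t lo hi (β + ev a - ev (f a)) :=
        mul_le_mul_of_nonneg_left h2 hN0.le

/-- zero-sum vectors of `ℓ¹`-norm `2m` -/
noncomputable def T (m : ℕ) : Finset (V → ℤ) :=
  (Fintype.piFinset (fun _ : V => Icc (-(2 * m : ℤ)) (2 * m))).filter
    (fun τ => ∑ v, |τ v| = 2 * m ∧ ∑ v, τ v = 0)

theorem mem_T {m : ℕ} {τ : V → ℤ} : τ ∈ T m ↔ ∑ v, |τ v| = 2 * m ∧ ∑ v, τ v = 0 := by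
  unfold T
  simp only [Finset.mem_filter, Fintype.mem_piFinset, Finset.mem_Icc, and_iff_right_iff_imp]
  rintro ⟨h, -⟩ v
  have := Finset.single_le_sum (f := fun v => |τ v|) (fun i _ => abs_nonneg (τ i)) (Finset.mem_univ v)
  simp only [h] at this
  exact abs_le.mp this

/-- gauge factor -/
noncomputable def gf (l : V → ℝ) (τ : V → ℤ) : ℝ := Real.exp (∑ v, l v * (τ v : ℝ))

omit [DecidableEq V] in
theorem gf_pos (l : V → ℝ) (τ : V → ℤ) : 0 < gf l τ := Real.exp_pos _

theorem gf_shift (l : V → ℝ) (τ : V → ℤ) (a c : V) :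
    gf l τ = Real.exp (l a - l c) * gf l (τ - ev a + ev c) := by
  unfold gf
  rw [← Real.exp_add]
  congr 1
  have : ∀ v, l v * (((τ - ev a + ev c) v : ℤ) : ℝ) = l v * (τ v : ℝ) - (if v = a then l v else 0)
      + (if v = c then l v else 0) := by
    intro v
    simp only [Pi.add_apply, Pi.sub_apply, Pi.single_apply]
    push_cast
    split_ifs <;> ring
  simp_rw [this, Finset.sum_add_distrib, Finset.sum_sub_distrib, Finset.sum_ite_eq',
    Finset.mem_univ, if_true]
  ring

/-- weighted mass at level `m` -/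
noncomputable def G (s t : E → V) (lo hi : E → ℤ) (β : V → ℤ) (l : V → ℝ) (m : ℕ) : ℝ :=
  ∑ τ ∈ (T m : Finset (V → ℤ)), gf l τ * N s t lo hi (β + τ)


theorem G_zero (s t : E → V) (lo hi : E → ℤ) (β : V → ℤ) (l : V → ℝ) :
    G s t lo hi β l 0 = N s t lo hi β := by
  have hT : (T 0 : Finset (V → ℤ)) = {0} := by
    ext τ
    rw [mem_T, Finset.mem_singleton]
    constructor
    · rintro ⟨h, -⟩
      funext v
      have := (Finset.sum_eq_zero_iff_of_nonneg (fun i _ => abs_nonneg (τ i))).mp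
        (by simpa using h) v (Finset.mem_univ v)
      simpa using this
    · rintro rfl
      simp
  unfold G
  rw [hT, Finset.sum_singleton]
  simp [gf]

theorem shift_mem_T {m : ℕ} {τ : V → ℤ} (hτ : τ ∈ T (m + 1)) {a c : V} (ha : 0 < τ a) (hc : τ c < 0) :
    τ - ev a + ev c ∈ T m := by
  rw [mem_T] at hτ ⊢
  have hac : a ≠ c := by rintro rfl; omega
  have h1 : ∀ v, |(τ - ev a + ev c) v| = |τ v| - (if v = a then 1 else 0) - (if v = c then 1 else 0) := by
    intro v
    simp only [Pi.add_apply, Pi.sub_apply, Pi.single_apply]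
    by_cases hva : v = a
    · subst hva
      simp only [if_true, hac, if_false]
      rw [abs_of_pos ha, abs_of_nonneg (by omega)]
      omega
    · by_cases hvc : v = c
      · subst hvc
        simp only [hva, if_true, if_false]
        rw [abs_of_neg hc, abs_of_nonpos (by omega)]
        omega
      · simp [hva, hvc]
  have h2 : ∀ v, (τ - ev a + ev c) v = τ v - (if v = a then 1 else 0) + (if v = c then 1 else 0) := by
    intro v
    simp only [Pi.add_apply, Pi.sub_apply, Pi.single_apply]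
  constructor
  · simp_rw [h1, Finset.sum_sub_distrib, Finset.sum_ite_eq', Finset.mem_univ, if_true]
    rw [hτ.1]
    push_cast
    ring
  · simp_rw [h2, Finset.sum_add_distrib, Finset.sum_sub_distrib, Finset.sum_ite_eq',
      Finset.mem_univ, if_true]
    rw [hτ.2]
    ring

/-- one step of the multi-hole recursion -/
theorem G_succ_le (s t : E → V) (lo hi : E → ℤ) (β : V → ℤ) (hβ : 0 < N s t lo hi β) (l : V → ℝ)
    (hl : ∀ a c, Real.exp (l a - l c) * N s t lo hi (β + ev a - ev c) ≤ N s t lo hi β) (m : ℕ) :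
    G s t lo hi β l (m + 1) ≤ (Fintype.card V : ℝ) ^ 2 * G s t lo hi β l m := by
  classical
  have hN0 : (0 : ℝ) < N s t lo hi β := by exact_mod_cast hβ
  set F : (V → ℤ) → ℝ := fun τ => gf l τ * N s t lo hi (β + τ) with hF
  have hF0 : ∀ τ, 0 ≤ F τ := fun τ => mul_nonneg (gf_pos l τ).le (Nat.cast_nonneg _)
  -- pointwise
  have hpt : ∀ τ ∈ (T (m + 1) : Finset (V → ℤ)), F τ ≤
      ∑ a, ∑ c, if 0 < τ a ∧ τ c < 0 then F (τ - ev a + ev c) else 0 := by
    intro τ hτ
    have hτ' := mem_T.mp hτ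
    -- a positive coordinate
    obtain ⟨a, ha⟩ : ∃ a, 0 < τ a := by
      by_contra hcon
      push Not at hcon
      have h0 : ∀ v, τ v = 0 := by
        intro v
        have := (Finset.sum_eq_zero_iff_of_nonpos (fun i _ => hcon i)).mp hτ'.2 v (Finset.mem_univ v)
        exact this
      have : ∑ v, |τ v| = 0 := by simp [h0]
      rw [hτ'.1] at this
      push_cast at this
      omega
    have hex := exch s t lo hi (β + τ) β a (by simp only [Pi.add_apply]; omega)
    have hfil : univ.filter (fun c => (β + τ) c < β c) = univ.filter (fun c => τ c < 0) := by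
      ext c
      simp only [Finset.mem_filter, Finset.mem_univ, true_and, Pi.add_apply]
      omega
    rw [hfil] at hex
    have hkey : F τ * N s t lo hi β ≤
        (∑ c ∈ univ.filter (fun c => τ c < 0), F (τ - ev a + ev c)) * N s t lo hi β := by
      rw [Finset.sum_mul]
      calc F τ * N s t lo hi β = gf l τ * (N s t lo hi (β + τ) * N s t lo hi β) := by
            simp only [hF]; ring
        _ ≤ gf l τ * ∑ c ∈ univ.filter (fun c => τ c < 0),
            (N s t lo hi (β + τ - ev a + ev c) : ℝ) * N s t lo hi (β + ev a - ev c) :=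
            mul_le_mul_of_nonneg_left hex (gf_pos l τ).le
        _ = ∑ c ∈ univ.filter (fun c => τ c < 0), gf l τ *
            ((N s t lo hi (β + τ - ev a + ev c) : ℝ) * N s t lo hi (β + ev a - ev c)) := by
            rw [Finset.mul_sum]
        _ ≤ _ := by
            apply Finset.sum_le_sum
            intro c _
            have h1 : β + τ - ev a + ev c = β + (τ - ev a + ev c) := by abel
            rw [h1, gf_shift l τ a c]
            simp only [hF]
            have h2 := hl a c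
            have h3 : 0 ≤ gf l (τ - ev a + ev c) * N s t lo hi (β + (τ - ev a + ev c)) :=
              mul_nonneg (gf_pos l _).le (Nat.cast_nonneg _)
            calc Real.exp (l a - l c) * gf l (τ - ev a + ev c) *
                (↑(N s t lo hi (β + (τ - ev a + ev c))) * ↑(N s t lo hi (β + ev a - ev c)))
                = (gf l (τ - ev a + ev c) * N s t lo hi (β + (τ - ev a + ev c))) *
                  (Real.exp (l a - l c) * N s t lo hi (β + ev a - ev c)) := by ring
              _ ≤ (gf l (τ - ev a + ev c) * N s t lo hi (β + (τ - ev a + ev c))) *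
                  N s t lo hi β := mul_le_mul_of_nonneg_left h2 h3
    have hkey2 := le_of_mul_le_mul_right hkey hN0
    refine hkey2.trans ?_
    have hone : ∑ c ∈ univ.filter (fun c => τ c < 0), F (τ - ev a + ev c)
        = ∑ c, if 0 < τ a ∧ τ c < 0 then F (τ - ev a + ev c) else 0 := by
      rw [Finset.sum_filter]
      apply Finset.sum_congr rfl
      intro c _
      simp [ha]
    rw [hone]
    exact Finset.single_le_sum
      (f := fun a => ∑ c, if 0 < τ a ∧ τ c < 0 then F (τ - ev a + ev c) else 0)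
      (fun a _ => Finset.sum_nonneg (fun c _ => by split_ifs; exacts [hF0 _, le_rfl]))
      (Finset.mem_univ a)
  calc G s t lo hi β l (m + 1) = ∑ τ ∈ (T (m + 1) : Finset (V → ℤ)), F τ := rfl
    _ ≤ ∑ τ ∈ (T (m + 1) : Finset (V → ℤ)),
        ∑ a, ∑ c, if 0 < τ a ∧ τ c < 0 then F (τ - ev a + ev c) else 0 := Finset.sum_le_sum hpt
    _ = ∑ a, ∑ c, ∑ τ ∈ (T (m + 1) : Finset (V → ℤ)),
        if 0 < τ a ∧ τ c < 0 then F (τ - ev a + ev c) else 0 := by
        rw [Finset.sum_comm]
        apply Finset.sum_congr rfl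
        intro a _
        rw [Finset.sum_comm]
    _ ≤ ∑ a : V, ∑ c : V, G s t lo hi β l m := by
        apply Finset.sum_le_sum
        intro a _
        apply Finset.sum_le_sum
        intro c _
        rw [← Finset.sum_filter]
        have hinj : Set.InjOn (fun τ : V → ℤ => τ - ev a + ev c)
            ((T (m + 1) : Finset (V → ℤ)).filter (fun τ => 0 < τ a ∧ τ c < 0)) := by
          intro x _ y _ hxy
          simp only at hxy
          have := congrArg (fun z => z - ev c + ev a) hxy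
          simpa using this
        have := Finset.sum_image (f := F) (s := (T (m + 1) : Finset (V → ℤ)).filter
          (fun τ => 0 < τ a ∧ τ c < 0)) (g := fun τ : V → ℤ => τ - ev a + ev c) hinj
        rw [← this]
        apply Finset.sum_le_sum_of_subset_of_nonneg
        · intro τ' hτ'
          rw [Finset.mem_image] at hτ'
          obtain ⟨τ, hτ, rfl⟩ := hτ'
          rw [Finset.mem_filter] at hτ
          exact shift_mem_T hτ.1 hτ.2.1 hτ.2.2
        · intro i _ _
          exact hF0 i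
    _ = (Fintype.card V : ℝ) ^ 2 * G s t lo hi β l m := by
        simp only [Finset.sum_const, Finset.card_univ, nsmul_eq_mul]
        ring

theorem G_le (s t : E → V) (lo hi : E → ℤ) (β : V → ℤ) (hβ : 0 < N s t lo hi β) (l : V → ℝ)
    (hl : ∀ a c, Real.exp (l a - l c) * N s t lo hi (β + ev a - ev c) ≤ N s t lo hi β) (m : ℕ) :
    G s t lo hi β l m ≤ ((Fintype.card V : ℝ) ^ 2) ^ m * N s t lo hi β := by
  induction m with
  | zero => rw [G_zero]; simp
  | succ m ih =>
    refine (G_succ_le s t lo hi β hβ l hl m).trans ?_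
    rw [pow_succ' ((Fintype.card V : ℝ) ^ 2) m, mul_assoc]
    exact mul_le_mul_of_nonneg_left ih (by positivity)

/-- defect size -/
def nrm (τ : V → ℤ) : ℕ := ∑ v, (τ v).natAbs

omit [DecidableEq V] in
theorem nrm_cast (τ : V → ℤ) : (nrm τ : ℤ) = ∑ v, |τ v| := by
  unfold nrm
  push_cast
  rfl

omit [DecidableEq V] in
theorem nrm_even (τ : V → ℤ) (h : ∑ v, τ v = 0) : Even (nrm τ) := by
  have h1 : ((nrm τ : ℕ) : ℤ) = ∑ v, |τ v| := nrm_cast τ
  have h2 : (2 : ℤ) ∣ ∑ v, |τ v| - ∑ v, τ v := by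
    rw [← Finset.sum_sub_distrib]
    apply Finset.dvd_sum
    intro v _
    rcases abs_cases (τ v) with ⟨h, _⟩ | ⟨h, _⟩ <;> rw [h] <;> omega
  rw [h, sub_zero, ← h1] at h2
  have : 2 ∣ nrm τ := by exact_mod_cast h2
  exact even_iff_two_dvd.mpr this

/-- **Soft mass against perfect mass for the good gauge.** -/
theorem soft_mass_le (s t : E → V) (lo hi : E → ℤ) (β : V → ℤ) (hβ : 0 < N s t lo hi β) (l : V → ℝ)
    (hl : ∀ a c, Real.exp (l a - l c) * N s t lo hi (β + ev a - ev c) ≤ N s t lo hi β)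
    (θ : ℝ) (hθ : 0 ≤ θ) (hθ2 : θ ^ 2 * (Fintype.card V : ℝ) ^ 2 ≤ 1 / 2) :
    ∑ x ∈ Icc lo hi, θ ^ nrm (bd s t x - β) * gf l (bd s t x - β) ≤ 2 * N s t lo hi β := by
  classical
  have hsumβ : ∑ v, β v = 0 := by
    have : (sol s t lo hi β).Nonempty := Finset.card_pos.mp hβ
    obtain ⟨x, hx⟩ := this
    rw [mem_sol] at hx
    rw [← hx.2]
    exact sum_bd s t x
  have hsum0 : ∀ x, ∑ v, (bd s t x - β) v = 0 := by
    intro x
    simp only [Pi.sub_apply, Finset.sum_sub_distrib, sum_bd, hsumβ, sub_zero]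
  set M : ℕ := (∑ x ∈ Icc lo hi, nrm (bd s t x - β)) + 1 with hM
  have hmaps : ∀ x ∈ Icc lo hi, nrm (bd s t x - β) / 2 ∈ range M := by
    intro x hx
    rw [Finset.mem_range]
    have h1 : nrm (bd s t x - β) ≤ ∑ x ∈ Icc lo hi, nrm (bd s t x - β) :=
      Finset.single_le_sum (f := fun x => nrm (bd s t x - β)) (fun _ _ => Nat.zero_le _) hx
    omega
  rw [← Finset.sum_fiberwise_of_maps_to hmaps]
  have hlev : ∀ m ∈ range M, ∑ x ∈ (Icc lo hi).filter (fun x => nrm (bd s t x - β) / 2 = m),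
      θ ^ nrm (bd s t x - β) * gf l (bd s t x - β) = θ ^ (2 * m) * G s t lo hi β l m := by
    intro m _
    unfold G
    rw [Finset.mul_sum]
    have hmaps2 : ∀ x ∈ (Icc lo hi).filter (fun x => nrm (bd s t x - β) / 2 = m),
        bd s t x - β ∈ (T m : Finset (V → ℤ)) := by
      intro x hx
      rw [Finset.mem_filter] at hx
      rw [mem_T]
      refine ⟨?_, hsum0 x⟩
      have h1 := nrm_even _ (hsum0 x)
      obtain ⟨r, hr⟩ := h1
      have h2 := hx.2
      rw [← nrm_cast]
      have : nrm (bd s t x - β) = 2 * m := by omega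
      rw [this]; push_cast; ring
    rw [← Finset.sum_fiberwise_of_maps_to hmaps2]
    apply Finset.sum_congr rfl
    intro τ hτ
    have hτn : nrm τ = 2 * m := by
      have := (mem_T.mp hτ).1
      rw [← nrm_cast] at this
      exact_mod_cast this
    have hset : ((Icc lo hi).filter (fun x => nrm (bd s t x - β) / 2 = m)).filter
        (fun x => bd s t x - β = τ) = sol s t lo hi (β + τ) := by
      ext x
      rw [mem_sol, Finset.mem_filter, Finset.mem_filter, Finset.mem_Icc, and_assoc]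
      constructor
      · rintro ⟨h1, _, h3⟩
        refine ⟨⟨fun e => h1.1 e, fun e => h1.2 e⟩, ?_⟩
        rw [← h3]; abel
      · rintro ⟨h1, h2⟩
        have h3 : bd s t x - β = τ := by rw [h2]; abel
        refine ⟨⟨fun e => h1.1 e, fun e => h1.2 e⟩, ?_, h3⟩
        rw [h3, hτn]; omega
    have hconst : ∀ x ∈ ((Icc lo hi).filter (fun x => nrm (bd s t x - β) / 2 = m)).filter
        (fun x => bd s t x - β = τ), θ ^ nrm (bd s t x - β) * gf l (bd s t x - β)
          = θ ^ (2 * m) * gf l τ := by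
      intro x hx
      rw [(Finset.mem_filter.mp hx).2, hτn]
    rw [Finset.sum_congr rfl hconst, Finset.sum_const, hset, nsmul_eq_mul]
    unfold N
    ring
  rw [Finset.sum_congr rfl hlev]
  have hb : ∀ m ∈ range M, θ ^ (2 * m) * G s t lo hi β l m ≤ (1 / 2 : ℝ) ^ m * N s t lo hi β := by
    intro m _
    have h1 := G_le s t lo hi β hβ l hl m
    calc θ ^ (2 * m) * G s t lo hi β l m
        ≤ θ ^ (2 * m) * (((Fintype.card V : ℝ) ^ 2) ^ m * N s t lo hi β) :=
          mul_le_mul_of_nonneg_left h1 (pow_nonneg hθ _)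
      _ = (θ ^ 2 * (Fintype.card V : ℝ) ^ 2) ^ m * N s t lo hi β := by
          rw [pow_mul, mul_pow, mul_assoc]
      _ ≤ (1 / 2 : ℝ) ^ m * N s t lo hi β := by
          apply mul_le_mul_of_nonneg_right _ (Nat.cast_nonneg _)
          exact pow_le_pow_left₀ (by positivity) hθ2 m
  refine (Finset.sum_le_sum hb).trans ?_
  rw [← Finset.sum_mul]
  apply mul_le_mul_of_nonneg_right _ (Nat.cast_nonneg _)
  have := geom_sum_eq (by norm_num : (1 / 2 : ℝ) ≠ 1) M
  rw [this]
  have h2 : (0 : ℝ) ≤ (1 / 2) ^ M := by positivity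
  rw [div_le_iff_of_neg (by norm_num)]
  linarith

end Crest.Agent.R309.GaugeEx943
end

-- ▼ part R309/Sgd943
section

/-!
# R309: stochastic gradient descent on the gauge, averaged form

`Ω` finite set of configurations, `τ : Ω → V → ℤ` defect vector, weights `w > 0`, base `B > 1`.
In the field `k : V → ℤ` the configuration `x` has weight `w x * B ^ (k · τ x)`; `A φ k` is the
expectation of `φ (k - τ x)`.  If some real field `l` has `∑ w x exp (l · τ x) ≤ 2 N₀`, then the
average over the times `s < T` of the expectation of `N₀ / Z k_s` is at least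
`3/8 - |l|² / (4 T log B)`, for the process started from the field `0`.
-/

set_option autoImplicit false
set_option linter.unusedSectionVars false

namespace Crest.Agent.R309.Sgd943

open Finset

variable {Ω V : Type*} [Fintype Ω] [Fintype V]

/-- pairing of a field with a defect vector -/
def dot (k τ : V → ℤ) : ℤ := ∑ v, k v * τ v

/-- weight of `x` in the field `k` -/
noncomputable def wt (w : Ω → ℝ) (τ : Ω → V → ℤ) (B : ℝ) (k : V → ℤ) (x : Ω) : ℝ :=
  w x * B ^ dot k (τ x)

/-- partition function in the field `k` -/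
noncomputable def Z (w : Ω → ℝ) (τ : Ω → V → ℤ) (B : ℝ) (k : V → ℤ) : ℝ := ∑ x, wt w τ B k x

/-- one SGD step as an operator on functions of the field -/
noncomputable def A (w : Ω → ℝ) (τ : Ω → V → ℤ) (B : ℝ) (φ : (V → ℤ) → ℝ) (k : V → ℤ) : ℝ :=
  ∑ x, wt w τ B k x / Z w τ B k * φ (k - τ x)

section basic

variable {w : Ω → ℝ} {τ : Ω → V → ℤ} {B : ℝ}

theorem wt_pos (hw : ∀ x, 0 < w x) (hB : 0 < B) (k : V → ℤ) (x : Ω) : 0 < wt w τ B k x :=
  mul_pos (hw x) (zpow_pos hB _)

theorem Z_pos [Nonempty Ω] (hw : ∀ x, 0 < w x) (hB : 0 < B) (k : V → ℤ) : 0 < Z w τ B k :=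
  Finset.sum_pos (fun x _ => wt_pos hw hB k x) Finset.univ_nonempty

theorem p_nonneg [Nonempty Ω] (hw : ∀ x, 0 < w x) (hB : 0 < B) (k : V → ℤ) (x : Ω) :
    0 ≤ wt w τ B k x / Z w τ B k := (div_pos (wt_pos hw hB k x) (Z_pos hw hB k)).le

theorem p_sum [Nonempty Ω] (hw : ∀ x, 0 < w x) (hB : 0 < B) (k : V → ℤ) :
    ∑ x, wt w τ B k x / Z w τ B k = 1 := by
  rw [← Finset.sum_div]
  exact div_self (Z_pos hw hB k).ne'

theorem A_mono [Nonempty Ω] (hw : ∀ x, 0 < w x) (hB : 0 < B) {φ ψ : (V → ℤ) → ℝ}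
    (h : ∀ k, φ k ≤ ψ k) (k : V → ℤ) : A w τ B φ k ≤ A w τ B ψ k :=
  Finset.sum_le_sum fun x _ => mul_le_mul_of_nonneg_left (h _) (p_nonneg hw hB k x)

theorem A_iter_mono [Nonempty Ω] (hw : ∀ x, 0 < w x) (hB : 0 < B) (s : ℕ) {φ ψ : (V → ℤ) → ℝ}
    (h : ∀ k, φ k ≤ ψ k) (k : V → ℤ) : (A w τ B)^[s] φ k ≤ (A w τ B)^[s] ψ k := by
  induction s generalizing φ ψ with
  | zero => exact h k
  | succ s ih =>
    simp only [Function.iterate_succ_apply]
    exact ih (A_mono hw hB h)

/-- affine combinations pass through `A` -/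
theorem A_affine [Nonempty Ω] (hw : ∀ x, 0 < w x) (hB : 0 < B) (c d : ℝ) (φ ψ : (V → ℤ) → ℝ) :
    A w τ B (fun k => c + d * (φ k - ψ k)) = fun k => c + d * (A w τ B φ k - A w τ B ψ k) := by
  funext k
  unfold A
  have h1 : c = ∑ x, wt w τ B k x / Z w τ B k * c := by
    rw [← Finset.sum_mul, p_sum hw hB, one_mul]
  conv_rhs => rw [h1]
  rw [← Finset.sum_sub_distrib, Finset.mul_sum, ← Finset.sum_add_distrib]
  apply Finset.sum_congr rfl
  intro x _
  ring

theorem A_iter_affine [Nonempty Ω] (hw : ∀ x, 0 < w x) (hB : 0 < B) (s : ℕ) (c d : ℝ)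
    (φ ψ : (V → ℤ) → ℝ) (k : V → ℤ) :
    (A w τ B)^[s] (fun k => c + d * (φ k - ψ k)) k =
      c + d * ((A w τ B)^[s] φ k - (A w τ B)^[s] ψ k) := by
  induction s generalizing φ ψ with
  | zero => rfl
  | succ s ih =>
    simp only [Function.iterate_succ_apply]
    rw [A_affine hw hB, ih]

theorem A_iter_nonneg [Nonempty Ω] (hw : ∀ x, 0 < w x) (hB : 0 < B) (s : ℕ) {φ : (V → ℤ) → ℝ}
    (h : ∀ k, 0 ≤ φ k) (k : V → ℤ) : 0 ≤ (A w τ B)^[s] φ k := by
  induction s generalizing φ with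
  | zero => exact h k
  | succ s ih =>
    simp only [Function.iterate_succ_apply]
    exact ih fun k => Finset.sum_nonneg fun x _ => mul_nonneg (p_nonneg hw hB k x) (h _)

end basic

variable (w : Ω → ℝ) (τ : Ω → V → ℤ) (B : ℝ)

/-- potential of the field `k` with respect to the comparison field `l` -/
noncomputable def D (b : ℝ) (l : V → ℝ) (k : V → ℤ) : ℝ := ∑ v, (b * k v - l v) ^ 2

/-- pointwise drift inequality -/
theorem drift [Nonempty Ω] (hw : ∀ x, 0 < w x) (hB : 1 < B) (G2 : ℝ)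
    (hG : ∀ x, ∑ v, (τ x v : ℝ) ^ 2 ≤ G2) (l : V → ℝ) (N0 : ℝ)
    (hl : ∑ x, w x * Real.exp (∑ v, l v * (τ x v : ℝ)) ≤ 2 * N0) (k : V → ℤ) :
    (1 / 2) * (1 - Real.log B * G2 / 2) + (-(1 / (4 * Real.log B))) *
      (D (Real.log B) l k - A w τ B (D (Real.log B) l) k) ≤ N0 / Z w τ B k := by
  have hB0 : 0 < B := by linarith
  set b := Real.log B with hb
  have hb0 : 0 < b := Real.log_pos hB
  have hZ := Z_pos (τ := τ) hw hB0 k
  set p : Ω → ℝ := fun x => wt w τ B k x / Z w τ B k with hp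
  have hp0 : ∀ x, 0 ≤ p x := p_nonneg hw hB0 k
  have hp1 : ∑ x, p x = 1 := p_sum hw hB0 k
  -- the drift term
  set Y : ℝ := ∑ x, p x * ∑ v, (b * k v - l v) * (τ x v : ℝ) with hY
  -- lower bound for the ratio of partition functions
  have h1 : 1 - Y ≤ (∑ x, w x * Real.exp (∑ v, l v * (τ x v : ℝ))) / Z w τ B k := by
    have h2 : (∑ x, w x * Real.exp (∑ v, l v * (τ x v : ℝ))) / Z w τ B k
        = ∑ x, p x * Real.exp (-(∑ v, (b * k v - l v) * (τ x v : ℝ))) := by
      rw [Finset.sum_div]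
      apply Finset.sum_congr rfl
      intro x _
      simp only [hp, wt]
      have h3 : B ^ dot k (τ x) = Real.exp (b * ∑ v, (k v : ℝ) * (τ x v : ℝ)) := by
        rw [← Real.rpow_intCast, Real.rpow_def_of_pos hB0, ← hb]
        congr 2
        unfold dot
        push_cast
        rfl
      rw [h3]
      have h4 : Real.exp (∑ v, l v * (τ x v : ℝ)) = Real.exp (b * ∑ v, (k v : ℝ) * (τ x v : ℝ)) *
          Real.exp (-(∑ v, (b * k v - l v) * (τ x v : ℝ))) := by
        rw [← Real.exp_add]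
        congr 1
        rw [Finset.mul_sum, ← Finset.sum_neg_distrib, ← Finset.sum_add_distrib]
        apply Finset.sum_congr rfl
        intro v _
        ring
      rw [h4]
      ring
    rw [h2]
    have h5 : 1 - Y = ∑ x, p x * (1 - ∑ v, (b * k v - l v) * (τ x v : ℝ)) := by
      simp only [mul_sub, mul_one, Finset.sum_sub_distrib, hp1, hY]
    rw [h5]
    apply Finset.sum_le_sum
    intro x _
    apply mul_le_mul_of_nonneg_left _ (hp0 x)
    have := Real.add_one_le_exp (-(∑ v, (b * k v - l v) * (τ x v : ℝ)))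
    linarith
  -- the potential
  have h6 : A w τ B (D b l) k ≤ D b l k - 2 * b * Y + b ^ 2 * G2 := by
    have h7 : A w τ B (D b l) k = ∑ x, p x * (D b l k - 2 * b * (∑ v, (b * k v - l v) * (τ x v : ℝ))
        + b ^ 2 * ∑ v, (τ x v : ℝ) ^ 2) := by
      unfold A
      apply Finset.sum_congr rfl
      intro x _
      simp only [hp]
      congr 1
      unfold D
      rw [Finset.mul_sum, Finset.mul_sum, ← Finset.sum_sub_distrib, ← Finset.sum_add_distrib]
      apply Finset.sum_congr rfl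
      intro v _
      simp only [Pi.sub_apply]
      push_cast
      ring
    rw [h7]
    have h8 : D b l k - 2 * b * Y + b ^ 2 * G2 = ∑ x, p x * (D b l k -
        2 * b * (∑ v, (b * k v - l v) * (τ x v : ℝ)) + b ^ 2 * G2) := by
      simp only [mul_add, mul_sub, Finset.sum_add_distrib, Finset.sum_sub_distrib, ← Finset.sum_mul,
        hp1, hY, one_mul, Finset.mul_sum]
      congr 2
      apply Finset.sum_congr rfl
      intro x _
      apply Finset.sum_congr rfl
      intro v _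
      ring
    rw [h8]
    apply Finset.sum_le_sum
    intro x _
    apply mul_le_mul_of_nonneg_left _ (hp0 x)
    have := mul_le_mul_of_nonneg_left (hG x) (sq_nonneg b)
    linarith
  have h9 : (1 - Y) / 2 ≤ N0 / Z w τ B k := by
    have : (∑ x, w x * Real.exp (∑ v, l v * (τ x v : ℝ))) / Z w τ B k ≤ 2 * N0 / Z w τ B k :=
      div_le_div_of_nonneg_right hl hZ.le
    have h10 : 2 * N0 / Z w τ B k = 2 * (N0 / Z w τ B k) := by ring
    linarith
  have h11 : Y ≤ (D b l k - A w τ B (D b l) k) / (2 * b) + b * G2 / 2 := by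
    rw [div_add_div _ _ (by positivity) (by norm_num), le_div_iff₀ (by positivity)]
    nlinarith [h6]
  have h12 : -(1 / (4 * b)) * (D b l k - A w τ B (D b l) k)
      = -((D b l k - A w τ B (D b l) k) / (2 * b)) / 2 := by
    field_simp
    ring
  rw [h12]
  linarith

/-- **SGD, exact sampling, averaged form.** -/
theorem sgd_exact [Nonempty Ω] (hw : ∀ x, 0 < w x) (hB : 1 < B) (G2 : ℝ)
    (hG : ∀ x, ∑ v, (τ x v : ℝ) ^ 2 ≤ G2) (l : V → ℝ) (N0 : ℝ)
    (hl : ∑ x, w x * Real.exp (∑ v, l v * (τ x v : ℝ)) ≤ 2 * N0) (T : ℕ) (k0 : V → ℤ) :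
    (T : ℝ) * ((1 / 2) * (1 - Real.log B * G2 / 2)) - D (Real.log B) l k0 / (4 * Real.log B) ≤
      ∑ s ∈ range T, (A w τ B)^[s] (fun k => N0 / Z w τ B k) k0 := by
  have hB0 : 0 < B := by linarith
  have hb0 : 0 < Real.log B := Real.log_pos hB
  have hD : ∀ k, 0 ≤ D (Real.log B) l k := fun k => Finset.sum_nonneg fun v _ => sq_nonneg _
  have hstep : ∀ s ∈ range T, (1 / 2) * (1 - Real.log B * G2 / 2) + (-(1 / (4 * Real.log B))) *
      ((A w τ B)^[s] (D (Real.log B) l) k0 - (A w τ B)^[s + 1] (D (Real.log B) l) k0) ≤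
        (A w τ B)^[s] (fun k => N0 / Z w τ B k) k0 := by
    intro s _
    have h1 := A_iter_mono (τ := τ) hw hB0 s (drift w τ B hw hB G2 hG l N0 hl) k0
    rw [A_iter_affine hw hB0] at h1
    rw [Function.iterate_succ_apply]
    exact h1
  refine le_trans ?_ (Finset.sum_le_sum hstep)
  rw [Finset.sum_add_distrib, Finset.sum_const, Finset.card_range, nsmul_eq_mul, ← Finset.mul_sum,
    Finset.sum_range_sub']
  simp only [Function.iterate_zero, id]
  have h2 := A_iter_nonneg (τ := τ) hw hB0 T hD k0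
  have h3 : 0 < 1 / (4 * Real.log B) := by positivity
  have h4 : D (Real.log B) l k0 / (4 * Real.log B) = (1 / (4 * Real.log B)) * D (Real.log B) l k0 := by
    ring
  rw [h4]
  nlinarith [mul_nonneg h3.le h2]

/-- perturbation of the iterates: `A'` is any operator preserving `[0,1]`-valued functions which is
within `ε` of `A` on the domain reached so far -/
theorem iter_approx [Nonempty Ω] (hw : ∀ x, 0 < w x) (hB : 0 < B)
    (A' : ((V → ℤ) → ℝ) → (V → ℤ) → ℝ) (ε : ℝ) (P : ℕ → (V → ℤ) → Prop) (T : ℕ)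
    (hP : ∀ j k x, P j k → P (j + 1) (k - τ x))
    (hA' : ∀ φ : (V → ℤ) → ℝ, (∀ k, 0 ≤ φ k ∧ φ k ≤ 1) → ∀ k, 0 ≤ A' φ k ∧ A' φ k ≤ 1)
    (hap : ∀ φ : (V → ℤ) → ℝ, (∀ k, 0 ≤ φ k ∧ φ k ≤ 1) → ∀ j < T, ∀ k, P j k →
      |A' φ k - A w τ B φ k| ≤ ε)
    (φ : (V → ℤ) → ℝ) (hφ : ∀ k, 0 ≤ φ k ∧ φ k ≤ 1) (s : ℕ) :
    ∀ j k, j + s ≤ T → P j k → |A'^[s] φ k - (A w τ B)^[s] φ k| ≤ s * ε := by
  have hpres : ∀ s, ∀ k, 0 ≤ A'^[s] φ k ∧ A'^[s] φ k ≤ 1 := by
    intro s
    induction s with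
    | zero => exact hφ
    | succ s ih =>
      rw [Function.iterate_succ_apply']
      exact hA' _ ih
  induction s with
  | zero => intro j k _ _; simp
  | succ s ih =>
    intro j k hj hk
    rw [Function.iterate_succ_apply', Function.iterate_succ_apply']
    have h1 := hap _ (hpres s) j (by omega) k hk
    have h2 : |A w τ B (A'^[s] φ) k - A w τ B ((A w τ B)^[s] φ) k| ≤ s * ε := by
      unfold A
      rw [← Finset.sum_sub_distrib]
      calc |∑ x, (wt w τ B k x / Z w τ B k * A'^[s] φ (k - τ x)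
            - wt w τ B k x / Z w τ B k * (A w τ B)^[s] φ (k - τ x))|
          ≤ ∑ x, |wt w τ B k x / Z w τ B k * A'^[s] φ (k - τ x)
            - wt w τ B k x / Z w τ B k * (A w τ B)^[s] φ (k - τ x)| := Finset.abs_sum_le_sum_abs _ _
        _ ≤ ∑ x, wt w τ B k x / Z w τ B k * (s * ε) := by
            apply Finset.sum_le_sum
            intro x _
            rw [← mul_sub, abs_mul, abs_of_nonneg (p_nonneg hw hB k x)]
            exact mul_le_mul_of_nonneg_left (ih (j + 1) (k - τ x) (by omega) (hP j k x hk))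
              (p_nonneg hw hB k x)
        _ = s * ε := by rw [← Finset.sum_mul, p_sum hw hB, one_mul]
    have h3 : A' (A'^[s] φ) k - A w τ B ((A w τ B)^[s] φ) k
        = (A' (A'^[s] φ) k - A w τ B (A'^[s] φ) k)
          + (A w τ B (A'^[s] φ) k - A w τ B ((A w τ B)^[s] φ) k) := by ring
    rw [h3]
    refine (abs_add_le _ _).trans ?_
    push_cast
    linarith

/-- **SGD, approximate sampling, averaged form.** -/
theorem sgd_approx [Nonempty Ω] (hw : ∀ x, 0 < w x) (hB : 1 < B) (G2 : ℝ)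
    (hG : ∀ x, ∑ v, (τ x v : ℝ) ^ 2 ≤ G2) (l : V → ℝ) (N0 : ℝ) (hN0 : 0 ≤ N0)
    (hNZ : ∀ k, N0 ≤ Z w τ B k)
    (hl : ∑ x, w x * Real.exp (∑ v, l v * (τ x v : ℝ)) ≤ 2 * N0)
    (A' : ((V → ℤ) → ℝ) → (V → ℤ) → ℝ) (ε : ℝ) (P : ℕ → (V → ℤ) → Prop) (T : ℕ)
    (hP0 : P 0 0) (hP : ∀ j k x, P j k → P (j + 1) (k - τ x))
    (hA' : ∀ φ : (V → ℤ) → ℝ, (∀ k, 0 ≤ φ k ∧ φ k ≤ 1) → ∀ k, 0 ≤ A' φ k ∧ A' φ k ≤ 1)
    (hap : ∀ φ : (V → ℤ) → ℝ, (∀ k, 0 ≤ φ k ∧ φ k ≤ 1) → ∀ j < T, ∀ k, P j k →
      |A' φ k - A w τ B φ k| ≤ ε) (hε : 0 ≤ ε)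
    (hbG : Real.log B * G2 ≤ 1 / 2) (hT : 2 * ∑ v, l v ^ 2 ≤ T * Real.log B) :
    (T : ℝ) * (1 / 4 - T * ε) ≤ ∑ s ∈ range T, A'^[s] (fun k => N0 / Z w τ B k) 0 := by
  have hB0 : 0 < B := by linarith
  have hb0 : 0 < Real.log B := Real.log_pos hB
  have h1 := sgd_exact w τ B hw hB G2 hG l N0 hl T 0
  have hD0 : D (Real.log B) l (0 : V → ℤ) = ∑ v, l v ^ 2 := by simp [D]
  rw [hD0] at h1
  have hφ : ∀ k, 0 ≤ N0 / Z w τ B k ∧ N0 / Z w τ B k ≤ 1 := fun k =>
    ⟨div_nonneg hN0 (Z_pos hw hB0 k).le, (div_le_one (Z_pos hw hB0 k)).mpr (hNZ k)⟩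
  have h2 : ∀ s ∈ range T, (A w τ B)^[s] (fun k => N0 / Z w τ B k) 0 - T * ε ≤
      A'^[s] (fun k => N0 / Z w τ B k) 0 := by
    intro s hs
    rw [Finset.mem_range] at hs
    have h3 := iter_approx w τ B hw hB0 A' ε P T hP hA' hap _ hφ s 0 0 (by omega) hP0
    have h4 := (abs_le.mp h3).1
    have h5 : (s : ℝ) * ε ≤ T * ε := mul_le_mul_of_nonneg_right (by exact_mod_cast hs.le) hε
    linarith
  refine le_trans ?_ (Finset.sum_le_sum h2)
  rw [Finset.sum_sub_distrib, Finset.sum_const, Finset.card_range, nsmul_eq_mul]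
  have h6 : (∑ v, l v ^ 2) / (4 * Real.log B) ≤ T / 8 := by
    rw [div_le_div_iff₀ (by positivity) (by norm_num)]
    linarith
  have h7 : (T : ℝ) * ((1 / 2) * (1 - Real.log B * G2 / 2)) ≥ T * (3 / 8) := by
    apply mul_le_mul_of_nonneg_left _ (Nat.cast_nonneg _)
    linarith
  linarith

end Crest.Agent.R309.Sgd943
end

-- ▼ part R309/SgdUS943

/-!
# R309: the gauge process of the unary sampler, averaged lower bound

`hsgd943` is the hypothesis `hsgd` of `US.inner_lower`.
-/

set_option autoImplicit false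

namespace Crest.Agent.R309.SgdUS943

open Finset Crest.Agent.R309.Tape Crest.Agent.R309.US

/-! ### lists and functions -/

theorem zipWith_ofFn {α β γ : Type*} (g : α → β → γ) {n : ℕ} (a : Fin n → α) (b : Fin n → β) :
    List.zipWith g (List.ofFn a) (List.ofFn b) = List.ofFn fun i => g (a i) (b i) := by
  apply List.ext_getElem
  · simp
  · intro i h1 h2
    simp

/-- defects as a function -/
def tf (I : Inst) (y : List ℕ) : Fin I.2.length → ℤ := fun v => I.2.getD v 0 - load I.1 y v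

theorem ofFn_tf (I : Inst) (y : List ℕ) : tau I y = List.ofFn (tf I y) := by
  apply List.ext_getElem
  · simp [tau]
  · intro i h1 h2
    simp [tau, tf]

theorem norm1_ofFn {n : ℕ} (f : Fin n → ℤ) : norm1 (List.ofFn f) = ∑ v, (f v).natAbs := by
  unfold norm1
  rw [List.map_ofFn, List.sum_ofFn]
  rfl

theorem dot_ofFn {n : ℕ} (k f : Fin n → ℤ) : US.dot (List.ofFn k) (List.ofFn f) = Sgd943.dot k f := by
  unfold US.dot Sgd943.dot
  rw [zipWith_ofFn, List.sum_ofFn]

theorem upd_ofFn (I : Inst) (k : Fin I.2.length → ℤ) (y : List ℕ) :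
    List.zipWith (fun a b => a - b) (List.ofFn k) (tau I y) = List.ofFn (k - tf I y) := by
  rw [ofFn_tf, zipWith_ofFn]
  rfl

theorem replicate_eq (n : ℕ) : List.replicate n (0 : ℤ) = List.ofFn (0 : Fin n → ℤ) := by
  apply List.ext_getElem
  · simp
  · intro i h1 h2
    simp

/-! ### weights -/

/-- configurations -/
abbrev Om (I : Inst) := {y : List ℕ // y ∈ box I.1}

instance (I : Inst) : Nonempty (Om I) := ⟨⟨_, zero_mem_box I.1⟩⟩

/-- vertex weight -/
noncomputable def w0 (I : Inst) (t : ℕ) (x : Om I) : ℝ := (1 / 2 : ℝ) ^ (t * norm1 (tau I x.1))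

theorem w0_pos (I : Inst) (t : ℕ) (x : Om I) : 0 < w0 I t x := by unfold w0; positivity

/-- defect function on configurations -/
def tO (I : Inst) (x : Om I) : Fin I.2.length → ℤ := tf I x.1

theorem wt_eq (I : Inst) (t p : ℕ) (k : Fin I.2.length → ℤ) (x : Om I) :
    Sgd943.wt (w0 I t) (tO I) (Bp p) k x = US.wt I t p (List.ofFn k) x.1 := by
  unfold Sgd943.wt US.wt w0 tO
  conv_rhs => rw [ofFn_tf, dot_ofFn]
  rw [ofFn_tf]

theorem sum_Om (I : Inst) (F : List ℕ → ℝ) : ∑ x : Om I, F x.1 = ∑ y ∈ box I.1, F y :=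
  (Finset.sum_coe_sort (box I.1) F)

theorem Z_eq (I : Inst) (t p : ℕ) (k : Fin I.2.length → ℤ) :
    Sgd943.Z (w0 I t) (tO I) (Bp p) k = Zk I t p (List.ofFn k) := by
  unfold Sgd943.Z Zk
  simp_rw [wt_eq]
  exact sum_Om I (fun y => US.wt I t p (List.ofFn k) y)

theorem Bp_gt {p : ℕ} (hp : 1 ≤ p) : 1 < Bp p := by
  unfold Bp
  have h1 : (1 / 2 : ℝ) ^ p ≤ (1 / 2) ^ 1 := pow_le_pow_of_le_one (by norm_num) (by norm_num) hp
  have h2 : (0 : ℝ) < (1 / 2) ^ p := by positivity
  rw [one_lt_inv₀ (by linarith)]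
  linarith

theorem log_Bp_ge {p : ℕ} (hp : 1 ≤ p) : (1 / 2 : ℝ) ^ p ≤ Real.log (Bp p) := by
  unfold Bp
  have h1 : (1 / 2 : ℝ) ^ p ≤ (1 / 2) ^ 1 := pow_le_pow_of_le_one (by norm_num) (by norm_num) hp
  have h2 : (0 : ℝ) < (1 / 2) ^ p := by positivity
  rw [Real.log_inv]
  have h3 := Real.log_le_sub_one_of_pos (x := 1 - (1 / 2 : ℝ) ^ p) (by linarith)
  linarith

theorem log_Bp_le {p : ℕ} (hp : 1 ≤ p) : Real.log (Bp p) ≤ 2 * (1 / 2 : ℝ) ^ p := by
  have h1 : (1 / 2 : ℝ) ^ p ≤ (1 / 2) ^ 1 := pow_le_pow_of_le_one (by norm_num) (by norm_num) hp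
  have h2 : (0 : ℝ) < (1 / 2) ^ p := by positivity
  have h3 := Real.log_le_sub_one_of_pos (x := Bp p) (by linarith [Bp_gt hp])
  refine h3.trans ?_
  unfold Bp
  have h4 : (0 : ℝ) < 1 - (1 / 2) ^ p := by linarith
  rw [sub_le_iff_le_add, inv_le_comm₀ h4 (by linarith), ]
  rw [inv_le_comm₀ (by linarith) h4] 
  rw [inv_le_iff_one_le_mul₀ h4]
  nlinarith

theorem card_sols_le_Z (I : Inst) (t p : ℕ) (hp : 1 ≤ p) (k : List ℤ) :
    ((sols I).card : ℝ) ≤ Zk I t p k := by
  have hB : 0 < Bp p := lt_trans one_pos (Bp_gt hp)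
  have h1 : ((sols I).card : ℝ) = ∑ y ∈ sols I, US.wt I t p k y := by
    rw [Finset.sum_congr rfl (fun y hy => wt_of_sol (mem_sols.1 hy).2)]
    simp
  rw [h1]
  unfold Zk
  apply Finset.sum_le_sum_of_subset_of_nonneg
  · exact Finset.filter_subset _ _
  · intro y _ _
    unfold US.wt
    exact mul_nonneg (by positivity) (zpow_pos hB _).le

/-! ### the gauge for list instances -/

/-- source of a cell -/
def sE (I : Inst) (hv : ∀ c ∈ I.1, c.1 < I.2.length ∧ c.2.1 < I.2.length) (e : Fin I.1.length) :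
    Fin I.2.length := ⟨(I.1[e]).1, (hv _ (List.getElem_mem e.2)).1⟩

/-- target of a cell -/
def tE (I : Inst) (hv : ∀ c ∈ I.1, c.1 < I.2.length ∧ c.2.1 < I.2.length) (e : Fin I.1.length) :
    Fin I.2.length := ⟨(I.1[e]).2.1, (hv _ (List.getElem_mem e.2)).2⟩

/-- upper bounds -/
def hE (I : Inst) (e : Fin I.1.length) : ℤ := (I.1[e]).2.2

/-- demand function -/
def dE (I : Inst) (v : Fin I.2.length) : ℤ := I.2.getD v 0

/-- list to function -/
def toX (I : Inst) (y : List ℕ) (e : Fin I.1.length) : ℤ := (y.getD e 0 : ℕ)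

/-- function to list -/
def toY (I : Inst) (x : Fin I.1.length → ℤ) : List ℕ := List.ofFn fun e => (x e).toNat

theorem toX_mem (I : Inst) {y : List ℕ} (hy : y ∈ box I.1) : toX I y ∈ Icc 0 (hE I) := by
  rw [mem_box_iff] at hy
  rw [Finset.mem_Icc]
  constructor
  · intro e; simp [toX]
  · intro e
    have := hy.2 e e.2
    simp only [toX, hE]
    rw [List.getD_eq_getElem _ _ e.2] at this
    exact_mod_cast this

theorem toY_mem (I : Inst) {x : Fin I.1.length → ℤ} (hx : x ∈ Icc 0 (hE I)) : toY I x ∈ box I.1 := by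
  rw [Finset.mem_Icc] at hx
  rw [mem_box_iff]
  refine ⟨by simp [toY], fun i hi => ?_⟩
  have h1 := hx.2 ⟨i, hi⟩
  have h0 := hx.1 ⟨i, hi⟩
  simp only [hE, Pi.zero_apply] at h1 h0
  rw [List.getD_eq_getElem _ _ hi, List.getD_eq_getElem _ _ (by simpa [toY] using hi)]
  simp only [toY, List.getElem_ofFn]
  have h2 : (x ⟨i, hi⟩).toNat ≤ ((I.1[(⟨i, hi⟩ : Fin I.1.length)]).2.2 : ℤ).toNat :=
    Int.toNat_le_toNat h1
  simpa using h2

theorem toY_toX (I : Inst) {y : List ℕ} (hy : y ∈ box I.1) : toY I (toX I y) = y := by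
  have hl := length_of_mem_box hy
  apply List.ext_getElem
  · simp [toY, hl]
  · intro i h1 h2
    simp [toY, toX, h2]

theorem toX_toY (I : Inst) {x : Fin I.1.length → ℤ} (hx : x ∈ Icc 0 (hE I)) : toX I (toY I x) = x := by
  rw [Finset.mem_Icc] at hx
  funext e
  have h0 := hx.1 e
  simp only [Pi.zero_apply] at h0
  simp [toX, toY, h0]

theorem load_eq (I : Inst) (hv : ∀ c ∈ I.1, c.1 < I.2.length ∧ c.2.1 < I.2.length) {y : List ℕ}
    (hy : y ∈ box I.1) (v : Fin I.2.length) :
    load I.1 y v = Gauge943.bd (sE I hv) (tE I hv) (toX I y) v := by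
  have hl := length_of_mem_box hy
  unfold load Gauge943.bd
  have h1 : List.zipWith (fun c a => contrib c a v) I.1 y
      = List.ofFn (fun e : Fin I.1.length => contrib (I.1[e]) (y.getD e 0) v) := by
    apply List.ext_getElem
    · simp [hl]
    · intro i h1 h2
      simp only [List.getElem_zipWith, List.getElem_ofFn]
      simp only [List.length_zipWith, hl, min_self] at h1
      rw [List.getD_eq_getElem _ _ (by rw [hl]; exact h1)]
      rfl
  rw [h1, List.sum_ofFn]
  apply Finset.sum_congr rfl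
  intro e _
  unfold contrib toX
  have e1 : ((I.1[e]).1 = (v : ℕ)) ↔ (sE I hv e = v) := by
    simp [sE, Fin.ext_iff]
  have e2 : ((I.1[e]).2.1 = (v : ℕ)) ↔ (tE I hv e = v) := by
    simp [tE, Fin.ext_iff]
  simp only [e1, e2]
  split_ifs <;> simp

theorem tf_eq (I : Inst) (hv : ∀ c ∈ I.1, c.1 < I.2.length ∧ c.2.1 < I.2.length) {y : List ℕ}
    (hy : y ∈ box I.1) : tf I y = -(Gauge943.bd (sE I hv) (tE I hv) (toX I y) - dE I) := by
  funext v
  simp only [tf, Pi.neg_apply, Pi.sub_apply, dE, ← load_eq I hv hy v]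
  ring

theorem card_sols (I : Inst) (hv : ∀ c ∈ I.1, c.1 < I.2.length ∧ c.2.1 < I.2.length) :
    (sols I).card = Gauge943.N (sE I hv) (tE I hv) 0 (hE I) (dE I) := by
  unfold Gauge943.N
  refine Finset.card_bij' (fun y _ => toX I y) (fun x _ => toY I x) ?_ ?_ ?_ ?_
  · intro y hy
    rw [mem_sols] at hy
    rw [Gauge943.mem_sol]
    have h1 := toX_mem I hy.1
    rw [Finset.mem_Icc] at h1
    refine ⟨h1, ?_⟩
    have h2 := tf_eq I hv hy.1
    have h3 : tf I y = 0 := by
      have := hy.2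
      rw [ofFn_tf, norm1_ofFn] at this
      funext v
      have h4 := Finset.sum_eq_zero_iff.mp this v (Finset.mem_univ v)
      simpa using h4
    rw [h3] at h2
    have h5 : Gauge943.bd (sE I hv) (tE I hv) (toX I y) - dE I = 0 := by
      rw [← neg_eq_zero]; exact h2.symm
    exact sub_eq_zero.mp h5
  · intro x hx
    rw [Gauge943.mem_sol] at hx
    have hx' : x ∈ Icc 0 (hE I) := by
      rw [Finset.mem_Icc]
      exact hx.1
    rw [mem_sols]
    refine ⟨toY_mem I hx', ?_⟩
    rw [ofFn_tf, norm1_ofFn, tf_eq I hv (toY_mem I hx'), toX_toY I hx', hx.2]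
    simp
  · intro y hy
    exact toY_toX I (mem_sols.1 hy).1
  · intro x hx
    rw [Gauge943.mem_sol] at hx
    have hx' : x ∈ Icc 0 (hE I) := by
      rw [Finset.mem_Icc]
      exact hx.1
    exact toX_toY I hx'

theorem sum_box_eq (I : Inst) (F : (Fin I.1.length → ℤ) → ℝ) :
    ∑ y ∈ box I.1, F (toX I y) = ∑ x ∈ Icc 0 (hE I), F x := by
  refine Finset.sum_bij' (fun y _ => toX I y) (fun x _ => toY I x) ?_ ?_ ?_ ?_ ?_
  · intro y hy; exact toX_mem I hy
  · intro x hx; exact toY_mem I hx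
  · intro y hy; exact toY_toX I hy
  · intro x hx; exact toX_toY I hx
  · intro y _; rfl

theorem card_box_eq (I : Inst) : ((box I.1).card : ℝ) = ((Icc 0 (hE I)).card : ℝ) := by
  have := sum_box_eq I (fun _ => 1)
  simpa using this

/-- the gauge, list form -/
theorem gauge_list (I : Inst) (hv : ∀ c ∈ I.1, c.1 < I.2.length ∧ c.2.1 < I.2.length)
    (hne : (sols I).Nonempty) (t : ℕ) (ht : 2 * I.2.length ^ 2 ≤ 4 ^ t) :
    ∃ l : Fin I.2.length → ℝ, (∀ v, |l v| ≤ Real.log (box I.1).card) ∧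
      ∑ x : Om I, w0 I t x * Real.exp (∑ v, l v * (tO I x v : ℝ)) ≤ 2 * ((sols I).card : ℝ) := by
  have hN : 0 < Gauge943.N (sE I hv) (tE I hv) 0 (hE I) (dE I) := by
    rw [← card_sols I hv]; exact Finset.card_pos.mpr hne
  obtain ⟨l, hl1, hl2⟩ := GaugeEx943.gauge_exists (sE I hv) (tE I hv) 0 (hE I) (dE I) hN
  refine ⟨fun v => - l v, ?_, ?_⟩
  · intro v
    rw [abs_neg, card_box_eq]
    exact hl1 v
  · have h1 := GaugeEx943.soft_mass_le (sE I hv) (tE I hv) 0 (hE I) (dE I) hN l hl2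
      ((1 / 2 : ℝ) ^ t) (by positivity) (by
        rw [Fintype.card_fin]
        have h2 : (2 : ℝ) * (I.2.length : ℝ) ^ 2 ≤ 4 ^ t := by exact_mod_cast ht
        have h3 : ((1 / 2 : ℝ) ^ t) ^ 2 = 1 / 4 ^ t := by
          rw [← pow_mul, mul_comm t 2, pow_mul, one_div (4 ^ t), ← inv_pow]
          norm_num
        rw [h3, one_div_mul_eq_div, div_le_iff₀ (by positivity)]
        linarith)
    rw [← card_sols I hv] at h1
    refine le_trans (le_of_eq ?_) h1
    rw [← sum_box_eq I (fun x => ((1 / 2 : ℝ) ^ t) ^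
      GaugeEx943.nrm (Gauge943.bd (sE I hv) (tE I hv) x - dE I) *
        GaugeEx943.gf l (Gauge943.bd (sE I hv) (tE I hv) x - dE I))]
    rw [← sum_Om I (fun y => ((1 / 2 : ℝ) ^ t) ^
      GaugeEx943.nrm (Gauge943.bd (sE I hv) (tE I hv) (toX I y) - dE I) *
        GaugeEx943.gf l (Gauge943.bd (sE I hv) (tE I hv) (toX I y) - dE I))]
    apply Finset.sum_congr rfl
    intro x _
    have h4 := tf_eq I hv x.2
    have h5 : Gauge943.bd (sE I hv) (tE I hv) (toX I x.1) - dE I = - tf I x.1 := by rw [h4, neg_neg]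
    rw [h5]
    unfold w0 tO GaugeEx943.gf GaugeEx943.nrm
    rw [ofFn_tf, norm1_ofFn, ← pow_mul]
    congr 1
    · simp
    · congr 1
      apply Finset.sum_congr rfl
      intro v _
      simp only [Pi.neg_apply]
      push_cast
      ring

/-! ### the process -/

/-- the update operator on functions of function-valued fields -/
noncomputable def A' (I : Inst) (q t p m N : ℕ) (ψ : (Fin I.2.length → ℤ) → ℝ)
    (k : Fin I.2.length → ℤ) : ℝ :=
  avg (N * (q + m)) (fun l => ψ (k - tf I (soft I q t p m N (List.ofFn k)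
    (List.replicate I.1.length 0) l)))

theorem markov_upd (I : Inst) (q t p m N : ℕ) (φ : List ℤ → ℝ) (s : ℕ) :
    ∀ k : Fin I.2.length → ℤ, (markov (upd I q t p m N) (N * (q + m)))^[s] φ (List.ofFn k)
      = (A' I q t p m N)^[s] (fun k => φ (List.ofFn k)) k := by
  induction s with
  | zero => intro k; rfl
  | succ s ih =>
    intro k
    rw [Function.iterate_succ_apply', Function.iterate_succ_apply']
    unfold markov A'
    refine avg_congr fun l _ => ?_
    unfold upd
    rw [upd_ofFn]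
    exact ih _

theorem GB_ofFn {n A : ℕ} {k : Fin n → ℤ} : GB n A (List.ofFn k) ↔ ∀ v, (k v).natAbs ≤ A := by
  unfold GB
  constructor
  · rintro ⟨-, h⟩ v
    exact h _ (by simp)
  · intro h
    refine ⟨by simp, fun a ha => ?_⟩
    rw [List.mem_ofFn] at ha
    obtain ⟨v, rfl⟩ := ha
    exact h v

/-- **The averaged SGD bound in the form needed by `US.inner_lower`.** -/
theorem hsgd943 (I : Inst) (hv : ∀ c ∈ I.1, c.1 < I.2.length ∧ c.2.1 < I.2.length)
    (hne : (sols I).Nonempty) (q t p m N lT D Lam : ℕ) (ε : ℝ) (hε : 0 ≤ ε)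
    (ht : 2 * I.2.length ^ 2 ≤ 4 ^ t)
    (hD : ∀ y ∈ box I.1, ∀ a ∈ tau I y, a.natAbs ≤ D)
    (hp : 1 ≤ p) (hpD : 4 * (I.2.length * D ^ 2) ≤ 2 ^ p)
    (hLam : (box I.1).card ≤ 2 ^ Lam) (hT : 2 * (I.2.length * Lam ^ 2) * 2 ^ p ≤ 2 ^ lT)
    (hs : ∀ k, GB I.2.length (2 ^ lT * D) k → ∀ φ : List ℕ → ℝ, (∀ y, 0 ≤ φ y ∧ φ y ≤ 1) →
      |avg (N * (q + m)) (fun l => φ (soft I q t p m N k (List.replicate I.1.length 0) l)) -
        (∑ y ∈ box I.1, US.wt I t p k y * φ y) / Zk I t p k| ≤ ε) :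
    1 / 4 - 2 ^ lT * ε ≤ (∑ s ∈ range (2 ^ lT), (markov (upd I q t p m N) (N * (q + m)))^[s]
      (fun k => ((sols I).card : ℝ) / Zk I t p k) (List.replicate I.2.length 0)) / 2 ^ lT := by
  obtain ⟨l, hl1, hl2⟩ := gauge_list I hv hne t ht
  have hB := Bp_gt hp
  have hB0 : 0 < Bp p := by linarith
  have hlog := log_Bp_ge hp
  have hlog2 := log_Bp_le hp
  have hp2 : (0 : ℝ) < (1 / 2) ^ p := by positivity
  have hp3 : ((1 / 2 : ℝ) ^ p) * 2 ^ p = 1 := by rw [← mul_pow]; norm_num
  have hG : ∀ x : Om I, ∑ v, (tO I x v : ℝ) ^ 2 ≤ ((I.2.length * D ^ 2 : ℕ) : ℝ) := by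
    intro x
    have h1 : ∀ v ∈ (univ : Finset (Fin I.2.length)), (tO I x v : ℝ) ^ 2 ≤ (D : ℝ) ^ 2 := by
      intro v _
      have h2 : (tO I x v).natAbs ≤ D := by
        apply hD x.1 x.2
        rw [ofFn_tf]
        exact List.mem_ofFn.2 ⟨v, rfl⟩
      rw [sq_le_sq]
      have h3 : |(tO I x v : ℝ)| = ((tO I x v).natAbs : ℝ) := by
        rw [Nat.cast_natAbs]; push_cast; rfl
      rw [h3, abs_of_nonneg (Nat.cast_nonneg D)]
      exact_mod_cast h2
    refine (Finset.sum_le_sum h1).trans ?_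
    simp
  have hbG : Real.log (Bp p) * ((I.2.length * D ^ 2 : ℕ) : ℝ) ≤ 1 / 2 := by
    have h1 : (4 : ℝ) * ((I.2.length * D ^ 2 : ℕ) : ℝ) ≤ 2 ^ p := by exact_mod_cast hpD
    calc Real.log (Bp p) * ((I.2.length * D ^ 2 : ℕ) : ℝ)
        ≤ 2 * (1 / 2 : ℝ) ^ p * ((I.2.length * D ^ 2 : ℕ) : ℝ) :=
          mul_le_mul_of_nonneg_right hlog2 (Nat.cast_nonneg _)
      _ = ((1 / 2 : ℝ) ^ p) * (4 * ((I.2.length * D ^ 2 : ℕ) : ℝ)) / 2 := by ring
      _ ≤ ((1 / 2 : ℝ) ^ p) * (2 ^ p) / 2 := by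
          have := mul_le_mul_of_nonneg_left h1 hp2.le
          linarith
      _ = 1 / 2 := by rw [hp3]
  have hl3 : ∑ v, l v ^ 2 ≤ ((I.2.length * Lam ^ 2 : ℕ) : ℝ) := by
    have hbox : (0 : ℝ) < (box I.1).card := by
      exact_mod_cast Finset.card_pos.mpr ⟨_, zero_mem_box I.1⟩
    have h1 : Real.log (box I.1).card ≤ Lam := by
      have h2 : ((box I.1).card : ℝ) ≤ 2 ^ Lam := by exact_mod_cast hLam
      have h3 := Real.log_le_log hbox h2
      rw [Real.log_pow] at h3
      have h4 : Real.log 2 ≤ 1 := by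
        have := Real.log_two_lt_d9
        linarith
      have h5 : (Lam : ℝ) * Real.log 2 ≤ Lam * 1 := mul_le_mul_of_nonneg_left h4 (Nat.cast_nonneg _)
      linarith
    have h2 : ∀ v ∈ (univ : Finset (Fin I.2.length)), l v ^ 2 ≤ (Lam : ℝ) ^ 2 := by
      intro v _
      rw [sq_le_sq, abs_of_nonneg (Nat.cast_nonneg (α := ℝ) Lam)]
      exact (hl1 v).trans h1
    refine (Finset.sum_le_sum h2).trans ?_
    simp
  have hTT : 2 * ∑ v, l v ^ 2 ≤ ((2 ^ lT : ℕ) : ℝ) * Real.log (Bp p) := by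
    have h1 : (2 : ℝ) * ((I.2.length * Lam ^ 2 : ℕ) : ℝ) * 2 ^ p ≤ ((2 ^ lT : ℕ) : ℝ) := by
      exact_mod_cast hT
    calc 2 * ∑ v, l v ^ 2 ≤ 2 * ((I.2.length * Lam ^ 2 : ℕ) : ℝ) := by linarith
      _ = (2 * ((I.2.length * Lam ^ 2 : ℕ) : ℝ) * 2 ^ p) * (1 / 2 : ℝ) ^ p := by
          have : (2 * ((I.2.length * Lam ^ 2 : ℕ) : ℝ) * 2 ^ p) * (1 / 2 : ℝ) ^ p
            = 2 * ((I.2.length * Lam ^ 2 : ℕ) : ℝ) * ((1 / 2 : ℝ) ^ p * 2 ^ p) := by ring
          rw [this, hp3, mul_one]
      _ ≤ ((2 ^ lT : ℕ) : ℝ) * (1 / 2 : ℝ) ^ p := mul_le_mul_of_nonneg_right h1 hp2.le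
      _ ≤ ((2 ^ lT : ℕ) : ℝ) * Real.log (Bp p) :=
          mul_le_mul_of_nonneg_left hlog (Nat.cast_nonneg _)
  have key := Sgd943.sgd_approx (w0 I t) (tO I) (Bp p) (w0_pos I t) hB
    ((I.2.length * D ^ 2 : ℕ) : ℝ) hG l ((sols I).card : ℝ) (Nat.cast_nonneg _)
    (fun k => by rw [Z_eq]; exact card_sols_le_Z I t p hp _) hl2
    (A' I q t p m N) ε (fun j k => ∀ v, (k v).natAbs ≤ j * D) (2 ^ lT)
    (by intro v; simp)
    (by
      intro j k x hk v
      have h1 := hk v
      have h2 : (tO I x v).natAbs ≤ D := by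
        apply hD x.1 x.2
        rw [ofFn_tf]
        exact List.mem_ofFn.2 ⟨v, rfl⟩
      have h3 := Int.natAbs_sub_le (k v) (tO I x v)
      simp only [Pi.sub_apply]
      calc (k v - tO I x v).natAbs ≤ (k v).natAbs + (tO I x v).natAbs := h3
        _ ≤ j * D + D := Nat.add_le_add h1 h2
        _ = (j + 1) * D := by ring)
    (by
      intro φ hφ k
      exact ⟨avg_nonneg fun l _ => (hφ _).1, avg_le_const fun l _ => (hφ _).2⟩)
    (by
      intro φ hφ j hj k hk
      have h1 : GB I.2.length (2 ^ lT * D) (List.ofFn k) := by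
        rw [GB_ofFn]
        intro v
        exact (hk v).trans (Nat.mul_le_mul_right D hj.le)
      have h2 := hs (List.ofFn k) h1 (fun y => φ (k - tf I y)) (fun y => hφ _)
      have h3 : Sgd943.A (w0 I t) (tO I) (Bp p) φ k
          = (∑ y ∈ box I.1, US.wt I t p (List.ofFn k) y * φ (k - tf I y)) / Zk I t p (List.ofFn k) := by
        unfold Sgd943.A
        rw [← sum_Om I (fun y => US.wt I t p (List.ofFn k) y * φ (k - tf I y)), Finset.sum_div]
        apply Finset.sum_congr rfl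
        intro x _
        rw [wt_eq, Z_eq]
        simp only [tO]
        ring
      rw [h3]
      exact h2)
    hε hbG hTT
  have hpow : (0 : ℝ) < 2 ^ lT := by positivity
  rw [le_div_iff₀ hpow]
  rw [replicate_eq]
  simp_rw [markov_upd]
  have e1 : (((2 ^ lT : ℕ) : ℝ)) = 2 ^ lT := by push_cast; rfl
  rw [e1] at key
  calc (1 / 4 - 2 ^ lT * ε) * 2 ^ lT = 2 ^ lT * (1 / 4 - 2 ^ lT * ε) := by ring
    _ ≤ _ := key
    _ = _ := by
      apply Finset.sum_congr rfl
      intro s _
      simp_rw [Z_eq]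

end Crest.Agent.R309.SgdUS943
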