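import Crest.Agent.R309.UGDefs

-- ▼ part R309/UGBasic
section

/-!
R309: basic facts on the configuration sums `cs`, the partition function `Z`, and the
bilinear forms.
-/

set_option autoImplicit false
set_option linter.unusedSectionVars false

namespace Crest.Agent.R309.UG

open Finset

variable {V : Type*} [DecidableEq V]

theorem sh_add (e : Cell V) (y : ℕ) (β δ : V → ℤ) : e.sh y (β + δ) = e.sh y β + δ := by
  unfold Cell.sh; module

theorem sh_sub (e : Cell V) (y : ℕ) (β δ : V → ℤ) : e.sh y (β - δ) = e.sh y β - δ := by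
  unfold Cell.sh; module

theorem sh_comm (e f : Cell V) (x y : ℕ) (β : V → ℤ) :
    e.sh x (f.sh y β) = f.sh y (e.sh x β) := by
  unfold Cell.sh; module

theorem cs_shift (R : List (Cell V)) : ∀ (β δ : V → ℤ) (H : (V → ℤ) → List ℕ → ℝ),
    cs R (β + δ) H = cs R β (fun t Y => H (t + δ) Y) := by
  induction R with
  | nil => intro β δ H; rfl
  | cons e R ih =>
    intro β δ H
    rw [cs_cons, cs_cons]
    refine Finset.sum_congr rfl fun y _ => ?_
    rw [sh_add, ih]

theorem cs_shift_sub (R : List (Cell V)) (β δ : V → ℤ) (H : (V → ℤ) → List ℕ → ℝ) :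
    cs R (β - δ) H = cs R β (fun t Y => H (t - δ) Y) := by
  rw [sub_eq_add_neg, cs_shift]; simp only [sub_eq_add_neg]

theorem cs_add (R : List (Cell V)) : ∀ (β : V → ℤ) (H H' : (V → ℤ) → List ℕ → ℝ),
    cs R β (fun t Y => H t Y + H' t Y) = cs R β H + cs R β H' := by
  induction R with
  | nil => intro β H H'; rfl
  | cons e R ih =>
    intro β H H'
    rw [cs_cons, cs_cons, cs_cons, ← Finset.sum_add_distrib]
    refine Finset.sum_congr rfl fun y _ => ?_
    rw [ih, mul_add]

theorem cs_mul_left (R : List (Cell V)) : ∀ (β : V → ℤ) (c : ℝ) (H : (V → ℤ) → List ℕ → ℝ),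
    cs R β (fun t Y => c * H t Y) = c * cs R β H := by
  induction R with
  | nil => intro β c H; rfl
  | cons e R ih =>
    intro β c H
    rw [cs_cons, cs_cons, Finset.mul_sum]
    refine Finset.sum_congr rfl fun y _ => ?_
    rw [ih]; ring

theorem cs_sub (R : List (Cell V)) (β : V → ℤ) (H H' : (V → ℤ) → List ℕ → ℝ) :
    cs R β (fun t Y => H t Y - H' t Y) = cs R β H - cs R β H' := by
  have h := cs_add R β H (fun t Y => (-1) * H' t Y)
  rw [cs_mul_left] at h
  rw [show (fun (t : V → ℤ) (Y : List ℕ) => H t Y - H' t Y)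
      = (fun t Y => H t Y + (-1) * H' t Y) from by funext t Y; ring, h]
  ring

theorem cs_zero (R : List (Cell V)) (β : V → ℤ) :
    cs R β (fun _ _ => (0 : ℝ)) = 0 := by
  have h := cs_mul_left R β 0 (fun _ _ => (0 : ℝ))
  simpa using h


theorem cs_mono (R : List (Cell V)) (hR : ∀ e ∈ R, e.OK) :
    ∀ (β : V → ℤ) (H H' : (V → ℤ) → List ℕ → ℝ), (∀ t Y, H t Y ≤ H' t Y) →
    cs R β H ≤ cs R β H' := by
  induction R with
  | nil => intro β H H' h; exact h _ _
  | cons e R ih =>
    intro β H H' h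
    rw [cs_cons, cs_cons]
    refine Finset.sum_le_sum fun y hy => ?_
    have hpos := (hR e (by simp)).pos y (by simpa [Nat.lt_succ_iff] using hy)
    exact mul_le_mul_of_nonneg_left
      (ih (fun f hf => hR f (by simp [hf])) _ _ _ (fun t Y => h t (y :: Y))) hpos.le

theorem cs_nonneg (R : List (Cell V)) (hR : ∀ e ∈ R, e.OK) (β : V → ℤ)
    (H : (V → ℤ) → List ℕ → ℝ) (h : ∀ t Y, 0 ≤ H t Y) : 0 ≤ cs R β H := by
  have := cs_mono R hR β (fun _ _ => 0) H h
  rwa [cs_zero] at this

theorem cs_pos (R : List (Cell V)) (hR : ∀ e ∈ R, e.OK) :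
    ∀ (β : V → ℤ) (H : (V → ℤ) → List ℕ → ℝ), (∀ t Y, 0 < H t Y) → 0 < cs R β H := by
  induction R with
  | nil => intro β H h; exact h _ _
  | cons e R ih =>
    intro β H h
    rw [cs_cons]
    refine Finset.sum_pos (fun y hy => ?_) ⟨0, by simp⟩
    have hpos := (hR e (by simp)).pos y (by simpa [Nat.lt_succ_iff] using hy)
    exact mul_pos hpos (ih (fun f hf => hR f (by simp [hf])) _ _ (fun t Y => h t (y :: Y)))

/-- Cauchy–Schwarz for the positive functional `cs R β`. -/
theorem cs_sq_le (R : List (Cell V)) (hR : ∀ e ∈ R, e.OK) (β : V → ℤ)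
    (w : (V → ℤ) → ℝ) (hw : ∀ t, 0 ≤ w t) (g : List ℕ → ℝ) :
    (cs R β (fun t Y => w t * g Y)) ^ 2
      ≤ cs R β (fun t _ => w t) * cs R β (fun t Y => w t * g Y ^ 2) := by
  set a := cs R β (fun t _ => w t)
  set b := cs R β (fun t Y => w t * g Y)
  set c := cs R β (fun t Y => w t * g Y ^ 2)
  have ha : 0 ≤ a := cs_nonneg R hR β _ (fun t _ => hw t)
  have key : ∀ x : ℝ, 0 ≤ a * (x * x) + (2 * b) * x + c := by
    intro x
    have h1 : 0 ≤ cs R β (fun t Y => w t * (x + g Y) ^ 2) :=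
      cs_nonneg R hR β _ (fun t Y => mul_nonneg (hw t) (sq_nonneg _))
    have h2 : cs R β (fun t Y => w t * (x + g Y) ^ 2) = a * (x * x) + (2 * b) * x + c := by
      have : (fun (t : V → ℤ) (Y : List ℕ) => w t * (x + g Y) ^ 2)
          = (fun t Y => (x * x * w t + 2 * x * (w t * g Y)) + w t * g Y ^ 2) := by
        funext t Y; ring
      rw [this, cs_add, cs_add, cs_mul_left, cs_mul_left]
      ring
    rw [← h2]; exact h1
  have := discrim_le_zero key
  unfold discrim at this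
  nlinarith [this]

section Z

variable {G : (V → ℤ) → ℝ}

theorem Z_pos (hG : ∀ β, 0 < G β) (R : List (Cell V)) (hR : ∀ e ∈ R, e.OK) (β : V → ℤ) :
    0 < Z G R β := cs_pos R hR β _ (fun t _ => hG t)

theorem Z_shift_le (K : ℝ) (hK : ∀ t a b, G (t + ev a - ev b) ≤ K * G t)
    (R : List (Cell V)) (hR : ∀ e ∈ R, e.OK) (β : V → ℤ) (a b : V) :
    Z G R (β + ev a - ev b) ≤ K * Z G R β := by
  unfold Z
  rw [cs_shift_sub, cs_shift, ← cs_mul_left]
  refine cs_mono R hR _ _ _ (fun t _ => ?_)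
  have := hK t a b
  simpa [sub_eq_add_neg, add_assoc, add_comm, add_left_comm] using this

theorem Z_swap (e f : Cell V) (R : List (Cell V)) (β : V → ℤ) :
    Z G (e :: f :: R) β = Z G (f :: e :: R) β := by
  rw [Z_cons, Z_cons]
  simp only [Z_cons, Finset.mul_sum]
  rw [Finset.sum_comm]
  refine Finset.sum_congr rfl fun y _ => Finset.sum_congr rfl fun x _ => ?_
  rw [sh_comm]; ring

theorem Z_perm {R R' : List (Cell V)} (h : R.Perm R') : ∀ β : V → ℤ, Z G R β = Z G R' β := by
  induction h with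
  | nil => intro β; rfl
  | cons x _ ih => intro β; rw [Z_cons, Z_cons]; exact Finset.sum_congr rfl fun y _ => by rw [ih]
  | swap x y l => intro β; exact Z_swap y x l β
  | trans _ _ ih1 ih2 => intro β; rw [ih1, ih2]

end Z

section forms

variable [Fintype V]

/-- real unit vector -/
def one (a : V) : V → ℝ := Pi.single a 1

theorem Q_add_left (A : V → V → ℝ) (ν ν' μ : V → ℝ) : Q A (ν + ν') μ = Q A ν μ + Q A ν' μ := by
  unfold Q; rw [← Finset.sum_add_distrib]
  refine Finset.sum_congr rfl fun a _ => ?_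
  rw [← Finset.sum_add_distrib]
  refine Finset.sum_congr rfl fun b _ => ?_
  simp only [Pi.add_apply]; ring

theorem Q_smul_left (A : V → V → ℝ) (c : ℝ) (ν μ : V → ℝ) : Q A (c • ν) μ = c * Q A ν μ := by
  unfold Q; rw [Finset.mul_sum]
  refine Finset.sum_congr rfl fun a _ => ?_
  rw [Finset.mul_sum]
  refine Finset.sum_congr rfl fun b _ => ?_
  simp only [Pi.smul_apply, smul_eq_mul]; ring

theorem Q_symm (A : V → V → ℝ) (hA : ∀ a b, A a b = A b a) (ν μ : V → ℝ) :
    Q A ν μ = Q A μ ν := by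
  unfold Q; rw [Finset.sum_comm]
  refine Finset.sum_congr rfl fun a _ => Finset.sum_congr rfl fun b _ => ?_
  rw [hA b a]; ring

theorem Q_one_right (A : V → V → ℝ) (ν : V → ℝ) (c : V) :
    Q A ν (one c) = ∑ a, ν a * A a c := by
  unfold Q one
  refine Finset.sum_congr rfl fun a _ => ?_
  rw [Finset.sum_eq_single c]
  · simp
  · intro b _ hb; simp [hb]
  · simp

theorem Q_one_one (A : V → V → ℝ) (a c : V) : Q A (one a) (one c) = A a c := by
  rw [Q_one_right, Finset.sum_eq_single a]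
  · simp [one]
  · intro b _ hb; simp [one, hb]
  · simp

theorem frm_symm (G : (V → ℤ) → ℝ) (R : List (Cell V)) (β : V → ℤ) (a b : V) :
    frm G R β a b = frm G R β b a := by
  unfold frm; rw [sub_right_comm]

/-- expansion of the form on `ν + x e_u + y e_w` -/
theorem Q_expand (A : V → V → ℝ) (hA : ∀ a b, A a b = A b a) (ν : V → ℝ) (u w : V) (x y : ℝ) :
    Q A (ν + x • one u + y • one w) (ν + x • one u + y • one w)
      = Q A ν ν + 2 * x * Q A ν (one u) + 2 * y * Q A ν (one w)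
        + x ^ 2 * A u u + y ^ 2 * A w w + 2 * x * y * A u w := by
  have h : ∀ μ, Q A (ν + x • one u + y • one w) μ
      = Q A ν μ + x * Q A (one u) μ + y * Q A (one w) μ := by
    intro μ; rw [Q_add_left, Q_add_left, Q_smul_left, Q_smul_left]
  rw [h, Q_symm A hA ν, Q_symm A hA (one u) (ν + x • one u + y • one w),
    Q_symm A hA (one w) (ν + x • one u + y • one w), h, h, h,
    Q_symm A hA (one u) ν, Q_symm A hA (one w) ν, Q_one_one, Q_one_one, Q_one_one, Q_one_one,
    hA w u]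
  ring

/-- value of the form against a unit vector after the modification -/
theorem Q_expand_right (A : V → V → ℝ) (ν : V → ℝ) (u w c : V) (x y : ℝ) :
    Q A (ν + x • one u + y • one w) (one c)
      = Q A ν (one c) + x * A u c + y * A w c := by
  rw [Q_add_left, Q_add_left, Q_smul_left, Q_smul_left, Q_one_one, Q_one_one]

end forms

end Crest.Agent.R309.UG
end

-- ▼ part R309/UGCons

/-!
R309: the conservation inequality (one processed cell) for log-concave cell weights, and the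
Lorentzian induction step.
-/

set_option autoImplicit false
set_option linter.unusedSectionVars false

namespace Crest.Agent.R309.UG

open Finset

variable {V : Type*} [DecidableEq V]

/-- the modified vector `ν - (F (y+1) / w_y) e_u + (F y / w_y) e_w` -/
noncomputable def upd (e : Cell V) (F : ℕ → ℝ) (ν : V → ℝ) (y : ℕ) : V → ℝ :=
  ν + (-(F (y + 1) / e.wt y)) • one e.u + (F y / e.wt y) • one e.w

/-- numerical core of the conservation law: partial sums. -/
theorem quad_partial (w F a : ℕ → ℝ) (b : ℕ) (hw : ∀ y ≤ b, 0 < w y)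
    (hlc : ∀ y, y + 2 ≤ b → w y * w (y + 2) ≤ w (y + 1) ^ 2) (ha : ∀ y, 0 ≤ a y) (hF0 : F 0 = 0) :
    ∀ n, n + 1 ≤ b →
      F (n + 2) ^ 2 * a (n + 3) / w (n + 1) + F (n + 1) ^ 2 * a (n + 2) / w n
        - 2 * F (n + 1) * F (n + 2) * a (n + 2) / w (n + 1)
      ≤ ∑ y ∈ range (n + 2), (F (y + 1) ^ 2 * a (y + 2) + F y ^ 2 * a y
          - 2 * F y * F (y + 1) * a (y + 1)) / w y := by
  intro n
  induction n with
  | zero =>
    intro hb
    have h1 := hw 1 hb
    have h0 := hw 0 (by omega)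
    rw [Finset.sum_range_succ, Finset.sum_range_succ, Finset.sum_range_zero]
    simp only [hF0, zero_add]
    have : 0 ≤ F 1 ^ 2 * a 1 / w 1 := div_nonneg (mul_nonneg (sq_nonneg _) (ha _)) h1.le
    have e1 : (F 1 ^ 2 * a 2 + 0 ^ 2 * a 0 - 2 * 0 * F 1 * a 1) / w 0 = F 1 ^ 2 * a 2 / w 0 := by
      ring
    have e2 : (F (1 + 1) ^ 2 * a (1 + 2) + F 1 ^ 2 * a 1 - 2 * F 1 * F (1 + 1) * a (1 + 1)) / w 1
        = F 2 ^ 2 * a 3 / w 1 + F 1 ^ 2 * a 1 / w 1 - 2 * F 1 * F 2 * a 2 / w 1 := by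
      norm_num; ring
    rw [e1, e2]; linarith
  | succ n ih =>
    intro hb
    have ih := ih (by omega)
    rw [Finset.sum_range_succ]
    have hn := hw n (by omega)
    have hn1 := hw (n + 1) (by omega)
    have hn2 := hw (n + 2) (by omega)
    have hl := hlc n (by omega)
    -- discriminant
    have key : 0 ≤ F (n + 1) ^ 2 * a (n + 2) / w n + F (n + 2) ^ 2 * a (n + 2) / w (n + 2)
        - 2 * F (n + 1) * F (n + 2) * a (n + 2) / w (n + 1) := by
      have e : F (n + 1) ^ 2 * a (n + 2) / w n + F (n + 2) ^ 2 * a (n + 2) / w (n + 2)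
          - 2 * F (n + 1) * F (n + 2) * a (n + 2) / w (n + 1)
          = a (n + 2) * (F (n + 1) ^ 2 / w n + F (n + 2) ^ 2 / w (n + 2)
            - 2 * F (n + 1) * F (n + 2) / w (n + 1)) := by ring
      rw [e]
      refine mul_nonneg (ha _) ?_
      have e3 : F (n + 1) ^ 2 / w n + F (n + 2) ^ 2 / w (n + 2)
            - 2 * F (n + 1) * F (n + 2) / w (n + 1)
          = (w (n + 1) * w (n + 2) * F (n + 1) ^ 2 + w n * w (n + 1) * F (n + 2) ^ 2
            - 2 * (w n * w (n + 2)) * F (n + 1) * F (n + 2)) / (w n * w (n + 1) * w (n + 2)) := by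
        field_simp
      rw [e3]
      refine div_nonneg ?_ (by positivity)
      -- (w_{n+1} w_{n+2}) X² + (w_n w_{n+1}) Y² ≥ 2 w_n w_{n+2} |X Y|
      set X := F (n + 1); set Y := F (n + 2)
      set p := w n; set q := w (n + 1); set r := w (n + 2)
      -- multiply by q > 0 : q² r X² + p q² Y² - 2 p q r X Y ≥ p r (r X² + p Y²)... 
      have h4 : 0 ≤ q * (q * r * X ^ 2 + p * q * Y ^ 2 - 2 * (p * r) * X * Y) := by
        have h5 : p * r * (r * X ^ 2 + p * Y ^ 2) ≤ q ^ 2 * (r * X ^ 2 + p * Y ^ 2) :=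
          mul_le_mul_of_nonneg_right hl (by positivity)
        have h6 : 0 ≤ p * r * ((r * X ^ 2 + p * Y ^ 2) - 2 * q * X * Y)
            + (q ^ 2 - p * r) * (r * X ^ 2 + p * Y ^ 2) := by
          -- second form: q²(rX²+pY²) - 2pqrXY
          have : p * r * ((r * X ^ 2 + p * Y ^ 2) - 2 * q * X * Y)
            + (q ^ 2 - p * r) * (r * X ^ 2 + p * Y ^ 2)
            = q ^ 2 * (r * X ^ 2 + p * Y ^ 2) - 2 * p * r * q * X * Y := by ring
          rw [this]
          -- AM-GM : r X² + p Y² ≥ 2 sqrt(pr) |XY|, use (pr)² X²Y²q² ≤ ...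
          have h7 : (p * r * q * X * Y) ^ 2 ≤ (q ^ 2 * (r * X ^ 2 + p * Y ^ 2) / 2) ^ 2 := by
            have h8 : 0 ≤ (r * X ^ 2 - p * Y ^ 2) ^ 2 := sq_nonneg _
            have h9 : 4 * (p * r) * (X * Y) ^ 2 ≤ (r * X ^ 2 + p * Y ^ 2) ^ 2 := by nlinarith
            have h10 : (p * r) * (p * r * q ^ 2 * (X * Y) ^ 2)
                ≤ q ^ 2 * (p * r * q ^ 2 * (X * Y) ^ 2) :=
              mul_le_mul_of_nonneg_right hl (by positivity)
            have h11 : q ^ 4 * (4 * (p * r) * (X * Y) ^ 2) ≤ q ^ 4 * (r * X ^ 2 + p * Y ^ 2) ^ 2 :=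
              mul_le_mul_of_nonneg_left h9 (by positivity)
            nlinarith
          have h12 : 0 ≤ q ^ 2 * (r * X ^ 2 + p * Y ^ 2) / 2 := by positivity
          have h13 := abs_le_of_sq_le_sq h7 h12
          have h14 := le_abs_self (p * r * q * X * Y)
          linarith [h13, h14, show 2 * p * r * q * X * Y = 2 * (p * r * q * X * Y) by ring]
        nlinarith
      have hq : 0 < q := hn1
      exact nonneg_of_mul_nonneg_right h4 hq
    have e2 : (F (n + 2 + 1) ^ 2 * a (n + 2 + 2) + F (n + 2) ^ 2 * a (n + 2)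
          - 2 * F (n + 2) * F (n + 2 + 1) * a (n + 2 + 1)) / w (n + 2)
        = F (n + 3) ^ 2 * a (n + 4) / w (n + 2) + F (n + 2) ^ 2 * a (n + 2) / w (n + 2)
          - 2 * F (n + 2) * F (n + 3) * a (n + 3) / w (n + 2) := by
      ring_nf
    have e0 : n + 1 + 1 = n + 2 := rfl
    have e4 : n + 1 + 2 = n + 3 := rfl
    have e5 : n + 1 + 3 = n + 4 := rfl
    rw [e0, e4, e5]
    rw [show (∑ x ∈ range (n + 2), _ : ℝ) = _ from rfl]
    linarith [key, ih, e2.le, e2.ge]

/-- numerical core of the conservation law. -/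
theorem quad_nonneg (w F a : ℕ → ℝ) (b : ℕ) (hw : ∀ y ≤ b, 0 < w y)
    (hlc : ∀ y, y + 2 ≤ b → w y * w (y + 2) ≤ w (y + 1) ^ 2) (ha : ∀ y, 0 ≤ a y)
    (hF0 : F 0 = 0) (hFb : F (b + 1) = 0) :
    0 ≤ ∑ y ∈ range (b + 1), (F (y + 1) ^ 2 * a (y + 2) + F y ^ 2 * a y
          - 2 * F y * F (y + 1) * a (y + 1)) / w y := by
  rcases b with _ | n
  · simp at hFb
    simp [hF0, hFb]
  · refine le_trans ?_ (quad_partial w F a (n + 1) hw hlc ha hF0 n le_rfl)
    have h0 : F (n + 2) = 0 := hFb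
    rw [h0]
    have := hw n (by omega)
    have : 0 ≤ F (n + 1) ^ 2 * a (n + 2) / w n :=
      div_nonneg (mul_nonneg (sq_nonneg _) (ha _)) this.le
    simpa using this

variable [Fintype V]

theorem frm_cons (G : (V → ℤ) → ℝ) (e : Cell V) (R : List (Cell V)) (β : V → ℤ) (a b : V) :
    frm G (e :: R) β a b = ∑ y ∈ range (e.b + 1), e.wt y * frm G R (e.sh y β) a b := by
  unfold frm
  rw [Z_cons]
  simp only [sh_sub]

theorem Q_cons (G : (V → ℤ) → ℝ) (e : Cell V) (R : List (Cell V)) (β : V → ℤ) (ν μ : V → ℝ) :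
    Q (frm G (e :: R) β) ν μ = ∑ y ∈ range (e.b + 1), e.wt y * Q (frm G R (e.sh y β)) ν μ := by
  unfold Q
  simp only [frm_cons, Finset.mul_sum]
  calc _ = ∑ a, ∑ y ∈ range (e.b + 1), ∑ b, e.wt y * (ν a * μ b * frm G R (e.sh y β) a b) := by
        refine Finset.sum_congr rfl fun a _ => ?_
        rw [Finset.sum_comm]
        refine Finset.sum_congr rfl fun b _ => Finset.sum_congr rfl fun y _ => by ring
    _ = _ := by
        rw [Finset.sum_comm]

/-- **Conservation law**: for every sequence `F` with `F 0 = F (b+1) = 0`. -/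
theorem conservation (G : (V → ℤ) → ℝ) (hG : ∀ β, 0 < G β) (e : Cell V) (he : e.OK)
    (R : List (Cell V)) (hR : ∀ f ∈ R, f.OK) (β : V → ℤ) (ν : V → ℝ) (F : ℕ → ℝ)
    (hF0 : F 0 = 0) (hFb : F (e.b + 1) = 0) :
    Q (frm G (e :: R) β) ν ν
      ≤ ∑ y ∈ range (e.b + 1), e.wt y *
          Q (frm G R (e.sh y β)) (upd e F ν y) (upd e F ν y) := by
  set a : ℕ → ℝ := fun y => Z G R (e.sh y β - ev e.w - ev e.w) with ha
  set T : ℕ → ℝ := fun y => F y * Q (frm G R (e.sh y β)) ν (one e.w) with hT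
  have hapos : ∀ y, 0 ≤ a y := fun y => (Z_pos hG R hR _).le
  have huw : ∀ y, frm G R (e.sh y β) e.u e.w = a (y + 1) := by
    intro y; simp only [ha, frm, sh_succ]; congr 1; abel
  have huu : ∀ y, frm G R (e.sh y β) e.u e.u = a (y + 2) := by
    intro y; simp only [ha, frm]
    rw [show y + 2 = (y + 1) + 1 from rfl, sh_succ, sh_succ]; congr 1; abel
  have hww : ∀ y, frm G R (e.sh y β) e.w e.w = a y := fun y => rfl
  have hlin : ∀ y, Q (frm G R (e.sh y β)) ν (one e.u)
      = Q (frm G R (e.sh (y + 1) β)) ν (one e.w) := by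
    intro y
    rw [Q_one_right, Q_one_right]
    refine Finset.sum_congr rfl fun c _ => ?_
    unfold frm
    rw [sh_succ]; congr 2; abel
  have hterm : ∀ y ∈ range (e.b + 1), e.wt y *
        Q (frm G R (e.sh y β)) (upd e F ν y) (upd e F ν y)
      = e.wt y * Q (frm G R (e.sh y β)) ν ν + (2 * T y - 2 * T (y + 1))
        + (F (y + 1) ^ 2 * a (y + 2) + F y ^ 2 * a y - 2 * F y * F (y + 1) * a (y + 1))
            / e.wt y := by
    intro y hy
    have hpos := he.pos y (by simpa [Nat.lt_succ_iff] using hy)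
    unfold upd
    rw [Q_expand _ (frm_symm G R _), hlin, huu, hww, huw]
    simp only [hT]
    field_simp
    ring
  rw [Finset.sum_congr rfl hterm, Finset.sum_add_distrib, Finset.sum_add_distrib, Q_cons]
  have htel : ∑ y ∈ range (e.b + 1), (2 * T y - 2 * T (y + 1)) = 0 := by
    have := Finset.sum_range_sub' (fun y => 2 * T y) (e.b + 1)
    rw [this]
    simp [hT, hF0, hFb]
  have hq := quad_nonneg e.wt F a e.b he.pos he.lc hapos hF0 hFb
  rw [htel]
  linarith

end Crest.Agent.R309.UG
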