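import Crest.Agent.R309.UGCons
import Crest.Agent.R309.UGDefs
import Crest.Agent.R309.UGMart
import Crest.Agent.R309.USDefs
import Crest.Agent.R309.USInner
import Crest.Agent.R309.SgdUS943_Mg
import Crest.Agent.R309.PTSolve
import Crest.Agent.R309.USConv

-- ▼ part R309/UGEnergy
section

/-!
R309: energy bound for one processed cell (log-concave weights) and superconservation of the
potential.
-/

set_option autoImplicit false
set_option linter.unusedSectionVars false

namespace Crest.Agent.R309.UG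

open Finset

variable {V : Type*} [DecidableEq V] [Fintype V]

/-- linear functional `ν ↦ ∑ ν_a Z_R(γ - e_a)` -/
noncomputable def Lf (G : (V → ℤ) → ℝ) (R : List (Cell V)) (γ : V → ℤ) (ν : V → ℝ) : ℝ :=
  ∑ a, ν a * Z G R (γ - ev a)

theorem Lf_cons (G : (V → ℤ) → ℝ) (e : Cell V) (R : List (Cell V)) (γ : V → ℤ) (ν : V → ℝ) :
    Lf G (e :: R) γ ν = ∑ y ∈ range (e.b + 1), e.wt y * Lf G R (e.sh y γ) ν := by
  unfold Lf
  simp only [Z_cons, Finset.mul_sum, sh_sub]
  rw [Finset.sum_comm]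
  refine Finset.sum_congr rfl fun y _ => Finset.sum_congr rfl fun a _ => by ring

theorem Lf_upd (G : (V → ℤ) → ℝ) (R : List (Cell V)) (γ : V → ℤ) (ν : V → ℝ) (u w : V)
    (x y : ℝ) :
    Lf G R γ (ν + x • one u + y • one w)
      = Lf G R γ ν + x * Z G R (γ - ev u) + y * Z G R (γ - ev w) := by
  have h1 : ∀ c : V, ∑ a, (one c : V → ℝ) a * Z G R (γ - ev a) = Z G R (γ - ev c) := by
    intro c
    rw [Finset.sum_eq_single c]
    · simp [one]
    · intro b _ hb; simp [one, hb]
    · simp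
  unfold Lf
  simp only [Pi.add_apply, Pi.smul_apply, smul_eq_mul, add_mul, Finset.sum_add_distrib, mul_assoc]
  rw [← Finset.mul_sum, ← Finset.mul_sum, h1, h1]

/-- partial sums `P y = ∑_{i<y} w_i φ_i` -/
noncomputable def Pp (G : (V → ℤ) → ℝ) (e : Cell V) (R : List (Cell V)) (γ : V → ℤ) (ν : V → ℝ)
    (y : ℕ) : ℝ := ∑ i ∈ range y, e.wt i * Lf G R (e.sh i γ) ν

/-- hole weights `N y = Z_R(γ_y - e_w)` -/
noncomputable def Nn (G : (V → ℤ) → ℝ) (e : Cell V) (R : List (Cell V)) (γ : V → ℤ)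
    (y : ℕ) : ℝ := Z G R (e.sh y γ - ev e.w)

/-- flow amplitudes `F y = P y / N y` -/
noncomputable def Ff (G : (V → ℤ) → ℝ) (e : Cell V) (R : List (Cell V)) (γ : V → ℤ) (ν : V → ℝ)
    (y : ℕ) : ℝ := Pp G e R γ ν y / Nn G e R γ y

theorem Nn_succ (G : (V → ℤ) → ℝ) (e : Cell V) (R : List (Cell V)) (γ : V → ℤ) (y : ℕ) :
    Nn G e R γ (y + 1) = Z G R (e.sh y γ - ev e.u) := by
  unfold Nn; rw [sh_succ]; congr 1; abel

theorem Ff_zero (G : (V → ℤ) → ℝ) (e : Cell V) (R : List (Cell V)) (γ : V → ℤ) (ν : V → ℝ) :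
    Ff G e R γ ν 0 = 0 := by simp [Ff, Pp]

theorem Ff_last (G : (V → ℤ) → ℝ) (e : Cell V) (R : List (Cell V)) (γ : V → ℤ) (ν : V → ℝ)
    (h : Lf G (e :: R) γ ν = 0) : Ff G e R γ ν (e.b + 1) = 0 := by
  unfold Ff Pp; rw [← Lf_cons, h, zero_div]

/-- the linear functional is preserved by the update -/
theorem Lf_next (G : (V → ℤ) → ℝ) (hG : ∀ β, 0 < G β) (e : Cell V) (he : e.OK)
    (R : List (Cell V)) (hR : ∀ f ∈ R, f.OK) (γ : V → ℤ) (ν : V → ℝ) (y : ℕ) (hy : y ≤ e.b) :
    Lf G R (e.sh y γ) (upd e (Ff G e R γ ν) ν y) = 0 := by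
  unfold upd
  rw [Lf_upd, ← Nn_succ]
  have hw := (he.pos y hy).ne'
  have hN : Nn G e R γ (y + 1) ≠ 0 := (Z_pos hG R hR _).ne'
  have hN' : Z G R (e.sh y γ - ev e.w) ≠ 0 := (Z_pos hG R hR _).ne'
  have h1 : Pp G e R γ ν (y + 1) = Pp G e R γ ν y + e.wt y * Lf G R (e.sh y γ) ν := by
    unfold Pp; rw [Finset.sum_range_succ]
  unfold Ff
  rw [show Nn G e R γ y = Z G R (e.sh y γ - ev e.w) from rfl, h1]
  field_simp
  ring

/-- discrete summation by parts -/
theorem sum_by_parts (X s : ℕ → ℝ) (b : ℕ) :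
    ∑ j ∈ range b, s (j + 1) * (2 * X (j + 1) - X j - X (j + 2))
      = ∑ j ∈ range b, X (j + 1) * (2 * s (j + 1) - s j - s (j + 2))
        + ((X 1 * s 0 - s 1 * X 0) - (X (b + 1) * s b - s (b + 1) * X b)) := by
  induction b with
  | zero => simp
  | succ b ih => rw [Finset.sum_range_succ, Finset.sum_range_succ, ih]; ring

/-- the one-cell potential -/
noncomputable def Tk (G : (V → ℤ) → ℝ) (k : Cell V) (R : List (Cell V)) (γ : V → ℤ)
    (ν : V → ℝ) : ℝ :=
  ∑ j ∈ range k.b, (((j : ℝ) + 1) * ((k.b : ℝ) - j) / 2) * (k.wt j + k.wt (j + 1))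
    * (-Q (frm G R (k.sh j γ + ev k.w)) ν ν)

/-- numerical core of the energy bound -/
theorem energy_num (w B A : ℕ → ℝ) (b : ℕ) (hw : ∀ y ≤ b, 0 < w y)
    (hlc : ∀ y, y + 2 ≤ b → w y * w (y + 2) ≤ w (y + 1) ^ 2) (hB : ∀ y, 0 ≤ B y)
    (hB0 : B 0 = 0) (hBb : B (b + 1) = 0)
    (hA : ∀ j < b, 2 * B (j + 1) / (w j * w (j + 1)) - B j / w j ^ 2 - B (j + 2) / w (j + 1) ^ 2
      ≤ A j) :
    ∑ j ∈ range b, B (j + 1) * (1 / w j + 1 / w (j + 1))
      ≤ ∑ j ∈ range b, (((j : ℝ) + 1) * ((b : ℝ) - j) / 2) * (w j + w (j + 1)) * A j := by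
  -- X_i = B_i κ_i, with κ_i = 1/w_{i-1} + 1/w_i
  set X : ℕ → ℝ := fun i => B i * (1 / w (i - 1) + 1 / w i) with hX
  set s : ℕ → ℝ := fun i => (i : ℝ) * ((b : ℝ) + 1 - i) / 2 with hs
  have hX0 : X 0 = 0 := by simp [hX, hB0]
  have hXb : X (b + 1) = 0 := by simp [hX, hBb]
  have h1 : ∀ j ∈ range b, s (j + 1) * (2 * X (j + 1) - X j - X (j + 2))
      ≤ (((j : ℝ) + 1) * ((b : ℝ) - j) / 2) * (w j + w (j + 1)) * A j := by
    intro j hj
    have hjb : j < b := by simpa using hj
    have hwj := hw j (by omega)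
    have hwj1 := hw (j + 1) (by omega)
    have hsj : s (j + 1) = ((j : ℝ) + 1) * ((b : ℝ) - j) / 2 := by
      simp only [hs]; push_cast; ring
    have hs0 : 0 ≤ s (j + 1) := by
      rw [hsj]
      have : (j : ℝ) < b := by exact_mod_cast hjb
      have : 0 ≤ (b : ℝ) - j := by linarith
      positivity
    rw [← hsj, mul_assoc]
    refine mul_le_mul_of_nonneg_left ?_ hs0
    refine le_trans ?_ (mul_le_mul_of_nonneg_left (hA j hjb) (by positivity))
    -- compare termwise
    have e1 : (w j + w (j + 1)) * (2 * B (j + 1) / (w j * w (j + 1)) - B j / w j ^ 2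
          - B (j + 2) / w (j + 1) ^ 2)
        = 2 * (B (j + 1) * (1 / w j + 1 / w (j + 1)))
          - B j * ((w j + w (j + 1)) / w j ^ 2)
          - B (j + 2) * ((w j + w (j + 1)) / w (j + 1) ^ 2) := by
      field_simp; ring
    rw [e1]
    have hXj1 : X (j + 1) = B (j + 1) * (1 / w j + 1 / w (j + 1)) := by simp [hX]
    have hXj : B j * ((w j + w (j + 1)) / w j ^ 2) ≤ X j := by
      rcases j with _ | i
      · simp [hB0, hX0]
      · simp only [hX]
        have hwi := hw i (by omega)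
        refine mul_le_mul_of_nonneg_left ?_ (hB _)
        have hl := hlc i (by omega)
        have : (w (i + 1) + w (i + 1 + 1)) / w (i + 1) ^ 2
            = 1 / w (i + 1) + w (i + 2) / w (i + 1) ^ 2 := by field_simp
        rw [this, add_comm]
        have h2 : w (i + 2) / w (i + 1) ^ 2 ≤ 1 / w i := by
          rw [div_le_div_iff₀ (by positivity) hwi]; linarith
        simpa using add_le_add_right h2 (1 / w (i + 1))
    have hXj2 : B (j + 2) * ((w j + w (j + 1)) / w (j + 1) ^ 2) ≤ X (j + 2) := by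
      rcases Nat.lt_or_ge b (j + 2) with h | h
      · have : j + 2 = b + 1 := by omega
        rw [this, hBb, hXb]; simp
      · simp only [hX]
        have hwj2 := hw (j + 2) h
        refine mul_le_mul_of_nonneg_left ?_ (hB _)
        have hl := hlc j h
        have : (w j + w (j + 1)) / w (j + 1) ^ 2
            = w j / w (j + 1) ^ 2 + 1 / w (j + 1) := by field_simp
        rw [this]
        have h2 : w j / w (j + 1) ^ 2 ≤ 1 / w (j + 2) := by
          rw [div_le_div_iff₀ (by positivity) hwj2]; linarith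
        have e : j + 2 - 1 = j + 1 := rfl
        rw [e]; linarith
    rw [hXj1]; linarith
  refine le_trans (le_of_eq ?_) (Finset.sum_le_sum h1)
  rw [sum_by_parts]
  have hs00 : s 0 = 0 := by simp [hs]
  have hsb : s (b + 1) = 0 := by simp [hs]
  rw [hX0, hXb, hs00, hsb]
  have : ∀ j ∈ range b, X (j + 1) * (2 * s (j + 1) - s j - s (j + 2))
      = B (j + 1) * (1 / w j + 1 / w (j + 1)) := by
    intro j _
    have : 2 * s (j + 1) - s j - s (j + 2) = 1 := by
      simp only [hs]; push_cast; ring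
    rw [this, mul_one]; simp [hX]
  rw [Finset.sum_congr rfl this]; ring

/-- **Energy bound** for the processed cell. -/
theorem energy_bound (G : (V → ℤ) → ℝ) (hG : ∀ β, 0 < G β) (k : Cell V) (hk : k.OK)
    (R : List (Cell V)) (hR : ∀ f ∈ R, f.OK) (hL : ∀ β, Lor (frm G R β))
    (γ : V → ℤ) (ν : V → ℝ) (h0 : Lf G (k :: R) γ ν = 0) :
    ∑ j ∈ range k.b, (Ff G k R γ ν (j + 1) ^ 2 * Nn G k R γ (j + 1))
        * (1 / k.wt j + 1 / k.wt (j + 1)) ≤ Tk G k R γ ν := by
  set F := Ff G k R γ ν with hF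
  set N := Nn G k R γ with hN
  have hNpos : ∀ y, 0 < N y := fun y => Z_pos hG R hR _
  have hF0 : F 0 = 0 := Ff_zero G k R γ ν
  have hFb : F (k.b + 1) = 0 := Ff_last G k R γ ν h0
  refine energy_num k.wt (fun y => F y ^ 2 * N y)
    (fun j => -Q (frm G R (k.sh j γ + ev k.w)) ν ν) k.b hk.pos hk.lc
    (fun y => mul_nonneg (sq_nonneg _) (hNpos y).le) (by simp [hF0]) (by simp [hFb]) ?_
  intro j hj
  have hwj := hk.pos j hj.le
  have hwj1 := hk.pos (j + 1) hj
  set A := frm G R (k.sh j γ + ev k.w) with hA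
  -- matrix entries
  have huw : A k.u k.w = N (j + 1) := by
    rw [hN, Nn_succ]; simp only [hA, frm]; congr 1; abel
  have hww : A k.w k.w = N j := by
    simp only [hA, frm, hN, Nn]; congr 1; abel
  have huu : A k.u k.u = N (j + 2) := by
    rw [hN, show j + 2 = (j + 1) + 1 from rfl, Nn_succ, sh_succ]
    simp only [hA, frm]; congr 1; abel
  have hνw : Q A ν (one k.w) = Lf G R (k.sh j γ) ν := by
    rw [Q_one_right]; unfold Lf
    refine Finset.sum_congr rfl fun a _ => ?_
    simp only [hA, frm]; congr 2; abel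
  have hνu : Q A ν (one k.u) = Lf G R (k.sh (j + 1) γ) ν := by
    rw [Q_one_right, sh_succ]; unfold Lf
    refine Finset.sum_congr rfl fun a _ => ?_
    simp only [hA, frm]; congr 2; abel
  have hsymm : ∀ a b, A a b = A b a := frm_symm G R _
  -- relations between F, N and φ
  have hP : ∀ y, F y * N y = Pp G k R γ ν y := by
    intro y; simp only [hF, Ff]; exact div_mul_cancel₀ _ (hNpos y).ne'
  have hPs : ∀ y, Pp G k R γ ν (y + 1) = Pp G k R γ ν y + k.wt y * Lf G R (k.sh y γ) ν := by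
    intro y; unfold Pp; rw [Finset.sum_range_succ]
  have hφj : Lf G R (k.sh j γ) ν = (F (j + 1) * N (j + 1) - F j * N j) / k.wt j := by
    rw [hP, hP, hPs]; field_simp; ring
  have hφj1 : Lf G R (k.sh (j + 1) γ) ν
      = (F (j + 2) * N (j + 2) - F (j + 1) * N (j + 1)) / k.wt (j + 1) := by
    rw [hP, hP, hPs]; field_simp; ring
  -- Lorentz at the updated vector
  have hor : Q A (upd k F ν j) (one k.w) = 0 := by
    unfold upd
    rw [Q_expand_right, hνw, hφj, huw, hww]; field_simp; ring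
  have hneg := hL (k.sh j γ + ev k.w) (upd k F ν j) (one k.w)
    (fun a => by unfold one; by_cases h : a = k.w <;> simp [h])
    ⟨k.w, by simp [one]⟩ hor
  rw [← hA] at hneg
  unfold upd at hneg
  rw [Q_expand A hsymm, hνu, hνw, huu, hww, huw, hφj, hφj1] at hneg
  have hsq : 0 ≤ N (j + 2) * (F (j + 1) / k.wt j - F (j + 2) / k.wt (j + 1)) ^ 2 :=
    mul_nonneg (hNpos _).le (sq_nonneg _)
  have key : 2 * (F (j + 1) ^ 2 * N (j + 1)) / (k.wt j * k.wt (j + 1))
      - (F j ^ 2 * N j) / k.wt j ^ 2 - (F (j + 2) ^ 2 * N (j + 2)) / k.wt (j + 1) ^ 2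
      + N (j + 2) * (F (j + 1) / k.wt j - F (j + 2) / k.wt (j + 1)) ^ 2
      + Q A ν ν
      = Q A ν ν + 2 * (-(F (j + 1) / k.wt j))
          * ((F (j + 2) * N (j + 2) - F (j + 1) * N (j + 1)) / k.wt (j + 1))
        + 2 * (F j / k.wt j) * ((F (j + 1) * N (j + 1) - F j * N j) / k.wt j)
        + (-(F (j + 1) / k.wt j)) ^ 2 * N (j + 2) + (F j / k.wt j) ^ 2 * N j
        + 2 * (-(F (j + 1) / k.wt j)) * (F j / k.wt j) * N (j + 1) := by
    field_simp; ring
  show _ ≤ -Q A ν ν
  linarith [key, hneg, hsq]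

/-- total potential of the unprocessed cells `R`, with the prefix `P` of already passed cells -/
noncomputable def PhiA (G : (V → ℤ) → ℝ) : List (Cell V) → List (Cell V) → (V → ℤ) → (V → ℝ) → ℝ
  | _, [], _, _ => 0
  | P, k :: R, γ, ν => Tk G k (P ++ R) γ ν + PhiA G (P ++ [k]) R γ ν

/-- superconservation of the one-cell potential -/
theorem Tk_super (G : (V → ℤ) → ℝ) (hG : ∀ β, 0 < G β) (e k : Cell V) (he : e.OK) (hk : k.OK)
    (R : List (Cell V)) (hR : ∀ f ∈ R, f.OK) (γ : V → ℤ) (ν : V → ℝ) (F : ℕ → ℝ)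
    (hF0 : F 0 = 0) (hFb : F (e.b + 1) = 0) :
    ∑ y ∈ range (e.b + 1), e.wt y * Tk G k R (e.sh y γ) (upd e F ν y)
      ≤ Tk G k (e :: R) γ ν := by
  unfold Tk
  simp only [Finset.mul_sum]
  rw [Finset.sum_comm]
  refine Finset.sum_le_sum fun j hj => ?_
  have hjb : j < k.b := by simpa using hj
  have h1 := conservation G hG e he R hR (k.sh j γ + ev k.w) ν F hF0 hFb
  have h2 : ∀ y, e.sh y (k.sh j γ + ev k.w) = k.sh j (e.sh y γ) + ev k.w := by
    intro y; rw [sh_add, sh_comm]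
  simp only [h2] at h1
  have hc : 0 ≤ (((j : ℝ) + 1) * ((k.b : ℝ) - j) / 2) * (k.wt j + k.wt (j + 1)) := by
    have : (j : ℝ) < k.b := by exact_mod_cast hjb
    have : 0 ≤ (k.b : ℝ) - j := by linarith
    have := hk.pos j hjb.le
    have := hk.pos (j + 1) hjb
    positivity
  have h3 := mul_le_mul_of_nonneg_left h1 hc
  calc ∑ y ∈ range (e.b + 1), e.wt y * ((((j : ℝ) + 1) * ((k.b : ℝ) - j) / 2)
          * (k.wt j + k.wt (j + 1))
          * (-Q (frm G R (k.sh j (e.sh y γ) + ev k.w)) (upd e F ν y) (upd e F ν y)))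
      = -((((j : ℝ) + 1) * ((k.b : ℝ) - j) / 2) * (k.wt j + k.wt (j + 1))
          * ∑ y ∈ range (e.b + 1), e.wt y *
            Q (frm G R (k.sh j (e.sh y γ) + ev k.w)) (upd e F ν y) (upd e F ν y)) := by
        rw [Finset.mul_sum, ← Finset.sum_neg_distrib]
        refine Finset.sum_congr rfl fun y _ => by ring
    _ ≤ _ := by linarith

theorem PhiA_super (G : (V → ℤ) → ℝ) (hG : ∀ β, 0 < G β) (e : Cell V) (he : e.OK)
    (γ : V → ℤ) (ν : V → ℝ) (F : ℕ → ℝ) (hF0 : F 0 = 0) (hFb : F (e.b + 1) = 0) :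
    ∀ (R P : List (Cell V)), (∀ f ∈ R, f.OK) → (∀ f ∈ P, f.OK) →
    ∑ y ∈ range (e.b + 1), e.wt y * PhiA G P R (e.sh y γ) (upd e F ν y)
      ≤ PhiA G (e :: P) R γ ν := by
  intro R
  induction R with
  | nil => intro P _ _; simp [PhiA]
  | cons k R ih =>
    intro P hR hP
    simp only [PhiA, mul_add, Finset.sum_add_distrib]
    refine add_le_add ?_ ?_
    · have := Tk_super G hG e k he (hR k (by simp)) (P ++ R)
        (fun f hf => by
          rcases List.mem_append.1 hf with h | h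
          · exact hP f h
          · exact hR f (by simp [h])) γ ν F hF0 hFb
      simpa using this
    · have := ih (P ++ [k]) (fun f hf => hR f (by simp [hf]))
        (fun f hf => by
          rcases List.mem_append.1 hf with h | h
          · exact hP f h
          · have : f = k := by simpa using h
            exact this ▸ hR k (by simp))
      simpa using this

end Crest.Agent.R309.UG
private theorem rz_db92825083 : type_of% @_root_.Crest.Agent.R309.UG.PhiA.eq_def := @_root_.Crest.Agent.R309.UG.PhiA.eq_def -- L247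
private theorem rz_750a9a166c : type_of% @_root_.Crest.Agent.R309.UG.PhiA.eq_1 := @_root_.Crest.Agent.R309.UG.PhiA.eq_1 -- L247
end

-- ▼ part R309/UGTrans
section

/-!
R309: the transport inequality.  For log-concave cell weights and a vertex weight `G` with
`G (t + e_a - e_b) ≤ K * G t`, the laws of the configurations of `R` with demands `γ - e_u`,
`γ - e_w` satisfy `(E h - E' h)^2 ≤ (#R * K^2 * (B+1)^2 / 2) * (normalised Dirichlet form)`.
-/

set_option autoImplicit false
set_option linter.unusedSectionVars false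

namespace Crest.Agent.R309.UG

open Finset

variable {V : Type*} [DecidableEq V] [Fintype V]

theorem Ex_cons (G : (V → ℤ) → ℝ) (e : Cell V) (R : List (Cell V)) (β : V → ℤ)
    (h : List ℕ → ℝ) :
    Ex G (e :: R) β h = ∑ y ∈ range (e.b + 1), e.wt y * Ex G R (e.sh y β) (fun Y => h (y :: Y)) :=
  rfl


theorem Ex_sub_eq (G : (V → ℤ) → ℝ) (R : List (Cell V)) (β : V → ℤ) (h h' : List ℕ → ℝ) :
    Ex G R β (fun Y => h Y - h' Y) = Ex G R β h - Ex G R β h' := by
  unfold Ex; rw [← cs_sub]; congr 1; funext t Y; ring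

theorem Ex_nonneg (G : (V → ℤ) → ℝ) (hG : ∀ β, 0 < G β) (R : List (Cell V))
    (hR : ∀ e ∈ R, e.OK) (β : V → ℤ) (h : List ℕ → ℝ) (hh : ∀ Y, 0 ≤ h Y) : 0 ≤ Ex G R β h :=
  cs_nonneg R hR β _ (fun t Y => mul_nonneg (hG t).le (hh Y))

theorem Ex_sq_le (G : (V → ℤ) → ℝ) (hG : ∀ β, 0 < G β) (R : List (Cell V))
    (hR : ∀ e ∈ R, e.OK) (β : V → ℤ) (h : List ℕ → ℝ) :
    (Ex G R β h) ^ 2 ≤ Z G R β * Ex G R β (fun Y => h Y ^ 2) :=
  cs_sq_le R hR β G (fun t => (hG t).le) h

/-- the signed measure `m_ν` tested against `h` -/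
noncomputable def Mf (G : (V → ℤ) → ℝ) (R : List (Cell V)) (γ : V → ℤ) (ν : V → ℝ)
    (h : List ℕ → ℝ) : ℝ := ∑ a, ν a * Ex G R (γ - ev a) h

theorem Mf_cons (G : (V → ℤ) → ℝ) (e : Cell V) (R : List (Cell V)) (γ : V → ℤ) (ν : V → ℝ)
    (h : List ℕ → ℝ) :
    Mf G (e :: R) γ ν h
      = ∑ y ∈ range (e.b + 1), e.wt y * Mf G R (e.sh y γ) ν (fun Y => h (y :: Y)) := by
  unfold Mf
  simp only [Ex_cons, Finset.mul_sum, sh_sub]
  rw [Finset.sum_comm]
  refine Finset.sum_congr rfl fun y _ => Finset.sum_congr rfl fun a _ => by ring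

theorem Mf_upd (G : (V → ℤ) → ℝ) (R : List (Cell V)) (γ : V → ℤ) (ν : V → ℝ) (u w : V)
    (x y : ℝ) (h : List ℕ → ℝ) :
    Mf G R γ (ν + x • one u + y • one w) h
      = Mf G R γ ν h + x * Ex G R (γ - ev u) h + y * Ex G R (γ - ev w) h := by
  have h1 : ∀ c : V, ∑ a, (one c : V → ℝ) a * Ex G R (γ - ev a) h = Ex G R (γ - ev c) h := by
    intro c
    rw [Finset.sum_eq_single c]
    · simp [one]
    · intro b _ hb; simp [one, hb]
    · simp
  unfold Mf
  simp only [Pi.add_apply, Pi.smul_apply, smul_eq_mul, add_mul, Finset.sum_add_distrib, mul_assoc]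
  rw [← Finset.mul_sum, ← Finset.mul_sum, h1, h1]

/-- Dirichlet form with hole weights -/
noncomputable def HD (G : (V → ℤ) → ℝ) : List (Cell V) → (V → ℤ) → (List ℕ → ℝ) → ℝ
  | [], _, _ => 0
  | e :: R, γ, h =>
      (∑ y ∈ range e.b, min (e.wt y) (e.wt (y + 1)) *
        Ex G R (e.sh y γ - ev e.u) (fun Y => (h ((y + 1) :: Y) - h (y :: Y)) ^ 2))
      + ∑ y ∈ range (e.b + 1), e.wt y * HD G R (e.sh y γ) (fun Y => h (y :: Y))

theorem HD_nonneg (G : (V → ℤ) → ℝ) (hG : ∀ β, 0 < G β) (R : List (Cell V)) :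
    (∀ e ∈ R, e.OK) → ∀ (γ : V → ℤ) (h : List ℕ → ℝ), 0 ≤ HD G R γ h := by
  induction R with
  | nil => intro _ γ h; exact le_refl _
  | cons e R ih =>
    intro hR γ h
    have hR' : ∀ f ∈ R, f.OK := fun f hf => hR f (by simp [hf])
    have he := hR e (by simp)
    unfold HD
    refine add_nonneg (Finset.sum_nonneg fun y hy => ?_) (Finset.sum_nonneg fun y hy => ?_)
    · have hy' : y < e.b := by simpa using hy
      exact mul_nonneg (le_min (he.pos y hy'.le).le (he.pos _ hy').le)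
        (Ex_nonneg G hG R hR' _ _ fun Y => sq_nonneg _)
    · exact mul_nonneg (he.pos y (by simpa [Nat.lt_succ_iff] using hy)).le (ih hR' _ _)

theorem Lf_perm (G : (V → ℤ) → ℝ) {R R' : List (Cell V)} (h : R.Perm R') (γ : V → ℤ)
    (ν : V → ℝ) : Lf G R γ ν = Lf G R' γ ν := by
  unfold Lf; refine Finset.sum_congr rfl fun a _ => by rw [Z_perm h]

theorem PhiA_nonneg (G : (V → ℤ) → ℝ) (hG : ∀ β, 0 < G β) (hL : LorentzFor G)
    (γ : V → ℤ) (ν : V → ℝ) :
    ∀ (R P : List (Cell V)), (∀ f ∈ R, f.OK) → (∀ f ∈ P, f.OK) → Lf G (P ++ R) γ ν = 0 →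
    0 ≤ PhiA G P R γ ν := by
  intro R
  induction R with
  | nil => intro P _ _ _; exact le_refl _
  | cons k R ih =>
    intro P hR hP h0
    have hk := hR k (by simp)
    have hPR : ∀ f ∈ P ++ R, f.OK := fun f hf => by
      rcases List.mem_append.1 hf with h | h
      · exact hP f h
      · exact hR f (by simp [h])
    unfold PhiA
    refine add_nonneg ?_ ?_
    · have h1 : Lf G (k :: (P ++ R)) γ ν = 0 := by
        rw [← h0]; exact Lf_perm G List.perm_middle.symm γ ν
      refine le_trans (Finset.sum_nonneg fun j hj => ?_)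
        (energy_bound G hG k hk (P ++ R) hPR (fun β => hL _ hPR β) γ ν h1)
      have hj' : j < k.b := by simpa using hj
      have := hk.pos j hj'.le
      have := hk.pos (j + 1) hj'
      have := (Z_pos hG (P ++ R) hPR (k.sh (j + 1) γ - ev k.w)).le
      have h2 : 0 ≤ Nn G k (P ++ R) γ (j + 1) := this
      positivity
    · refine ih (P ++ [k]) (fun f hf => hR f (by simp [hf])) (fun f hf => ?_) ?_
      · rcases List.mem_append.1 hf with h | h
        · exact hP f h
        · have : f = k := by simpa using h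
          exact this ▸ hk
      · simpa using h0

theorem two_term (A B a1 a2 b1 b2 : ℝ) (ha1 : 0 ≤ a1) (ha2 : 0 ≤ a2) (hb1 : 0 ≤ b1)
    (hb2 : 0 ≤ b2) (hA : A ^ 2 ≤ a1 * a2) (hB : B ^ 2 ≤ b1 * b2) :
    (A + B) ^ 2 ≤ (a1 + b1) * (a2 + b2) := by
  have := Finset.sum_sq_le_sum_mul_sum_of_sq_le_mul (R := ℝ) (Finset.univ : Finset (Fin 2))
    (r := ![A, B]) (f := ![a1, b1]) (g := ![a2, b2])
    (fun i _ => by fin_cases i <;> simpa) (fun i _ => by fin_cases i <;> simpa)
    (fun i _ => by fin_cases i <;> simpa)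
  simpa [Fin.sum_univ_two] using this

/-- **Flow inequality**. -/
theorem flow_ineq (G : (V → ℤ) → ℝ) (hG : ∀ β, 0 < G β) (hL : LorentzFor G)
    (R : List (Cell V)) : (∀ f ∈ R, f.OK) → ∀ (γ : V → ℤ) (ν : V → ℝ) (h : List ℕ → ℝ),
    Lf G R γ ν = 0 → (Mf G R γ ν h) ^ 2 ≤ PhiA G [] R γ ν * HD G R γ h := by
  induction R with
  | nil =>
    intro _ γ ν h h0
    have : Mf G [] γ ν h = Lf G [] γ ν * h [] := by
      unfold Mf Lf Ex Z
      rw [Finset.sum_mul]
      refine Finset.sum_congr rfl fun a _ => ?_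
      simp; ring
    rw [this, h0]; simp [PhiA, HD]
  | cons e R ih =>
    intro hR γ ν h h0
    have hR' : ∀ f ∈ R, f.OK := fun f hf => hR f (by simp [hf])
    have he := hR e (by simp)
    have ih := ih hR'
    set F := Ff G e R γ ν with hF
    set N := Nn G e R γ with hN
    have hNpos : ∀ y, 0 < N y := fun y => Z_pos hG R hR' _
    have hF0 : F 0 = 0 := Ff_zero G e R γ ν
    have hFb : F (e.b + 1) = 0 := Ff_last G e R γ ν h0
    set E : ℕ → (List ℕ → ℝ) → ℝ := fun y g => Ex G R (e.sh y γ - ev e.w) g with hE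
    have hEu : ∀ y g, Ex G R (e.sh y γ - ev e.u) g = E (y + 1) g := by
      intro y g; simp only [hE, sh_succ]; congr 1; abel
    -- decomposition of the signed measure
    have hdec : Mf G (e :: R) γ ν h
        = (∑ y ∈ range (e.b + 1), e.wt y *
            Mf G R (e.sh y γ) (upd e F ν y) (fun Y => h (y :: Y)))
          + ∑ y ∈ range e.b, F (y + 1) *
              E (y + 1) (fun Y => h (y :: Y) - h ((y + 1) :: Y)) := by
      rw [Mf_cons]
      have h1 : ∀ y ∈ range (e.b + 1), e.wt y * Mf G R (e.sh y γ) ν (fun Y => h (y :: Y))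
          = e.wt y * Mf G R (e.sh y γ) (upd e F ν y) (fun Y => h (y :: Y))
            + (F (y + 1) * E (y + 1) (fun Y => h (y :: Y)) - F y * E y (fun Y => h (y :: Y))) := by
        intro y hy
        have hw := (he.pos y (by simpa [Nat.lt_succ_iff] using hy)).ne'
        unfold upd
        rw [Mf_upd, hEu]
        simp only [hE]
        field_simp; ring
      rw [Finset.sum_congr rfl h1, Finset.sum_add_distrib, Finset.sum_sub_distrib]
      congr 1
      rw [Finset.sum_range_succ, hFb, Finset.sum_range_succ', hF0]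
      simp only [zero_mul, add_zero]
      rw [← Finset.sum_sub_distrib]
      refine Finset.sum_congr rfl fun y _ => ?_
      simp only [hE]
      rw [Ex_sub_eq]; ring
    have hmu : ∀ y ∈ range e.b, 0 < min (e.wt y) (e.wt (y + 1)) := by
      intro y hy
      have hy' : y < e.b := by simpa using hy
      exact lt_min (he.pos y hy'.le) (he.pos _ hy')
    have hPhi : ∀ y ∈ range (e.b + 1), 0 ≤ PhiA G [] R (e.sh y γ) (upd e F ν y) := by
      intro y hy
      have hy' : y ≤ e.b := by simpa [Nat.lt_succ_iff] using hy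
      exact PhiA_nonneg G hG hL _ _ R [] hR' (by simp) (Lf_next G hG e he R hR' γ ν y hy')
    -- first part
    have hA : (∑ y ∈ range (e.b + 1), e.wt y *
            Mf G R (e.sh y γ) (upd e F ν y) (fun Y => h (y :: Y))) ^ 2
        ≤ (∑ y ∈ range (e.b + 1), e.wt y * PhiA G [] R (e.sh y γ) (upd e F ν y))
          * (∑ y ∈ range (e.b + 1), e.wt y * HD G R (e.sh y γ) (fun Y => h (y :: Y))) := by
      refine Finset.sum_sq_le_sum_mul_sum_of_sq_le_mul _ ?_ ?_ ?_
      · intro y hy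
        exact mul_nonneg (he.pos y (by simpa [Nat.lt_succ_iff] using hy)).le (hPhi y hy)
      · intro y hy
        exact mul_nonneg (he.pos y (by simpa [Nat.lt_succ_iff] using hy)).le
          (HD_nonneg G hG R hR' _ _)
      · intro y hy
        have hy' : y ≤ e.b := by simpa [Nat.lt_succ_iff] using hy
        have h2 := ih (e.sh y γ) (upd e F ν y) (fun Y => h (y :: Y))
          (Lf_next G hG e he R hR' γ ν y hy')
        have hw := he.pos y hy'
        calc _ = e.wt y ^ 2 * (Mf G R (e.sh y γ) (upd e F ν y) (fun Y => h (y :: Y))) ^ 2 := by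
              ring
          _ ≤ e.wt y ^ 2 * (PhiA G [] R (e.sh y γ) (upd e F ν y)
                * HD G R (e.sh y γ) (fun Y => h (y :: Y))) :=
              mul_le_mul_of_nonneg_left h2 (sq_nonneg _)
          _ = _ := by ring
    -- second part
    have hB : (∑ y ∈ range e.b, F (y + 1) *
              E (y + 1) (fun Y => h (y :: Y) - h ((y + 1) :: Y))) ^ 2
        ≤ (∑ y ∈ range e.b, (F (y + 1) ^ 2 * N (y + 1)) / min (e.wt y) (e.wt (y + 1)))
          * (∑ y ∈ range e.b, min (e.wt y) (e.wt (y + 1)) *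
        Ex G R (e.sh y γ - ev e.u) (fun Y => (h ((y + 1) :: Y) - h (y :: Y)) ^ 2)) := by
      refine Finset.sum_sq_le_sum_mul_sum_of_sq_le_mul _ ?_ ?_ ?_
      · intro y hy
        exact div_nonneg (mul_nonneg (sq_nonneg _) (hNpos _).le) (hmu y hy).le
      · intro y hy
        exact mul_nonneg (hmu y hy).le (Ex_nonneg G hG R hR' _ _ fun Y => sq_nonneg _)
      · intro y hy
        have hm := hmu y hy
        have h2 := Ex_sq_le G hG R hR' (e.sh (y + 1) γ - ev e.w)
          (fun Y => h (y :: Y) - h ((y + 1) :: Y))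
        have h3 : (fun Y => (h (y :: Y) - h ((y + 1) :: Y)) ^ 2)
            = (fun Y => (h ((y + 1) :: Y) - h (y :: Y)) ^ 2) := by funext Y; ring
        rw [h3] at h2
        rw [hEu, mul_pow]
        calc _ ≤ F (y + 1) ^ 2 * (N (y + 1) *
                E (y + 1) (fun Y => (h ((y + 1) :: Y) - h (y :: Y)) ^ 2)) :=
              mul_le_mul_of_nonneg_left h2 (sq_nonneg _)
          _ = _ := by field_simp
    rw [hdec]
    have hcomb := two_term _ _ _ _ _ _
      (Finset.sum_nonneg fun y hy =>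
        mul_nonneg (he.pos y (by simpa [Nat.lt_succ_iff] using hy)).le (hPhi y hy))
      (Finset.sum_nonneg fun y hy =>
        mul_nonneg (he.pos y (by simpa [Nat.lt_succ_iff] using hy)).le
          (HD_nonneg G hG R hR' (e.sh y γ) (fun Y => h (y :: Y))))
      (Finset.sum_nonneg fun y hy =>
        div_nonneg (mul_nonneg (sq_nonneg (F (y + 1))) (hNpos (y + 1)).le) (hmu y hy).le)
      (Finset.sum_nonneg fun y hy =>
        mul_nonneg (hmu y hy).le (Ex_nonneg G hG R hR' (e.sh y γ - ev e.u)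
          (fun Y => (h ((y + 1) :: Y) - h (y :: Y)) ^ 2) fun Y => sq_nonneg _))
      hA hB
    refine le_trans hcomb ?_
    have hHD : HD G (e :: R) γ h
        = (∑ y ∈ range (e.b + 1), e.wt y * HD G R (e.sh y γ) (fun Y => h (y :: Y)))
          + ∑ y ∈ range e.b, min (e.wt y) (e.wt (y + 1)) *
        Ex G R (e.sh y γ - ev e.u) (fun Y => (h ((y + 1) :: Y) - h (y :: Y)) ^ 2) := by
      rw [add_comm]; rfl
    rw [hHD]
    refine mul_le_mul_of_nonneg_right ?_ ?_
    · have h4 : PhiA G [] (e :: R) γ ν = Tk G e R γ ν + PhiA G [e] R γ ν := rfl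
      rw [h4, add_comm]
      refine add_le_add ?_ ?_
      · refine le_trans (Finset.sum_le_sum fun y hy => ?_)
          (energy_bound G hG e he R hR' (fun β => hL R hR' β) γ ν h0)
        have hy' : y < e.b := by simpa using hy
        have hw := he.pos y hy'.le
        have hw1 := he.pos (y + 1) hy'
        rw [div_eq_mul_one_div]
        refine mul_le_mul_of_nonneg_left ?_ (mul_nonneg (sq_nonneg _) (hNpos _).le)
        rcases min_choice (e.wt y) (e.wt (y + 1)) with hm | hm <;> rw [hm]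
        · have : 0 < 1 / e.wt (y + 1) := by positivity
          linarith
        · have : 0 < 1 / e.wt y := by positivity
          linarith
      · exact PhiA_super G hG e he γ ν F hF0 hFb R [] hR' (by simp)
    · exact add_nonneg
        (Finset.sum_nonneg fun y hy =>
          mul_nonneg (he.pos y (by simpa [Nat.lt_succ_iff] using hy)).le
            (HD_nonneg G hG R hR' _ _))
        (Finset.sum_nonneg fun y hy =>
          mul_nonneg (hmu y hy).le (Ex_nonneg G hG R hR' _ _ fun Y => sq_nonneg _))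

/-- hole Dirichlet form versus the Dirichlet form -/
theorem HD_le (G : (V → ℤ) → ℝ) (hG : ∀ β, 0 < G β) (K : ℝ)
    (hK : ∀ t a b, G (t + ev a - ev b) ≤ K * G t) (c : V) (R : List (Cell V)) :
    (∀ f ∈ R, f.OK) → ∀ (γ : V → ℤ) (h : List ℕ → ℝ),
    HD G R γ h ≤ K * Dir G R (γ - ev c) h := by
  induction R with
  | nil => intro _ γ h; simp [HD, Dir]
  | cons e R ih =>
    intro hR γ h
    have hR' : ∀ f ∈ R, f.OK := fun f hf => hR f (by simp [hf])
    have he := hR e (by simp)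
    unfold HD Dir
    rw [mul_add, Finset.mul_sum, Finset.mul_sum]
    refine add_le_add (Finset.sum_le_sum fun y hy => ?_) (Finset.sum_le_sum fun y hy => ?_)
    · have hy' : y < e.b := by simpa using hy
      have hw := he.pos y hy'.le
      have hw1 := he.pos (y + 1) hy'
      unfold Ex
      rw [sh_sub, cs_shift_sub, cs_shift_sub, ← cs_mul_left, ← cs_mul_left]
      refine cs_mono R hR' _ _ _ fun t Y => ?_
      have h1 : G (t - ev e.u) ≤ K * G (t - ev c) := by
        have := hK (t - ev c) c e.u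
        rwa [show t - ev c + ev c - ev e.u = t - ev e.u from by abel] at this
      have h2 : G (t - ev e.u) ≤ K * G (t - ev c - ev e.u + ev e.w) := by
        have := hK (t - ev c - ev e.u + ev e.w) c e.w
        rwa [show t - ev c - ev e.u + ev e.w + ev c - ev e.w = t - ev e.u from by abel] at this
      rw [← mul_assoc, ← mul_assoc]
      refine mul_le_mul_of_nonneg_right ?_ (sq_nonneg _)
      rw [mul_min_of_nonneg _ _ (by
        have := hK t e.u e.u
        have h3 := hG t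
        have h4 : G t ≤ K * G t := by simpa using this
        nlinarith)]
      refine le_min ?_ ?_
      · calc min (e.wt y) (e.wt (y + 1)) * G (t - ev e.u)
            ≤ e.wt y * G (t - ev e.u) :=
              mul_le_mul_of_nonneg_right (min_le_left _ _) (hG _).le
          _ ≤ e.wt y * (K * G (t - ev c)) := mul_le_mul_of_nonneg_left h1 hw.le
          _ = _ := by ring
      · calc min (e.wt y) (e.wt (y + 1)) * G (t - ev e.u)
            ≤ e.wt (y + 1) * G (t - ev e.u) :=
              mul_le_mul_of_nonneg_right (min_le_right _ _) (hG _).le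
          _ ≤ e.wt (y + 1) * (K * G (t - ev c - ev e.u + ev e.w)) :=
              mul_le_mul_of_nonneg_left h2 hw1.le
          _ = _ := by ring
    · have h1 := ih hR' (e.sh y γ) (fun Y => h (y :: Y))
      rw [← sh_sub] at h1
      have := mul_le_mul_of_nonneg_left h1
        (he.pos y (by simpa [Nat.lt_succ_iff] using hy)).le
      linarith [this]

/-- bound on the one-cell potential at the root vector -/
theorem Tk_root (G : (V → ℤ) → ℝ) (hG : ∀ β, 0 < G β) (K : ℝ)
    (hK : ∀ t a b, G (t + ev a - ev b) ≤ K * G t) (k : Cell V) (hk : k.OK) (B : ℕ)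
    (hkB : k.b ≤ B) (R : List (Cell V)) (hR : ∀ f ∈ R, f.OK) (γ : V → ℤ) (u w : V)
    (zu zw : ℝ) (hzu : 0 < zu) (hzw : 0 < zw) :
    Tk G k R γ ((0 : V → ℝ) + (1 / zu) • one u + (-(1 / zw)) • one w)
      ≤ K * ((B : ℝ) + 1) ^ 2 / 2 * (Z G (k :: R) (γ - ev u) / (zu * zw)) := by
  have hK0 : 0 ≤ K := by
    have := hK 0 u u
    have h3 := hG 0
    have h4 : G 0 ≤ K * G 0 := by simpa using this
    by_contra h
    push Not at h
    nlinarith
  have hmax : ∀ j ∈ range k.b, (((j : ℝ) + 1) * ((k.b : ℝ) - j) / 2) ≤ ((B : ℝ) + 1) ^ 2 / 8 := by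
    intro j hj
    have h1 : ((j : ℝ) + 1) * ((k.b : ℝ) - j) ≤ ((k.b : ℝ) + 1) ^ 2 / 4 := by
      nlinarith [sq_nonneg (((j : ℝ) + 1) - ((k.b : ℝ) - j))]
    have h2 : ((k.b : ℝ) + 1) ^ 2 ≤ ((B : ℝ) + 1) ^ 2 := by
      have : (k.b : ℝ) ≤ B := by exact_mod_cast hkB
      have h0 : (0 : ℝ) ≤ k.b := Nat.cast_nonneg _
      nlinarith
    linarith
  have hjpos : ∀ j ∈ range k.b, 0 ≤ (((j : ℝ) + 1) * ((k.b : ℝ) - j) / 2) := by
    intro j hj
    have : (j : ℝ) < k.b := by exact_mod_cast (by simpa using hj : j < k.b)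
    have : 0 ≤ (k.b : ℝ) - j := by linarith
    positivity
  -- bound for each form
  have hQ : ∀ j, -Q (frm G R (k.sh j γ + ev k.w)) ((0 : V → ℝ) + (1 / zu) • one u
        + (-(1 / zw)) • one w) ((0 : V → ℝ) + (1 / zu) • one u + (-(1 / zw)) • one w)
      ≤ 2 / (zu * zw) * Z G R (k.sh j γ + ev k.w - ev u - ev w) := by
    intro j
    rw [Q_expand _ (frm_symm G R _)]
    have h1 : 0 ≤ frm G R (k.sh j γ + ev k.w) u u := (Z_pos hG R hR _).le
    have h2 : 0 ≤ frm G R (k.sh j γ + ev k.w) w w := (Z_pos hG R hR _).le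
    have h3 : Q (frm G R (k.sh j γ + ev k.w)) 0 0 = 0 := by simp [Q]
    have h4 : Q (frm G R (k.sh j γ + ev k.w)) 0 (one u) = 0 := by simp [Q]
    have h5 : Q (frm G R (k.sh j γ + ev k.w)) 0 (one w) = 0 := by simp [Q]
    rw [h3, h4, h5]
    have h6 : frm G R (k.sh j γ + ev k.w) u w = Z G R (k.sh j γ + ev k.w - ev u - ev w) := rfl
    rw [← h6]
    have h7 : 0 ≤ (1 / zu) ^ 2 * frm G R (k.sh j γ + ev k.w) u u := by positivity
    have h8 : 0 ≤ (-(1 / zw)) ^ 2 * frm G R (k.sh j γ + ev k.w) w w := by positivity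
    have h9 : 2 / (zu * zw) * frm G R (k.sh j γ + ev k.w) u w
        = -(2 * (1 / zu) * -(1 / zw) * frm G R (k.sh j γ + ev k.w) u w) := by
      field_simp
    rw [h9]; linarith
  have hZ1 : ∀ j, Z G R (k.sh j γ + ev k.w - ev u - ev w) ≤ K * Z G R (k.sh j (γ - ev u)) := by
    intro j
    have := Z_shift_le K hK R hR (k.sh j (γ - ev u)) k.w w
    rw [sh_sub] at this ⊢
    rwa [show k.sh j γ + ev k.w - ev u - ev w = k.sh j γ - ev u + ev k.w - ev w from by abel]
  have hZ2 : ∀ j, Z G R (k.sh j γ + ev k.w - ev u - ev w)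
      ≤ K * Z G R (k.sh (j + 1) (γ - ev u)) := by
    intro j
    have := Z_shift_le K hK R hR (k.sh (j + 1) (γ - ev u)) k.u w
    rw [sh_succ, sh_sub] at this ⊢
    rwa [show k.sh j γ + ev k.w - ev u - ev w
      = k.sh j γ - ev u - ev k.u + ev k.w + ev k.u - ev w from by abel]
  have hzz : 0 < zu * zw := mul_pos hzu hzw
  -- sum
  have hS1 : ∑ j ∈ range k.b, k.wt j * Z G R (k.sh j (γ - ev u)) ≤ Z G (k :: R) (γ - ev u) := by
    rw [Z_cons]
    refine Finset.sum_le_sum_of_subset_of_nonneg (Finset.range_subset_range.2 (Nat.le_succ _)) ?_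
    intro j hj _
    exact mul_nonneg (hk.pos j (by simpa [Nat.lt_succ_iff] using hj)).le (Z_pos hG R hR _).le
  have hS2 : ∑ j ∈ range k.b, k.wt (j + 1) * Z G R (k.sh (j + 1) (γ - ev u))
      ≤ Z G (k :: R) (γ - ev u) := by
    rw [Z_cons, Finset.sum_range_succ']
    have := mul_nonneg (hk.pos 0 (Nat.zero_le _)).le (Z_pos hG R hR (k.sh 0 (γ - ev u))).le
    linarith
  unfold Tk
  calc _ ≤ ∑ j ∈ range k.b, (((B : ℝ) + 1) ^ 2 / 8) * (2 / (zu * zw)) * K *
        (k.wt j * Z G R (k.sh j (γ - ev u)) + k.wt (j + 1) * Z G R (k.sh (j + 1) (γ - ev u))) := by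
        refine Finset.sum_le_sum fun j hj => ?_
        have hj' : j < k.b := by simpa using hj
        have hw := hk.pos j hj'.le
        have hw1 := hk.pos (j + 1) hj'
        have hz0 := (Z_pos hG R hR (k.sh j γ + ev k.w - ev u - ev w)).le
        calc _ ≤ (((j : ℝ) + 1) * ((k.b : ℝ) - j) / 2) * (k.wt j + k.wt (j + 1))
              * (2 / (zu * zw) * Z G R (k.sh j γ + ev k.w - ev u - ev w)) :=
              mul_le_mul_of_nonneg_left (hQ j)
                (mul_nonneg (hjpos j hj) (by positivity))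
          _ ≤ (((B : ℝ) + 1) ^ 2 / 8) * (k.wt j + k.wt (j + 1))
              * (2 / (zu * zw) * Z G R (k.sh j γ + ev k.w - ev u - ev w)) := by
              refine mul_le_mul_of_nonneg_right ?_ (by positivity)
              exact mul_le_mul_of_nonneg_right (hmax j hj) (by positivity)
          _ = (((B : ℝ) + 1) ^ 2 / 8) * (2 / (zu * zw)) *
              (k.wt j * Z G R (k.sh j γ + ev k.w - ev u - ev w)
                + k.wt (j + 1) * Z G R (k.sh j γ + ev k.w - ev u - ev w)) := by ring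
          _ ≤ (((B : ℝ) + 1) ^ 2 / 8) * (2 / (zu * zw)) *
              (k.wt j * (K * Z G R (k.sh j (γ - ev u)))
                + k.wt (j + 1) * (K * Z G R (k.sh (j + 1) (γ - ev u)))) := by
              refine mul_le_mul_of_nonneg_left ?_ (by positivity)
              exact add_le_add (mul_le_mul_of_nonneg_left (hZ1 j) hw.le)
                (mul_le_mul_of_nonneg_left (hZ2 j) hw1.le)
          _ = _ := by ring
    _ = (((B : ℝ) + 1) ^ 2 / 8) * (2 / (zu * zw)) * K *
        ((∑ j ∈ range k.b, k.wt j * Z G R (k.sh j (γ - ev u)))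
          + ∑ j ∈ range k.b, k.wt (j + 1) * Z G R (k.sh (j + 1) (γ - ev u))) := by
        rw [← Finset.mul_sum, Finset.sum_add_distrib]
    _ ≤ (((B : ℝ) + 1) ^ 2 / 8) * (2 / (zu * zw)) * K *
        (Z G (k :: R) (γ - ev u) + Z G (k :: R) (γ - ev u)) := by
        refine mul_le_mul_of_nonneg_left (add_le_add hS1 hS2) (by positivity)
    _ = _ := by field_simp; ring

theorem PhiA_root (G : (V → ℤ) → ℝ) (hG : ∀ β, 0 < G β) (K : ℝ)
    (hK : ∀ t a b, G (t + ev a - ev b) ≤ K * G t) (B : ℕ) (γ : V → ℤ) (u w : V)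
    (zu zw : ℝ) (hzu : 0 < zu) (hzw : 0 < zw) :
    ∀ (R P : List (Cell V)), (∀ f ∈ R, f.OK) → (∀ f ∈ R, f.b ≤ B) → (∀ f ∈ P, f.OK) →
    PhiA G P R γ ((0 : V → ℝ) + (1 / zu) • one u + (-(1 / zw)) • one w)
      ≤ R.length * (K * ((B : ℝ) + 1) ^ 2 / 2 * (Z G (P ++ R) (γ - ev u) / (zu * zw))) := by
  intro R
  induction R with
  | nil => intro P _ _ _; simp [PhiA]
  | cons k R ih =>
    intro P hR hRB hP
    have hk := hR k (by simp)
    have hPR : ∀ f ∈ P ++ R, f.OK := fun f hf => by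
      rcases List.mem_append.1 hf with h | h
      · exact hP f h
      · exact hR f (by simp [h])
    have h1 := Tk_root G hG K hK k hk B (hRB k (by simp)) (P ++ R) hPR γ u w zu zw hzu hzw
    have h2 := ih (P ++ [k]) (fun f hf => hR f (by simp [hf])) (fun f hf => hRB f (by simp [hf]))
      (fun f hf => by
        rcases List.mem_append.1 hf with h | h
        · exact hP f h
        · have : f = k := by simpa using h
          exact this ▸ hk)
    rw [Z_perm (G := G) (List.perm_middle.symm : (k :: (P ++ R)).Perm (P ++ k :: R))] at h1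
    have e1 : (P ++ [k]) ++ R = P ++ k :: R := by simp
    rw [e1] at h2
    unfold PhiA
    have e2 : ((k :: R).length : ℝ) = (R.length : ℝ) + 1 := by simp
    rw [e2, add_mul, one_mul, add_comm ((R.length : ℝ) * _)]
    exact add_le_add h1 h2

/-- **Transport inequality.** -/
theorem transport (G : (V → ℤ) → ℝ) (hG : ∀ β, 0 < G β) (hL : LorentzFor G) (K : ℝ)
    (hK : ∀ t a b, G (t + ev a - ev b) ≤ K * G t) (B : ℕ) (R : List (Cell V))
    (hR : ∀ f ∈ R, f.OK) (hB : ∀ f ∈ R, f.b ≤ B) (γ : V → ℤ) (u w : V) (h : List ℕ → ℝ) :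
    (Ex G R (γ - ev u) h / Z G R (γ - ev u) - Ex G R (γ - ev w) h / Z G R (γ - ev w)) ^ 2
      ≤ (R.length * K ^ 2 * ((B : ℝ) + 1) ^ 2 / 2)
        * (Dir G R (γ - ev w) h / Z G R (γ - ev w)) := by
  set zu := Z G R (γ - ev u) with hzu
  set zw := Z G R (γ - ev w) with hzw
  have pu : 0 < zu := Z_pos hG R hR _
  have pw : 0 < zw := Z_pos hG R hR _
  set ν : V → ℝ := (0 : V → ℝ) + (1 / zu) • one u + (-(1 / zw)) • one w with hν
  have h0 : Lf G R γ ν = 0 := by
    rw [hν, Lf_upd, ← hzu, ← hzw]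
    have : Lf G R γ 0 = 0 := by simp [Lf]
    rw [this]; field_simp; ring
  have hM : Mf G R γ ν h = Ex G R (γ - ev u) h / zu - Ex G R (γ - ev w) h / zw := by
    rw [hν, Mf_upd]
    have : Mf G R γ 0 h = 0 := by simp [Mf]
    rw [this]; ring
  have h1 := flow_ineq G hG hL R hR γ ν h h0
  rw [hM] at h1
  refine le_trans h1 ?_
  have h2 := PhiA_root G hG K hK B γ u w zu zw pu pw R [] hR hB (by simp)
  rw [List.nil_append, ← hzu] at h2
  have h3 := HD_le G hG K hK w R hR γ h
  have h4 := HD_nonneg G hG R hR γ h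
  have hK0 : 0 ≤ K := by
    have := hK 0 u u
    have h3 := hG 0
    have h4 : G 0 ≤ K * G 0 := by simpa using this
    by_contra h
    push Not at h
    nlinarith
  calc _ ≤ ((R.length : ℝ) * (K * ((B : ℝ) + 1) ^ 2 / 2 * (zu / (zu * zw)))) * HD G R γ h :=
        mul_le_mul_of_nonneg_right h2 h4
    _ ≤ ((R.length : ℝ) * (K * ((B : ℝ) + 1) ^ 2 / 2 * (zu / (zu * zw))))
        * (K * Dir G R (γ - ev w) h) :=
        mul_le_mul_of_nonneg_left h3 (by positivity)
    _ = _ := by field_simp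

end Crest.Agent.R309.UG
private theorem rz_df7032aabe : type_of% @_root_.Crest.Agent.R309.UG.HD.eq_def := @_root_.Crest.Agent.R309.UG.HD.eq_def -- L68
private theorem rz_4df8086fd2 : type_of% @_root_.Crest.Agent.R309.UG.HD.eq_1 := @_root_.Crest.Agent.R309.UG.HD.eq_1 -- L68
end

-- ▼ part R309/LorNS
section

/-!
R309: the Lorentzian property of edge systems (helper358).

* `lorentz : GOK G → LorentzFor G`;
* `gok_prod`, `gok_theta`: product vertex weights with log-concave factors are `GOK`;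
* `three_point`, `logconcave_line`, `marginal_logconcave`.
-/

set_option autoImplicit false

namespace Crest.Agent.R309.UGL

open Finset Crest.Agent.R309.UG

set_option linter.unusedSectionVars false

variable {V : Type*} [DecidableEq V]

/-! ### positivity of the partition function -/

theorem Z_pos {G : (V → ℤ) → ℝ} (hG : ∀ β, 0 < G β) :
    ∀ (R : List (Cell V)), (∀ e ∈ R, e.OK) → ∀ β, 0 < Z G R β := by
  intro R
  induction R with
  | nil => intro _ β; simpa using hG β
  | cons e R ih =>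
    intro hR β
    rw [Z_cons]
    refine Finset.sum_pos ?_ ⟨0, by simp⟩
    intro y hy
    have he : e.OK := hR e (by simp)
    exact mul_pos (he.pos y (by simpa [Nat.lt_succ_iff] using hy))
      (ih (fun e' he' => hR e' (by simp [he'])) _)

theorem sh_sub (e : Cell V) (y : ℕ) (β γ : V → ℤ) : e.sh y (β - γ) = e.sh y β - γ := by
  unfold Cell.sh; module

theorem frm_symm (G : (V → ℤ) → ℝ) (R : List (Cell V)) (β : V → ℤ) (a b : V) :
    frm G R β a b = frm G R β b a := by
  unfold frm; congr 1; abel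

theorem frm_cons (G : (V → ℤ) → ℝ) (e : Cell V) (R : List (Cell V)) (β : V → ℤ) (a b : V) :
    frm G (e :: R) β a b
      = ∑ y ∈ range (e.b + 1), e.wt y * frm G R (e.sh y β) a b := by
  unfold frm
  rw [Z_cons]
  refine Finset.sum_congr rfl fun y _ => ?_
  rw [sh_sub, sh_sub]

theorem frm_uw (G : (V → ℤ) → ℝ) (e : Cell V) (R : List (Cell V)) (β : V → ℤ) (y : ℕ) (b : V) :
    frm G R (e.sh y β) e.u b = frm G R (e.sh (y + 1) β) e.w b := by
  unfold frm; rw [sh_succ]; congr 1; abel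

section Fin

variable [Fintype V]

/-- row functional -/
def rowf (A : V → V → ℝ) (μ : V → ℝ) (a : V) : ℝ := ∑ b, μ b * A a b

theorem Q_eq_rowf (A : V → V → ℝ) (ν μ : V → ℝ) : Q A ν μ = ∑ a, ν a * rowf A μ a := by
  unfold Q rowf
  refine Finset.sum_congr rfl fun a _ => ?_
  rw [Finset.mul_sum]
  refine Finset.sum_congr rfl fun b _ => ?_
  ring

theorem Q_sum {ι : Type*} (s : Finset ι) (c : ι → ℝ) (A : ι → V → V → ℝ) (ν μ : V → ℝ) :
    Q (fun a b => ∑ i ∈ s, c i * A i a b) ν μ = ∑ i ∈ s, c i * Q (A i) ν μ := by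
  unfold Q
  simp_rw [Finset.mul_sum]
  rw [Finset.sum_comm]
  refine Eq.trans (Finset.sum_congr rfl fun b _ => Finset.sum_congr rfl fun a _ => rfl) ?_
  rw [Finset.sum_comm (s := (univ : Finset V)) (t := (univ : Finset V))]
  symm
  rw [Finset.sum_comm]
  refine Finset.sum_congr rfl fun a _ => ?_
  rw [Finset.sum_comm]
  refine Finset.sum_congr rfl fun b _ => ?_
  refine Finset.sum_congr rfl fun i _ => ?_
  ring

theorem Q_symm {A : V → V → ℝ} (hA : ∀ a b, A a b = A b a) (ν μ : V → ℝ) :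
    Q A ν μ = Q A μ ν := by
  unfold Q
  rw [Finset.sum_comm]
  refine Finset.sum_congr rfl fun a _ => Finset.sum_congr rfl fun b _ => ?_
  rw [hA]; ring

/-- the vector `ν - s e_u + t e_w` -/
def pert (ν : V → ℝ) (u w : V) (s t : ℝ) : V → ℝ :=
  fun a => ν a - s * (if a = u then 1 else 0) + t * (if a = w then 1 else 0)

theorem rowf_pert (A : V → V → ℝ) (ν : V → ℝ) (u w : V) (s t : ℝ) (a : V) :
    rowf A (pert ν u w s t) a = rowf A ν a - s * A a u + t * A a w := by
  unfold rowf pert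
  simp_rw [add_mul, sub_mul, Finset.sum_add_distrib, Finset.sum_sub_distrib]
  congr 1
  · congr 1
    simp
  · simp

theorem Q_pert_left (A : V → V → ℝ) (ν μ : V → ℝ) (u w : V) (s t : ℝ) :
    Q A (pert ν u w s t) μ = Q A ν μ - s * rowf A μ u + t * rowf A μ w := by
  rw [Q_eq_rowf, Q_eq_rowf]
  unfold pert
  simp_rw [add_mul, sub_mul, Finset.sum_add_distrib, Finset.sum_sub_distrib]
  congr 1
  · congr 1
    simp
  · simp

theorem Q_pert {A : V → V → ℝ} (hA : ∀ a b, A a b = A b a) (ν : V → ℝ) (u w : V) (s t : ℝ) :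
    Q A (pert ν u w s t) (pert ν u w s t)
      = Q A ν ν - 2 * s * rowf A ν u + 2 * t * rowf A ν w
        + s ^ 2 * A u u + t ^ 2 * A w w - 2 * s * t * A u w := by
  rw [Q_pert_left, Q_symm hA ν, Q_pert_left, rowf_pert, rowf_pert, hA w u]
  ring

theorem rowf_frm_uw (G : (V → ℤ) → ℝ) (e : Cell V) (R : List (Cell V)) (β : V → ℤ) (y : ℕ)
    (μ : V → ℝ) :
    rowf (frm G R (e.sh y β)) μ e.u = rowf (frm G R (e.sh (y + 1) β)) μ e.w := by
  unfold rowf
  exact Finset.sum_congr rfl fun b _ => by rw [frm_uw]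

theorem rowf_pos {A : V → V → ℝ} (hA : ∀ a b, 0 < A a b) {D : V → ℝ} (hD : ∀ a, 0 ≤ D a)
    (hD' : ∃ a, 0 < D a) (a : V) : 0 < rowf A D a := by
  obtain ⟨b, hb⟩ := hD'
  unfold rowf
  exact Finset.sum_pos' (fun c _ => mul_nonneg (hD c) (hA a c).le)
    ⟨b, mem_univ b, mul_pos hb (hA a b)⟩

/-- The quadratic (conservation) estimate: for a sequence `F` with `F 0 = F (b+1) = 0`, the
sum of the quadratic gains is nonnegative by log-concavity of the weights. -/
theorem gain_nonneg {b : ℕ} {wt F H : ℕ → ℝ} (pos : ∀ y ≤ b, 0 < wt y)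
    (lc : ∀ y, y + 2 ≤ b → wt y * wt (y + 2) ≤ wt (y + 1) ^ 2)
    (hF0 : F 0 = 0) (hFb : F (b + 1) = 0) (hH : ∀ y, 0 ≤ H y) :
    0 ≤ ∑ y ∈ range (b + 1), (F (y + 1) ^ 2 / wt y * H (y + 2) + F y ^ 2 / wt y * H y
      - 2 * (F (y + 1) * F y / wt y) * H (y + 1)) := by
  have h1 : ∑ y ∈ range (b + 1), (F (y + 1) ^ 2 / wt y * H (y + 2))
      = ∑ y ∈ range (b + 1), (F y ^ 2 / wt (y - 1) * H (y + 1)) := by
    have := Finset.sum_range_sub (fun y => F y ^ 2 / wt (y - 1) * H (y + 1)) (b + 1)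
    simp only [Nat.add_sub_cancel, hF0, hFb, Finset.sum_sub_distrib] at this
    have h2 : (0 : ℝ) ^ 2 = 0 := by norm_num
    rw [h2, zero_div, zero_mul, zero_div, zero_mul, sub_zero] at this
    linarith
  have h2 : ∑ y ∈ range (b + 1), (F y ^ 2 / wt y * H y)
      = ∑ y ∈ range (b + 1), (F (y + 1) ^ 2 / wt (y + 1) * H (y + 1)) := by
    have := Finset.sum_range_sub (fun y => F y ^ 2 / wt y * H y) (b + 1)
    simp only [hF0, hFb, Finset.sum_sub_distrib] at this
    have h2 : (0 : ℝ) ^ 2 = 0 := by norm_num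
    rw [h2, zero_div, zero_mul, zero_div, zero_mul, sub_zero] at this
    linarith
  have h3 : ∑ y ∈ range (b + 1), (F (y + 1) ^ 2 / wt y * H (y + 2) + F y ^ 2 / wt y * H y
      - 2 * (F (y + 1) * F y / wt y) * H (y + 1))
      = ∑ y ∈ range (b + 1), (F y ^ 2 / wt (y - 1) + F (y + 1) ^ 2 / wt (y + 1)
        - 2 * (F (y + 1) * F y / wt y)) * H (y + 1) := by
    rw [Finset.sum_sub_distrib, Finset.sum_add_distrib, h1, h2, ← Finset.sum_add_distrib,
      ← Finset.sum_sub_distrib]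
    exact Finset.sum_congr rfl fun y _ => by ring
  rw [h3]
  refine Finset.sum_nonneg fun y hy => mul_nonneg ?_ (hH _)
  have hyb : y ≤ b := by simpa [Nat.lt_succ_iff] using hy
  rcases Nat.eq_zero_or_pos y with rfl | hy0
  · rw [hF0]
    rcases Nat.eq_zero_or_pos b with rfl | hb0
    · rw [hFb]; simp
    · have := pos 1 hb0
      have h4 : 0 ≤ F (0 + 1) ^ 2 / wt (0 + 1) := by positivity
      simpa using h4
  · rcases Nat.lt_or_ge y b with hlt | hge
    · obtain ⟨z, rfl⟩ : ∃ z, y = z + 1 := ⟨y - 1, by omega⟩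
      have p0 := pos z (by omega)
      have p1 := pos (z + 1) (by omega)
      have p2 := pos (z + 2) (by omega)
      have l := lc z (by omega)
      rw [Nat.add_sub_cancel]
      set x := F (z + 1)
      set x' := F (z + 1 + 1)
      have e1 : wt (z + 1 + 1) = wt (z + 2) := rfl
      rw [e1]
      have key : 0 ≤ x ^ 2 * (wt (z + 1) * wt (z + 2)) + x' ^ 2 * (wt z * wt (z + 1))
          - 2 * (x' * x) * (wt z * wt (z + 2)) := by
        have a1 : 0 ≤ wt (z + 1) * (x ^ 2 * (wt (z + 1) * wt (z + 2)) + x' ^ 2 * (wt z * wt (z + 1))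
          - 2 * (x' * x) * (wt z * wt (z + 2))) := by
          have a2 := mul_nonneg p2.le (sq_nonneg (wt (z + 1) * x - wt z * x'))
          have a3 := mul_nonneg (mul_nonneg p0.le (sq_nonneg x')) (sub_nonneg.2 l)
          nlinarith [a2, a3]
        exact nonneg_of_mul_nonneg_right a1 p1
      have : x ^ 2 / wt z + x' ^ 2 / wt (z + 2) - 2 * (x' * x / wt (z + 1))
          = (x ^ 2 * (wt (z + 1) * wt (z + 2)) + x' ^ 2 * (wt z * wt (z + 1))
          - 2 * (x' * x) * (wt z * wt (z + 2))) / (wt z * wt (z + 1) * wt (z + 2)) := by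
        field_simp
      rw [this]
      exact div_nonneg key (by positivity)
    · have : y = b := le_antisymm hyb hge
      subst this
      rw [hFb]
      have := pos (y - 1) (by omega)
      have h4 : 0 ≤ F y ^ 2 / wt (y - 1) := by positivity
      simpa using h4

theorem lor_step {G : (V → ℤ) → ℝ} (hG : ∀ β, 0 < G β) (e : Cell V) (he : e.OK)
    (R : List (Cell V)) (hR : ∀ e ∈ R, e.OK) (ih : ∀ β, Lor (frm G R β)) (β : V → ℤ) :
    Lor (frm G (e :: R) β) := by
  intro ν D hD hD' h0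
  have hfr : frm G (e :: R) β = fun a b => ∑ y ∈ range (e.b + 1), e.wt y * frm G R (e.sh y β) a b := by
    funext a b; exact frm_cons G e R β a b
  rw [hfr, Q_sum] at h0 ⊢
  have hZ : ∀ y : ℕ, ∀ a b, 0 < frm G R (e.sh y β) a b := fun y a b => Z_pos hG R hR _
  set φ : ℕ → ℝ := fun y => Q (frm G R (e.sh y β)) ν D with hφ
  set S : ℕ → ℝ := fun y => ∑ i ∈ range y, e.wt i * φ i with hS
  set N : ℕ → ℝ := fun y => rowf (frm G R (e.sh y β)) D e.w with hN
  set L : ℕ → ℝ := fun y => rowf (frm G R (e.sh y β)) ν e.w with hL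
  set F : ℕ → ℝ := fun y => S y / N y with hF
  set H : ℕ → ℝ := fun y => frm G R (e.sh y β) e.w e.w with hH
  have hNpos : ∀ y, 0 < N y := fun y => rowf_pos (hZ y) hD hD' e.w
  have hS0 : S 0 = 0 := by simp [hS]
  have hSb : S (e.b + 1) = 0 := by rw [hS]; exact h0
  have hF0 : F 0 = 0 := by simp [hF, hS0]
  have hFb : F (e.b + 1) = 0 := by simp only [hF, hSb, zero_div]
  have hu : ∀ y μ, rowf (frm G R (e.sh y β)) μ e.u = rowf (frm G R (e.sh (y + 1) β)) μ e.w :=
    fun y μ => rowf_frm_uw G e R β y μ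
  have huw : ∀ y, frm G R (e.sh y β) e.u e.w = H (y + 1) := fun y => frm_uw G e R β y e.w
  have huu : ∀ y, frm G R (e.sh y β) e.u e.u = H (y + 2) := by
    intro y
    rw [frm_uw, frm_symm, frm_uw]
  have key : ∀ y ∈ range (e.b + 1), e.wt y * Q (frm G R (e.sh y β)) ν ν
      + (2 * (F y * L y) - 2 * (F (y + 1) * L (y + 1)))
      + (F (y + 1) ^ 2 / e.wt y * H (y + 2) + F y ^ 2 / e.wt y * H y
      - 2 * (F (y + 1) * F y / e.wt y) * H (y + 1)) ≤ 0 := by
    intro y hy
    have hw : 0 < e.wt y := he.pos y (by simpa [Nat.lt_succ_iff] using hy)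
    have hsym : ∀ a b, frm G R (e.sh y β) a b = frm G R (e.sh y β) b a := frm_symm G R _
    have h1 := ih (e.sh y β) (pert ν e.u e.w (F (y + 1) / e.wt y) (F y / e.wt y)) D hD hD' (by
      rw [Q_pert_left, hu]
      have e1 : F (y + 1) * N (y + 1) = S (y + 1) := div_mul_cancel₀ _ (hNpos _).ne'
      have e2 : F y * N y = S y := div_mul_cancel₀ _ (hNpos _).ne'
      have e3 : S (y + 1) = S y + e.wt y * φ y := by rw [hS]; simp [Finset.sum_range_succ]
      have e4 : e.wt y * (Q (frm G R (e.sh y β)) ν D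
          - F (y + 1) / e.wt y * rowf (frm G R (e.sh (y + 1) β)) D e.w
          + F y / e.wt y * rowf (frm G R (e.sh y β)) D e.w) = 0 := by
        have : e.wt y * (Q (frm G R (e.sh y β)) ν D
          - F (y + 1) / e.wt y * rowf (frm G R (e.sh (y + 1) β)) D e.w
          + F y / e.wt y * rowf (frm G R (e.sh y β)) D e.w)
          = e.wt y * φ y - F (y + 1) * N (y + 1) + F y * N y := by
          simp only [hφ, hN]
          field_simp
        rw [this, e1, e2, e3]; ring
      exact (mul_eq_zero.mp e4).resolve_left hw.ne')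
    rw [Q_pert hsym, hu, huw, huu] at h1
    have h2 := mul_nonpos_of_nonneg_of_nonpos hw.le h1
    refine le_trans (le_of_eq ?_) h2
    have e5 : frm G R (e.sh y β) e.w e.w = H y := rfl
    have e6 : rowf (frm G R (e.sh (y + 1) β)) ν e.w = L (y + 1) := rfl
    have e7 : rowf (frm G R (e.sh y β)) ν e.w = L y := rfl
    rw [e5, e6, e7]
    field_simp
    ring
  have hsum := Finset.sum_nonpos key
  rw [Finset.sum_add_distrib, Finset.sum_add_distrib] at hsum
  have htel : ∑ y ∈ range (e.b + 1), (2 * (F y * L y) - 2 * (F (y + 1) * L (y + 1))) = 0 := by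
    have := Finset.sum_range_sub' (fun y => 2 * (F y * L y)) (e.b + 1)
    rw [this, hF0, hFb]; ring
  have hgain := gain_nonneg (H := H) he.pos he.lc hF0 hFb (fun y => (hZ y _ _).le)
  linarith

/-- **Lorentz theorem** for edge systems. -/
theorem lorentz {G : (V → ℤ) → ℝ} (hG : GOK G) : LorentzFor G := by
  intro R
  induction R with
  | nil => intro _ β; exact hG.lor β
  | cons e R ih =>
    intro hR β
    exact lor_step hG.pos e (hR e (by simp)) R (fun e' he' => hR e' (by simp [he']))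
      (ih fun e' he' => hR e' (by simp [he'])) β

/-! ### consequences of the Lorentzian property -/



section System

variable {G : (V → ℤ) → ℝ} (hG : GOK G) {R : List (Cell V)} (hR : ∀ e ∈ R, e.OK)

include hG hR





end System

/-! ### product vertex weights -/

/-- positive log-concave functions on `ℤ` -/
structure LC (g : ℤ → ℝ) : Prop where
  pos : ∀ t, 0 < g t
  lc : ∀ t, g (t - 1) * g (t + 1) ≤ g t ^ 2

/-- matrices of the form `C ρ ρᵀ - diag δ`, `δ ≥ 0`, with nonnegative diagonal, are `Lor`. -/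
theorem lor_rank_one (C : ℝ) (hC : 0 < C) (ρ δ : V → ℝ) (hρ : ∀ a, 0 < ρ a) (hδ : ∀ a, 0 ≤ δ a)
    (hdiag : ∀ a, δ a ≤ C * ρ a ^ 2) :
    Lor (fun a b => C * (ρ a * ρ b) - if a = b then δ a else 0) := by
  intro ν D hD hD' h0
  have hQ : ∀ ν μ : V → ℝ, Q (fun a b => C * (ρ a * ρ b) - if a = b then δ a else 0) ν μ
      = C * ((∑ a, ν a * ρ a) * (∑ a, μ a * ρ a)) - ∑ a, δ a * (ν a * μ a) := by
    intro ν μ
    unfold Q
    simp_rw [mul_sub, Finset.sum_sub_distrib]
    congr 1
    · rw [Finset.sum_mul_sum, Finset.mul_sum]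
      refine Finset.sum_congr rfl fun a _ => ?_
      rw [Finset.mul_sum]
      exact Finset.sum_congr rfl fun b _ => by ring
    · refine Finset.sum_congr rfl fun a _ => ?_
      simp; ring
  rw [hQ] at h0 ⊢
  set x := ∑ a, ν a * ρ a
  set y := ∑ a, D a * ρ a with hy
  have hypos : 0 < y := by
    obtain ⟨b, hb⟩ := hD'
    exact Finset.sum_pos' (fun c _ => mul_nonneg (hD c) (hρ c).le)
      ⟨b, mem_univ b, mul_pos hb (hρ b)⟩
  -- Cauchy-Schwarz
  have hCS : (∑ a, δ a * (ν a * D a)) ^ 2 ≤ (∑ a, δ a * (ν a * ν a)) * (∑ a, δ a * (D a * D a)) := by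
    have := Finset.sum_mul_sq_le_sq_mul_sq univ (fun a => Real.sqrt (δ a) * ν a)
      (fun a => Real.sqrt (δ a) * D a)
    have e1 : ∀ a, Real.sqrt (δ a) * ν a * (Real.sqrt (δ a) * D a) = δ a * (ν a * D a) := by
      intro a
      calc _ = (Real.sqrt (δ a) * Real.sqrt (δ a)) * (ν a * D a) := by ring
        _ = _ := by rw [Real.mul_self_sqrt (hδ a)]
    have e2 : ∀ a, (Real.sqrt (δ a) * ν a) ^ 2 = δ a * (ν a * ν a) := by
      intro a
      calc _ = (Real.sqrt (δ a) * Real.sqrt (δ a)) * (ν a * ν a) := by ring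
        _ = _ := by rw [Real.mul_self_sqrt (hδ a)]
    have e3 : ∀ a, (Real.sqrt (δ a) * D a) ^ 2 = δ a * (D a * D a) := by
      intro a
      calc _ = (Real.sqrt (δ a) * Real.sqrt (δ a)) * (D a * D a) := by ring
        _ = _ := by rw [Real.mul_self_sqrt (hδ a)]
    simpa only [e1, e2, e3] using this
  have hDD : ∑ a, δ a * (D a * D a) ≤ C * y ^ 2 := by
    calc ∑ a, δ a * (D a * D a) ≤ ∑ a, C * (D a * ρ a) ^ 2 := by
          refine Finset.sum_le_sum fun a _ => ?_
          have := mul_le_mul_of_nonneg_right (hdiag a) (mul_self_nonneg (D a))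
          nlinarith [this]
      _ = C * ∑ a, (D a * ρ a) ^ 2 := by rw [Finset.mul_sum]
      _ ≤ C * y ^ 2 := by
          refine mul_le_mul_of_nonneg_left ?_ hC.le
          exact Finset.sum_sq_le_sq_sum_of_nonneg (fun a _ => mul_nonneg (hD a) (hρ a).le)
  have hνν : 0 ≤ ∑ a, δ a * (ν a * ν a) :=
    Finset.sum_nonneg fun a _ => mul_nonneg (hδ a) (mul_self_nonneg _)
  have h1 : (C * (x * y)) ^ 2 ≤ (∑ a, δ a * (ν a * ν a)) * (C * y ^ 2) := by
    have e : C * (x * y) = ∑ a, δ a * (ν a * D a) := by linarith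
    rw [e]
    exact hCS.trans (mul_le_mul_of_nonneg_left hDD hνν)
  have h2 : (C * y ^ 2) * (C * (x * x)) ≤ (C * y ^ 2) * (∑ a, δ a * (ν a * ν a)) := by
    nlinarith [h1]
  have h3 := le_of_mul_le_mul_left h2 (by positivity)
  linarith

theorem prod_sub_ev (g : V → ℤ → ℝ) (hg : ∀ v, LC (g v)) (β : V → ℤ) (a : V) :
    ∏ v, g v ((β - ev a) v) = (∏ v, g v (β v)) * (g a (β a - 1) / g a (β a)) := by
  have h1 : ∏ v, g v ((β - ev a) v)
      = ∏ v, (g v (β v) * if v = a then g a (β a - 1) / g a (β a) else 1) := by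
    refine Finset.prod_congr rfl fun v _ => ?_
    by_cases h : v = a
    · subst h
      simp only [ev, Pi.sub_apply, Pi.single_eq_same, if_true]
      have := ((hg v).pos (β v)).ne'
      field_simp
    · simp [ev, h]
  rw [h1, Finset.prod_mul_distrib]
  simp

/-- one-step ratio -/
noncomputable def rho (g : V → ℤ → ℝ) (β : V → ℤ) (a : V) : ℝ := g a (β a - 1) / g a (β a)

/-- defect on the diagonal -/
noncomputable def dlt (g : V → ℤ → ℝ) (β : V → ℤ) (a : V) : ℝ :=
  (∏ v, g v (β v)) * (rho g β a ^ 2 - g a (β a - 2) / g a (β a))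

theorem prod_mat (g : V → ℤ → ℝ) (hg : ∀ v, LC (g v)) (β : V → ℤ) (a b : V) :
    ∏ v, g v ((β - ev a - ev b) v)
      = (∏ v, g v (β v)) * (rho g β a * rho g β b) - if a = b then dlt g β a else 0 := by
  rw [prod_sub_ev g hg, prod_sub_ev g hg]
  by_cases h : a = b
  · subst h
    rw [if_pos rfl]
    unfold dlt rho
    have h1 : (β - ev a) a = β a - 1 := by simp [ev]
    have h3 : β a - 1 - 1 = β a - 2 := by ring
    rw [h1, h3]
    have n1 := ((hg a).pos (β a)).ne'
    have n2 := ((hg a).pos (β a - 1)).ne'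
    generalize (∏ v, g v (β v)) = C
    generalize g a (β a) = x at *
    generalize g a (β a - 1) = y at *
    generalize g a (β a - 2) = z at *
    field_simp
    ring
  · rw [if_neg h]
    have h1 : (β - ev a) b = β b := by simp [ev, Ne.symm h]
    unfold rho
    rw [h1]
    ring

theorem gok_prod (g : V → ℤ → ℝ) (hg : ∀ v, LC (g v)) : GOK (fun t => ∏ v, g v (t v)) := by
  refine ⟨fun β => Finset.prod_pos fun v _ => (hg v).pos _, fun β => ?_⟩
  have hCpos : 0 < ∏ v, g v (β v) := Finset.prod_pos fun v _ => (hg v).pos _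
  have hρpos : ∀ a, 0 < rho g β a := fun a => div_pos ((hg a).pos _) ((hg a).pos _)
  have h2 : ∀ a, g a (β a - 2) / g a (β a) ≤ rho g β a ^ 2 := by
    intro a
    have h := (hg a).lc (β a - 1)
    have e1 : β a - 1 - 1 = β a - 2 := by ring
    have e2 : β a - 1 + 1 = β a := by ring
    rw [e1, e2] at h
    have h0 := (hg a).pos (β a)
    unfold rho
    rw [div_pow, div_le_div_iff₀ h0 (by positivity)]
    nlinarith [mul_le_mul_of_nonneg_right h h0.le]
  have h3 : ∀ a, 0 < g a (β a - 2) / g a (β a) := fun a => div_pos ((hg a).pos _) ((hg a).pos _)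
  have hmat : (fun a b => ∏ v, g v ((β - ev a - ev b) v))
      = fun a b => (∏ v, g v (β v)) * (rho g β a * rho g β b) - if a = b then dlt g β a else 0 := by
    funext a b
    exact prod_mat g hg β a b
  have hL := lor_rank_one (∏ v, g v (β v)) hCpos (rho g β) (dlt g β) hρpos
    (fun a => mul_nonneg hCpos.le (sub_nonneg.2 (h2 a)))
    (fun a => by
      have := mul_pos hCpos (h3 a)
      unfold dlt
      nlinarith)
  rw [← hmat] at hL
  exact hL

theorem lc_theta {θ : ℝ} (h0 : 0 < θ) (h1 : θ ≤ 1) : LC (fun t : ℤ => θ ^ t.natAbs) := by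
  refine ⟨fun t => by positivity, fun t => ?_⟩
  rw [← pow_add, ← pow_mul]
  refine pow_le_pow_of_le_one h0.le h1 ?_
  omega

/-- geometric vertex fields are allowed as well -/
theorem LC.mul {g h : ℤ → ℝ} (hg : LC g) (hh : LC h) : LC (fun t => g t * h t) := by
  refine ⟨fun t => mul_pos (hg.pos t) (hh.pos t), fun t => ?_⟩
  have a1 := hg.lc t
  have a2 := hh.lc t
  have b1 := mul_pos (hh.pos (t - 1)) (hh.pos (t + 1))
  calc g (t - 1) * h (t - 1) * (g (t + 1) * h (t + 1))
      = (g (t - 1) * g (t + 1)) * (h (t - 1) * h (t + 1)) := by ring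
    _ ≤ g t ^ 2 * h t ^ 2 := mul_le_mul a1 a2 b1.le (sq_nonneg _)
    _ = _ := by ring




end Fin

end Crest.Agent.R309.UGL
namespace Crest.Agent.R309.UG.Lor
end Crest.Agent.R309.UG.Lor
end

-- ▼ part R309/UGBox
section

/-!
R309: the unary gap theorem, final forms.

* `unary_gap`: Poincare inequality for list systems with a `GOK` vertex weight;
* `box_gap`: the same on `US.box`, for the weight `θ ^ ‖τ‖₁ * q ^ (k · τ)` (any field `k`).
-/

set_option autoImplicit false

namespace Crest.Agent.R309.UGBox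

open Finset Crest.Agent.R309.UG

section gen

variable {V : Type*} [DecidableEq V] [Fintype V]

/-- **Unary gap theorem**, list form. -/
theorem unary_gap {G : (V → ℤ) → ℝ} (hG : GOK G) {κ : ℝ} (hκ0 : 0 < κ)
    (hκ : ∀ t a c, κ * G t ≤ G (t - ev a + ev c)) {B : ℕ} (R : List (Cell V))
    (hR : ∀ e ∈ R, e.OK ∧ e.b ≤ B) (β : V → ℤ) (f : List ℕ → ℝ) :
    Ex G R β (fun Y => f Y ^ 2) - Ex G R β f ^ 2 / Z G R β
      ≤ (((R.length : ℝ) ^ 2 + 2) * ((B : ℝ) + 1) ^ 4 * (κ⁻¹) ^ 2) * Dir G R β f := by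
  have hL : LorentzFor G := UGL.lorentz hG
  have hK : ∀ t a b, G (t + ev a - ev b) ≤ κ⁻¹ * G t := by
    intro t a b
    have h := hκ (t + ev a - ev b) a b
    rw [show t + ev a - ev b - ev a + ev b = t by abel] at h
    rw [inv_mul_eq_div, le_div_iff₀ hκ0, mul_comm]
    exact h
  have hT : UGMart.TransFor G (fun e => e.OK ∧ e.b ≤ B) R.length
      ((R.length : ℝ) * (κ⁻¹) ^ 2 * ((B : ℝ) + 1) ^ 2 / 2) := by
    intro R' hR' hlen β a c h
    have ht := UG.transport G hG.pos hL κ⁻¹ hK B R' (fun e he => (hR' e he).1)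
      (fun e he => (hR' e he).2) (β + ev c) a c h
    rw [show β + ev c - ev a = β - ev a + ev c by abel, show β + ev c - ev c = β by abel] at ht
    refine ht.trans ?_
    have hD : 0 ≤ Dir G R' β h / Z G R' β :=
      div_nonneg (UGMart.Dir_nonneg hG.pos (fun e he => (hR' e he).1) _ _)
        (UGMart.Z_pos hG.pos (fun e he => (hR' e he).1) _).le
    apply mul_le_mul_of_nonneg_right _ hD
    have : (R'.length : ℝ) ≤ R.length := by exact_mod_cast hlen
    gcongr
  have h := UGMart.unary_gap_of hG.pos hL hκ0 hκ (B := B) (M := R.length)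
    (K := (R.length : ℝ) * (κ⁻¹) ^ 2 * ((B : ℝ) + 1) ^ 2 / 2) (by positivity) hT R hR
    (Nat.le_succ _) β f
  refine h.trans ?_
  have hD : 0 ≤ Dir G R β f := UGMart.Dir_nonneg hG.pos (fun e he => (hR e he).1) _ _
  apply mul_le_mul_of_nonneg_right _ hD
  have h1 : (1 : ℝ) ≤ ((B : ℝ) + 1) ^ 2 := by
    have : (1 : ℝ) ≤ (B : ℝ) + 1 := by
      have : (0 : ℝ) ≤ B := Nat.cast_nonneg _
      linarith
    exact one_le_pow₀ this
  have h2 : 0 ≤ (κ⁻¹) ^ 2 := by positivity
  have h3 : 2 * ((B : ℝ) + 1) ^ 2 * (κ⁻¹) ^ 2 ≤ 2 * ((B : ℝ) + 1) ^ 4 * (κ⁻¹) ^ 2 := by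
    have : ((B : ℝ) + 1) ^ 2 ≤ ((B : ℝ) + 1) ^ 4 := by nlinarith
    gcongr
  have h4 : (R.length : ℝ) * (2 * ((B : ℝ) + 1) ^ 2 * ((R.length : ℝ) * (κ⁻¹) ^ 2
      * ((B : ℝ) + 1) ^ 2 / 2)) = (R.length : ℝ) ^ 2 * ((B : ℝ) + 1) ^ 4 * (κ⁻¹) ^ 2 := by ring
  rw [h4]
  nlinarith

end gen

/-! ### box sums -/

section box

variable {V : Type*} [DecidableEq V]

/-- the UG cell of a US cell -/
def cell (φ : ℕ → V) (W : US.UCell → ℕ → ℝ) (c : US.UCell) : Cell V :=
  ⟨φ c.1, φ c.2.1, c.2.2, W c⟩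

/-- product of the cell weights -/
def Wt (W : US.UCell → ℕ → ℝ) : List US.UCell → List ℕ → ℝ
  | c :: R, y :: Y => W c y * Wt W R Y
  | _, _ => 1

/-- residual demand -/
def res (φ : ℕ → V) : List US.UCell → (V → ℤ) → List ℕ → (V → ℤ)
  | c :: R, β, y :: Y =>
      res φ R (β - (y : ℤ) • ev (φ c.1) - ((c.2.2 : ℤ) - (y : ℤ)) • ev (φ c.2.1)) Y
  | _, β, _ => β

theorem res_add (φ : ℕ → V) (R : List US.UCell) : ∀ (β δ : V → ℤ) (Y : List ℕ),
    res φ R (β + δ) Y = res φ R β Y + δ := by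
  induction R with
  | nil => intro β δ Y; simp [res]
  | cons c R ih =>
    intro β δ Y
    cases Y with
    | nil => simp [res]
    | cons y Y =>
      simp only [res]
      rw [← ih]
      congr 1
      module

/-- weight of a configuration -/
def bw (φ : ℕ → V) (W : US.UCell → ℕ → ℝ) (G : (V → ℤ) → ℝ) (R : List US.UCell)
    (β : V → ℤ) (Y : List ℕ) : ℝ := Wt W R Y * G (res φ R β Y)

theorem cs_eq_sum (φ : ℕ → V) (W : US.UCell → ℕ → ℝ) (R : List US.UCell) :
    ∀ (β : V → ℤ) (H : (V → ℤ) → List ℕ → ℝ),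
      cs (R.map (cell φ W)) β H = ∑ Y ∈ US.box R, Wt W R Y * H (res φ R β Y) Y := by
  induction R with
  | nil => intro β H; simp [US.sum_box_nil, Wt, res]
  | cons c R ih =>
    intro β H
    rw [List.map_cons, cs_cons, US.sum_box_cons]
    apply Finset.sum_congr rfl
    intro y _
    rw [ih, Finset.mul_sum]
    apply Finset.sum_congr rfl
    intro Y _
    simp only [Wt, res, cell, Cell.sh]
    ring

theorem Ex_eq_sum (φ : ℕ → V) (W : US.UCell → ℕ → ℝ) (G : (V → ℤ) → ℝ) (R : List US.UCell)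
    (β : V → ℤ) (h : List ℕ → ℝ) :
    Ex G (R.map (cell φ W)) β h = ∑ Y ∈ US.box R, bw φ W G R β Y * h Y := by
  unfold Ex bw
  rw [cs_eq_sum]
  apply Finset.sum_congr rfl
  intro Y _
  ring

theorem Z_eq_sum (φ : ℕ → V) (W : US.UCell → ℕ → ℝ) (G : (V → ℤ) → ℝ) (R : List US.UCell)
    (β : V → ℤ) :
    Z G (R.map (cell φ W)) β = ∑ Y ∈ US.box R, bw φ W G R β Y := by
  unfold Z bw
  rw [cs_eq_sum]

/-- Dirichlet form on the box for a weight `w` -/
noncomputable def bD (R : List US.UCell) (w f : List ℕ → ℝ) : ℝ :=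
  ∑ Y ∈ US.box R, ∑ i ∈ range R.length,
    if Y.getD i 0 < (R.getD i (0, 0, 0)).2.2 then
      min (w Y) (w (Y.set i (Y.getD i 0 + 1))) * (f (Y.set i (Y.getD i 0 + 1)) - f Y) ^ 2
    else 0

theorem bD_smul (R : List US.UCell) {a : ℝ} (ha : 0 ≤ a) (w f : List ℕ → ℝ) :
    bD R (fun Y => a * w Y) f = a * bD R w f := by
  unfold bD
  rw [Finset.mul_sum]
  apply Finset.sum_congr rfl
  intro Y _
  rw [Finset.mul_sum]
  apply Finset.sum_congr rfl
  intro i _
  split_ifs
  · rw [← mul_min_of_nonneg _ _ ha]; ring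
  · simp

theorem bD_cons (c : US.UCell) (R : List US.UCell) (w f : List ℕ → ℝ) :
    bD (c :: R) w f = (∑ y ∈ range c.2.2, ∑ Y ∈ US.box R,
        min (w (y :: Y)) (w ((y + 1) :: Y)) * (f ((y + 1) :: Y) - f (y :: Y)) ^ 2)
      + ∑ y ∈ range (c.2.2 + 1), bD R (fun Y => w (y :: Y)) (fun Y => f (y :: Y)) := by
  unfold bD
  rw [US.sum_box_cons]
  simp only [List.length_cons, Finset.sum_range_succ' _ R.length, List.getD_cons_zero,
    List.getD_cons_succ, List.set_cons_zero, List.set_cons_succ]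
  simp only [Finset.sum_add_distrib]
  rw [add_comm]
  congr 1
  rw [Finset.sum_range_succ]
  simp only [lt_self_iff_false, if_false, Finset.sum_const_zero, add_zero]
  apply Finset.sum_congr rfl
  intro y hy
  rw [mem_range] at hy
  simp only [hy, if_true]

theorem Wt_nonneg {W : US.UCell → ℕ → ℝ} : ∀ {R : List US.UCell},
    (∀ c ∈ R, ∀ y ≤ c.2.2, 0 < W c y) → ∀ Y ∈ US.box R, 0 < Wt W R Y := by
  intro R
  induction R with
  | nil => intro _ Y _; cases Y <;> simp [Wt]
  | cons c R ih =>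
    intro h Y hY
    obtain ⟨a, Y', h1, h2, rfl⟩ := US.mem_box_cons.1 hY
    exact mul_pos (h c (by simp) a h1) (ih (fun c' hc' => h c' (by simp [hc'])) Y' h2)

theorem Dir_eq_sum (φ : ℕ → V) (W : US.UCell → ℕ → ℝ) (G : (V → ℤ) → ℝ) :
    ∀ (R : List US.UCell), (∀ c ∈ R, ∀ y ≤ c.2.2, 0 < W c y) → ∀ (β : V → ℤ) (h : List ℕ → ℝ),
      Dir G (R.map (cell φ W)) β h = bD R (bw φ W G R β) h := by
  intro R
  induction R with
  | nil => intro _ β h; simp [bD, Dir, US.sum_box_nil]
  | cons c R ih =>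
    intro hW β h
    have hW' : ∀ c ∈ R, ∀ y ≤ c.2.2, 0 < W c y := fun c' hc' => hW c' (by simp [hc'])
    rw [List.map_cons, Dir, bD_cons]
    congr 1
    · apply Finset.sum_congr rfl
      intro y hy
      rw [mem_range] at hy
      rw [cs_eq_sum]
      apply Finset.sum_congr rfl
      intro Y hY
      have hp := Wt_nonneg hW' Y hY
      have e1 : bw φ W G (c :: R) β (y :: Y)
          = Wt W R Y * (W c y * G (res φ R ((cell φ W c).sh y β) Y)) := by
        simp only [bw, Wt, res, cell, Cell.sh]; ring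
      have e2 : bw φ W G (c :: R) β ((y + 1) :: Y)
          = Wt W R Y * (W c (y + 1) * G (res φ R ((cell φ W c).sh y β) Y
            - ev (φ c.1) + ev (φ c.2.1))) := by
        have : res φ R ((cell φ W c).sh y β) Y - ev (φ c.1) + ev (φ c.2.1)
            = res φ R ((cell φ W c).sh (y + 1) β) Y := by
          rw [sh_succ, sub_add, sub_eq_add_neg, ← res_add]
          congr 1
          simp only [cell]
          abel
        rw [this]
        simp only [bw, Wt, res, cell, Cell.sh]; ring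
      rw [e1, e2, ← mul_min_of_nonneg _ _ hp.le]
      simp only [cell]
      ring
    · apply Finset.sum_congr rfl
      intro y hy
      rw [mem_range, Nat.lt_succ_iff] at hy
      rw [ih hW']
      change W c y * bD R _ _ = _
      rw [← bD_smul _ (hW c (by simp) y hy).le]
      congr 1
      funext Y
      simp only [bw, Wt, res, cell, Cell.sh]
      ring

end box

/-! ### the concrete weights -/

section concrete

/-- gauge weight of a cell -/
noncomputable def gw {n : ℕ} (φ : ℕ → Fin (n + 1)) (lam : Fin (n + 1) → ℝ) (c : US.UCell)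
    (y : ℕ) : ℝ := lam (φ c.1) ^ (-(y : ℤ)) * lam (φ c.2.1) ^ ((y : ℤ) - (c.2.2 : ℤ))

/-- `∏ lam ^ t` -/
noncomputable def Lm {n : ℕ} (lam : Fin (n + 1) → ℝ) (t : Fin (n + 1) → ℤ) : ℝ :=
  ∏ v, lam v ^ t v

theorem Lm_pos {n : ℕ} {lam : Fin (n + 1) → ℝ} (hl : ∀ v, 0 < lam v) (t : Fin (n + 1) → ℤ) :
    0 < Lm lam t := Finset.prod_pos fun v _ => zpow_pos (hl v) _

theorem Lm_add {n : ℕ} {lam : Fin (n + 1) → ℝ} (hl : ∀ v, 0 < lam v)
    (t s : Fin (n + 1) → ℤ) : Lm lam (t + s) = Lm lam t * Lm lam s := by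
  unfold Lm
  rw [← Finset.prod_mul_distrib]
  exact Finset.prod_congr rfl fun v _ => zpow_add₀ (hl v).ne' _ _

theorem Lm_smul_ev {n : ℕ} (lam : Fin (n + 1) → ℝ) (a : Fin (n + 1)) (z : ℤ) :
    Lm lam (z • ev a) = lam a ^ z := by
  unfold Lm
  rw [Finset.prod_eq_single a]
  · simp [ev]
  · intro b _ hb; simp [ev, hb]
  · simp

theorem Lm_res {n : ℕ} (φ : ℕ → Fin (n + 1)) {lam : Fin (n + 1) → ℝ} (hl : ∀ v, 0 < lam v) :
    ∀ (R : List US.UCell) (β : Fin (n + 1) → ℤ), ∀ Y ∈ US.box R,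
      Lm lam (res φ R β Y) = Wt (gw φ lam) R Y * Lm lam β := by
  intro R
  induction R with
  | nil =>
    intro β Y hY
    rw [US.mem_box_nil] at hY
    subst hY
    simp [res, Wt]
  | cons c R ih =>
    intro β Y hY
    obtain ⟨a, Y', h1, h2, rfl⟩ := US.mem_box_cons.1 hY
    simp only [res, Wt]
    rw [ih _ _ h2]
    have e : β - (a : ℤ) • ev (φ c.1) - ((c.2.2 : ℤ) - (a : ℤ)) • ev (φ c.2.1)
        = β + (-(a : ℤ)) • ev (φ c.1) + ((a : ℤ) - (c.2.2 : ℤ)) • ev (φ c.2.1) := by module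
    rw [e, Lm_add hl, Lm_add hl, Lm_smul_ev, Lm_smul_ev]
    simp only [gw]
    ring

/-- the vertex map `v ↦ min v n` -/
def phi (n : ℕ) (v : ℕ) : Fin (n + 1) := ⟨min v n, by omega⟩

/-- the demand vector of an instance -/
def dem (n : ℕ) (d : List ℤ) : Fin (n + 1) → ℤ := fun v => if (v : ℕ) < n then d.getD v 0 else 0

/-- total shift of the demands -/
def bas (n : ℕ) : List US.UCell → Fin (n + 1) → ℤ
  | [] => 0
  | c :: R => (c.2.2 : ℤ) • ev (phi n c.2.1) + bas n R

theorem phi_eq {n v : ℕ} {a : Fin (n + 1)} (ha : (a : ℕ) < n) : phi n v = a ↔ v = a := by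
  unfold phi
  rw [Fin.ext_iff]
  simp only
  omega

theorem res_bas (n : ℕ) : ∀ (R : List US.UCell) (β : Fin (n + 1) → ℤ), ∀ Y ∈ US.box R,
    ∀ v : Fin (n + 1), (v : ℕ) < n →
      res (phi n) R (β + bas n R) Y v = β v - US.load R Y v := by
  intro R
  induction R with
  | nil =>
    intro β Y hY v _
    rw [US.mem_box_nil] at hY
    subst hY
    simp [res, bas, US.load]
  | cons c R ih =>
    intro β Y hY v hv
    obtain ⟨a, Y', h1, h2, rfl⟩ := US.mem_box_cons.1 hY
    simp only [res, bas]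
    have e : β + ((c.2.2 : ℤ) • ev (phi n c.2.1) + bas n R) - (a : ℤ) • ev (phi n c.1)
        - ((c.2.2 : ℤ) - (a : ℤ)) • ev (phi n c.2.1)
        = (β - (a : ℤ) • ev (phi n c.1) + (a : ℤ) • ev (phi n c.2.1)) + bas n R := by module
    rw [e, ih _ _ h2 v hv]
    have h3 : US.load (c :: R) (a :: Y') (v : ℕ) = US.contrib c a v + US.load R Y' v := by
      simp [US.load]
    rw [h3]
    have h4 : ∀ x : ℕ, (ev (phi n x) : Fin (n + 1) → ℤ) v = if x = (v : ℕ) then 1 else 0 := by
      intro x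
      unfold ev
      rw [Pi.single_apply]
      by_cases hx : x = (v : ℕ)
      · rw [if_pos hx, if_pos ((phi_eq hv).2 hx).symm]
      · rw [if_neg hx, if_neg]
        intro h
        exact hx ((phi_eq hv).1 h.symm)
    simp only [Pi.add_apply, Pi.sub_apply, Pi.smul_apply, h4, US.contrib, smul_eq_mul, mul_ite,
      mul_one, mul_zero]
    ring

/-- the factor of the vertex `v` -/
noncomputable def gv (θ : ℝ) (n : ℕ) (v : Fin (n + 1)) (t : ℤ) : ℝ :=
  if (v : ℕ) < n then θ ^ t.natAbs else 1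

theorem gv_lc {θ : ℝ} (h0 : 0 < θ) (h1 : θ ≤ 1) (n : ℕ) (v : Fin (n + 1)) :
    UGL.LC (gv θ n v) := by
  by_cases h : (v : ℕ) < n
  · have : gv θ n v = fun t : ℤ => θ ^ t.natAbs := by funext t; simp [gv, h]
    rw [this]; exact UGL.lc_theta h0 h1
  · have : gv θ n v = fun _ : ℤ => (1 : ℝ) := by funext t; simp [gv, h]
    rw [this]; exact ⟨fun _ => one_pos, fun _ => by norm_num⟩

/-- the vertex weight -/
noncomputable def Gt (θ : ℝ) (n : ℕ) (t : Fin (n + 1) → ℤ) : ℝ := ∏ v, gv θ n v (t v)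

theorem Gt_gok {θ : ℝ} (h0 : 0 < θ) (h1 : θ ≤ 1) (n : ℕ) : GOK (Gt θ n) :=
  UGL.gok_prod (gv θ n) (gv_lc h0 h1 n)

theorem Gt_ratio1 {θ : ℝ} (h0 : 0 < θ) (h1 : θ ≤ 1) (n : ℕ) (t : Fin (n + 1) → ℤ)
    (a : Fin (n + 1)) (z : ℤ) (hz : z.natAbs ≤ 1) :
    θ * Gt θ n t ≤ Gt θ n (t + z • ev a) := by
  unfold Gt
  rw [← Finset.mul_prod_erase _ _ (mem_univ a), ← Finset.mul_prod_erase _ _ (mem_univ a)]
  have hpos : ∀ v t, 0 < gv θ n v t := fun v t => (gv_lc h0 h1 n v).pos t
  have e : ∏ x ∈ univ.erase a, gv θ n x ((t + z • ev a) x) = ∏ x ∈ univ.erase a, gv θ n x (t x) := by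
    apply Finset.prod_congr rfl
    intro x hx
    have hx : x ≠ a := (Finset.mem_erase.1 hx).1
    simp [ev, hx]
  rw [e, ← mul_assoc]
  apply mul_le_mul_of_nonneg_right _ (Finset.prod_pos fun v _ => hpos v _).le
  have e2 : (t + z • ev a) a = t a + z := by simp [ev]
  rw [e2]
  unfold gv
  split_ifs
  · rw [← pow_succ']
    apply pow_le_pow_of_le_one h0.le h1
    omega
  · linarith

theorem Gt_ratio {θ : ℝ} (h0 : 0 < θ) (h1 : θ ≤ 1) (n : ℕ) (t : Fin (n + 1) → ℤ)
    (a c : Fin (n + 1)) : θ ^ 2 * Gt θ n t ≤ Gt θ n (t - ev a + ev c) := by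
  have e1 := Gt_ratio1 h0 h1 n t a (-1) (by norm_num)
  have e2 := Gt_ratio1 h0 h1 n (t + (-1 : ℤ) • ev a) c 1 (by norm_num)
  have e3 : t + (-1 : ℤ) • ev a + (1 : ℤ) • ev c = t - ev a + ev c := by module
  rw [e3] at e2
  calc θ ^ 2 * Gt θ n t = θ * (θ * Gt θ n t) := by ring
    _ ≤ θ * Gt θ n (t + (-1 : ℤ) • ev a) := mul_le_mul_of_nonneg_left e1 h0.le
    _ ≤ _ := e2

/-- the soft weight with a field: `θ ^ ‖τ‖₁ * q ^ (k · τ)` -/
noncomputable def sw (θ q : ℝ) (k : List ℤ) (I : US.Inst) (Y : List ℕ) : ℝ :=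
  θ ^ US.norm1 (US.tau I Y) * q ^ US.dot k (US.tau I Y)

theorem sum_map_range {M : Type*} [AddCommMonoid M] (g : ℕ → M) (n : ℕ) :
    ((List.range n).map g).sum = ∑ i ∈ range n, g i := by
  induction n with
  | zero => simp
  | succ n ih => rw [List.range_succ, List.map_append, List.sum_append, ih,
      Finset.sum_range_succ]; simp

theorem dot_map_range (k : List ℤ) : ∀ (n : ℕ) (g : ℕ → ℤ),
    US.dot k ((List.range n).map g) = ∑ i ∈ range n, k.getD i 0 * g i := by
  induction k with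
  | nil => intro n g; simp [US.dot]
  | cons a k ih =>
    intro n g
    cases n with
    | zero => simp [US.dot]
    | succ n =>
      rw [List.range_succ_eq_map, List.map_cons, List.map_map, Finset.sum_range_succ']
      have h := ih n (g ∘ Nat.succ)
      unfold US.dot at h ⊢
      rw [List.zipWith_cons_cons, List.sum_cons, h]
      simp only [Function.comp, List.getD_cons_zero, List.getD_cons_succ, Nat.succ_eq_add_one]
      ring

/-- the field as a function on the vertices -/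
noncomputable def lamf (q : ℝ) (k : List ℤ) (n : ℕ) : Fin (n + 1) → ℝ :=
  fun v => if (v : ℕ) < n then q ^ k.getD v 0 else 1

theorem lamf_pos {q : ℝ} (hq : 0 < q) (k : List ℤ) (n : ℕ) (v : Fin (n + 1)) :
    0 < lamf q k n v := by
  unfold lamf; split_ifs
  · exact zpow_pos hq _
  · exact one_pos

theorem sw_eq {θ q : ℝ} (hq : 0 < q) (k : List ℤ) (I : US.Inst)
    (Y : List ℕ) (hY : Y ∈ US.box I.1) :
    sw θ q k I Y = Lm (lamf q k I.2.length) (dem I.2.length I.2 + bas I.2.length I.1)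
      * bw (phi I.2.length) (gw (phi I.2.length) (lamf q k I.2.length)) (Gt θ I.2.length) I.1
        (dem I.2.length I.2 + bas I.2.length I.1) Y := by
  obtain ⟨R, d⟩ := I
  simp only at hY ⊢
  set n := d.length with hn
  set β := dem n d + bas n R with hβ
  have hL := Lm_res (phi n) (lamf_pos hq k n) R β Y hY
  have hres : ∀ v : Fin (n + 1), (v : ℕ) < n →
      res (phi n) R β Y v = d.getD v 0 - US.load R Y v := by
    intro v hv
    rw [hβ, res_bas n R (dem n d) Y hY v hv]
    simp [dem, hv]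
  unfold bw
  have e1 : Lm (lamf q k n) β * (Wt (gw (phi n) (lamf q k n)) R Y * Gt θ n (res (phi n) R β Y))
      = Gt θ n (res (phi n) R β Y) * Lm (lamf q k n) (res (phi n) R β Y) := by
    rw [hL]; ring
  rw [e1]
  unfold sw
  have htau : US.tau (R, d) Y = (List.range n).map (fun v => d.getD v 0 - US.load R Y v) := rfl
  congr 1
  · -- theta part
    unfold Gt
    rw [Fin.prod_univ_castSucc]
    have hlast : gv θ n (Fin.last n) (res (phi n) R β Y (Fin.last n)) = 1 := by simp [gv]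
    rw [hlast, mul_one]
    have h1 : ∀ i : Fin n, gv θ n i.castSucc (res (phi n) R β Y i.castSucc)
        = θ ^ (d.getD i 0 - US.load R Y i).natAbs := by
      intro i
      have hi : ((i.castSucc : Fin (n + 1)) : ℕ) < n := by simp
      rw [hres _ hi]
      unfold gv
      rw [if_pos hi]
      simp
    rw [Finset.prod_congr rfl (fun i _ => h1 i), Finset.prod_pow_eq_pow_sum]
    congr 1
    rw [US.norm1, htau, List.map_map, sum_map_range,
      Fin.sum_univ_eq_sum_range (fun i => (d.getD i 0 - US.load R Y i).natAbs) n]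
    rfl
  · -- field part
    unfold Lm
    rw [Fin.prod_univ_castSucc]
    have hlast : lamf q k n (Fin.last n) ^ (res (phi n) R β Y (Fin.last n)) = 1 := by simp [lamf]
    rw [hlast, mul_one]
    have h1 : ∀ i : Fin n, lamf q k n i.castSucc ^ (res (phi n) R β Y i.castSucc)
        = q ^ (k.getD i 0 * (d.getD i 0 - US.load R Y i)) := by
      intro i
      have hi : ((i.castSucc : Fin (n + 1)) : ℕ) < n := by simp
      rw [hres _ hi]
      unfold lamf
      rw [if_pos hi, zpow_mul]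
      simp
    rw [Finset.prod_congr rfl (fun i _ => h1 i), htau, dot_map_range,
      ← Fin.sum_univ_eq_sum_range (fun i => k.getD i 0 * (d.getD i 0 - US.load R Y i)) n]
    have h2 : ∀ (s : Finset (Fin n)) (g : Fin n → ℤ), q ^ (∑ i ∈ s, g i) = ∏ i ∈ s, q ^ g i := by
      intro s g
      induction s using Finset.induction_on with
      | empty => simp
      | insert a s ha ih => rw [Finset.sum_insert ha, Finset.prod_insert ha, zpow_add₀ hq.ne', ih]
    rw [h2]


theorem bD_congr {R : List US.UCell} {w w' f : List ℕ → ℝ} (h : ∀ Y ∈ US.box R, w Y = w' Y) :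
    bD R w f = bD R w' f := by
  unfold bD
  apply Finset.sum_congr rfl
  intro Y hY
  apply Finset.sum_congr rfl
  intro i hi
  rw [mem_range] at hi
  split_ifs with hc
  · have hY2 : Y.set i (Y.getD i 0 + 1) ∈ US.box R := by
      rw [US.mem_box_iff] at hY ⊢
      refine ⟨by simp [hY.1], fun j hj => ?_⟩
      rw [List.getD_eq_getElem _ _ (by rw [List.length_set, hY.1]; exact hj), List.getElem_set]
      split_ifs with hij
      · subst hij; omega
      · have := hY.2 j hj
        rwa [List.getD_eq_getElem _ _ (by rw [hY.1]; exact hj)] at this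
    rw [h Y hY, h _ hY2]
  · rfl

/-- **Unary gap theorem** on the box, for every field `k`. -/
theorem box_gap {θ q : ℝ} (h0 : 0 < θ) (h1 : θ ≤ 1) (hq : 0 < q) (k : List ℤ) (I : US.Inst)
    {B : ℕ} (hB : ∀ c ∈ I.1, c.2.2 ≤ B) (f : List ℕ → ℝ) :
    (∑ Y ∈ US.box I.1, sw θ q k I Y * f Y ^ 2)
        - (∑ Y ∈ US.box I.1, sw θ q k I Y * f Y) ^ 2 / (∑ Y ∈ US.box I.1, sw θ q k I Y)
      ≤ (((I.1.length : ℝ) ^ 2 + 2) * ((B : ℝ) + 1) ^ 4 * (θ ^ 4)⁻¹) * bD I.1 (sw θ q k I) f := by
  set n := I.2.length with hn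
  set φ := phi n with hφ
  set lam := lamf q k n with hlam
  set W := gw φ lam with hW
  set β := dem n I.2 + bas n I.1 with hβ
  have hl : ∀ v, 0 < lam v := lamf_pos hq k n
  have hcells : ∀ e ∈ I.1.map (cell φ W), e.OK ∧ e.b ≤ B := by
    intro e he
    obtain ⟨c, hc, rfl⟩ := List.mem_map.1 he
    refine ⟨⟨fun y _ => ?_, fun y _ => ?_⟩, hB c hc⟩
    · exact mul_pos (zpow_pos (hl _) _) (zpow_pos (hl _) _)
    · apply le_of_eq
      simp only [cell, hW, gw]
      rw [mul_mul_mul_comm, mul_pow, ← zpow_add₀ (hl _).ne', ← zpow_add₀ (hl _).ne',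
        ← zpow_natCast, ← zpow_natCast, ← zpow_mul, ← zpow_mul]
      congr 1 <;> congr 1 <;> push_cast <;> ring
  have hg := unary_gap (Gt_gok h0 h1 n) (κ := θ ^ 2) (by positivity)
    (Gt_ratio h0 h1 n) (B := B) (I.1.map (cell φ W)) hcells β f
  have hWpos : ∀ c ∈ I.1, ∀ y ≤ c.2.2, 0 < W c y := fun c _ y _ =>
    mul_pos (zpow_pos (hl _) _) (zpow_pos (hl _) _)
  rw [Ex_eq_sum, Ex_eq_sum, Z_eq_sum, Dir_eq_sum φ W (Gt θ n) I.1 hWpos, List.length_map] at hg
  set C : ℝ := Lm lam β with hC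
  have hCpos : 0 < C := Lm_pos hl β
  have hsw : ∀ Y ∈ US.box I.1, sw θ q k I Y = C * bw φ W (Gt θ n) I.1 β Y :=
    fun Y hY => sw_eq hq k I Y hY
  have hbD : bD I.1 (sw θ q k I) f = C * bD I.1 (bw φ W (Gt θ n) I.1 β) f := by
    rw [← bD_smul _ hCpos.le]; exact bD_congr hsw
  have s1 : ∀ g : List ℕ → ℝ, ∑ Y ∈ US.box I.1, sw θ q k I Y * g Y
      = C * ∑ Y ∈ US.box I.1, bw φ W (Gt θ n) I.1 β Y * g Y := by
    intro g
    rw [Finset.mul_sum]
    apply Finset.sum_congr rfl
    intro Y hY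
    rw [hsw Y hY, mul_assoc]
  have s2 : ∑ Y ∈ US.box I.1, sw θ q k I Y
      = C * ∑ Y ∈ US.box I.1, bw φ W (Gt θ n) I.1 β Y := by
    rw [Finset.mul_sum]
    exact Finset.sum_congr rfl hsw
  rw [s1 (fun Y => f Y ^ 2), s1 f, s2, hbD]
  have hdiv : (C * ∑ Y ∈ US.box I.1, bw φ W (Gt θ n) I.1 β Y * f Y) ^ 2
      / (C * ∑ Y ∈ US.box I.1, bw φ W (Gt θ n) I.1 β Y)
      = C * ((∑ Y ∈ US.box I.1, bw φ W (Gt θ n) I.1 β Y * f Y) ^ 2
      / (∑ Y ∈ US.box I.1, bw φ W (Gt θ n) I.1 β Y)) := by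
    field_simp
  rw [hdiv, ← mul_sub, mul_left_comm]
  apply mul_le_mul_of_nonneg_left _ hCpos.le
  refine hg.trans (le_of_eq ?_)
  rw [show ((θ ^ 2)⁻¹) ^ 2 = (θ ^ 4)⁻¹ by rw [inv_pow, ← pow_mul]]

end concrete

end Crest.Agent.R309.UGBox
private theorem rz_dbeea4b693 : type_of% @_root_.Crest.Agent.R309.UGBox.Wt.eq_def := @_root_.Crest.Agent.R309.UGBox.Wt.eq_def -- L82
private theorem rz_57cb73360b : type_of% @_root_.Crest.Agent.R309.UGBox.Wt.eq_1 := @_root_.Crest.Agent.R309.UGBox.Wt.eq_1 -- L82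
private theorem rz_5d0d149563 : type_of% @_root_.Crest.Agent.R309.UGBox.bas.eq_def := @_root_.Crest.Agent.R309.UGBox.bas.eq_def -- L294
private theorem rz_68bca7eabb : type_of% @_root_.Crest.Agent.R309.UGBox.bas.eq_1 := @_root_.Crest.Agent.R309.UGBox.bas.eq_1 -- L294
private theorem rz_7c4298293a : type_of% @_root_.Crest.Agent.R309.UGBox.res.eq_def := @_root_.Crest.Agent.R309.UGBox.res.eq_def -- L87
private theorem rz_ca95c16f4c : type_of% @_root_.Crest.Agent.R309.UGBox.res.eq_1 := @_root_.Crest.Agent.R309.UGBox.res.eq_1 -- L87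
end

-- ▼ part R309/UGWt
section

/-!
R309: the unary gap theorem for helper305's weight `US.wt`.
-/

set_option autoImplicit false

namespace Crest.Agent.R309.UGBox

open Finset

theorem wt_eq_sw (I : US.Inst) (t p : ℕ) (k : List ℤ) :
    US.wt I t p k = sw ((1 / 2 : ℝ) ^ t) (US.Bp p) k I := by
  funext Y
  unfold US.wt sw
  rw [pow_mul]

/-- **Unary gap theorem** for `US.wt`. -/
theorem gap_wt (I : US.Inst) (t p : ℕ) (hp : 0 < US.Bp p) (k : List ℤ)
    {B : ℕ} (hB : ∀ c ∈ I.1, c.2.2 ≤ B) (f : List ℕ → ℝ) :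
    (∑ y ∈ US.box I.1, US.wt I t p k y * f y ^ 2)
        - (∑ y ∈ US.box I.1, US.wt I t p k y * f y) ^ 2 / (∑ y ∈ US.box I.1, US.wt I t p k y)
      ≤ (((I.1.length : ℝ) ^ 2 + 2) * ((B : ℝ) + 1) ^ 4 * 2 ^ (4 * t)) *
        ∑ y ∈ US.box I.1, ∑ i ∈ range I.1.length,
          if y.getD i 0 < (I.1.getD i (0, 0, 0)).2.2 then
            min (US.wt I t p k y) (US.wt I t p k (y.set i (y.getD i 0 + 1)))
              * (f (y.set i (y.getD i 0 + 1)) - f y) ^ 2
          else 0 := by
  have h := box_gap (θ := (1 / 2 : ℝ) ^ t) (by positivity) (pow_le_one₀ (by norm_num) (by norm_num))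
    hp k I hB f
  rw [← wt_eq_sw] at h
  have e : ((((1 / 2 : ℝ) ^ t) ^ 4)⁻¹) = 2 ^ (4 * t) := by
    rw [← pow_mul, one_div, inv_pow, inv_inv, mul_comm]
  rw [e] at h
  exact h

end Crest.Agent.R309.UGBox
end

-- ▼ part R309/USFinal
section

/-!
# R309: the inner step on table instances satisfies the analytic part of `InnerSpec` (helper305)
-/

set_option autoImplicit false

namespace Crest.Agent.R309.USP

open Finset Crest.Agent.R309.US Crest.Agent.R309.Iface Crest.Agent.R309.Tape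

/-- tape length of the inner step -/
def lenK (K : ℕ) : ℕ := innerLen (qK K) (mK K) (NK K) (lTK K)

/-- the inner step on flattened tables -/
def innerK (J : US.Inst) (K : ℕ) (y : List ℕ) (t : List Bool) : List ℕ :=
  inner J (qK K) (tK K) (pK K) (mK K) (NK K) (lTK K) y t

/-- the inner step on tables -/
def EK' (I : Iface.Inst) (K : ℕ) (X : Tab) (t : List Bool) : Tab :=
  unflat I.1.length I.2.1.length (innerK (toUS I) K X.flatten t)

variable {J : US.Inst} {K : ℕ}

theorem boxPoinc (h : USmall J K) (k : List ℤ) :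
    BoxPoinc J.1 (wt J (tK K) (pK K) k)
      (((J.1.length : ℝ) ^ 2 + 2) * ((K : ℝ) + 1) ^ 4 * 2 ^ (4 * tK K)) := by
  intro f
  exact UGBox.gap_wt J (tK K) (pK K) (by
    have := SgdUS943.Bp_gt (one_le_pK K); linarith) k h.bds f

theorem one_le_C (J : US.Inst) (K : ℕ) :
    (1 : ℝ) ≤ ((J.1.length : ℝ) ^ 2 + 2) * ((K : ℝ) + 1) ^ 4 * 2 ^ (4 * tK K) := by
  have h1 : (1 : ℝ) ≤ (J.1.length : ℝ) ^ 2 + 2 := by nlinarith [sq_nonneg (J.1.length : ℝ)]
  have h2 : (1 : ℝ) ≤ ((K : ℝ) + 1) ^ 4 := one_le_pow₀ (by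
    have : (0 : ℝ) ≤ K := Nat.cast_nonneg K
    linarith)
  have h3 : (1 : ℝ) ≤ 2 ^ (4 * tK K) := one_le_pow₀ (by norm_num)
  have h4 : (1 : ℝ) ≤ ((J.1.length : ℝ) ^ 2 + 2) * ((K : ℝ) + 1) ^ 4 := by nlinarith
  nlinarith

theorem hm (K : ℕ) : tK K * 2 + pK K * (2 * AK K) ≤ mK K := by
  unfold mK; exact le_of_eq (by ring)

theorem gb_mono {n : ℕ} {k : List ℤ} (hk : GB n (2 ^ lTK K * sK K ^ 2) k) : GB n (AK K) k :=
  hk.mono (two_pow_lTK_mul K)

/-- symmetry -/
theorem innerK_symm (h : USmall J K) {X Y : List ℕ} (hX : X ∈ sols J) (hY : Y ∈ sols J) :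
    pr (lenK K) (fun l => innerK J K X l = Y) = pr (lenK K) (fun l => innerK J K Y l = X) :=
  inner_symm (USmall.tau_le' h)
    (fun _ hk => PN_symm (one_le_tK K) (one_le_pK K) (hm K) (USmall.four_cells h) (one_le_qK K)
      (gb_mono hk)) hX hY

/-- lower bound -/
theorem innerK_lower (h : USmall J K) {X Y : List ℕ} (hX : X ∈ sols J) (hY : Y ∈ sols J)
    (hXY : X ≠ Y) :
    1 / (8 * ((sols J).card : ℝ)) ≤ pr (lenK K) (fun l => innerK J K X l = Y) := by
  have hsgd := SgdUS943.hsgd943 J h.valid ⟨X, hX⟩ (qK K) (tK K) (pK K) (mK K) (NK K) (lTK K)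
    (sK K ^ 2) (LamK K) ((1 / 2) ^ eK K) (by positivity) (USmall.theta h) (USmall.tau_le' h)
    (one_le_pK K) (USmall.base h) (USmall.card_box h) (USmall.rounds h)
    (fun k hk φ hφ => soft_close (one_le_tK K) (one_le_pK K) (hm K) (USmall.four_cells h)
      (one_le_qK K) (gb_mono hk) (USmall.tau_le' h) h.bds (one_le_C J K) (boxPoinc h k)
      (USmall.steps h) (zero_mem_box _) (fun y => (hφ y).1) (fun y => (hφ y).2))
  have hlow := inner_lower (ε := (1 / 2) ^ eK K) (USmall.tau_le' h)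
    (fun k hk X hX Y hY => by
      have h1 := PN_close (m := mK K) (one_le_tK K) (one_le_pK K) (hm K) (USmall.four_cells h)
        (one_le_qK K) (gb_mono hk) (USmall.tau_le' h) h.bds (one_le_C J K) (boxPoinc h k)
        (USmall.steps h) (mem_sols.1 hX).1 (mem_sols.1 hY).1
      rw [wt_of_sol (mem_sols.1 hY).2] at h1
      have := (abs_le.1 h1).1
      linarith) hsgd hX hY hXY
  refine le_trans ?_ hlow
  have hpos : (0 : ℝ) < (sols J).card := by exact_mod_cast Finset.card_pos.2 ⟨X, hX⟩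
  have hcard : ((sols J).card : ℝ) ≤ 2 ^ LamK K := by
    have : (sols J).card ≤ 2 ^ LamK K := (card_filter_le _ _).trans (USmall.card_box h)
    exact_mod_cast this
  have he : (1 / 2 : ℝ) ^ eK K = (1 / 2) ^ lTK K * (1 / 2) ^ LamK K * (1 / 16) := by
    unfold eK; rw [pow_add, pow_add]; norm_num
  have h2 : (2 : ℝ) ^ lTK K * (1 / 2) ^ lTK K = 1 := by rw [← mul_pow]; norm_num
  have h3 : (2 : ℝ) ^ LamK K * (1 / 2) ^ LamK K = 1 := by rw [← mul_pow]; norm_num
  have h4 : (1 / 2 : ℝ) ^ LamK K ≤ 1 := pow_le_one₀ (by norm_num) (by norm_num)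
  have h5 : (1 / 2 : ℝ) ^ lTK K ≤ 1 := pow_le_one₀ (by norm_num) (by norm_num)
  have h4' : (0 : ℝ) < (1 / 2 : ℝ) ^ LamK K := by positivity
  have h5' : (0 : ℝ) < (1 / 2 : ℝ) ^ lTK K := by positivity
  have h6 : 2 ^ lTK K * (1 / 2 : ℝ) ^ eK K ≤ 1 / 16 := by
    rw [he]
    calc 2 ^ lTK K * ((1 / 2 : ℝ) ^ lTK K * (1 / 2) ^ LamK K * (1 / 16))
        = (2 ^ lTK K * (1 / 2 : ℝ) ^ lTK K) * (1 / 2) ^ LamK K * (1 / 16) := by ring
      _ = (1 / 2) ^ LamK K * (1 / 16) := by rw [h2, one_mul]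
      _ ≤ 1 / 16 := by linarith
  have h7 : (1 / 2 : ℝ) ^ eK K * (sols J).card ≤ 1 / 16 := by
    calc (1 / 2 : ℝ) ^ eK K * (sols J).card ≤ (1 / 2 : ℝ) ^ eK K * 2 ^ LamK K := by gcongr
      _ = (1 / 2) ^ lTK K * (2 ^ LamK K * (1 / 2) ^ LamK K) * (1 / 16) := by rw [he]; ring
      _ = (1 / 2) ^ lTK K * (1 / 16) := by rw [h3, mul_one]
      _ ≤ 1 / 16 := by linarith
  have h8 : (1 : ℝ) / (8 * (sols J).card) = (1 / 8) / (sols J).card := by
    rw [div_div]
  rw [h8, div_sub' hpos.ne', div_le_div_iff_of_pos_right hpos]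
  linarith

/-- the analytic part of `InnerSpec` -/
theorem inner_main (I : Iface.Inst) (K : ℕ) (hI : Small I K) :
    (∀ X, IsTab I X → ∀ t : List Bool, IsTab I (EK' I K X t)) ∧
    (∀ X Y, IsTab I X → IsTab I Y →
      pr (lenK K) (fun t => EK' I K X t = Y) = pr (lenK K) (fun t => EK' I K Y t = X)) ∧
    (∀ X Y, IsTab I X → IsTab I Y → X ≠ Y →
      1 / (8 * ((tabs I).card : ℝ)) ≤ pr (lenK K) (fun t => EK' I K X t = Y)) := by
  have hmem : ∀ X, IsTab I X → ∀ t : List Bool, innerK (toUS I) K X.flatten t ∈ sols (toUS I) :=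
    fun X hX t => inner_mem_sols (flatten_mem_sols hX)
  have hiff : ∀ X Y, IsTab I X → IsTab I Y → ∀ t : List Bool,
      (EK' I K X t = Y ↔ innerK (toUS I) K X.flatten t = Y.flatten) := by
    intro X Y hX hY t
    have h1 := isTab_unflat hX (hmem X hX t)
    constructor
    · intro h
      rw [← h1.2, ← h]; rfl
    · intro h
      unfold EK'
      rw [h, unflat_flatten_of_isTab hY]
  refine ⟨fun X hX t => (isTab_unflat hX (hmem X hX t)).1, fun X Y hX hY => ?_,
    fun X Y hX hY hXY => ?_⟩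
  · rw [pr_congr fun t _ => hiff X Y hX hY t, pr_congr fun t _ => hiff Y X hY hX t]
    exact innerK_symm (uSmall_toUS hI hX) (flatten_mem_sols hX) (flatten_mem_sols hY)
  · rw [pr_congr fun t _ => hiff X Y hX hY t, ← card_sols_toUS hX]
    refine innerK_lower (uSmall_toUS hI hX) (flatten_mem_sols hX) (flatten_mem_sols hY) ?_
    intro h
    apply hXY
    rw [← unflat_flatten_of_isTab hX, h, unflat_flatten_of_isTab hY]

end Crest.Agent.R309.USP
end

-- ▼ part R309/USParamPT
section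

/-!
# R309: the parameters of the inner step are unary poly-time (helper305)
-/

set_option autoImplicit false

namespace Crest.Agent.R309.USP

open Crest.Agent.Lib.PT

variable {γ : Type} [PTCode γ]

theorem ptu_sK {κ : γ → ℕ} (h : PTU κ) : PTU (fun c => sK (κ c)) := PTU.succ h

theorem ptu_qK {κ : γ → ℕ} (h : PTU κ) : PTU (fun c => qK (κ c)) := by
  unfold qK
  exact PTF.natSizeUn (PTU.toPTF (PTU.mul (PTU.const 4) (PTU.pow (ptu_sK h) 2)))

theorem ptu_tK {κ : γ → ℕ} (h : PTU κ) : PTU (fun c => tK (κ c)) := by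
  unfold tK
  exact PTF.natSizeUn (PTU.toPTF (PTU.mul (PTU.const 8) (PTU.pow (ptu_sK h) 2)))

theorem ptu_pK {κ : γ → ℕ} (h : PTU κ) : PTU (fun c => pK (κ c)) := by
  unfold pK
  exact PTF.natSizeUn (PTU.toPTF (PTU.mul (PTU.const 8) (PTU.pow (ptu_sK h) 5)))

theorem ptu_lTK {κ : γ → ℕ} (h : PTU κ) : PTU (fun c => lTK (κ c)) := by
  unfold lTK
  exact PTF.natSizeUn (PTU.toPTF (PTU.mul (PTU.const 64) (PTU.pow (ptu_sK h) 12)))

theorem ptu_two_pow_lTK {κ : γ → ℕ} (h : PTU κ) : PTU (fun c => 2 ^ lTK (κ c)) := by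
  refine PTF.toPTU (PTF.natTwoPow (ptu_lTK h)) ?_
  exact PB.mono (PTU.pb (PTU.mul (PTU.const 128) (PTU.pow (ptu_sK h) 12))) fun c => two_pow_lTK _

theorem ptu_LamK {κ : γ → ℕ} (h : PTU κ) : PTU (fun c => LamK (κ c)) := by
  unfold LamK
  exact PTU.pow (ptu_sK h) 3

theorem ptu_AK {κ : γ → ℕ} (h : PTU κ) : PTU (fun c => AK (κ c)) := by
  unfold AK
  exact PTU.mul (PTU.const 128) (PTU.pow (ptu_sK h) 14)

theorem ptu_mK {κ : γ → ℕ} (h : PTU κ) : PTU (fun c => mK (κ c)) := by
  unfold mK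
  exact PTU.add (PTU.mul (PTU.const 2) (ptu_tK h))
    (PTU.mul (PTU.mul (PTU.const 2) (ptu_AK h)) (ptu_pK h))

theorem ptu_EK {κ : γ → ℕ} (h : PTU κ) : PTU (fun c => EK (κ c)) := by
  unfold EK
  exact PTU.add (PTU.add (ptu_LamK h) (PTU.mul (PTU.const 2) (PTU.mul (PTU.mul (PTU.const 2)
    (ptu_sK h)) (PTU.mul (ptu_AK h) (PTU.pow (ptu_sK h) 2)))))
    (PTU.mul (ptu_tK h) (PTU.mul (PTU.mul (PTU.const 2) (ptu_sK h)) (PTU.pow (ptu_sK h) 2)))

theorem ptu_eK {κ : γ → ℕ} (h : PTU κ) : PTU (fun c => eK (κ c)) := by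
  unfold eK
  exact PTU.add (PTU.add (ptu_lTK h) (ptu_LamK h)) (PTU.const 4)

theorem ptu_NK {κ : γ → ℕ} (h : PTU κ) : PTU (fun c => NK (κ c)) := by
  unfold NK
  have h16 := PTU.mul (PTU.const 16) (PTU.pow (ptu_sK h) 2)
  exact PTU.mul (PTU.mul (PTU.mul (PTU.mul (PTU.mul (PTU.add (PTU.pow (ptu_sK h) 4) (PTU.const 2))
    (PTU.pow (ptu_sK h) 4)) (PTU.pow h16 4)) h16) (PTU.pow h16 2)) (PTU.add (ptu_EK h) (ptu_eK h))

theorem ptu_lenK {κ : γ → ℕ} (h : PTU κ) : PTU (fun c => lenK (κ c)) := by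
  unfold lenK US.innerLen
  have hs := PTU.mul (ptu_NK h) (PTU.add (ptu_qK h) (ptu_mK h))
  exact PTU.add (ptu_lTK h) (PTU.add (PTU.mul (ptu_two_pow_lTK h) hs) hs)

end Crest.Agent.R309.USP
end

-- ▼ part R309/USPTConv
section

/-!
# R309: poly-time conversion between table instances and unary instances (helper305)
-/

set_option autoImplicit false

namespace Crest.Agent.R309.USP

open Crest.Agent.Lib.PT Crest.Agent.R309.PTX Crest.Agent.R309.US

variable {γ : Type} [PTCode γ]

theorem ptf_ent {b : γ → List (List ℕ)} {i j : γ → ℕ} (hb : PTF b) (hi : PTF i) (hj : PTF j) :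
    PTF (fun c => ent (b c) (i c) (j c)) := by
  unfold ent
  exact ptf_getD' hj (ptf_getD' hi hb (PTF.const [])) (PTF.const 0)

theorem ptf_toUS {I : γ → Iface.Inst} (hI : PTF I) : PTF (fun c => toUS (I c)) := by
  unfold toUS tcells
  have h1 : PTF (fun c => (I c).1) := PTF.comp PTF.fst hI
  have h2 : PTF (fun c => (I c).2.1) := PTF.comp PTF.fst (PTF.comp PTF.snd hI)
  have h3 : PTF (fun c => (I c).2.2) := PTF.comp PTF.snd (PTF.comp PTF.snd hI)
  have h2' : PTF (fun p : γ × ℕ => (I p.1).2.1) := PTF.comp (g := fun c => (I c).2.1) h2 PTF.fst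
  have h1' : PTF (fun q : (γ × ℕ) × ℕ => (I q.1.1).1) :=
    PTF.comp (g := fun c => (I c).1) h1 (PTF.comp PTF.fst PTF.fst)
  have h3' : PTF (fun q : (γ × ℕ) × ℕ => (I q.1.1).2.2) :=
    PTF.comp (g := fun c => (I c).2.2) h3 (PTF.comp PTF.fst PTF.fst)
  refine PTF.prodMk ?_ (PTF.append (PTF.map h1 ?_) (PTF.map h2 ?_))
  · refine PTF.flatMap (PTF.range (PTU.length h1)) ?_
    refine PTF.map (l := fun p : γ × ℕ => List.range (I p.1).2.1.length)
      (f := fun p j => (p.2, (I p.1).1.length + j, ent (I p.1).2.2 p.2 j))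
      (PTF.range (PTU.length h2')) ?_
    refine PTF.prodMk (PTF.comp PTF.snd PTF.fst) (PTF.prodMk (PTF.natAdd (PTU.toPTF (PTU.length h1')) PTF.snd) ?_)
    exact ptf_ent h3' (PTF.comp PTF.snd PTF.fst) PTF.snd
  · exact PTF.intNatCast PTF.snd
  · exact PTF.intNeg (PTF.intNatCast PTF.snd)

theorem ptf_unflat {m n : γ → ℕ} {y : γ → List ℕ} (hm : PTU m) (hn : PTU n) (hy : PTF y) :
    PTF (fun c => unflat (m c) (n c) (y c)) := by
  unfold unflat
  refine PTF.map (PTF.range hm) ?_
  refine PTF.map (l := fun p : γ × ℕ => List.range (n p.1))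
    (f := fun p j => (y p.1).getD (p.2 * n p.1 + j) 0) (PTF.range (PTU.comp hn PTF.fst)) ?_
  refine ptf_getD' ?_ (PTF.comp hy (PTF.comp PTF.fst PTF.fst)) (PTF.const 0)
  exact PTF.natAdd (PTF.natMul (PTF.comp PTF.snd PTF.fst)
    (PTU.toPTF (PTU.comp hn (PTF.comp PTF.fst PTF.fst)))) PTF.snd

end Crest.Agent.R309.USP
end

-- ▼ part R309/USInnerSpec
section

/-!
# R309: `InnerSpec` (helper305)
-/

set_option autoImplicit false

namespace Crest.Agent.R309.USP

open Crest.Agent.Lib.PT Crest.Agent.R309.PTX Crest.Agent.R309.US Crest.Agent.R309.Iface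

theorem innerSpec_of (h : ∀ {γ : Type} [PTCode γ] {I : γ → US.Inst} {q t p m N lT : γ → ℕ}
    {X : γ → List ℕ} {tape : γ → List Bool}, PTF I → PTU q → PTU t → PTU p → PTU m → PTU N →
    PTU lT → PTU (fun c => 2 ^ lT c) → PTF X → PTF tape →
    PTF (fun c => inner (I c) (q c) (t c) (p c) (m c) (N c) (lT c) (X c) (tape c))) : InnerSpec := by
  refine ⟨fun x l => EK' x.1.1 x.1.2.val x.2 l, lenK, ?_, ?_, fun I K hI => ?_⟩
  · unfold EK' innerK
    have hI : PTF (fun x : ((Iface.Inst × Un) × Tab) × List Bool => x.1.1.1) := by fun_prop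
    have hK : PTU (fun x : ((Iface.Inst × Un) × Tab) × List Bool => x.1.1.2.val) :=
      PTU.val (by fun_prop)
    have hX : PTF (fun x : ((Iface.Inst × Un) × Tab) × List Bool => x.1.2) := by fun_prop
    have ht : PTF (fun x : ((Iface.Inst × Un) × Tab) × List Bool => x.2) := by fun_prop
    refine ptf_unflat (PTU.length (l := fun x : ((Iface.Inst × Un) × Tab) × List Bool => x.1.1.1.1)
      (by fun_prop)) (PTU.length (l := fun x : ((Iface.Inst × Un) × Tab) × List Bool =>
      x.1.1.1.2.1) (by fun_prop)) ?_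
    exact h (ptf_toUS hI) (ptu_qK hK) (ptu_tK hK) (ptu_pK hK) (ptu_mK hK) (ptu_NK hK)
      (ptu_lTK hK) (ptu_two_pow_lTK hK) (PTF.flatten hX) ht
  · exact ptu_lenK (PTU.val PTF.id)
  · obtain ⟨h1, h2, h3⟩ := inner_main I K hI
    exact ⟨fun X hX t _ => h1 X hX t, h2, h3⟩

end Crest.Agent.R309.USP
end

-- ▼ part R309/USPTF943
section

/-!
# R309: the unary sampler is polynomial time (helper943)

PTF side of `USDefs`: every function of the unary sampler is polynomial time on ALL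
inputs, as soon as the instance, gauge, configuration and tape are, and the parameters are poly-time unary.
-/

set_option autoImplicit false
set_option linter.dupNamespace false

namespace Crest.Agent.R309.US

open Crest.Agent.Lib.PT Crest.Agent.R309.PTX Crest.Agent.R309.Tape

variable {γ : Type} [PTCode γ]

/-! ### loads, defects, norms -/

theorem ptf_contrib {c : γ → UCell} {y v : γ → ℕ} (hc : PTF c) (hy : PTF y) (hv : PTF v) :
    PTF (fun g => contrib (c g) (y g) (v g)) := by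
  unfold contrib
  pt_solve

theorem ptf_load {R : γ → List UCell} {y : γ → List ℕ} {v : γ → ℕ} (hR : PTF R) (hy : PTF y)
    (hv : PTF v) : PTF (fun g => load (R g) (y g) (v g)) := by
  unfold load
  refine PTF.intListSum (PTF.zipWith hR hy ?_)
  exact ptf_contrib (by fun_prop) (by fun_prop) (by fun_prop)

theorem ptf_tau {I : γ → Inst} {y : γ → List ℕ} (hI : PTF I) (hy : PTF y) :
    PTF (fun g => tau (I g) (y g)) := by
  unfold tau
  refine PTF.map (PTF.range (PTU.length (PTF.comp PTF.snd hI))) ?_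
  refine PTF.intSub ?_ ?_
  · exact ptf_getD' (by fun_prop) (PTF.comp PTF.snd (PTF.comp hI PTF.fst)) (PTF.const 0)
  · exact ptf_load (PTF.comp PTF.fst (PTF.comp hI PTF.fst)) (by fun_prop) (by fun_prop)

theorem ptf_norm1 {t : γ → List ℤ} (ht : PTF t) : PTF (fun g => norm1 (t g)) := by
  unfold norm1
  exact PTF.natSum (PTF.map ht (PTF.intNatAbs (by fun_prop)))

theorem ptf_dot {k t : γ → List ℤ} (hk : PTF k) (ht : PTF t) : PTF (fun g => dot (k g) (t g)) := by
  unfold dot
  exact PTF.intListSum (PTF.zipWith hk ht (PTF.intMul (by fun_prop) (by fun_prop)))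

/-! ### moves and thresholds -/

theorem ptf_mv {R : γ → List UCell} {y : γ → List ℕ} {i : γ → ℕ} (hR : PTF R) (hy : PTF y)
    (hi : PTF i) : PTF (fun g => mv (R g) (y g) (i g)) := by
  unfold mv
  have h2 : PTF (fun g => i g / 2) := PTF.natDiv hi (PTF.const 2)
  have hyi : PTF (fun g => (y g).getD (i g / 2) 0) := ptf_getD' h2 hy (PTF.const 0)
  refine PTF.ite (PTPred.natLt h2 (PTU.length hR).toPTF) ?_ (PTF.const none)
  refine PTF.ite (PTPred.natEq (PTF.natMod hi (PTF.const 2)) (PTF.const 1)) ?_ ?_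
  · refine PTF.ite (PTPred.natLt hyi ?_) ?_ (PTF.const none)
    · exact PTF.comp (g := fun c : UCell => c.2.2) (by fun_prop) (ptf_getD' h2 hR (PTF.const _))
    · exact PTF.optSome (ptf_set' hy h2 (PTF.natAdd hyi (PTF.const 1)))
  · refine PTF.ite (PTPred.natLt (PTF.const 0) hyi) ?_ (PTF.const none)
    exact PTF.optSome (ptf_set' hy h2 (PTF.natSub hyi (PTF.const 1)))

theorem ptf_incr {I : γ → Inst} {y z : γ → List ℕ} (hI : PTF I) (hy : PTF y) (hz : PTF z) :
    PTF (fun g => incr (I g) (y g) (z g)) := by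
  unfold incr
  exact PTF.natSub (ptf_norm1 (ptf_tau hI hz)) (ptf_norm1 (ptf_tau hI hy))

theorem ptf_decrK {I : γ → Inst} {k : γ → List ℤ} {y z : γ → List ℕ} (hI : PTF I) (hk : PTF k)
    (hy : PTF y) (hz : PTF z) : PTF (fun g => decrK (I g) (k g) (y g) (z g)) := by
  unfold decrK
  exact PTF.intToNat (PTF.intSub (ptf_dot hk (ptf_tau hI hy)) (ptf_dot hk (ptf_tau hI hz)))

theorem ptf_num {I : γ → Inst} {t p m : γ → ℕ} {k : γ → List ℤ} {y z : γ → List ℕ} (hI : PTF I)
    (ht : PTU t) (hp : PTU p) (hm : PTU m) (hk : PTF k) (hy : PTF y) (hz : PTF z) :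
    PTF (fun g => num (I g) (t g) (p g) (m g) (k g) (y g) (z g)) := by
  unfold num
  have hi := PTF.natMinUn (ptf_incr hI hy hz) hm
  have hd := PTF.natMinUn (ptf_decrK hI hk hy hz) hm
  refine PTF.natMin (PTF.natTwoPow hm) (PTF.natMul (PTF.natTwoPow ?_) ?_)
  · exact PTU.sub hm (PTU.add (PTU.mul ht hi) (PTU.mul hp hd))
  · exact PTF.natPow (PTF.natSub (PTF.natTwoPow hp) (PTF.const 1)) hd

/-! ### the soft step -/

theorem ptf_msb' {l : γ → List Bool} (hl : PTF l) : PTF (fun g => Arith.msb (l g)) :=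
  PTF.comp Arith.ptf_msb hl

theorem ptf_step {I : γ → Inst} {q t p m : γ → ℕ} {k : γ → List ℤ} {y : γ → List ℕ}
    {bits : γ → List Bool} (hI : PTF I) (hq : PTU q) (ht : PTU t) (hp : PTU p) (hm : PTU m)
    (hk : PTF k) (hy : PTF y) (hb : PTF bits) :
    PTF (fun g => step (I g) (q g) (t g) (p g) (m g) (k g) (y g) (bits g)) := by
  unfold step MC.mstep
  refine PTF.optionCasesOn
    (s := fun g => mv (I g).1 (y g) (Arith.msb ((bits g).take (q g))))
    (f := y)
    (g := fun g s' => if Arith.msb ((bits g).drop (q g)) <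
      num (I g) (t g) (p g) (m g) (k g) (y g) s' then s' else y g) ?_ hy ?_
  · exact ptf_mv (PTF.comp PTF.fst hI) hy (ptf_msb' (PTF.take hq hb))
  · have hf : PTF (fun p : γ × List ℕ => p.1) := PTF.fst
    refine PTF.ite (PTPred.natLt (ptf_msb' (PTF.drop (hq.comp hf) (hb.comp hf))) ?_) PTF.snd
      (hy.comp hf)
    exact ptf_num (hI.comp hf) (ht.comp hf) (hp.comp hf) (hm.comp hf) (hk.comp hf) (hy.comp hf)
      PTF.snd

/-! ### size bounds for the soft chain -/

/-- bound for all values that can occur in the soft chain started at `y` -/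
def vmax (I : Inst) (y : List ℕ) : ℕ := y.sum + (I.1.map (fun c => c.2.2)).sum

theorem bd_le_sum (R : List UCell) (i : ℕ) :
    (R.getD i (0, 0, 0)).2.2 ≤ (R.map (fun c => c.2.2)).sum := by
  rw [List.getD_eq_getElem?_getD]
  rcases h : R[i]? with _ | c
  · simp
  · have hc : c ∈ R := List.mem_of_getElem? h
    exact List.single_le_sum (by simp) _ (List.mem_map_of_mem hc)

theorem getD_le_of_forall {y : List ℕ} {S : ℕ} (h : ∀ a ∈ y, a ≤ S) (i : ℕ) : y.getD i 0 ≤ S := by
  rw [List.getD_eq_getElem?_getD]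
  rcases h' : y[i]? with _ | c
  · simp
  · exact h c (List.mem_of_getElem? h')

theorem mv_bound {R : List UCell} {y z : List ℕ} {i S : ℕ} (hS : (R.map (fun c => c.2.2)).sum ≤ S)
    (h : ∀ a ∈ y, a ≤ S) (hz : mv R y i = some z) : z.length = y.length ∧ ∀ a ∈ z, a ≤ S := by
  have h0 := getD_le_of_forall h (i / 2)
  have hb := (bd_le_sum R (i / 2)).trans hS
  unfold mv at hz
  split_ifs at hz with h1 h2 h3 h4
  · have := Option.some.inj hz
    subst this
    refine ⟨by simp, fun a ha => ?_⟩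
    rcases List.mem_or_eq_of_mem_set ha with ha | rfl
    · exact h a ha
    · omega
  · have := Option.some.inj hz
    subst this
    refine ⟨by simp, fun a ha => ?_⟩
    rcases List.mem_or_eq_of_mem_set ha with ha | rfl
    · exact h a ha
    · omega

theorem step_bound {I : Inst} {q t p m : ℕ} {k : List ℤ} {y : List ℕ} {bits : List Bool} {S : ℕ}
    (hS : (I.1.map (fun c => c.2.2)).sum ≤ S) (h : ∀ a ∈ y, a ≤ S) :
    (step I q t p m k y bits).length = y.length ∧ ∀ a ∈ step I q t p m k y bits, a ≤ S := by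
  unfold step MC.mstep
  rcases hz : mv I.1 y (Arith.msb (bits.take q)) with _ | z
  · exact ⟨rfl, h⟩
  · simp only
    split_ifs
    · exact mv_bound hS h hz
    · exact ⟨rfl, h⟩

theorem soft_bound {I : Inst} {q t p m N : ℕ} {k : List ℤ} {y : List ℕ} {tape : List Bool} {S : ℕ}
    (hS : (I.1.map (fun c => c.2.2)).sum ≤ S) (h : ∀ a ∈ y, a ≤ S) :
    (soft I q t p m N k y tape).length = y.length ∧ ∀ a ∈ soft I q t p m N k y tape, a ≤ S := by
  unfold soft
  induction N with
  | zero => simpa [runSteps] using h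
  | succ N ih =>
    rw [runSteps_succ']
    have := step_bound (q := q) (t := t) (p := p) (m := m) (k := k)
      (bits := ((tape.drop (N * (q + m))).take (q + m))) hS ih.2
    exact ⟨this.1.trans ih.1, this.2⟩

theorem le_vmax {I : Inst} {y : List ℕ} : ∀ a ∈ y, a ≤ vmax I y := fun a ha =>
  (List.single_le_sum (by simp) a ha).trans (Nat.le_add_right _ _)

theorem sum_le_vmax (I : Inst) (y : List ℕ) : (I.1.map (fun c => c.2.2)).sum ≤ vmax I y :=
  Nat.le_add_left _ _

/-- size of a list of bounded naturals -/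
theorem sz_listNat_le {y : List ℕ} {S : ℕ} (h : ∀ a ∈ y, a ≤ S) :
    sz y ≤ y.length * (2 * sz S + 1) := by
  refine sz_list_le fun a ha => ?_
  rw [sz_nat, sz_nat]
  exact Nat.size_le_size (h a ha)

theorem ptf_bd : PTF₂ (fun (_ : γ) (c : UCell) => c.2.2) :=
  PTF.comp (g := fun p : ℕ × ℕ => p.2) PTF.snd
    (PTF.comp (g := fun p : ℕ × ℕ × ℕ => p.2) PTF.snd PTF.snd)

theorem ptf_vmax {I : γ → Inst} {y : γ → List ℕ} (hI : PTF I) (hy : PTF y) :
    PTF (fun g => vmax (I g) (y g)) := by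
  unfold vmax
  exact PTF.natAdd (PTF.natSum hy) (PTF.natSum (PTF.map (PTF.comp PTF.fst hI)
    (ptf_bd (γ := γ))))

theorem ptf_soft {I : γ → Inst} {q t p m N : γ → ℕ} {k : γ → List ℤ} {y : γ → List ℕ}
    {tape : γ → List Bool} (hI : PTF I) (hq : PTU q) (ht : PTU t) (hp : PTU p) (hm : PTU m)
    (hN : PTU N) (hk : PTF k) (hy : PTF y) (htape : PTF tape) :
    PTF (fun g => soft (I g) (q g) (t g) (p g) (m g) (N g) (k g) (y g) (tape g)) := by
  unfold soft
  refine ptf_runSteps_inv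
    (f := fun g y bits => step (I g) (q g) (t g) (p g) (m g) (k g) y bits)
    (r := fun g => q g + m g) (k := N) (s := y) (t := tape) ?_ (PTU.add hq hm).toPTF hN hy htape
    (B := fun g => (y g).length * (2 * sz (vmax (I g) (y g)) + 1)) ?_
    (fun g x => x.length = (y g).length ∧ ∀ a ∈ x, a ≤ vmax (I g) (y g)) ?_ ?_ ?_
  · have hf : PTF (fun p : γ × List ℕ × List Bool => p.1) := PTF.fst
    exact ptf_step (hI.comp hf) (hq.comp hf) (ht.comp hf) (hp.comp hf) (hm.comp hf) (hk.comp hf)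
      (by fun_prop) (by fun_prop)
  · have h1 := (PTU.length hy).pb
    have h2 := (ptf_vmax hI hy).sz
    fun_prop
  · intro g
    exact ⟨rfl, le_vmax⟩
  · rintro g x l ⟨h1, h2⟩
    have := step_bound (q := q g) (t := t g) (p := p g) (m := m g) (k := k g) (bits := l)
      (sum_le_vmax (I g) (y g)) h2
    exact ⟨this.1.trans h1, this.2⟩
  · rintro g x ⟨h1, h2⟩
    rw [← h1]
    exact sz_listNat_le h2

/-! ### the gauge -/

theorem natAbs_contrib_le (c : UCell) (a v : ℕ) : (contrib c a v).natAbs ≤ a := by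
  unfold contrib
  split_ifs <;> omega

theorem natAbs_load_le (R : List UCell) (y : List ℕ) (v : ℕ) : (load R y v).natAbs ≤ y.sum := by
  unfold load
  induction R generalizing y with
  | nil => simp
  | cons c R ih =>
    cases y with
    | nil => simp
    | cons a y =>
      have h1 := ih y
      have h2 := natAbs_contrib_le c a v
      simp only [List.zipWith_cons_cons, List.sum_cons]
      omega

theorem natAbs_getD_le (d : List ℤ) (v : ℕ) : (d.getD v 0).natAbs ≤ (d.map Int.natAbs).sum := by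
  rw [List.getD_eq_getElem?_getD]
  rcases h : d[v]? with _ | c
  · simp
  · exact List.single_le_sum (by simp) _ (List.mem_map_of_mem (List.mem_of_getElem? h))

theorem natAbs_tau_le (I : Inst) (y : List ℕ) :
    ∀ a ∈ tau I y, a.natAbs ≤ norm1 I.2 + y.sum := by
  intro a ha
  unfold tau at ha
  rw [List.mem_map] at ha
  obtain ⟨v, _, rfl⟩ := ha
  have h1 := natAbs_getD_le I.2 v
  have h2 := natAbs_load_le I.1 y v
  unfold norm1
  omega

theorem sum_le_of_forall {y : List ℕ} {S : ℕ} (h : ∀ a ∈ y, a ≤ S) : y.sum ≤ y.length * S := by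
  have := List.sum_le_card_nsmul y S h
  simpa using this

/-- bound for the defects of the soft chain started at `0` -/
def dmax (I : Inst) : ℕ := norm1 I.2 + I.1.length * (I.1.map (fun c => c.2.2)).sum

theorem ptf_dmax {I : γ → Inst} (hI : PTF I) : PTF (fun g => dmax (I g)) := by
  unfold dmax
  exact PTF.natAdd (ptf_norm1 (PTF.comp PTF.snd hI)) (PTF.natMul
    (PTU.length (PTF.comp PTF.fst hI)).toPTF
    (PTF.natSum (PTF.map (PTF.comp PTF.fst hI) (ptf_bd (γ := γ)))))

theorem natAbs_tau_soft_le {I : Inst} {q t p m N : ℕ} {k : List ℤ} {tape : List Bool} :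
    ∀ a ∈ tau I (soft I q t p m N k (List.replicate I.1.length 0) tape), a.natAbs ≤ dmax I := by
  intro a ha
  have h := soft_bound (I := I) (q := q) (t := t) (p := p) (m := m) (N := N) (k := k)
    (y := List.replicate I.1.length 0) (tape := tape) (S := (I.1.map (fun c => c.2.2)).sum) le_rfl
    (by intro a ha; rw [List.eq_of_mem_replicate ha]; omega)
  have h1 := natAbs_tau_le _ _ a ha
  have h2 := sum_le_of_forall h.2
  rw [h.1, List.length_replicate] at h2
  unfold dmax
  omega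

/-- size of a difference of integer lists -/
theorem sz_zipWith_sub_le (k t : List ℤ) {D n : ℕ} (ht : ∀ a ∈ t, a.natAbs ≤ D) (hn : t.length ≤ n) :
    sz (List.zipWith (fun a b => a - b) k t) ≤ sz k + n * (2 * (sz D + 1)) := by
  induction k generalizing t n with
  | nil => simp
  | cons a k ih =>
    cases t with
    | nil => simp
    | cons b t =>
      obtain ⟨n, rfl⟩ : ∃ n', n = n' + 1 := ⟨n - 1, by simp at hn; omega⟩
      have h1 := ih t (n := n) (fun a ha => ht a (List.mem_cons_of_mem _ ha)) (by simpa using hn)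
      have h2 := ht b List.mem_cons_self
      simp only [List.zipWith_cons_cons, sz_cons, sz_int]
      have h3 : (a - b).natAbs.size ≤ a.natAbs.size + sz D + 1 := by
        have e1 : (a - b).natAbs ≤ a.natAbs + D := by omega
        have e2 := Nat.size_le_size e1
        have e3 := Arith.size_add_le a.natAbs D
        rw [sz_nat]
        omega
      have e : (n + 1) * (2 * (sz D + 1)) = n * (2 * (sz D + 1)) + 2 * (sz D + 1) := by ring
      omega

theorem ptf_sgdRound {I : γ → Inst} {q t p m N : γ → ℕ} {st : γ → List ℤ × ℕ}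
    {tape : γ → List Bool} (hI : PTF I) (hq : PTU q) (ht : PTU t) (hp : PTU p) (hm : PTU m)
    (hN : PTU N) (hst : PTF st) (htape : PTF tape) :
    PTF (fun g => sgdRound (I g) (q g) (t g) (p g) (m g) (N g) (st g) (tape g)) := by
  unfold sgdRound
  have h1 : PTF (fun g => (st g).1) := PTF.comp PTF.fst hst
  have h2 : PTF (fun g => (st g).2) := PTF.comp PTF.snd hst
  refine PTF.ite (PTPred.natEq h2 (PTF.const 0)) hst (PTF.prodMk ?_ (PTF.natSub h2 (PTF.const 1)))
  refine PTF.zipWith h1 (ptf_tau hI ?_) (PTF.intSub (by fun_prop) (by fun_prop))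
  exact ptf_soft hI hq ht hp hm hN h1
    (PTF.replicate (PTU.length (PTF.comp PTF.fst hI)) (PTF.const 0)) htape

theorem ptf_gauge {I : γ → Inst} {q t p m N T s : γ → ℕ} {tape : γ → List Bool} (hI : PTF I)
    (hq : PTU q) (ht : PTU t) (hp : PTU p) (hm : PTU m) (hN : PTU N) (hT : PTU T) (hs : PTF s)
    (htape : PTF tape) :
    PTF (fun g => gauge (I g) (q g) (t g) (p g) (m g) (N g) (T g) (s g) (tape g)) := by
  unfold gauge
  refine PTF.comp PTF.fst ?_
  refine ptf_runSteps_add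
    (f := fun g st tape => sgdRound (I g) (q g) (t g) (p g) (m g) (N g) st tape)
    (r := fun g => N g * (q g + m g)) (k := T)
    (s := fun g => (List.replicate (I g).2.length 0, s g)) (t := tape) ?_
    (PTU.mul hN (PTU.add hq hm)).toPTF hT ?_ htape
    (G := fun g => 2 * ((I g).2.length * (2 * (sz (dmax (I g)) + 1)))) ?_ ?_
  · have hf : PTF (fun p : γ × (List ℤ × ℕ) × List Bool => p.1) := PTF.fst
    exact ptf_sgdRound (hI.comp hf) (hq.comp hf) (ht.comp hf) (hp.comp hf) (hm.comp hf)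
      (hN.comp hf) (by fun_prop) (by fun_prop)
  · exact PTF.prodMk (PTF.replicate (PTU.length (PTF.comp PTF.snd hI)) (PTF.const 0)) hs
  · have h1 := (PTU.length (PTF.comp PTF.snd hI)).pb
    have h2 := (ptf_dmax hI).sz
    fun_prop
  · rintro g ⟨k, s'⟩ l
    unfold sgdRound
    simp only
    split_ifs with h
    · simp
    · simp only [sz_prod]
      have h1 := sz_zipWith_sub_le k
        (tau (I g) (soft (I g) (q g) (t g) (p g) (m g) (N g) k (List.replicate (I g).1.length 0) l))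
        natAbs_tau_soft_le (length_tau _ _).le
      have h2 : sz (s' - 1) ≤ sz s' := by
        rw [sz_nat, sz_nat]; exact Nat.size_le_size (Nat.sub_le _ _)
      omega

/-! ### the inner step -/

theorem ptf_inner {I : γ → Inst} {q t p m N lT : γ → ℕ} {X : γ → List ℕ} {tape : γ → List Bool}
    (hI : PTF I) (hq : PTU q) (ht : PTU t) (hp : PTU p) (hm : PTU m) (hN : PTU N) (hlT : PTU lT)
    (hT : PTU (fun g => 2 ^ lT g)) (hX : PTF X) (htape : PTF tape) :
    PTF (fun g => inner (I g) (q g) (t g) (p g) (m g) (N g) (lT g) (X g) (tape g)) := by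
  unfold inner
  simp only
  have hlen : PTU (fun g => 2 ^ lT g * (N g * (q g + m g))) :=
    PTU.mul hT (PTU.mul hN (PTU.add hq hm))
  have hrest := PTF.drop hlT htape
  have hgauge := ptf_gauge hI hq ht hp hm hN hT (ptf_msb' (PTF.take hlT htape))
    (PTF.take hlen hrest)
  have hsoft := ptf_soft hI hq ht hp hm hN hgauge hX (PTF.drop hlen hrest)
  exact PTF.ite (PTPred.natEq (ptf_norm1 (ptf_tau hI hsoft)) (PTF.const 0)) hsoft hX

/-! ### tape length -/


end Crest.Agent.R309.US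
end

-- ▼ part R309/USInnerSpec2

/-!
# R309: `innerSpec : InnerSpec` (helper305)
-/

set_option autoImplicit false

namespace Crest.Agent.R309.USP

open Crest.Agent.Lib.PT

/-- **The inner step.** -/
theorem innerSpec : Iface.InnerSpec := by
  refine innerSpec_of ?_
  intro γ _ I q t p m N lT X tape hI hq ht hp hm hN hlT hT hX htape
  exact US.ptf_inner hI hq ht hp hm hN hlT hT hX htape

end Crest.Agent.R309.USP
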